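import Crest.Agent.R340.FiltDefs

/-! # FILT: ground vectors of matrices, variational form -/

set_option autoImplicit false

namespace Crest.Agent.R340.Filt

open Matrix
open scoped Matrix.Norms.L2Operator MatrixOrder ComplexOrder

variable {n : Type} [Fintype n] [DecidableEq n] {Pi H K U W : Matrix n n ℂ} {ψ φ : n → ℂ}
  {E E' Δ Δ' η : ℝ}

theorem ga_re_nonneg (φ : n → ℂ) : 0 ≤ (star φ ⬝ᵥ φ).re :=
  (Complex.nonneg_iff.1 (dotProduct_star_self_nonneg φ)).1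

theorem ga_sa_dot {A : Matrix n n ℂ} (hA : IsSelfAdjoint A) (x y : n → ℂ) :
    star x ⬝ᵥ A *ᵥ y = star (A *ᵥ x) ⬝ᵥ y := by
  rw [star_mulVec, dotProduct_mulVec, ← star_eq_conjTranspose, hA.star_eq]

theorem ga_im_zero {A : Matrix n n ℂ} (hA : IsSelfAdjoint A) (x : n → ℂ) :
    (star x ⬝ᵥ A *ᵥ x).im = 0 := by
  have h : star (star x ⬝ᵥ A *ᵥ x) = star x ⬝ᵥ A *ᵥ x := by
    rw [← star_dotProduct, ga_sa_dot hA]
  exact Complex.conj_eq_iff_im.1 h

theorem ga_p_mulVec (ψ φ : n → ℂ) : vecMulVec ψ (star ψ) *ᵥ φ = (star ψ ⬝ᵥ φ) • ψ := by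
  rw [vecMulVec_mulVec, op_smul_eq_smul]

theorem ga_p_sa (ψ : n → ℂ) : IsSelfAdjoint (vecMulVec ψ (star ψ)) := by
  rw [IsSelfAdjoint, star_eq_conjTranspose, conjTranspose_vecMulVec, star_star]

theorem ga_p_mul (hn : star ψ ⬝ᵥ ψ = 1) :
    vecMulVec ψ (star ψ) * vecMulVec ψ (star ψ) = vecMulVec ψ (star ψ) := by
  rw [vecMulVec_mul_vecMulVec, hn, one_smul]

theorem ga_real_smul_sa {A : Matrix n n ℂ} (hA : IsSelfAdjoint A) (a : ℝ) :
    IsSelfAdjoint (a • A) := (IsSelfAdjoint.all a).smul hA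

theorem ga_re_smul (a : ℝ) (A : Matrix n n ℂ) (x : n → ℂ) :
    (star x ⬝ᵥ (a • A) *ᵥ x).re = a * (star x ⬝ᵥ A *ᵥ x).re := by
  rw [smul_mulVec, dotProduct_smul, Complex.smul_re, smul_eq_mul]

theorem abs_re_dot_le (A : Matrix n n ℂ) (φ : n → ℂ) :
    |(star φ ⬝ᵥ A *ᵥ φ).re| ≤ ‖A‖ * (star φ ⬝ᵥ φ).re := by
  have h1 : star φ ⬝ᵥ A *ᵥ φ =
      inner ℂ (WithLp.toLp 2 φ : EuclideanSpace ℂ n) (WithLp.toLp 2 (A *ᵥ φ)) := by
    rw [EuclideanSpace.inner_toLp_toLp, dotProduct_comm]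
  have h2 : (star φ ⬝ᵥ φ).re = ‖(WithLp.toLp 2 φ : EuclideanSpace ℂ n)‖ ^ 2 := by
    rw [← inner_self_eq_norm_sq (𝕜 := ℂ), EuclideanSpace.inner_toLp_toLp, dotProduct_comm]
    rfl
  have h3 : ‖(WithLp.toLp 2 (A *ᵥ φ) : EuclideanSpace ℂ n)‖ ≤
      ‖A‖ * ‖(WithLp.toLp 2 φ : EuclideanSpace ℂ n)‖ :=
    A.l2_opNorm_mulVec (WithLp.toLp 2 φ)
  rw [h1, h2]
  refine (Complex.abs_re_le_norm _).trans ((norm_inner_le_norm _ _).trans ?_)
  calc _ ≤ ‖(WithLp.toLp 2 φ : EuclideanSpace ℂ n)‖ *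
        (‖A‖ * ‖(WithLp.toLp 2 φ : EuclideanSpace ℂ n)‖) := by gcongr
    _ = _ := by ring

theorem le_iff_re_dot {A B : Matrix n n ℂ} (hA : IsSelfAdjoint A) (hB : IsSelfAdjoint B) :
    A ≤ B ↔ ∀ φ : n → ℂ, (star φ ⬝ᵥ A *ᵥ φ).re ≤ (star φ ⬝ᵥ B *ᵥ φ).re := by
  have hs : IsSelfAdjoint (B - A) := hB.sub hA
  rw [Matrix.le_iff, posSemidef_iff_dotProduct_mulVec]
  constructor
  · intro h φ
    have := (Complex.nonneg_iff.1 (h.2 φ)).1
    rw [sub_mulVec, dotProduct_sub, Complex.sub_re] at this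
    linarith
  · intro h
    refine ⟨hs, fun φ => Complex.nonneg_iff.2 ⟨?_, (ga_im_zero hs φ).symm⟩⟩
    rw [sub_mulVec, dotProduct_sub, Complex.sub_re]
    linarith [h φ]

theorem GS.mono (h : GS Pi H ψ E Δ) (hΔ : Δ' ≤ Δ) : GS Pi H ψ E Δ' :=
  ⟨h.sec, h.norm, h.eig, fun φ h1 h2 => (mul_le_mul_of_nonneg_right (by linarith)
    (ga_re_nonneg φ)).trans (h.gap φ h1 h2)⟩

theorem ga_split (hH : IsSelfAdjoint H) (hn : star ψ ⬝ᵥ ψ = 1) (he : H *ᵥ ψ = (E : ℂ) • ψ)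
    (h0 : star ψ ⬝ᵥ φ = 0) (c : ℂ) :
    (star (φ + c • ψ) ⬝ᵥ H *ᵥ (φ + c • ψ)).re =
      (star φ ⬝ᵥ H *ᵥ φ).re + E * Complex.normSq c := by
  have h0' : star φ ⬝ᵥ ψ = 0 := by rw [star_dotProduct, h0, star_zero]
  have h1 : star ψ ⬝ᵥ H *ᵥ φ = 0 := by
    rw [ga_sa_dot hH, he, star_smul, smul_dotProduct, h0, smul_zero]
  have : star (φ + c • ψ) ⬝ᵥ H *ᵥ (φ + c • ψ) =
      star φ ⬝ᵥ H *ᵥ φ + (E : ℂ) * (Complex.normSq c : ℂ) := by
    rw [star_add, star_smul, mulVec_add, mulVec_smul, he]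
    simp only [add_dotProduct, dotProduct_add, smul_dotProduct, dotProduct_smul, h0', h1, hn,
      smul_eq_mul, Complex.normSq_eq_conj_mul_self, Complex.star_def]
    ring
  rw [this, Complex.add_re, ← Complex.ofReal_mul, Complex.ofReal_re]

theorem GS.le (h : GS Pi H ψ E Δ) (hH : IsSelfAdjoint H) (hΔ : 0 ≤ Δ) (hφ : Pi *ᵥ φ = φ) :
    E * (star φ ⬝ᵥ φ).re ≤ (star φ ⬝ᵥ H *ᵥ φ).re := by
  obtain ⟨c, hc⟩ : ∃ c, c = star ψ ⬝ᵥ φ := ⟨_, rfl⟩
  obtain ⟨χ, hχ⟩ : ∃ χ, χ = φ - c • ψ := ⟨_, rfl⟩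
  have e : φ = χ + c • ψ := by rw [hχ, sub_add_cancel]
  have h0 : star ψ ⬝ᵥ χ = 0 := by
    rw [hχ, dotProduct_sub, dotProduct_smul, h.norm, ← hc, smul_eq_mul, mul_one, sub_self]
  have h1 : Pi *ᵥ χ = χ := by rw [hχ, mulVec_sub, mulVec_smul, hφ, h.sec]
  have a1 := ga_split hH h.norm h.eig h0 c
  have a2 := ga_split (H := 1) (E := 1) (IsSelfAdjoint.one _) h.norm (by simp) h0 c
  rw [one_mulVec, one_mulVec] at a2
  rw [← e] at a1 a2
  have a3 := h.gap χ h1 h0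
  have a4 := mul_nonneg hΔ (ga_re_nonneg χ)
  rw [a1, a2]
  nlinarith

theorem GS.abs_sub_le (h : GS Pi H ψ E Δ) (h' : GS Pi K φ E' Δ') (hH : IsSelfAdjoint H)
    (hK : IsSelfAdjoint K) (hΔ : 0 ≤ Δ) (hΔ' : 0 ≤ Δ') : |E' - E| ≤ ‖K - H‖ := by
  have a1 := h.le hH hΔ h'.sec
  have a2 := h'.le hK hΔ' h.sec
  have b1 := abs_le.1 (abs_re_dot_le (K - H) φ)
  have b2 := abs_le.1 (abs_re_dot_le (K - H) ψ)
  rw [sub_mulVec, dotProduct_sub, Complex.sub_re] at b1 b2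
  rw [h'.eig, dotProduct_smul] at b1
  rw [h.eig, dotProduct_smul] at b2
  simp only [h.norm, h'.norm, smul_eq_mul, mul_one, Complex.one_re, Complex.ofReal_re]
    at a1 a2 b1 b2
  exact abs_le.2 ⟨by linarith [b1.1], by linarith [b2.2]⟩

theorem GS.toGap (h : GS Pi H ψ E Δ) (hH : IsSelfAdjoint H) (hPi : IsStarProjection Pi)
    (hc : Commute Pi H) : Gap Pi H (vecMulVec ψ (star ψ)) E (E + Δ) ∧
      H * vecMulVec ψ (star ψ) = (E : ℂ) • vecMulVec ψ (star ψ) := by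
  have hpv := ga_p_mulVec ψ
  have hps := ga_p_sa ψ
  have hpp := ga_p_mul h.norm
  have hHp : H * vecMulVec ψ (star ψ) = (E : ℂ) • vecMulVec ψ (star ψ) := by
    rw [mul_vecMulVec, h.eig, smul_vecMulVec]
  have hPp : Pi * vecMulVec ψ (star ψ) = vecMulVec ψ (star ψ) := by rw [mul_vecMulVec, h.sec]
  generalize vecMulVec ψ (star ψ) = p at *
  have hpH : p * H = (E : ℂ) • p := by
    have := congrArg star hHp
    rwa [star_mul, hps.star_eq, hH.star_eq, star_smul, hps.star_eq, Complex.star_def,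
      Complex.conj_ofReal] at this
  have hpP : p * Pi = p := by
    have := congrArg star hPp
    rwa [star_mul, hps.star_eq, hPi.isSelfAdjoint.star_eq] at this
  have hPP : Pi * Pi = Pi := hPi.isIdempotentElem
  have hq : IsSelfAdjoint (Pi - p) := hPi.isSelfAdjoint.sub hps
  have hqq : (Pi - p) * (Pi - p) = Pi - p := by
    rw [sub_mul, mul_sub, mul_sub, hPP, hPp, hpP, hpp, sub_self, sub_zero]
  have hPq : Pi * (Pi - p) = Pi - p := by rw [mul_sub, hPP, hPp]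
  refine ⟨⟨hH, hPi, ⟨hpp, hps⟩, hPp, hc, ?_, ?_, ?_⟩, hHp⟩
  · exact hpH.trans hHp.symm
  · rw [hpH, smul_mul_assoc, hpp, Complex.coe_smul]
  · have hs : IsSelfAdjoint ((Pi - p) * H * (Pi - p)) := by
      rw [IsSelfAdjoint, star_mul, star_mul, hq.star_eq, hH.star_eq, mul_assoc]
    refine (le_iff_re_dot (ga_real_smul_sa hq _) hs).2 fun φ => ?_
    have h0 : star ψ ⬝ᵥ (Pi - p) *ᵥ φ = 0 := by
      rw [ga_sa_dot hq, sub_mulVec, h.sec, hpv, h.norm, one_smul, sub_self, star_zero,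
        zero_dotProduct]
    have h1 := h.gap ((Pi - p) *ᵥ φ) (by rw [mulVec_mulVec, hPq]) h0
    rw [← ga_sa_dot hq, ← ga_sa_dot hq, mulVec_mulVec, hqq, mulVec_mulVec, mulVec_mulVec] at h1
    rwa [ga_re_smul]

theorem eig_of_commute (hn : star ψ ⬝ᵥ ψ = 1) (hW : IsSelfAdjoint W)
    (hc : Commute (vecMulVec ψ (star ψ)) W) : W *ᵥ ψ = (((star ψ ⬝ᵥ W *ᵥ ψ).re : ℝ) : ℂ) • ψ := by
  have h1 : (((star ψ ⬝ᵥ W *ᵥ ψ).re : ℝ) : ℂ) = star ψ ⬝ᵥ W *ᵥ ψ :=
    Complex.ext (by simp) (by rw [ga_im_zero hW, Complex.ofReal_im])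
  rw [h1, ← ga_p_mulVec, mulVec_mulVec, hc.eq, ← mulVec_mulVec, ga_p_mulVec, hn, one_smul]

theorem GS.ofGap {a b : ℝ} (h : Gap Pi H (vecMulVec ψ (star ψ)) a b) (hn : star ψ ⬝ᵥ ψ = 1) :
    ∃ E : ℝ, E ≤ a ∧ GS Pi H ψ E (b - E) := by
  have hpv := ga_p_mulVec ψ
  have he := eig_of_commute hn h.sa h.cp
  generalize vecMulVec ψ (star ψ) = p at *
  have hps := h.proj.isSelfAdjoint
  have hH := h.sa
  have hpψ : p *ᵥ ψ = ψ := by rw [hpv, hn, one_smul]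
  have hq : IsSelfAdjoint (Pi - p) := h.projPi.isSelfAdjoint.sub hps
  refine ⟨(star ψ ⬝ᵥ H *ᵥ ψ).re, ?_, ?_, hn, he, fun φ h1 h0 => ?_⟩
  · have hs : IsSelfAdjoint (p * H * p) := by
      rw [IsSelfAdjoint, star_mul, star_mul, hps.star_eq, hH.star_eq, mul_assoc]
    have := (le_iff_re_dot hs (ga_real_smul_sa hps a)).1 h.low ψ
    rw [ga_re_smul, ← mulVec_mulVec, ← mulVec_mulVec, ga_sa_dot hps, hpψ, hn, Complex.one_re,
      mul_one] at this
    exact this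
  · rw [← hpψ, mulVec_mulVec, h.le]
  · have hs : IsSelfAdjoint ((Pi - p) * H * (Pi - p)) := by
      rw [IsSelfAdjoint, star_mul, star_mul, hq.star_eq, hH.star_eq, mul_assoc]
    have hqφ : (Pi - p) *ᵥ φ = φ := by rw [sub_mulVec, h1, hpv, h0, zero_smul, sub_zero]
    have := (le_iff_re_dot (ga_real_smul_sa hq b) hs).1 h.high φ
    rw [ga_re_smul, ← mulVec_mulVec, ← mulVec_mulVec, ga_sa_dot hq _ (H *ᵥ _), hqφ] at this
    rwa [add_sub_cancel]

omit [DecidableEq n] in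
theorem g71_adj (A : Matrix n n ℂ) (x y : n → ℂ) :
    star (A *ᵥ x) ⬝ᵥ y = star x ⬝ᵥ (star A *ᵥ y) := by
  rw [star_mulVec, dotProduct_mulVec, star_eq_conjTranspose]

theorem g71_conj (hU : U ∈ unitary (Matrix n n ℂ))
    (h : GS (star U * Pi * U) (star U * H * U) ψ E Δ) : GS Pi H (U *ᵥ ψ) E Δ := by
  have h1 : star U * U = 1 := hU.1
  have h2 : U * star U = 1 := hU.2
  have k : ∀ (A : Matrix n n ℂ) (x : n → ℂ), U *ᵥ ((star U * A * U) *ᵥ x) = A *ᵥ (U *ᵥ x) := by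
    intro A x
    rw [mulVec_mulVec, mulVec_mulVec, ← mul_assoc, ← mul_assoc, h2, one_mul]
  have k' : ∀ (A : Matrix n n ℂ) (x : n → ℂ),
      (star U * A * U) *ᵥ (star U *ᵥ x) = star U *ᵥ (A *ᵥ x) := by
    intro A x
    rw [mulVec_mulVec, mulVec_mulVec, mul_assoc, h2, mul_one]
  have k2 : ∀ x y : n → ℂ, star (star U *ᵥ x) ⬝ᵥ (star U *ᵥ y) = star x ⬝ᵥ y := by
    intro x y
    rw [g71_adj, star_star, mulVec_mulVec, h2, one_mulVec]
  refine ⟨?_, ?_, ?_, fun φ a b => ?_⟩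
  · rw [← k, h.sec]
  · rw [g71_adj, mulVec_mulVec, h1, one_mulVec, h.norm]
  · rw [← k, h.eig, mulVec_smul]
  · have := h.gap (star U *ᵥ φ) (by rw [k', a]) (by rw [← g71_adj, b])
    rwa [k', k2, k2] at this

theorem GS.conj (hU : U ∈ unitary (Matrix n n ℂ)) (hc : Commute Pi U)
    (h : GS Pi (star U * H * U) ψ E Δ) : GS Pi H (U *ᵥ ψ) E Δ := by
  refine g71_conj hU ?_
  have h1 : star U * U = 1 := hU.1
  rwa [mul_assoc, hc.eq, ← mul_assoc, h1, one_mul]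

theorem GS.conj' (hU : U ∈ unitary (Matrix n n ℂ)) (hc : Commute Pi U)
    (h : GS Pi H (U *ᵥ ψ) E Δ) : GS Pi (star U * H * U) ψ E Δ := by
  have h1 : star U * U = 1 := hU.1
  have h2 : U * star U = 1 := hU.2
  have e1 : star (star U) * Pi * star U = Pi := by
    rw [star_star, ← hc.eq, mul_assoc, h2, mul_one]
  have e2 : star (star U) * (star U * H * U) * star U = H := by
    rw [star_star, ← mul_assoc, ← mul_assoc, h2, one_mul, mul_assoc, h2, mul_one]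
  have := g71_conj (Pi := Pi) (H := star U * H * U) (ψ := U *ᵥ ψ) (E := E) (Δ := Δ)
    (Unitary.star_mem hU) (by rwa [e1, e2])
  rwa [mulVec_mulVec, h1, one_mulVec] at this

/-- relative form bound -/
theorem GS.rel {ε e : ℝ} (h : GS Pi H ψ 0 Δ) (hε : ε ≤ 1) (he : W *ᵥ ψ = (e : ℂ) • ψ)
    (hb : ∀ φ : n → ℂ, Pi *ᵥ φ = φ → star ψ ⬝ᵥ φ = 0 →
      e * (star φ ⬝ᵥ φ).re - ε * (star φ ⬝ᵥ H *ᵥ φ).re ≤ (star φ ⬝ᵥ W *ᵥ φ).re) :
    GS Pi (H + W) ψ e ((1 - ε) * Δ) := by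
  refine ⟨h.sec, h.norm, ?_, fun φ a b => ?_⟩
  · rw [add_mulVec, h.eig, he]; simp
  · have h1 := h.gap φ a b
    have h2 := hb φ a b
    have h3 := mul_le_mul_of_nonneg_left h1 (sub_nonneg.2 hε)
    rw [add_mulVec, dotProduct_add, Complex.add_re]
    linarith

omit [DecidableEq n] in
theorem g71_normalize {v : n → ℂ} (hv : v ≠ 0) : ∃ c : ℂ, star (c • v) ⬝ᵥ (c • v) = 1 := by
  have h := dotProduct_star_self_pos_iff.2 hv
  obtain ⟨h1, h2⟩ := Complex.pos_iff.1 h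
  have e : star v ⬝ᵥ v = (((star v ⬝ᵥ v).re : ℝ) : ℂ) := Complex.ext rfl (by simp [← h2])
  refine ⟨(((Real.sqrt (star v ⬝ᵥ v).re)⁻¹ : ℝ) : ℂ), ?_⟩
  rw [star_smul, smul_dotProduct, dotProduct_smul, e]
  simp only [Complex.ofReal_re, smul_eq_mul, RCLike.star_def, Complex.conj_ofReal]
  norm_cast
  have h3 := Real.sqrt_pos.2 h1
  have h4 := Real.mul_self_sqrt h1.le
  field_simp
  linarith

theorem g71_diag (d : n → ℝ) (hPi : IsStarProjection Pi)
    (hc : Commute Pi (diagonal fun i => (d i : ℂ))) (hφ : Pi *ᵥ φ = φ) (h0 : φ ≠ 0) :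
    ∃ ψ E, GS Pi (diagonal fun i => (d i : ℂ)) ψ E 0 := by
  have key : ∀ x : n → ℂ, Pi *ᵥ x = x → ∀ j, Pi *ᵥ (_root_.Pi.single j 1) = 0 → x j = 0 := by
    intro x hx j hj
    have h1 := g71_adj Pi (_root_.Pi.single j 1) x
    rw [hj, hPi.isSelfAdjoint.star_eq, hx] at h1
    simpa [← _root_.Pi.single_star] using h1.symm
  have hne : (Finset.univ.filter fun j : n => Pi *ᵥ (_root_.Pi.single j (1 : ℂ)) ≠ 0).Nonempty := by
    by_contra hn
    refine h0 (funext fun j => key φ hφ j ?_)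
    by_contra hj
    exact hn ⟨j, by simpa using hj⟩
  obtain ⟨i, hi, hmin⟩ := Finset.exists_min_image _ d hne
  have hi : Pi *ᵥ (_root_.Pi.single i (1 : ℂ)) ≠ 0 := by simpa using hi
  obtain ⟨c, hc1⟩ := g71_normalize hi
  refine ⟨_, d i, ?_, hc1, ?_, fun x hx _ => ?_⟩
  · rw [mulVec_smul, mulVec_mulVec, hPi.isIdempotentElem.eq]
  · have e : (diagonal fun i => (d i : ℂ)) *ᵥ (_root_.Pi.single i (1 : ℂ)) =
        (d i : ℂ) • (_root_.Pi.single i (1 : ℂ) : n → ℂ) := by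
      ext j
      by_cases hj : j = i
      · subst hj; simp
      · simp [hj]
    rw [mulVec_smul, mulVec_mulVec, ← hc.eq, ← mulVec_mulVec, e, mulVec_smul, smul_comm]
  · simp only [dotProduct, Complex.re_sum, Finset.mul_sum, add_zero, mulVec_diagonal]
    refine Finset.sum_le_sum fun j _ => ?_
    by_cases hj : Pi *ᵥ (_root_.Pi.single j (1 : ℂ)) = 0
    · simp [key x hx j hj]
    · have h1 := hmin j (by simpa using hj)
      have h2 : 0 ≤ (x j).re * (x j).re + (x j).im * (x j).im :=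
        add_nonneg (mul_self_nonneg _) (mul_self_nonneg _)
      simp only [_root_.Pi.star_apply, RCLike.star_def, Complex.mul_re, Complex.conj_re, Complex.conj_im,
        Complex.mul_im, Complex.ofReal_re, Complex.ofReal_im]
      nlinarith

/-- a lowest eigenvector exists in every non-trivial invariant sector -/
theorem exists_GS (hK : IsSelfAdjoint K) (hPi : IsStarProjection Pi) (hc : Commute Pi K)
    (hφ : Pi *ᵥ φ = φ) (h0 : φ ≠ 0) : ∃ ψ E, GS Pi K ψ E 0 := by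
  have hK' : K.IsHermitian := hK
  set V : Matrix n n ℂ := (hK'.eigenvectorUnitary : Matrix n n ℂ) with hV
  have hU : V ∈ unitary (Matrix n n ℂ) := hK'.eigenvectorUnitary.2
  have h1 : star V * V = 1 := hU.1
  have h2 : V * star V = 1 := hU.2
  have hd : star V * K * V = diagonal fun i => (hK'.eigenvalues i : ℂ) := by
    have := hK'.conjStarAlgAut_star_eigenvectorUnitary
    rw [Unitary.conjStarAlgAut_star_apply] at this
    exact this
  have hm : ∀ A B : Matrix n n ℂ, star V * A * V * (star V * B * V) = star V * (A * B) * V := by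
    intro A B
    calc _ = star V * A * (V * star V) * B * V := by simp only [mul_assoc]
      _ = _ := by rw [h2]; simp only [mul_assoc, one_mul]
  have hP : IsStarProjection (star V * Pi * V) :=
    ⟨by unfold IsIdempotentElem; rw [hm, hPi.isIdempotentElem.eq], hPi.isSelfAdjoint.conjugate' V⟩
  obtain ⟨ψ, E, h⟩ := g71_diag (Pi := star V * Pi * V) (φ := star V *ᵥ φ) hK'.eigenvalues hP
    (by rw [← hd]; unfold Commute SemiconjBy; rw [hm, hm, hc.eq])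
    (by rw [mulVec_mulVec, mul_assoc, h2, mul_one, ← mulVec_mulVec, hφ])
    (fun k => h0 (by
      have := congrArg (V *ᵥ ·) k
      simpa only [mulVec_mulVec, h2, one_mulVec, mulVec_zero] using this))
  exact ⟨_, E, g71_conj hU (by rwa [hd])⟩

/-- min-max -/
theorem GS.perturb (h : GS Pi H ψ E Δ) (hH : IsSelfAdjoint H) (hK : IsSelfAdjoint K)
    (hPi : IsStarProjection Pi) (hc : Commute Pi K) (hη : ‖K - H‖ ≤ η) (hΔ : 2 * η < Δ) :
    ∃ ψ' E', GS Pi K ψ' E' (Δ - 2 * η) := by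
  have hη0 : 0 ≤ η := (norm_nonneg _).trans hη
  have hψ : ψ ≠ 0 := fun k => by
    have := h.norm
    rw [k] at this
    simp at this
  obtain ⟨χ, F, g⟩ := exists_GS hK hPi hc h.sec hψ
  have hF : F ≤ E + η := by
    have := (abs_le.1 ((h.abs_sub_le g hH hK (by linarith) le_rfl).trans hη)).2
    linarith
  have hcmp : ∀ y : n → ℂ, Pi *ᵥ y = y → star ψ ⬝ᵥ y = 0 →
      (E + Δ - η) * (star y ⬝ᵥ y).re ≤ (star y ⬝ᵥ K *ᵥ y).re := by
    intro y a b
    have h1 := h.gap y a b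
    have h2 := (abs_le.1 (abs_re_dot_le (K - H) y)).1
    have h3 : 0 ≤ (star y ⬝ᵥ y).re := (Complex.nonneg_iff.1 (dotProduct_star_self_nonneg y)).1
    have h4 := mul_le_mul_of_nonneg_right hη h3
    rw [sub_mulVec, dotProduct_sub, Complex.sub_re] at h2
    linarith
  have hχK : star χ ⬝ᵥ K *ᵥ χ = F := by rw [g.eig, dotProduct_smul, g.norm]; simp
  have hb : star ψ ⬝ᵥ χ ≠ 0 := fun k => by
    have := hcmp χ g.sec k
    rw [g.norm, hχK] at this
    simp only [Complex.one_re, Complex.ofReal_re] at this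
    linarith
  refine ⟨χ, F, g.sec, g.norm, g.eig, fun x a b => ?_⟩
  obtain ⟨t, ht⟩ : ∃ t : ℂ, star ψ ⬝ᵥ x + t * (star ψ ⬝ᵥ χ) = 0 :=
    ⟨-(star ψ ⬝ᵥ x) / (star ψ ⬝ᵥ χ), by field_simp; ring⟩
  have b' : star x ⬝ᵥ χ = 0 := by
    rw [star_dotProduct, b]; simp
  have c1 : star χ ⬝ᵥ K *ᵥ x = 0 := by
    have := g71_adj K χ x
    rw [hK.star_eq, g.eig, star_smul, smul_dotProduct, b, smul_zero] at this
    exact this.symm
  have c2 : star x ⬝ᵥ K *ᵥ χ = 0 := by rw [g.eig, dotProduct_smul, b', smul_zero]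
  have h1 := hcmp (x + t • χ) (by rw [mulVec_add, mulVec_smul, a, g.sec])
    (by rw [dotProduct_add, dotProduct_smul, smul_eq_mul, ht])
  have e1 : star (x + t • χ) ⬝ᵥ (x + t • χ) = star x ⬝ᵥ x + (Complex.normSq t : ℂ) := by
    simp only [star_add, star_smul, add_dotProduct, dotProduct_add, smul_dotProduct, dotProduct_smul,
      b, b', g.norm, smul_eq_mul, Complex.normSq_eq_conj_mul_self, RCLike.star_def]
    ring
  have e2 : star (x + t • χ) ⬝ᵥ K *ᵥ (x + t • χ) =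
      star x ⬝ᵥ K *ᵥ x + (Complex.normSq t : ℂ) * F := by
    simp only [star_add, star_smul, add_dotProduct, dotProduct_add, smul_dotProduct, dotProduct_smul,
      mulVec_add, mulVec_smul, c1, c2, hχK, smul_eq_mul, Complex.normSq_eq_conj_mul_self,
      RCLike.star_def]
    ring
  rw [e1, e2] at h1
  simp only [Complex.add_re, Complex.mul_re, Complex.ofReal_re, Complex.ofReal_im, mul_zero,
    sub_zero] at h1
  have h3 : 0 ≤ (star x ⬝ᵥ x).re := (Complex.nonneg_iff.1 (dotProduct_star_self_nonneg x)).1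
  have h4 := Complex.normSq_nonneg t
  have h5 := mul_le_mul_of_nonneg_right (show F + (Δ - 2 * η) ≤ E + Δ - η by linarith) h3
  have h6 := mul_le_mul_of_nonneg_left (show F ≤ E + Δ - η by linarith) h4
  linarith

end Crest.Agent.R340.Filt
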