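import Crest.Agent.R340.UqCoef

/-! Row 340: the zero mode at `q = 3 (N - 1)` is unique. -/

set_option autoImplicit false

namespace Crest.Agent.R340

open MvPolynomial Crest.MathPhysics.Laughlin

namespace Uq

variable {q N : ℕ}

lemma expo_apply (m : Fin N → Fin (q + 1)) (a : Fin N) : expo m a = (m a : ℕ) := by
  simp [expo]

lemma expo_injective : Function.Injective (expo : (Fin N → Fin (q + 1)) → Fin N →₀ ℕ) := by
  intro m m' h
  funext a
  apply Fin.ext
  rw [← expo_apply, ← expo_apply, h]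

/-- The weight `Π_a sqrt (choose q (m a))`. -/
noncomputable def wt (m : Fin N → Fin (q + 1)) : ℝ := ∏ a : Fin N, Real.sqrt (Nat.choose q (m a))

lemma sqrt_choose_pos (i : Fin (q + 1)) : 0 < Real.sqrt (Nat.choose q i) := by
  apply Real.sqrt_pos.mpr
  exact_mod_cast Nat.choose_pos (Nat.lt_succ_iff.mp i.isLt)

lemma wt_pos (m : Fin N → Fin (q + 1)) : 0 < wt m :=
  Finset.prod_pos fun a _ => sqrt_choose_pos (m a)

lemma wt_comp (m : Fin N → Fin (q + 1)) (π : Equiv.Perm (Fin N)) : wt (m ∘ π) = wt m := by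
  unfold wt
  exact Equiv.prod_comp π (fun a => Real.sqrt (Nat.choose q (m a)))

/-- The polynomial attached to a coefficient function. -/
noncomputable def toP (ψ : (Fin N → Fin (q + 1)) → ℂ) : MvPolynomial (Fin N) ℂ :=
  ∑ m : Fin N → Fin (q + 1), monomial (expo m) (ψ m * (wt m : ℂ))

lemma coeff_toP (ψ : (Fin N → Fin (q + 1)) → ℂ) (m : Fin N → Fin (q + 1)) :
    coeff (expo m) (toP ψ) = ψ m * (wt m : ℂ) := by
  unfold toP
  rw [coeff_sum, Finset.sum_eq_single m]
  · simp
  · intro m' _ h
    rw [coeff_monomial, if_neg]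
    exact fun h' => h (expo_injective h')
  · simp

lemma degreeOf_toP (ψ : (Fin N → Fin (q + 1)) → ℂ) (a : Fin N) : degreeOf a (toP ψ) ≤ q := by
  unfold toP
  refine (degreeOf_sum_le _ _ _).trans ?_
  refine Finset.sup_le fun m _ => ?_
  rw [degreeOf_le_iff]
  intro d hd
  have := support_monomial_subset hd
  rw [Finset.mem_singleton] at this
  rw [this, expo_apply]
  exact Nat.lt_succ_iff.mp (m a).isLt

lemma mapDomain_swap (m : Fin N → Fin (q + 1)) (a b : Fin N) :
    Finsupp.mapDomain (Equiv.swap a b) (expo m) = expo (m ∘ Equiv.swap a b) := by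
  ext c
  rw [Finsupp.mapDomain_equiv_apply, expo_apply, expo_apply]
  simp

lemma rename_swap_toP (ψ : (Fin N → Fin (q + 1)) → ℂ) (hA : IsAntisymmetric ψ) (a b : Fin N)
    (hab : a ≠ b) : rename (Equiv.swap a b) (toP ψ) = -toP ψ := by
  unfold toP
  rw [map_sum, ← Finset.sum_neg_distrib]
  let e : (Fin N → Fin (q + 1)) ≃ (Fin N → Fin (q + 1)) :=
    { toFun := fun m => m ∘ Equiv.swap a b
      invFun := fun m => m ∘ Equiv.swap a b
      left_inv := fun m => by funext c; simp
      right_inv := fun m => by funext c; simp }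
  refine Fintype.sum_equiv e _ _ fun m => ?_
  rw [rename_monomial, mapDomain_swap]
  have h1 : ψ (e m) = -ψ m := by
    have := hA (Equiv.swap a b) m
    rw [Equiv.Perm.sign_swap hab] at this
    simpa [e] using this
  have h2 : wt (e m) = wt m := wt_comp m _
  rw [h1, h2, ← map_neg]
  congr 1
  ring

lemma mapDomain_merge (m : Fin N → Fin (q + 1)) (a b : Fin N) (hab : a ≠ b) (c : Fin N) :
    Finsupp.mapDomain (fun c => if c = a then b else c) (expo m) c =
      if c = a then 0 else if c = b then (m a : ℕ) + m b else m c := by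
  unfold Finsupp.mapDomain
  rw [Finsupp.sum_fintype _ _ (by simp), Finsupp.finsetSum_apply]
  simp only [Finsupp.single_apply, expo_apply]
  by_cases hca : c = a
  · subst hca
    rw [if_pos rfl]
    refine Finset.sum_eq_zero fun x _ => ?_
    rw [if_neg]
    split_ifs with h
    · exact hab.symm
    · exact h
  rw [if_neg hca]
  by_cases hcb : c = b
  · subst hcb
    rw [if_pos rfl, ← Finset.sum_subset (Finset.subset_univ {a, c})]
    · rw [Finset.sum_pair hab]
      simp [hca]
    · intro x _ hx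
      simp only [Finset.mem_insert, Finset.mem_singleton, not_or] at hx
      simp [hx.1, hx.2]
  rw [if_neg hcb, Finset.sum_eq_single c]
  · simp [hca]
  · intro x _ hx
    rw [if_neg]
    split_ifs with h
    · exact fun h' => hcb h'.symm
    · exact hx
  · simp

lemma merge_eq_iff (m m' : Fin N → Fin (q + 1)) (a b : Fin N) (hab : a ≠ b) :
    Finsupp.mapDomain (fun c => if c = a then b else c) (expo m') =
        Finsupp.mapDomain (fun c => if c = a then b else c) (expo m) ↔
      (∀ c, c ≠ a → c ≠ b → m c = m' c) ∧ (m' a : ℕ) + m' b = m a + m b := by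
  constructor
  · intro h
    refine ⟨fun c hca hcb => ?_, ?_⟩
    · have := DFunLike.congr_fun h c
      rw [mapDomain_merge _ _ _ hab, mapDomain_merge _ _ _ hab] at this
      simp only [hca, hcb, if_false] at this
      exact Fin.ext this.symm
    · have := DFunLike.congr_fun h b
      rw [mapDomain_merge _ _ _ hab, mapDomain_merge _ _ _ hab] at this
      simpa [hab.symm] using this
  · rintro ⟨h1, h2⟩
    ext c
    rw [mapDomain_merge _ _ _ hab, mapDomain_merge _ _ _ hab]
    by_cases hca : c = a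
    · simp [hca]
    by_cases hcb : c = b
    · simp [hcb, hab.symm, h2]
    · simp [hca, hcb, h1 c hca hcb]

lemma pairNorm_pos (s : ℕ) (h1 : 1 ≤ s) (h2 : s + 1 ≤ 2 * q) : 0 < pairNorm q s := by
  unfold pairNorm
  have hs : (1 : ℝ) ≤ s := by exact_mod_cast h1
  have hs2 : (s : ℝ) + 1 ≤ 2 * q := by exact_mod_cast h2
  have hc : (0 : ℝ) < Nat.choose (2 * q) s := by
    exact_mod_cast Nat.choose_pos (by omega)
  apply div_pos
  · apply mul_pos (mul_pos (by linarith) (by linarith)) hc
  · linarith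

lemma wt_split (m : Fin N → Fin (q + 1)) (a b : Fin N) (hab : a ≠ b) :
    wt m = Real.sqrt ((Nat.choose q (m a) : ℝ) * Nat.choose q (m b)) *
      ∏ c ∈ (Finset.univ.erase a).erase b, Real.sqrt (Nat.choose q (m c)) := by
  unfold wt
  rw [← Finset.mul_prod_erase Finset.univ _ (Finset.mem_univ a),
    ← Finset.mul_prod_erase (Finset.univ.erase a) _
      (Finset.mem_erase.mpr ⟨hab.symm, Finset.mem_univ b⟩),
    Real.sqrt_mul (by positivity), mul_assoc]

lemma fibre_sum (ψ : (Fin N → Fin (q + 1)) → ℂ) (a b : Fin N) (hab : a ≠ b)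
    (h0 : (pairProj q N a b).mulVec ψ = 0) (m : Fin N → Fin (q + 1)) (hm : m a ≠ m b) :
    ∑ m' : Fin N → Fin (q + 1),
      (if (∀ c, c ≠ a → c ≠ b → m c = m' c) ∧ (m' a : ℕ) + m' b = m a + m b then
        (((m' b : ℕ) : ℂ) - (m' a : ℕ)) * (ψ m' * (wt m' : ℂ)) else 0) = 0 := by
  have hm' : (m a : ℕ) ≠ m b := fun h => hm (Fin.ext h)
  have ha := (m a).isLt
  have hb := (m b).isLt
  let p : Fin (2 * q - 1) := ⟨m a + m b - 1, by omega⟩
  have hp : (m a : ℕ) + m b = p + 1 := by simp only [p]; omega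
  have hZ : 0 < Real.sqrt (2 * pairNorm q (p + 1)) :=
    Real.sqrt_pos.mpr (by have := pairNorm_pos (q := q) (p + 1) (by omega) (by omega); linarith)
  have hK : pairVec q p (m a) (m b) ≠ 0 := by
    unfold pairVec
    rw [if_pos hp]
    refine div_ne_zero (mul_ne_zero ?_ ?_) hZ.ne'
    · intro h
      apply hm'
      have : ((m a : ℕ) : ℝ) = (m b : ℕ) := by linarith
      exact_mod_cast this
    · rw [Real.sqrt_mul (by positivity)]
      exact (mul_pos (sqrt_choose_pos _) (sqrt_choose_pos _)).ne'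
  have hsum : ∀ i j : Fin (q + 1),
      ∑ p' : Fin (2 * q - 1), pairVec q p' (m a) (m b) * pairVec q p' i j =
        pairVec q p (m a) (m b) * pairVec q p i j := by
    intro i j
    refine Finset.sum_eq_single p (fun p' _ hp' => ?_) (by simp)
    have : pairVec q p' (m a) (m b) = 0 := by
      unfold pairVec
      rw [if_neg]
      intro h
      apply hp'
      apply Fin.ext
      omega
    rw [this, zero_mul]
  have h1 := congrFun h0 m
  simp only [Matrix.mulVec, dotProduct, pairProj, Matrix.of_apply, hsum, Pi.zero_apply] at h1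
  set R : ℝ := ∏ c ∈ (Finset.univ.erase a).erase b, Real.sqrt (Nat.choose q (m c)) with hR
  set Z : ℝ := Real.sqrt (2 * pairNorm q (p + 1)) with hZdef
  set K : ℝ := pairVec q p (m a) (m b) with hKdef
  have hKc : (K : ℂ) ≠ 0 := by exact_mod_cast hK
  have hZc : (Z : ℂ) ≠ 0 := by exact_mod_cast hZ.ne'
  have h2 := congrArg (fun z : ℂ => (R : ℂ) * Z / K * z) h1
  simp only [mul_zero, Finset.mul_sum] at h2
  refine Eq.trans ?_ h2
  refine Finset.sum_congr rfl fun m' _ => ?_
  by_cases hc : ∀ c, c ≠ a → c ≠ b → m c = m' c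
  · rw [if_pos hc]
    by_cases hs : (m' a : ℕ) + m' b = m a + m b
    · rw [if_pos ⟨hc, hs⟩, wt_split m' a b hab]
      have hR' : ∏ c ∈ (Finset.univ.erase a).erase b, Real.sqrt (Nat.choose q (m' c)) = R := by
        refine Finset.prod_congr rfl fun c hc' => ?_
        simp only [Finset.mem_erase] at hc'
        rw [hc c hc'.2.1 hc'.1]
      rw [hR']
      unfold pairVec
      rw [if_pos (hs.trans hp), ← hZdef]
      push_cast
      field_simp
    · rw [if_neg (fun h => hs h.2)]
      unfold pairVec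
      rw [if_neg (fun h => hs (h.trans hp.symm))]
      simp
  · rw [if_neg hc, if_neg (fun h => hc h.1)]
    simp

lemma der_toP (ψ : (Fin N → Fin (q + 1)) → ℂ) (a b : Fin N) (hab : a ≠ b)
    (h0 : (pairProj q N a b).mulVec ψ = 0) :
    rename (fun c => if c = a then b else c)
      (X b * pderiv b (toP ψ) - X a * pderiv a (toP ψ)) = 0 := by
  have h1 : X b * pderiv b (toP ψ) - X a * pderiv a (toP ψ) =
      ∑ m : Fin N → Fin (q + 1), monomial (expo m)
        ((((m b : ℕ) : ℂ) - (m a : ℕ)) * (ψ m * (wt m : ℂ))) := by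
    unfold toP
    rw [map_sum, map_sum, Finset.mul_sum, Finset.mul_sum, ← Finset.sum_sub_distrib]
    refine Finset.sum_congr rfl fun m _ => ?_
    rw [X_mul_pderiv_monomial, X_mul_pderiv_monomial, expo_apply, expo_apply, smul_monomial,
      smul_monomial, ← map_sub]
    congr 1
    simp only [nsmul_eq_mul]
    ring
  rw [h1, map_sum]
  ext d
  rw [coeff_sum, coeff_zero]
  simp only [rename_monomial, coeff_monomial]
  by_cases h : ∃ m : Fin N → Fin (q + 1), m a ≠ m b ∧
      Finsupp.mapDomain (fun c => if c = a then b else c) (expo m) = d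
  · obtain ⟨m, hm, rfl⟩ := h
    simp only [merge_eq_iff _ _ _ _ hab]
    exact fibre_sum ψ a b hab h0 m hm
  · refine Finset.sum_eq_zero fun m _ => ?_
    split_ifs with hd
    · have : m a = m b := by
        by_contra hne
        exact h ⟨m, hne, hd⟩
      simp [this]
    · rfl

end Uq

theorem zero_mode_unique (N : ℕ) (hN : 2 ≤ N) (ψ : (Fin N → Fin (3 * (N - 1) + 1)) → ℂ)
    (hA : IsAntisymmetric ψ)
    (h0 : ∀ a b : Fin N, a < b → (pairProj (3 * (N - 1)) N a b).mulVec ψ = 0) :
    ∃ c : ℂ, ψ = c • laughlin (3 * (N - 1)) N := by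
  obtain ⟨c, hc⟩ := poly_unique N (Uq.toP ψ)
    (fun a b hab => Uq.rename_swap_toP ψ hA a b hab.ne)
    (fun a b hab => Uq.der_toP ψ a b hab.ne (h0 a b hab))
    (fun a => Uq.degreeOf_toP ψ a)
  refine ⟨c, funext fun m => ?_⟩
  have h1 := Uq.coeff_toP ψ m
  rw [hc, coeff_C_mul] at h1
  have hw : ((Uq.wt m : ℝ) : ℂ) ≠ 0 := by exact_mod_cast (Uq.wt_pos m).ne'
  rw [Pi.smul_apply, laughlin_eq, smul_eq_mul]
  change ψ m = c * (coeff (expo m) (lauP N) / ((Uq.wt m : ℝ) : ℂ))
  rw [← mul_div_assoc, h1]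
  field_simp

end Crest.Agent.R340
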