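import Crest.Agent.R340.Bridge
import Crest.Agent.R340.Unique

/-! Row 340: `H² ≥ γ H` and uniqueness of the zero mode give the gap above the Laughlin state. -/

set_option autoImplicit false

namespace Crest.Agent.R340

open Matrix Crest.MathPhysics.Laughlin
open scoped ComplexOrder

lemma psd_of_real {ι : Type*} [Fintype ι] (A : Matrix ι ι ℂ) (B : Matrix ι ι ℝ)
    (hA : ∀ i j, A i j = (B i j : ℂ)) (hs : ∀ i j, B i j = B j i)
    (hp : ∀ u, 0 ≤ u ⬝ᵥ (B *ᵥ u)) : A.PosSemidef := by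
  have hH : A.IsHermitian := by
    ext i j; simp [conjTranspose_apply, hA, hs i j]
  refine PosSemidef.of_dotProduct_mulVec_nonneg hH fun x => ?_
  rw [Complex.nonneg_iff]
  constructor
  · rw [re_dot_map _ _ hA]; exact add_nonneg (hp _) (hp _)
  · exact (hH.im_star_dotProduct_mulVec_self x).symm

lemma interaction_psd (q N : ℕ) : (interaction q N).PosSemidef :=
  psd_of_real _ _ (interaction_apply q N) (hR_symm q N) (hR_nonneg q N)

lemma pairProj_psd (q N : ℕ) (a b : Fin N) (h : a ≠ b) : (pairProj q N a b).PosSemidef :=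
  psd_of_real _ _ (pairProj_apply q N a b) (pR_symm q N a b) (pR_nonneg q N a b h)

lemma pairProj_zero (q N : ℕ) (ψ : (Fin N → Fin (q + 1)) → ℂ)
    (h : star ψ ⬝ᵥ (interaction q N *ᵥ ψ) = 0) (a b : Fin N) (hab : a < b) :
    pairProj q N a b *ᵥ ψ = 0 := by
  have e : star ψ ⬝ᵥ (interaction q N *ᵥ ψ) =
      ∑ a : Fin N, ∑ b : Fin N, if a < b then star ψ ⬝ᵥ (pairProj q N a b *ᵥ ψ) else 0 := by
    unfold interaction
    simp only [Matrix.sum_mulVec, dotProduct_sum]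
    refine Finset.sum_congr rfl fun a _ => Finset.sum_congr rfl fun b _ => ?_
    split_ifs <;> simp
  have hn : ∀ a b : Fin N,
      0 ≤ if a < b then star ψ ⬝ᵥ (pairProj q N a b *ᵥ ψ) else 0 := by
    intro a b
    split_ifs with h
    · exact (pairProj_psd q N a b h.ne).dotProduct_mulVec_nonneg ψ
    · exact le_rfl
  rw [e, Finset.sum_eq_zero_iff_of_nonneg fun a _ => Finset.sum_nonneg fun b _ => hn a b] at h
  have h1 := h a (Finset.mem_univ _)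
  rw [Finset.sum_eq_zero_iff_of_nonneg fun b _ => hn a b] at h1
  have h2 := h1 b (Finset.mem_univ _)
  rw [if_pos hab] at h2
  exact ((pairProj_psd q N a b hab.ne).dotProduct_mulVec_zero_iff ψ).mp h2

/-- The antisymmetric subspace. -/
def asSub (q N : ℕ) : Submodule ℂ ((Fin N → Fin (q + 1)) → ℂ) where
  carrier := {ψ | IsAntisymmetric ψ}
  add_mem' := by
    intro a b ha hb π m
    simp only [Pi.add_apply]; rw [ha, hb]; ring
  zero_mem' := by intro π m; simp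
  smul_mem' := by
    intro c a ha π m
    simp only [Pi.smul_apply, smul_eq_mul]; rw [ha]; ring

lemma herm_dot {ι : Type*} [Fintype ι] {A : Matrix ι ι ℂ} (hA : A.IsHermitian) (x y : ι → ℂ) :
    star x ⬝ᵥ (A *ᵥ y) = star (A *ᵥ x) ⬝ᵥ y := by
  rw [star_mulVec, hA.eq, dotProduct_mulVec]

/-- Decomposition into a zero mode and a vector in the range. -/
lemma exists_decomp {ι : Type*} [Fintype ι] [DecidableEq ι] (A : Matrix ι ι ℂ)
    (W : Submodule ℂ (ι → ℂ)) (hW : ∀ x ∈ W, A *ᵥ x ∈ W) (ψ : ι → ℂ) (hψ : ψ ∈ W) :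
    ∃ χ ∈ W, ∀ x ∈ W, star (A *ᵥ x) ⬝ᵥ (ψ - A *ᵥ χ) = 0 := by
  let R : Submodule ℂ (EuclideanSpace ℂ ι) :=
    (W.map (Matrix.mulVecLin A)).map (WithLp.linearEquiv 2 ℂ (ι → ℂ)).symm.toLinearMap
  obtain ⟨y, hy, z, hz, hyz⟩ := R.exists_add_mem_mem_orthogonal (WithLp.toLp 2 ψ)
  obtain ⟨y', ⟨χ, hχ, rfl⟩, rfl⟩ := hy
  refine ⟨χ, hχ, fun x hx => ?_⟩
  have h1 := (Submodule.mem_orthogonal R z).mp hz (WithLp.toLp 2 (A *ᵥ x))
    ⟨A *ᵥ x, ⟨x, hx, rfl⟩, rfl⟩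
  have h2 : ψ - A *ᵥ χ = WithLp.ofLp z := by
    have := congrArg WithLp.ofLp hyz
    simp only [WithLp.ofLp_add] at this
    rw [sub_eq_iff_eq_add']
    exact this
  rw [h2, dotProduct_comm]
  rw [EuclideanSpace.inner_eq_star_dotProduct] at h1
  exact h1

lemma cube_gap {ι : Type*} [Fintype ι] [DecidableEq ι] {A : Matrix ι ι ℂ} (hA : A.PosSemidef)
    {γ : ℝ} (hγ : 0 ≤ γ) (χ : ι → ℂ)
    (h : γ * (star χ ⬝ᵥ A *ᵥ χ).re ≤ (star χ ⬝ᵥ A *ᵥ (A *ᵥ χ)).re) :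
    γ * (star (A *ᵥ χ) ⬝ᵥ (A *ᵥ χ)).re ≤ (star (A *ᵥ χ) ⬝ᵥ A *ᵥ (A *ᵥ χ)).re := by
  have h1 := hA.dotProduct_mulVec_nonneg (A *ᵥ χ - (γ : ℂ) • χ)
  rw [Complex.nonneg_iff] at h1
  have h2 := h1.1
  have e1 : star χ ⬝ᵥ A *ᵥ (A *ᵥ χ) = star (A *ᵥ χ) ⬝ᵥ (A *ᵥ χ) := herm_dot hA.1 _ _
  simp only [star_sub, star_smul, mulVec_sub, mulVec_smul, sub_dotProduct, dotProduct_sub,
    smul_dotProduct, dotProduct_smul, e1, smul_eq_mul, Complex.star_def, Complex.conj_ofReal,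
    Complex.sub_re, Complex.re_ofReal_mul] at h2
  rw [e1] at h
  nlinarith [mul_le_mul_of_nonneg_left h hγ]

theorem gap31 (N : ℕ) (hN : 2 ≤ N) {γ : ℝ} (hγ : 0 ≤ γ) (hG : TensorGap (3 * (N - 1)) γ)
    (ψ : (Fin N → Fin (3 * (N - 1) + 1)) → ℂ) (hψ : IsAntisymmetric ψ) :
    γ * ((star ψ ⬝ᵥ ψ).re -
        ‖star (laughlin (3 * (N - 1)) N) ⬝ᵥ ψ‖ ^ 2 /
          (star (laughlin (3 * (N - 1)) N) ⬝ᵥ laughlin (3 * (N - 1)) N).re) ≤
      (star ψ ⬝ᵥ (interaction (3 * (N - 1)) N).mulVec ψ).re := by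
  set H := interaction (3 * (N - 1)) N with hH
  set L := laughlin (3 * (N - 1)) N with hL
  have hP : H.PosSemidef := interaction_psd _ _
  obtain ⟨χ, hχ, horth⟩ := exists_decomp H (asSub _ N)
    (fun x hx => interaction_antisym _ _ x hx) ψ hψ
  have hHχ : H *ᵥ χ ∈ asSub _ N := interaction_antisym _ _ χ hχ
  set ψ0 := ψ - H *ᵥ χ with hψ0
  have h0mem : ψ0 ∈ asSub _ N := (asSub _ N).sub_mem hψ hHχ
  have hz : star ψ0 ⬝ᵥ (H *ᵥ ψ0) = 0 := by rw [herm_dot hP.1]; exact horth _ h0mem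
  have hz' : H *ᵥ ψ0 = 0 := (hP.dotProduct_mulVec_zero_iff ψ0).mp hz
  obtain ⟨c, hc⟩ := zero_mode_unique N hN ψ0 h0mem (pairProj_zero _ _ ψ0 hz)
  have hsplit : ψ = ψ0 + H *ᵥ χ := by rw [hψ0]; abel
  have o1 : star (H *ᵥ χ) ⬝ᵥ ψ0 = 0 := horth χ hχ
  have o2 : star ψ0 ⬝ᵥ (H *ᵥ χ) = 0 := by rw [herm_dot hP.1, hz']; simp
  have n1 : star ψ ⬝ᵥ ψ = star ψ0 ⬝ᵥ ψ0 + star (H *ᵥ χ) ⬝ᵥ (H *ᵥ χ) := by
    conv_lhs => rw [hsplit]
    rw [star_add, add_dotProduct, dotProduct_add, dotProduct_add, o1, o2]; ring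
  have n2 : star ψ ⬝ᵥ (H *ᵥ ψ) = star (H *ᵥ χ) ⬝ᵥ H *ᵥ (H *ᵥ χ) := by
    conv_lhs => rw [hsplit]
    rw [mulVec_add, hz', zero_add, star_add, add_dotProduct, herm_dot hP.1 ψ0, hz']; simp
  have n3 := cube_gap hP hγ χ (hG N χ hχ)
  have n4 : (star ψ0 ⬝ᵥ ψ0).re ≤ ‖star L ⬝ᵥ ψ‖ ^ 2 / (star L ⬝ᵥ L).re := by
    by_cases hc0 : c = 0
    · rw [hc, hc0]
      simp only [zero_smul, dotProduct_zero, Complex.zero_re]
      refine div_nonneg (by positivity) ?_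
      exact (Complex.nonneg_iff.mp (dotProduct_star_self_nonneg L)).1
    · have o3 : star L ⬝ᵥ (H *ᵥ χ) = 0 := by
        rw [hc, star_smul, smul_dotProduct, smul_eq_mul] at o2
        exact (mul_eq_zero.mp o2).resolve_left (by simpa using hc0)
      have hLL := Complex.nonneg_iff.mp (dotProduct_star_self_nonneg L)
      obtain ⟨r, hr⟩ : ∃ r : ℝ, star L ⬝ᵥ L = r :=
        ⟨(star L ⬝ᵥ L).re, Complex.ext (by simp) (by simp [← hLL.2])⟩
      have e1 : star L ⬝ᵥ ψ = c * r := by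
        rw [hsplit, dotProduct_add, o3, add_zero, hc, dotProduct_smul, hr, smul_eq_mul]
      have e2 : (star ψ0 ⬝ᵥ ψ0).re = ‖c‖ ^ 2 * r := by
        rw [hc, star_smul, smul_dotProduct, dotProduct_smul, hr, smul_eq_mul, smul_eq_mul,
          ← mul_assoc, Complex.star_def, Complex.conj_mul', ← Complex.ofReal_pow,
          ← Complex.ofReal_mul, Complex.ofReal_re]
      rw [e1, e2, hr, Complex.ofReal_re, norm_mul, mul_pow, Complex.norm_real, Real.norm_eq_abs,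
        sq_abs]
      by_cases hr0 : r = 0
      · simp [hr0]
      · rw [mul_div_assoc, sq r, mul_div_assoc, div_self hr0, mul_one]
  rw [n1, n2, Complex.add_re]
  nlinarith [mul_le_mul_of_nonneg_left n4 hγ]

end Crest.Agent.R340
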