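import Crest.Agent.R340.Unique

/-! # Row 340: the Laughlin state is a non-zero antisymmetric zero mode (helper19) -/

set_option autoImplicit false

namespace Crest.Agent.R340

open MvPolynomial Crest.MathPhysics.Laughlin

namespace LauZ

variable {N : ℕ}

theorem degreeOf_factor_le (e a b : Fin N) :
    degreeOf e (if a < b then (X b - X a) ^ 3 else 1 : MvPolynomial (Fin N) ℂ) ≤
      (if a = e then (if e < b then 3 else 0) else 0) +
        (if b = e then (if a < e then 3 else 0) else 0) := by
  by_cases h : a < b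
  · rw [if_pos h]
    refine (degreeOf_pow_le _ _ _).trans ?_
    have h1 := degreeOf_sub_le e (X b : MvPolynomial (Fin N) ℂ) (X a)
    rw [degreeOf_X, degreeOf_X] at h1
    by_cases ha : a = e
    · subst ha
      rw [if_neg h.ne, if_pos rfl] at h1
      rw [if_pos rfl, if_pos h]
      omega
    · by_cases hb : b = e
      · subst hb
        rw [if_pos rfl, if_neg h.ne'] at h1
        rw [if_neg ha, if_pos rfl, if_pos h]
        omega
      · rw [if_neg (Ne.symm ha), if_neg (Ne.symm hb)] at h1
        omega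
  · rw [if_neg h, degreeOf_one]
    exact Nat.zero_le _

theorem degreeOf_lauP_le (e : Fin N) : degreeOf e (lauP N) ≤ 3 * (N - 1) := by
  unfold lauP
  refine (degreeOf_prod_le _ _ _).trans ?_
  refine le_trans (Finset.sum_le_sum fun a _ => (degreeOf_prod_le _ _ _).trans
    (Finset.sum_le_sum fun b _ => degreeOf_factor_le e a b)) ?_
  simp only [Finset.sum_add_distrib]
  rw [Finset.sum_comm]
  simp only [Finset.sum_ite_eq', Finset.mem_univ, if_true]
  rw [← Finset.sum_add_distrib]
  have : ∀ b : Fin N, ((if e < b then 3 else 0) + if b < e then 3 else 0) =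
      if b ∈ Finset.univ.erase e then 3 else 0 := by
    intro b
    rcases lt_trichotomy e b with h | h | h
    · simp [h, h.ne', h.le]
    · simp [h]
    · simp [h, h.ne, h.le]
  simp_rw [this]
  rw [Finset.sum_ite_mem, Finset.univ_inter, Finset.sum_const, Finset.card_erase_of_mem
    (Finset.mem_univ e), Finset.card_univ, Fintype.card_fin, smul_eq_mul, mul_comm]

theorem lau_mul_wt (m : Fin N → Fin (3 * (N - 1) + 1)) :
    laughlin (3 * (N - 1)) N m * (Uq.wt m : ℂ) = coeff (expo m) (lauP N) := by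
  have hw : ((Uq.wt m : ℝ) : ℂ) ≠ 0 := by exact_mod_cast (Uq.wt_pos m).ne'
  rw [laughlin_eq]
  exact div_mul_cancel₀ _ hw

theorem toP_laughlin (N : ℕ) : Uq.toP (laughlin (3 * (N - 1)) N) = lauP N := by
  ext d
  by_cases h : ∃ m : Fin N → Fin (3 * (N - 1) + 1), expo m = d
  · obtain ⟨m, rfl⟩ := h
    rw [Uq.coeff_toP, lau_mul_wt]
  · have h1 : coeff d (lauP N) = 0 := by
      by_contra hne
      refine h ⟨fun a => ⟨d a, Nat.lt_succ_of_le ?_⟩, ?_⟩
      · exact (monomial_le_degreeOf a (mem_support_iff.2 hne)).trans (degreeOf_lauP_le a)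
      · ext a
        rw [Uq.expo_apply]
    rw [h1]
    unfold Uq.toP
    rw [coeff_sum]
    refine Finset.sum_eq_zero fun m _ => ?_
    rw [coeff_monomial, if_neg fun e => h ⟨m, e⟩]

theorem lauP_eq (N : ℕ) :
    lauP N = (Matrix.vandermonde fun a : Fin N => (X a : MvPolynomial (Fin N) ℂ)).det ^ 3 := by
  rw [Matrix.det_vandermonde, ← Finset.prod_pow]
  unfold lauP
  refine Finset.prod_congr rfl fun a _ => ?_
  rw [← Finset.prod_pow, ← Finset.prod_filter]
  refine Finset.prod_congr ?_ fun _ _ => rfl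
  ext b
  simp

theorem rename_lauP (π : Equiv.Perm (Fin N)) :
    rename π (lauP N) = C ((Equiv.Perm.sign π : ℤ) : ℂ) * lauP N := by
  have h : rename π (Matrix.vandermonde fun a : Fin N => (X a : MvPolynomial (Fin N) ℂ)).det =
      ((Equiv.Perm.sign π : ℤ) : MvPolynomial (Fin N) ℂ) *
        (Matrix.vandermonde fun a : Fin N => (X a : MvPolynomial (Fin N) ℂ)).det := by
    rw [← Matrix.det_permute, AlgHom.map_det]
    congr 1
    ext i j : 2
    simp
  rw [lauP_eq, map_pow, h, mul_pow]
  congr 1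
  rcases Int.units_eq_one_or (Equiv.Perm.sign π) with h | h <;> rw [h] <;> simp
  norm_num

theorem anti (N : ℕ) : IsAntisymmetric (laughlin (3 * (N - 1)) N) := by
  intro π m
  have hw : ((Uq.wt m : ℝ) : ℂ) ≠ 0 := by exact_mod_cast (Uq.wt_pos m).ne'
  refine mul_right_cancel₀ hw ?_
  rw [mul_assoc, lau_mul_wt, ← Uq.wt_comp m π, lau_mul_wt, ← coeff_C_mul, ← rename_lauP]
  have h : expo m = Finsupp.mapDomain π (expo (m ∘ π)) := by
    ext c
    rw [Finsupp.mapDomain_equiv_apply, Uq.expo_apply, Uq.expo_apply]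
    simp
  rw [h, coeff_rename_mapDomain _ π.injective]

theorem ne_zero (N : ℕ) : laughlin (3 * (N - 1)) N ≠ 0 := by
  intro h
  have h1 := toP_laughlin N
  rw [h] at h1
  refine lauP_ne_zero (N := N) ?_
  rw [← h1]
  simp [Uq.toP]

theorem der_lauP {a b : Fin N} (hab : a < b) :
    rename (fun c => if c = a then b else c)
      (X b * pderiv b (lauP N) - X a * pderiv a (lauP N)) = 0 := by
  have h1 : (X b - X a : MvPolynomial (Fin N) ℂ) ^ 3 ∣ lauP N := by
    unfold lauP
    refine dvd_trans ?_ (Finset.dvd_prod_of_mem _ (Finset.mem_univ a))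
    refine dvd_trans ?_ (Finset.dvd_prod_of_mem _ (Finset.mem_univ b))
    rw [if_pos hab]
  obtain ⟨G, hG⟩ := h1
  have h2 : ∀ c, (X b - X a : MvPolynomial (Fin N) ℂ) ∣ pderiv c (lauP N) := by
    intro c
    rw [hG, Derivation.leibniz, Derivation.leibniz_pow]
    simp only [smul_eq_mul, nsmul_eq_mul]
    refine dvd_add (Dvd.dvd.mul_right (dvd_pow_self _ (by norm_num)) _) ?_
    refine Dvd.dvd.mul_left (Dvd.dvd.mul_left (Dvd.dvd.mul_right ?_ _) _) _
    exact dvd_pow_self _ (by norm_num)
  exact (dvd_iff_sbs a b _).1 (dvd_sub ((h2 b).mul_left _) ((h2 a).mul_left _))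

variable {q : ℕ}

theorem fibre_of_der (ψ : (Fin N → Fin (q + 1)) → ℂ) {a b : Fin N} (hab : a ≠ b)
    (h0 : rename (fun c => if c = a then b else c)
      (X b * pderiv b (Uq.toP ψ) - X a * pderiv a (Uq.toP ψ)) = 0) (m : Fin N → Fin (q + 1)) :
    ∑ m' : Fin N → Fin (q + 1),
      (if (∀ c, c ≠ a → c ≠ b → m c = m' c) ∧ (m' a : ℕ) + m' b = m a + m b then
        (((m' b : ℕ) : ℂ) - (m' a : ℕ)) * (ψ m' * (Uq.wt m' : ℂ)) else 0) = 0 := by
  have h1 : X b * pderiv b (Uq.toP ψ) - X a * pderiv a (Uq.toP ψ) =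
      ∑ m : Fin N → Fin (q + 1), monomial (expo m)
        ((((m b : ℕ) : ℂ) - (m a : ℕ)) * (ψ m * (Uq.wt m : ℂ))) := by
    unfold Uq.toP
    rw [map_sum, map_sum, Finset.mul_sum, Finset.mul_sum, ← Finset.sum_sub_distrib]
    refine Finset.sum_congr rfl fun m _ => ?_
    rw [X_mul_pderiv_monomial, X_mul_pderiv_monomial, Uq.expo_apply, Uq.expo_apply, smul_monomial,
      smul_monomial, ← map_sub]
    congr 1
    simp only [nsmul_eq_mul]
    ring
  rw [h1, map_sum] at h0
  have h2 := congrArg (coeff (Finsupp.mapDomain (fun c => if c = a then b else c) (expo m))) h0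
  rw [coeff_sum, coeff_zero] at h2
  simp only [rename_monomial, coeff_monomial, Uq.merge_eq_iff _ _ _ _ hab] at h2
  exact h2

theorem pairProj_of_der (ψ : (Fin N → Fin (q + 1)) → ℂ) {a b : Fin N} (hab : a ≠ b)
    (h0 : rename (fun c => if c = a then b else c)
      (X b * pderiv b (Uq.toP ψ) - X a * pderiv a (Uq.toP ψ)) = 0) :
    (pairProj q N a b).mulVec ψ = 0 := by
  funext m
  have hf := fibre_of_der ψ hab h0 m
  set R : ℝ := ∏ c ∈ (Finset.univ.erase a).erase b, Real.sqrt (Nat.choose q (m c)) with hR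
  have hRpos : 0 < R := Finset.prod_pos fun c _ => Uq.sqrt_choose_pos (m c)
  have hRc : (R : ℂ) ≠ 0 := by exact_mod_cast hRpos.ne'
  have key : ∀ p : Fin (2 * q - 1), ∑ m' : Fin N → Fin (q + 1),
      (if (∀ c, c ≠ a → c ≠ b → m c = m' c) then
        ((pairVec q p (m a) (m b) * pairVec q p (m' a) (m' b) : ℝ) : ℂ) else 0) * ψ m' = 0 := by
    intro p
    by_cases hp : (m a : ℕ) + m b = p + 1
    · have h2 := congrArg (fun z : ℂ => (pairVec q p (m a) (m b) : ℂ) /
        ((Real.sqrt (2 * pairNorm q (p + 1)) : ℝ) : ℂ) / R * z) hf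
      simp only [mul_zero, Finset.mul_sum] at h2
      refine Eq.trans ?_ h2
      refine Finset.sum_congr rfl fun m' _ => ?_
      by_cases hc : ∀ c, c ≠ a → c ≠ b → m c = m' c
      · rw [if_pos hc]
        generalize pairVec q p (m a) (m b) = K
        by_cases hs : (m' a : ℕ) + m' b = m a + m b
        · rw [if_pos ⟨hc, hs⟩, Uq.wt_split m' a b hab]
          have hR' : ∏ c ∈ (Finset.univ.erase a).erase b, Real.sqrt (Nat.choose q (m' c)) = R := by
            refine Finset.prod_congr rfl fun c hc' => ?_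
            simp only [Finset.mem_erase] at hc'
            rw [hc c hc'.2.1 hc'.1]
          rw [hR']
          unfold pairVec
          rw [if_pos (hs.trans hp)]
          push_cast
          field_simp
        · rw [if_neg (fun h => hs h.2)]
          unfold pairVec
          rw [if_neg (fun h => hs (h.trans hp.symm))]
          simp
      · rw [if_neg hc, if_neg (fun h => hc h.1)]
        simp
    · have : pairVec q p (m a) (m b) = 0 := by
        unfold pairVec
        rw [if_neg hp]
      simp [this]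
  have h3 : (pairProj q N a b).mulVec ψ m = ∑ p : Fin (2 * q - 1), ∑ m' : Fin N → Fin (q + 1),
      (if (∀ c, c ≠ a → c ≠ b → m c = m' c) then
        ((pairVec q p (m a) (m b) * pairVec q p (m' a) (m' b) : ℝ) : ℂ) else 0) * ψ m' := by
    rw [Finset.sum_comm]
    simp only [Matrix.mulVec, dotProduct, pairProj, Matrix.of_apply]
    refine Finset.sum_congr rfl fun m' _ => ?_
    rw [← Finset.sum_mul]
    congr 1
    split_ifs
    · exact Complex.ofReal_sum _ _
    · simp
  rw [h3, Pi.zero_apply]
  exact Finset.sum_eq_zero fun p _ => key p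

theorem zero_mode (N : ℕ) :
    (interaction (3 * (N - 1)) N).mulVec (laughlin (3 * (N - 1)) N) = 0 := by
  unfold interaction
  rw [Matrix.sum_mulVec]
  refine Finset.sum_eq_zero fun a _ => ?_
  rw [Matrix.sum_mulVec]
  refine Finset.sum_eq_zero fun b _ => ?_
  split_ifs with hab
  · refine pairProj_of_der _ hab.ne ?_
    rw [toP_laughlin]
    exact der_lauP hab
  · exact Matrix.zero_mulVec _

end LauZ

end Crest.Agent.R340
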