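import Crest.Agent.R340.CFock
import Crest.Agent.R340.Gap31
import Crest.Agent.R340.FiltGS
import Crest.Agent.R340.LauZero

/-! # Row 340: from the complex Fock space to `HasFermionicGap` -/

set_option autoImplicit false

namespace Crest.Agent.R340

open Matrix Crest.MathPhysics.Laughlin Filt
open scoped Matrix.Norms.L2Operator MatrixOrder ComplexOrder

variable {n : ℕ}

/-- complex version of `ofFock` -/
noncomputable def ofFockC (N : ℕ) (Φ : Finset (Fin n) → ℂ) (m : Fin N → Fin n) : ℂ :=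
  (ofFock N (fun S => (Φ S).re) m : ℂ) + Complex.I * (ofFock N (fun S => (Φ S).im) m : ℂ)

/-! ### part A -/

theorem ofFockC_re (N : ℕ) (Φ : Finset (Fin n) → ℂ) (m : Fin N → Fin n) :
    (ofFockC N Φ m).re = ofFock N (fun S => (Φ S).re) m := by
  simp [ofFockC]

theorem ofFockC_im (N : ℕ) (Φ : Finset (Fin n) → ℂ) (m : Fin N → Fin n) :
    (ofFockC N Φ m).im = ofFock N (fun S => (Φ S).im) m := by
  simp [ofFockC]

theorem secA_re {N : ℕ} {Φ : Finset (Fin n) → ℂ} (h : secP n N *ᵥ Φ = Φ) :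
    Sec N fun S => (Φ S).re := fun S hS => by
  simp [(secP_mulVec_iff Φ).1 h S hS]

theorem secA_im {N : ℕ} {Φ : Finset (Fin n) → ℂ} (h : secP n N *ᵥ Φ = Φ) :
    Sec N fun S => (Φ S).im := fun S hS => by
  simp [(secP_mulVec_iff Φ).1 h S hS]

theorem dotA_re {ι : Type*} [Fintype ι] (φ ψ : ι → ℂ) : (star φ ⬝ᵥ ψ).re =
    (fun i => (φ i).re) ⬝ᵥ (fun i => (ψ i).re) + (fun i => (φ i).im) ⬝ᵥ (fun i => (ψ i).im) := by
  simp only [dotProduct, Complex.re_sum, ← Finset.sum_add_distrib]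
  refine Finset.sum_congr rfl fun i _ => ?_
  simp

theorem dotA_im {ι : Type*} [Fintype ι] (φ ψ : ι → ℂ) : (star φ ⬝ᵥ ψ).im =
    (fun i => (φ i).re) ⬝ᵥ (fun i => (ψ i).im) - (fun i => (φ i).im) ⬝ᵥ (fun i => (ψ i).re) := by
  simp only [dotProduct, Complex.im_sum, ← Finset.sum_sub_distrib]
  refine Finset.sum_congr rfl fun i _ => ?_
  simp [sub_eq_add_neg]

theorem hR_ofFock (Q N : ℕ) (Φ : Finset (Fin (Q + 1)) → ℝ) (h : Sec (N + 2) Φ) :
    hR Q (N + 2) *ᵥ ofFock (N + 2) Φ = ofFock (N + 2) (Hf Q *ᵥ Φ) := by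
  have hu : IsAS (hR Q (N + 2) *ᵥ ofFock (N + 2) Φ) := by
    intro π m
    simp only [mulVec, dotProduct]
    rw [← sum_permCfg π, Finset.mul_sum]
    refine Finset.sum_congr rfl fun m' _ => ?_
    rw [hR_perm, ofFock_isAS]; ring
  obtain ⟨Ψ, hΨ, e⟩ := exists_ofFock _ _ hu
  have hX : Sec (N + 2) (Ψ + (-1 : ℝ) • (Hf Q *ᵥ Φ)) := hΨ.add (h.hf.smul _)
  have h1 := dot_hR_ofFock Q N _ Φ hX
  have h2 := ofFock_dot (N + 2) _ (Hf Q *ᵥ Φ) hX
  have h3 : ofFock (N + 2) (Ψ + (-1 : ℝ) • (Hf Q *ᵥ Φ)) =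
      hR Q (N + 2) *ᵥ ofFock (N + 2) Φ - ofFock (N + 2) (Hf Q *ᵥ Φ) := by
    funext m
    rw [ofFock_add, ofFock_smul, e, Pi.sub_apply]; ring
  have h4 : ofFock (N + 2) (Ψ + (-1 : ℝ) • (Hf Q *ᵥ Φ)) ⬝ᵥ
      (hR Q (N + 2) *ᵥ ofFock (N + 2) Φ - ofFock (N + 2) (Hf Q *ᵥ Φ)) = 0 := by
    rw [dotProduct_sub, h1, h2, sub_self]
  rw [h3] at h4
  exact sub_eq_zero.1 (dotProduct_self_eq_zero.1 h4)

theorem ofFockC_add (N : ℕ) (Φ Ψ : Finset (Fin n) → ℂ) :
    ofFockC N (Φ + Ψ) = ofFockC N Φ + ofFockC N Ψ := by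
  funext m
  refine Complex.ext ?_ ?_
  · rw [Pi.add_apply, Complex.add_re, ofFockC_re, ofFockC_re, ofFockC_re, ← ofFock_add]
    congr 1
  · rw [Pi.add_apply, Complex.add_im, ofFockC_im, ofFockC_im, ofFockC_im, ← ofFock_add]
    congr 1

theorem ofFockC_smul (N : ℕ) (c : ℂ) (Φ : Finset (Fin n) → ℂ) :
    ofFockC N (c • Φ) = c • ofFockC N Φ := by
  funext m
  refine Complex.ext ?_ ?_
  · have e : (fun S => ((c • Φ) S).re) =
        c.re • (fun S => (Φ S).re) + (-c.im) • fun S => (Φ S).im := by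
      funext S; simp [sub_eq_add_neg]
    rw [Pi.smul_apply, smul_eq_mul, Complex.mul_re, ofFockC_re, ofFockC_re, ofFockC_im, e, ofFock_add,
      ofFock_smul, ofFock_smul]
    ring
  · have e : (fun S => ((c • Φ) S).im) =
        c.re • (fun S => (Φ S).im) + c.im • fun S => (Φ S).re := by
      funext S; simp
    rw [Pi.smul_apply, smul_eq_mul, Complex.mul_im, ofFockC_im, ofFockC_re, ofFockC_im, e, ofFock_add,
      ofFock_smul, ofFock_smul]

theorem ofFockC_cons (N : ℕ) (Φ : Finset (Fin n) → ℂ) (j : Fin n) (r : Fin N → Fin n) :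
    ofFockC (N + 1) Φ (Fin.cons j r) = ofFockC N (annC j *ᵥ Φ) r := by
  unfold ofFockC
  rw [ofFock_cons, ofFock_cons, re_mulVec_map (annC j) (ann j) (fun _ _ => rfl),
    im_mulVec_map (annC j) (ann j) (fun _ _ => rfl)]

theorem ofFockC_dot (N : ℕ) (Φ Ψ : Finset (Fin n) → ℂ) (h : secP n N *ᵥ Φ = Φ) :
    star (ofFockC N Φ) ⬝ᵥ ofFockC N Ψ = (N.factorial : ℂ) * (star Φ ⬝ᵥ Ψ) := by
  have e1 : ∀ X : Finset (Fin n) → ℂ, (fun m => (ofFockC N X m).re) = ofFock N fun S => (X S).re :=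
    fun X => funext (ofFockC_re N X)
  have e2 : ∀ X : Finset (Fin n) → ℂ, (fun m => (ofFockC N X m).im) = ofFock N fun S => (X S).im :=
    fun X => funext (ofFockC_im N X)
  refine Complex.ext ?_ ?_
  · rw [← Complex.ofReal_natCast, Complex.re_ofReal_mul, dotA_re, dotA_re, e1, e1, e2, e2,
      ofFock_dot _ _ _ (secA_re h), ofFock_dot _ _ _ (secA_im h)]
    ring
  · rw [← Complex.ofReal_natCast, Complex.im_ofReal_mul, dotA_im, dotA_im, e1, e1, e2, e2,
      ofFock_dot _ _ _ (secA_re h), ofFock_dot _ _ _ (secA_im h)]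
    ring

theorem ofFockC_anti {Q : ℕ} (N : ℕ) (Φ : Finset (Fin (Q + 1)) → ℂ) :
    IsAntisymmetric (ofFockC N Φ) := by
  intro π m
  unfold ofFockC
  rw [ofFock_isAS, ofFock_isAS]
  push_cast
  ring

theorem exists_ofFockC {Q N : ℕ} {ψ : (Fin N → Fin (Q + 1)) → ℂ} (h : IsAntisymmetric ψ) :
    ∃ Φ, secP (Q + 1) N *ᵥ Φ = Φ ∧ ofFockC N Φ = ψ := by
  obtain ⟨A, hA, eA⟩ := exists_ofFock N _ (isAS_re h)
  obtain ⟨B, hB, eB⟩ := exists_ofFock N _ (isAS_im h)
  refine ⟨fun S => (A S : ℂ) + Complex.I * (B S : ℂ), (secP_mulVec_iff _).2 fun S hS => ?_, ?_⟩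
  · simp [hA S hS, hB S hS]
  · funext m
    refine Complex.ext ?_ ?_
    · rw [ofFockC_re]
      simpa using congrFun eA m
    · rw [ofFockC_im]
      simpa using congrFun eB m

theorem interaction_ofFockC {Q N : ℕ} (hN : 2 ≤ N) {Φ : Finset (Fin (Q + 1)) → ℂ}
    (h : secP (Q + 1) N *ᵥ Φ = Φ) :
    interaction Q N *ᵥ ofFockC N Φ = ofFockC N (HC Q *ᵥ Φ) := by
  obtain ⟨N, rfl⟩ : ∃ M, N = M + 2 := ⟨N - 2, by omega⟩
  funext m
  refine Complex.ext ?_ ?_
  · rw [ofFockC_re, re_mulVec_map (HC Q) (Hf Q) (fun _ _ => rfl), ← hR_ofFock Q N _ (secA_re h),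
      ← funext (ofFockC_re (N + 2) Φ), ← re_mulVec_map _ _ (interaction_apply Q (N + 2))]
  · rw [ofFockC_im, im_mulVec_map (HC Q) (Hf Q) (fun _ _ => rfl), ← hR_ofFock Q N _ (secA_im h),
      ← funext (ofFockC_im (N + 2) Φ), ← im_mulVec_map _ _ (interaction_apply Q (N + 2))]

theorem ofFockC_sum (N : ℕ) {ι : Type*} (s : Finset ι) (Φ : ι → Finset (Fin n) → ℂ) :
    ofFockC N (∑ i ∈ s, Φ i) = ∑ i ∈ s, ofFockC N (Φ i) := by
  classical
  induction s using Finset.induction_on with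
  | empty => simpa using ofFockC_smul N 0 (0 : Finset (Fin n) → ℂ)
  | insert a s h ih => rw [Finset.sum_insert h, Finset.sum_insert h, ofFockC_add, ih]

theorem annC_mul_dG (T : Matrix (Fin n) (Fin n) ℂ) (j : Fin n) :
    annC j * dG T = dG T * annC j + ∑ k, T j k • annC k := by
  have e : ∀ i k : Fin n, annC j * (star (annC i) * annC k) =
      star (annC i) * annC k * annC j + if j = i then annC k else 0 := by
    intro i k
    have h := annC_car j i
    rw [← mul_assoc, eq_sub_of_add_eq h, sub_mul, mul_assoc, annC_anticomm j k, mul_assoc]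
    split_ifs <;> simp [add_comm]
  simp only [dG, Finset.mul_sum, Finset.sum_mul, mul_smul_comm, smul_mul_assoc, e, smul_add,
    Finset.sum_add_distrib]
  congr 1
  rw [Finset.sum_eq_single j]
  · simp
  · intro i _ hi
    simp [hi.symm]
  · simp

theorem oneBody_cons {Q N : ℕ} (T : Matrix (Fin (Q + 1)) (Fin (Q + 1)) ℂ)
    (ψ : (Fin (N + 1) → Fin (Q + 1)) → ℂ) (j : Fin (Q + 1)) (r : Fin N → Fin (Q + 1)) :
    (oneBody (N + 1) T *ᵥ ψ) (Fin.cons j r) =
      (oneBody N T *ᵥ fun r' => ψ (Fin.cons j r')) r + ∑ k, T j k * ψ (Fin.cons k r) := by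
  have e0 : (embedSite T 0 *ᵥ ψ) (Fin.cons j r) = ∑ k, T j k * ψ (Fin.cons k r) := by
    simp only [mulVec, dotProduct, embedSite, of_apply, sum_cons (N := N)]
    refine Finset.sum_congr rfl fun k _ => ?_
    have : ∀ r' : Fin N → Fin (Q + 1), (∀ c : Fin (N + 1), c ≠ 0 →
        (Fin.cons j r : Fin (N + 1) → Fin (Q + 1)) c = (Fin.cons k r' : Fin (N + 1) → Fin (Q + 1)) c) ↔
          r = r' := by
      intro r'
      constructor
      · intro h
        funext c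
        simpa using h c.succ (Fin.succ_ne_zero _)
      · rintro rfl c h0
        obtain ⟨c, rfl⟩ := Fin.exists_succ_eq.mpr h0
        simp
    simp [this]
  have e1 : ∀ a : Fin N, (embedSite T a.succ *ᵥ ψ) (Fin.cons j r) =
      (embedSite T a *ᵥ fun r' => ψ (Fin.cons j r')) r := by
    intro a
    simp only [mulVec, dotProduct, embedSite, of_apply, sum_cons (N := N)]
    have : ∀ (k : Fin (Q + 1)) (r' : Fin N → Fin (Q + 1)), (∀ c : Fin (N + 1), c ≠ a.succ →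
        (Fin.cons j r : Fin (N + 1) → Fin (Q + 1)) c = (Fin.cons k r' : Fin (N + 1) → Fin (Q + 1)) c) ↔
          (j = k ∧ ∀ c, c ≠ a → r c = r' c) := by
      intro k r'
      rw [Fin.forall_fin_succ]
      simp [(Fin.succ_ne_zero a).symm]
    simp only [this, Fin.cons_succ]
    rw [Finset.sum_eq_single j]
    · simp
    · intro k _ hk
      simp [hk.symm]
    · simp
  simp only [oneBody, Matrix.sum_mulVec, Finset.sum_apply, Fin.sum_univ_succ (n := N), Matrix.add_mulVec,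
    Pi.add_apply, e0, e1]
  ring

theorem oneBody_ofFockC {Q N : ℕ} (T : Matrix (Fin (Q + 1)) (Fin (Q + 1)) ℂ)
    {Φ : Finset (Fin (Q + 1)) → ℂ} (h : secP (Q + 1) N *ᵥ Φ = Φ) :
    oneBody N T *ᵥ ofFockC N Φ = ofFockC N (dG T *ᵥ Φ) := by
  clear h
  induction N generalizing Φ with
  | zero =>
    funext m
    have : (dG T *ᵥ Φ) ∅ = 0 := by
      simp only [dG, Matrix.sum_mulVec, Finset.sum_apply, Matrix.smul_mulVec, Pi.smul_apply,
        ← Matrix.mulVec_mulVec]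
      refine Finset.sum_eq_zero fun i _ => Finset.sum_eq_zero fun j _ => ?_
      have : ∀ X : Finset (Fin (Q + 1)) → ℂ, (star (annC i) *ᵥ X) ∅ = 0 := by
        intro X
        simp [mulVec, dotProduct, annC, cx, ann, (Finset.insert_ne_empty _ _).symm]
      rw [this, smul_zero]
    simp [oneBody, ofFockC, ofFock, this]
  | succ N ih =>
    funext m
    rw [← Fin.cons_self_tail m, oneBody_cons, ofFockC_cons, Matrix.mulVec_mulVec, annC_mul_dG,
      Matrix.add_mulVec, ofFockC_add, ← Matrix.mulVec_mulVec, ← ih, Matrix.sum_mulVec, ofFockC_sum]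
    simp only [ofFockC_cons, Matrix.smul_mulVec, ofFockC_smul, Pi.add_apply, Finset.sum_apply,
      Pi.smul_apply, smul_eq_mul]

/-! ### part B -/

theorem hasGap_of_GS {Q N : ℕ} (hN : 2 ≤ N) (T : Matrix (Fin (Q + 1)) (Fin (Q + 1)) ℂ) (c : ℝ)
    {ψ : Finset (Fin (Q + 1)) → ℂ} {E Δ : ℝ}
    (h : GS (secP (Q + 1) N) (HC Q + c • dG T) ψ E Δ) :
    HasFermionicGap (interaction Q N + (c : ℂ) • oneBody N T) Δ := by
  have key : ∀ Φ, secP (Q + 1) N *ᵥ Φ = Φ →
      (interaction Q N + (c : ℂ) • oneBody N T) *ᵥ ofFockC N Φ =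
        ofFockC N ((HC Q + c • dG T) *ᵥ Φ) := fun Φ hΦ => by
    rw [add_mulVec, add_mulVec, smul_mulVec, smul_mulVec, interaction_ofFockC hN hΦ,
      oneBody_ofFockC T hΦ, ofFockC_add, ← Complex.coe_smul, ofFockC_smul]
  have hf : (N.factorial : ℂ) ≠ 0 := Nat.cast_ne_zero.2 N.factorial_ne_zero
  refine ⟨E, ofFockC N ψ, ofFockC_anti N ψ, fun h0 => ?_, ?_, fun φ hφ h0 => ?_⟩
  · have := ofFockC_dot N ψ ψ h.sec
    rw [h0, dotProduct_zero, h.norm, mul_one] at this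
    exact hf this.symm
  · rw [key ψ h.sec, h.eig, ofFockC_smul]
  · obtain ⟨Φ, hΦ, rfl⟩ := exists_ofFockC hφ
    rw [ofFockC_dot N ψ Φ h.sec] at h0
    have h1 := h.gap Φ hΦ ((mul_eq_zero.1 h0).resolve_left hf)
    rw [key Φ hΦ, ofFockC_dot N Φ _ hΦ, ofFockC_dot N Φ _ hΦ, ← Complex.ofReal_natCast,
      Complex.re_ofReal_mul, Complex.re_ofReal_mul, mul_left_comm]
    exact mul_le_mul_of_nonneg_left h1 (Nat.cast_nonneg _)

theorem cb_kernel_conj (q : ℕ) (j j' : Fin (q + 1)) (x : S2) :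
    (starRingEnd ℂ) (coherentKernel q j' j x) = coherentKernel q j j' x := by
  unfold coherentKernel
  rw [map_mul, Complex.conj_ofReal, max_comm (j' : ℕ) j, min_comm (j' : ℕ) j, map_pow]
  congr 1
  rcases lt_trichotomy (j : ℕ) j' with h | h | h
  · rw [if_neg (not_le.2 h), if_pos h.le]
    simp [map_ofNat]
  · rw [h, max_self, min_self, Nat.sub_self, pow_zero, pow_zero]
  · rw [if_pos h.le, if_neg (not_le.2 h)]
    simp [map_ofNat, sub_eq_add_neg]

theorem toeplitz_sa (q : ℕ) (φ : S2 → ℝ) : IsSelfAdjoint (toeplitz q φ) := by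
  ext j j'
  rw [Matrix.star_apply, toeplitz, Matrix.of_apply, Matrix.of_apply, Complex.star_def, map_mul,
    Complex.conj_ofReal, ← integral_conj, mul_comm (Nat.choose q j' : ℝ)]
  simp only [map_mul, Complex.conj_ofReal, cb_kernel_conj]

theorem FockGap.sq {Q : ℕ} {γ : ℝ} (h : FockGap Q γ) : γ • HC Q ≤ HC Q * HC Q := by
  have hs : IsSelfAdjoint (HC Q * HC Q) := by
    rw [IsSelfAdjoint, star_mul, (HC_sa Q).star_eq]
  refine (le_iff_re_dot (ga_real_smul_sa (HC_sa Q) γ) hs).2 fun φ => ?_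
  have hT : (Hf Q)ᵀ = Hf Q := by
    simp only [Hf, transpose_sum, transpose_mul, transpose_transpose]
  have e : ∀ u : Finset (Fin (Q + 1)) → ℝ,
      u ⬝ᵥ ((Hf Q * Hf Q) *ᵥ u) = (Hf Q *ᵥ u) ⬝ᵥ (Hf Q *ᵥ u) := fun u => by
    rw [← dot_annT, hT, mulVec_mulVec]
  rw [ga_re_smul, HC, ← cx_mul, re_dot_map (cx (Hf Q)) (Hf Q) (fun _ _ => rfl),
    re_dot_map (cx (Hf Q * Hf Q)) (Hf Q * Hf Q) (fun _ _ => rfl), e, e, mul_add]
  exact add_le_add (h _) (h _)

/-! ### part C -/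

/-- the Laughlin state is a non-zero antisymmetric zero mode -/
theorem laughlin_zero_mode (N : ℕ) (hN : 2 ≤ N) :
    IsAntisymmetric (laughlin (3 * (N - 1)) N) ∧ laughlin (3 * (N - 1)) N ≠ 0 ∧
      interaction (3 * (N - 1)) N *ᵥ laughlin (3 * (N - 1)) N = 0 :=
  ⟨LauZ.anti N, LauZ.ne_zero N, LauZ.zero_mode N⟩

/-- the unperturbed ground vector in the Fock space -/
theorem exists_GS0 (N : ℕ) (hN : 2 ≤ N) {γ : ℝ} (hγ : 0 ≤ γ) (h : FockGap (3 * (N - 1)) γ) :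
    ∃ ψ, ofFockC N ψ = (Real.sqrt (N.factorial / (star (laughlin (3 * (N - 1)) N) ⬝ᵥ
        laughlin (3 * (N - 1)) N).re) : ℂ) • laughlin (3 * (N - 1)) N ∧
      GS (secP (3 * (N - 1) + 1) N) (HC (3 * (N - 1))) ψ 0 γ := by
  obtain ⟨hA, hne, hz⟩ := laughlin_zero_mode N hN
  have hgap := gap31 N hN hγ (tensorGap_of_fockGap h)
  generalize laughlin (3 * (N - 1)) N = L at hA hne hz hgap ⊢
  generalize 3 * (N - 1) = Q at L hA hne hz hgap ⊢
  have hLL := Complex.nonneg_iff.mp (dotProduct_star_self_nonneg L)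
  obtain ⟨r, hr⟩ : ∃ r : ℝ, star L ⬝ᵥ L = r :=
    ⟨(star L ⬝ᵥ L).re, Complex.ext (by simp) (by simp [← hLL.2])⟩
  have hr0 : r ≠ 0 := by
    rintro rfl
    exact hne (dotProduct_star_self_eq_zero.1 (by simpa using hr))
  rw [hr, Complex.ofReal_re] at hLL hgap ⊢
  have hrpos : 0 < r := lt_of_le_of_ne hLL.1 hr0.symm
  have hF : (0 : ℝ) < N.factorial := by exact_mod_cast N.factorial_pos
  have hFc : (N.factorial : ℂ) ≠ 0 := by exact_mod_cast N.factorial_ne_zero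
  set c : ℝ := Real.sqrt (N.factorial / r) with hc
  have hcpos : 0 < c := Real.sqrt_pos.2 (div_pos hF hrpos)
  have hcc : c * c * r = N.factorial := by
    rw [hc, Real.mul_self_sqrt (div_pos hF hrpos).le, div_mul_cancel₀ _ hr0]
  have hA' : IsAntisymmetric ((c : ℂ) • L) := fun π m => by
    simp only [Pi.smul_apply, smul_eq_mul]
    rw [hA π m]
    ring
  obtain ⟨ψ, hsec, hψ⟩ := exists_ofFockC hA'
  have hstar : ∀ χ, star ((c : ℂ) • L) ⬝ᵥ χ = c * (star L ⬝ᵥ χ) := fun χ => by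
    rw [star_smul, smul_dotProduct, smul_eq_mul, Complex.star_def, Complex.conj_ofReal]
  refine ⟨ψ, hψ, hsec, ?_, ?_, ?_⟩
  · have h1 := ofFockC_dot N ψ ψ hsec
    rw [hψ, hstar, dotProduct_smul, hr, smul_eq_mul] at h1
    refine mul_left_cancel₀ hFc ?_
    rw [← h1, mul_one, ← mul_assoc]
    exact_mod_cast hcc
  · have h1 : secP (Q + 1) N *ᵥ (HC Q *ᵥ ψ) = HC Q *ᵥ ψ := by
      rw [mulVec_mulVec, (commute_secP (commute_numC_HC Q) N).eq, ← mulVec_mulVec, hsec]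
    have h2 := ofFockC_dot N _ (HC Q *ᵥ ψ) h1
    rw [← interaction_ofFockC hN hsec, hψ, mulVec_smul, hz, smul_zero, dotProduct_zero] at h2
    rw [Complex.ofReal_zero, zero_smul]
    exact dotProduct_star_self_eq_zero.1 ((mul_eq_zero.1 h2.symm).resolve_left hFc)
  · intro φ hφ ho
    have h1 := ofFockC_dot N ψ φ hsec
    rw [ho, mul_zero, hψ, hstar] at h1
    have h2 : star L ⬝ᵥ ofFockC N φ = 0 :=
      (mul_eq_zero.1 h1).resolve_left (by exact_mod_cast hcpos.ne')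
    have h3 := hgap _ (ofFockC_anti N φ)
    rw [h2, interaction_ofFockC hN hφ, ofFockC_dot N φ φ hφ, ofFockC_dot N φ _ hφ] at h3
    simp only [norm_zero, ne_eq, OfNat.ofNat_ne_zero, not_false_eq_true, zero_pow, zero_div,
      sub_zero, ← Complex.ofReal_natCast, Complex.re_ofReal_mul] at h3
    rw [zero_add]
    refine le_of_mul_le_mul_left ?_ hF
    linarith

end Crest.Agent.R340
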