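import Crest.Agent.R340.GeoCar

/-! # GEO: the functor `Γ` -/

set_option autoImplicit false

namespace Crest.Agent.R340

open Matrix MeasureTheory
open scoped ComplexConjugate Matrix.Norms.L2Operator MatrixOrder ComplexOrder

variable {n : ℕ} {A B T T' U : Matrix (Fin n) (Fin n) ℂ}

theorem gg_prod_insert (Z : Fin n → Fk n) {a : Fin n} {s : Finset (Fin n)} (h : ∀ x ∈ s, a < x) :
    (((insert a s).sort (· ≤ ·)).map Z).prod = Z a * ((s.sort (· ≤ ·)).map Z).prod := by
  rw [Finset.sort_insert _ (fun b hb => (h b hb).le) fun ha => lt_irrefl _ (h a ha), List.map_cons,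
    List.prod_cons]

theorem gg_sgn_min {a : Fin n} {s : Finset (Fin n)} (h : ∀ x ∈ s, a ≤ x) : sgn a s = 1 := by
  rw [sgn, Finset.filter_eq_empty_iff.2 fun x hx => not_lt.2 (h x hx)]; simp

theorem gg_mul_prod (Z : Fin n → Fk n) (h1 : ∀ i j, Z i * Z j = -(Z j * Z i))
    (h2 : ∀ i, Z i * Z i = 0) (i : Fin n) (S : Finset (Fin n)) :
    Z i * ((S.sort (· ≤ ·)).map Z).prod = if i ∈ S then 0 else
      ((sgn i S : ℝ) : ℂ) • (((insert i S).sort (· ≤ ·)).map Z).prod := by
  induction S using Finset.induction_on_min with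
  | empty =>
    rw [if_neg (by simp), gg_sgn_min (by simp), gg_prod_insert Z (by simp)]; simp
  | insert a s ha ih =>
    have has : a ∉ s := fun h => lt_irrefl _ (ha a h)
    rcases lt_trichotomy i a with hia | rfl | hia
    · have hi : ∀ x ∈ insert a s, i < x := fun x hx => by
        rcases Finset.mem_insert.1 hx with rfl | hx
        · exact hia
        · exact hia.trans (ha x hx)
      rw [if_neg fun h => lt_irrefl _ (hi i h), gg_sgn_min fun x hx => (hi x hx).le,
        gg_prod_insert Z hi]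
      simp
    · rw [if_pos (Finset.mem_insert_self _ _), gg_prod_insert Z ha, ← mul_assoc, h2, zero_mul]
    · rw [gg_prod_insert Z ha, ← mul_assoc, h1, neg_mul, mul_assoc, ih]
      by_cases his : i ∈ s
      · simp [his]
      · have hi : ∀ x ∈ insert i s, a < x := fun x hx => by
          rcases Finset.mem_insert.1 hx with rfl | hx
          · exact hia
          · exact ha x hx
        rw [if_neg his, if_neg (by simp [his, hia.ne']), Finset.insert_comm, gg_prod_insert Z hi,
          sgn_insert a i s has, if_pos hia]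
        simp

theorem gg_cre_single (i : Fin n) (S : Finset (Fin n)) :
    star (annC i) *ᵥ (Pi.single S 1 : Finset (Fin n) → ℂ) = if i ∈ S then 0 else
      ((sgn i S : ℝ) : ℂ) • (Pi.single (insert i S) 1 : Finset (Fin n) → ℂ) := by
  funext R
  rw [Matrix.mulVec_single_one]
  by_cases h : i ∈ S
  · simp [h, annC, cx, ann, Matrix.star_apply]
  · by_cases h' : R = insert i S
    · simp [h, h', annC, cx, ann, Matrix.star_apply]
    · simp [h, h', annC, cx, ann, Matrix.star_apply]

theorem gg_col (A : Matrix (Fin n) (Fin n) ℂ) (S : Finset (Fin n)) :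
    Gam A *ᵥ (Pi.single S 1 : Finset (Fin n) → ℂ) =
      ((S.sort (· ≤ ·)).map fun j => star (cC fun i => A i j)).prod *ᵥ vac n := by
  funext R
  rw [vac, Matrix.mulVec_single_one, Matrix.mulVec_single_one]
  rfl

theorem gg_ext {X Y : Fk n} (h : ∀ S, X *ᵥ (Pi.single S 1 : Finset (Fin n) → ℂ) =
    Y *ᵥ (Pi.single S 1 : Finset (Fin n) → ℂ)) : X = Y := by
  ext R S
  have := congrFun (h S) R
  rwa [Matrix.mulVec_single_one, Matrix.mulVec_single_one] at this

theorem gg_anti (f g : Fin n → ℂ) : star (cC f) * star (cC g) = -(star (cC g) * star (cC f)) := by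
  have := congrArg star (cC_anticomm f g)
  rw [star_add, star_mul, star_mul, star_zero] at this
  exact eq_neg_of_add_eq_zero_right this

theorem gg_sq (f : Fin n → ℂ) : star (cC f) * star (cC f) = 0 := by
  have h := gg_anti f f
  have h2 : (2 : ℂ) • (star (cC f) * star (cC f)) = 0 := by
    rw [two_smul]; nth_rewrite 1 [h]; exact neg_add_cancel _
  exact (smul_eq_zero.1 h2).resolve_left two_ne_zero

theorem Gam_vac (A : Matrix (Fin n) (Fin n) ℂ) : Gam A *ᵥ vac n = vac n := by
  have := gg_col A ∅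
  rw [Finset.sort_empty, List.map_nil, List.prod_nil, Matrix.one_mulVec] at this
  exact this

theorem gg_Gam_mul_cre (A : Matrix (Fin n) (Fin n) ℂ) (j : Fin n) :
    Gam A * star (annC j) = star (cC fun i => A i j) * Gam A := by
  refine gg_ext fun S => ?_
  rw [← Matrix.mulVec_mulVec, ← Matrix.mulVec_mulVec, gg_cre_single, gg_col, Matrix.mulVec_mulVec,
    gg_mul_prod (fun j => star (cC fun i => A i j)) (fun _ _ => gg_anti _ _) (fun _ => gg_sq _)]
  split_ifs
  · simp
  · rw [Matrix.mulVec_smul, gg_col, Matrix.smul_mulVec]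

theorem Gam_mul_star_cC (A : Matrix (Fin n) (Fin n) ℂ) (f : Fin n → ℂ) :
    Gam A * star (cC f) = star (cC (A *ᵥ f)) * Gam A := by
  have h : A *ᵥ f = ∑ j, f j • fun i => A i j := by
    funext i
    simp [Matrix.mulVec, dotProduct, mul_comm]
  rw [h, cC_sum, star_sum, star_cC, Finset.mul_sum, Finset.sum_mul]
  refine Finset.sum_congr rfl fun j _ => ?_
  rw [mul_smul_comm, gg_Gam_mul_cre, cC_smul, star_smul, smul_mul_assoc]
  simp

/-- cyclicity of the vacuum -/
theorem ext_vac {X Y : Fk n} (Z : Fin n → Fk n) (h0 : X *ᵥ vac n = Y *ᵥ vac n)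
    (hX : ∀ j, X * star (annC j) = Z j * X) (hY : ∀ j, Y * star (annC j) = Z j * Y) : X = Y := by
  refine gg_ext fun S => ?_
  induction S using Finset.induction_on_min with
  | empty => exact h0
  | insert a s ha ih =>
    have h := gg_cre_single a s
    rw [if_neg fun h => lt_irrefl _ (ha a h), gg_sgn_min fun x hx => (ha x hx).le] at h
    simp only [Complex.ofReal_one, one_smul] at h
    rw [← h, Matrix.mulVec_mulVec, Matrix.mulVec_mulVec, hX, hY, ← Matrix.mulVec_mulVec,
      ← Matrix.mulVec_mulVec, ih]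

theorem Gam_one : Gam (1 : Matrix (Fin n) (Fin n) ℂ) = 1 := by
  refine ext_vac (fun j => star (annC j)) (by rw [Gam_vac, Matrix.one_mulVec]) (fun j => ?_)
    fun j => by rw [one_mul, mul_one]
  have := Gam_mul_star_cC (1 : Matrix (Fin n) (Fin n) ℂ) (Pi.single j 1)
  rwa [Matrix.one_mulVec, cC_single] at this

theorem Gam_mul (A B : Matrix (Fin n) (Fin n) ℂ) : Gam (A * B) = Gam A * Gam B := by
  refine ext_vac (fun j => star (cC ((A * B) *ᵥ Pi.single j 1)))
    (by rw [← Matrix.mulVec_mulVec, Gam_vac, Gam_vac, Gam_vac]) (fun j => ?_) fun j => ?_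
  · rw [← cC_single, Gam_mul_star_cC]
  · rw [← cC_single, mul_assoc, Gam_mul_star_cC, ← mul_assoc, Gam_mul_star_cC, mul_assoc,
      Matrix.mulVec_mulVec]

theorem cC_mul_Gam (A : Matrix (Fin n) (Fin n) ℂ) (f : Fin n → ℂ) :
    cC f * Gam A = Gam A * cC (star A *ᵥ f) := by
  rw [← sub_eq_zero]
  refine ext_vac (fun j => -star (cC (A *ᵥ Pi.single j 1))) ?_ (fun j => ?_) fun j => by simp
  · rw [Matrix.sub_mulVec, ← Matrix.mulVec_mulVec, ← Matrix.mulVec_mulVec, Gam_vac, cC_vac, cC_vac]
    simp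
  · have e : star (star A *ᵥ f) ⬝ᵥ (Pi.single j 1 : Fin n → ℂ) =
        star f ⬝ᵥ (A *ᵥ Pi.single j 1) := by
      rw [Matrix.star_mulVec, Matrix.dotProduct_mulVec, Matrix.star_eq_conjTranspose,
        Matrix.conjTranspose_conjTranspose]
    have h1 := eq_sub_of_add_eq (cC_car f (A *ᵥ Pi.single j 1))
    have h2 := eq_sub_of_add_eq (cC_car (star A *ᵥ f) (Pi.single j 1))
    rw [← cC_single, sub_mul, mul_assoc, Gam_mul_star_cC, ← mul_assoc, h1, mul_assoc (Gam A), h2,
      e, mul_sub, ← mul_assoc (Gam A), Gam_mul_star_cC]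
    simp only [sub_mul, mul_sub, smul_mul_assoc, mul_smul_comm, one_mul, mul_one, neg_mul, mul_assoc]
    abel

theorem star_Gam (A : Matrix (Fin n) (Fin n) ℂ) : star (Gam A) = Gam (star A) := by
  refine ext_vac (fun j => star (cC (star A *ᵥ Pi.single j 1))) ?_ (fun j => ?_) fun j => ?_
  · rw [Gam_vac]
    funext S
    rw [vac, Matrix.mulVec_single_one]
    change star (Gam A ∅ S) = _
    induction S using Finset.induction_on_min with
    | empty => simp [Gam]
    | insert a s ha _ =>
      have h0 : ∀ R, (star (cC fun i => A i a) : Fk n) ∅ R = 0 := fun R => by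
        have := congrFun (cC_vac fun i => A i a) R
        rw [vac, Matrix.mulVec_single_one] at this
        rw [Matrix.star_apply]
        exact star_eq_zero.2 this
      rw [Gam, Matrix.of_apply, gg_prod_insert _ ha, Matrix.mul_apply]
      simp [h0]
  · rw [← cC_single, ← star_mul, cC_mul_Gam, star_mul]
  · rw [← cC_single, Gam_mul_star_cC]

theorem Gam_unitary (hU : U ∈ unitary (Matrix (Fin n) (Fin n) ℂ)) : Gam U ∈ unitary (Fk n) := by
  refine Unitary.mem_iff.2 ⟨?_, ?_⟩
  · rw [star_Gam, ← Gam_mul, (Unitary.mem_iff.1 hU).1, Gam_one]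
  · rw [star_Gam, ← Gam_mul, (Unitary.mem_iff.1 hU).2, Gam_one]

theorem Gam_conj_cC (hU : U ∈ unitary (Matrix (Fin n) (Fin n) ℂ)) (f : Fin n → ℂ) :
    Gam U * cC f * star (Gam U) = cC (U *ᵥ f) := by
  have h := cC_mul_Gam U (U *ᵥ f)
  rw [mulVec_mulVec, (Unitary.mem_iff.1 hU).1, one_mulVec] at h
  rw [← h, mul_assoc, (Unitary.mem_iff.1 (Gam_unitary hU)).2, mul_one]

theorem Gam_diagonal (d : Fin n → ℂ) :
    Gam (diagonal d) = diagonal fun S : Finset (Fin n) => ∏ j ∈ S, d j := by
  refine ext_vac (fun j => d j • star (annC j)) ?_ (fun j => ?_) (fun j => ?_)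
  · rw [Gam_vac, vac, diagonal_mulVec_single]
    simp
  · have h := Gam_mul_star_cC (diagonal d) (Pi.single j 1)
    have e : diagonal d *ᵥ Pi.single j 1 = d j • (Pi.single j 1 : Fin n → ℂ) := by
      rw [diagonal_mulVec_single, ← Pi.single_smul]
      simp
    rw [e, cC_smul, cC_single, star_smul] at h
    simpa using h
  · ext S T
    simp only [diagonal_mul, mul_diagonal, Matrix.smul_apply, Matrix.star_apply, annC, cx, ann,
      Matrix.map_apply, Matrix.of_apply, smul_eq_mul]
    split_ifs with h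
    · rw [h.2, Finset.prod_insert h.1]
      ring
    · simp

theorem Gam_mul_dG (h : A * T = T' * A) : Gam A * dG T = dG T' * Gam A := by
  have v0 : ∀ R : Matrix (Fin n) (Fin n) ℂ, dG R *ᵥ vac n = 0 := fun R => by
    unfold dG
    rw [Matrix.sum_mulVec]
    refine Finset.sum_eq_zero fun i _ => ?_
    rw [Matrix.sum_mulVec]
    refine Finset.sum_eq_zero fun j _ => ?_
    rw [smul_mulVec, ← mulVec_mulVec, ← cC_single j, cC_vac, mulVec_zero, smul_zero]
  rw [← sub_eq_zero]
  refine ext_vac (fun j => star (cC (A *ᵥ Pi.single j 1))) ?_ (fun j => ?_) (fun j => by simp)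
  · rw [sub_mulVec, ← mulVec_mulVec, ← mulVec_mulVec, Gam_vac, v0, v0, mulVec_zero, zero_mulVec,
      sub_zero]
  · rw [← cC_single j]
    have e1 := eq_add_of_sub_eq (dG_comm_star_cC (Pi.single j 1) T)
    have e2 := eq_add_of_sub_eq (dG_comm_star_cC (A *ᵥ Pi.single j 1) T')
    have g1 := Gam_mul_star_cC A (Pi.single j 1)
    have g2 := Gam_mul_star_cC A (T *ᵥ Pi.single j 1)
    rw [mulVec_mulVec, h] at g2
    rw [mulVec_mulVec] at e2
    rw [sub_mul, mul_assoc, e1, mul_add, g2, ← mul_assoc, g1, mul_assoc (dG T'), g1, ← mul_assoc,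
      e2, add_mul, mul_sub, mul_assoc, mul_assoc]
    abel

theorem commute_numC_Gam (A : Matrix (Fin n) (Fin n) ℂ) : Commute (numC n) (Gam A) := by
  have := Gam_mul_dG (A := A) (T := 1) (T' := 1) (by rw [mul_one, one_mul])
  rw [dG_one] at this
  exact this.symm

theorem continuous_Gam : Continuous (Gam : Matrix (Fin n) (Fin n) ℂ → Fk n) := by
  refine continuous_matrix fun S T => ?_
  have : Continuous fun A : Matrix (Fin n) (Fin n) ℂ =>
      ((T.sort (· ≤ ·)).map fun j => star (cC fun i => A i j)).prod :=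
    continuous_list_prod _ fun j _ =>
      (continuous_cC.comp (continuous_pi fun i => continuous_id.matrix_elem i j)).star
  exact this.matrix_elem S ∅

theorem norm_Gam_le (h : ‖A‖ ≤ 1) : ‖Gam A‖ ≤ 1 := by
  have hH : (star A * A).IsHermitian := isHermitian_conjTranspose_mul_self A
  obtain ⟨V, hV, d, hd⟩ : ∃ V ∈ unitary (Matrix (Fin n) (Fin n) ℂ), ∃ d : Fin n → ℂ,
      star A * A = V * diagonal d * star V :=
    ⟨hH.eigenvectorUnitary, hH.eigenvectorUnitary.2, _, by
      simpa [Unitary.conjStarAlgAut_apply] using hH.spectral_theorem⟩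
  have n1 : ‖d‖ ≤ 1 := by
    rw [← l2_opNorm_diagonal, ← CStarRing.norm_mem_unitary_mul _ hV,
      ← CStarRing.norm_mul_mem_unitary _ (Unitary.star_mem hV), ← hd,
      CStarRing.norm_star_mul_self]
    exact mul_le_one₀ h (norm_nonneg _) h
  have n2 : ‖Gam A‖ * ‖Gam A‖ ≤ 1 := by
    rw [← CStarRing.norm_star_mul_self, star_Gam, ← Gam_mul, hd, Gam_mul, Gam_mul,
      CStarRing.norm_mul_mem_unitary _ (Gam_unitary (Unitary.star_mem hV)),
      CStarRing.norm_mem_unitary_mul _ (Gam_unitary hV), Gam_diagonal, l2_opNorm_diagonal]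
    refine (pi_norm_le_iff_of_nonneg zero_le_one).2 fun S => ?_
    rw [norm_prod]
    exact Finset.prod_le_one (fun j _ => norm_nonneg _) fun j _ => (norm_le_pi_norm d j).trans n1
  nlinarith [norm_nonneg (Gam A)]

end Crest.Agent.R340
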