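import Crest.Agent.R340.GeoDefs

/-! # GEO: `c(f)`, `dΓ` -/

set_option autoImplicit false

namespace Crest.Agent.R340

open Matrix MeasureTheory
open scoped ComplexConjugate Matrix.Norms.L2Operator MatrixOrder ComplexOrder

variable {n : ℕ} {f g : Fin n → ℂ} {A B T : Matrix (Fin n) (Fin n) ℂ}

theorem cC_add (f g : Fin n → ℂ) : cC (f + g) = cC f + cC g := by
  simp only [cC, Pi.add_apply, map_add, add_smul, Finset.sum_add_distrib]

theorem cC_smul (z : ℂ) (f : Fin n → ℂ) : cC (z • f) = conj z • cC f := by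
  simp only [cC, Pi.smul_apply, smul_eq_mul, map_mul, Finset.smul_sum, smul_smul]

theorem cC_zero : cC (0 : Fin n → ℂ) = 0 := by
  simp [cC]

theorem cC_sum {ι : Type*} (s : Finset ι) (f : ι → Fin n → ℂ) :
    cC (∑ i ∈ s, f i) = ∑ i ∈ s, cC (f i) := by
  classical
  induction s using Finset.induction_on with
  | empty => simpa using cC_zero
  | insert a s ha ih => rw [Finset.sum_insert ha, Finset.sum_insert ha, cC_add, ih]

theorem cC_single (j : Fin n) : cC (Pi.single j 1) = annC j := by
  unfold cC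
  rw [Finset.sum_eq_single j]
  · simp
  · intro i _ hi
    simp [Pi.single_eq_of_ne hi]
  · simp

theorem star_cC (f : Fin n → ℂ) : star (cC f) = ∑ j, f j • star (annC j) := by
  simp [cC, star_sum, star_smul]

theorem cC_anticomm (f g : Fin n → ℂ) : cC f * cC g + cC g * cC f = 0 := by
  unfold cC
  rw [Finset.sum_mul_sum, Finset.sum_mul_sum, Finset.sum_comm (s := Finset.univ)
    (f := fun i j => (conj (g i) • annC i) * (conj (f j) • annC j)), ← Finset.sum_add_distrib]
  refine Finset.sum_eq_zero fun i _ => ?_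
  rw [← Finset.sum_add_distrib]
  refine Finset.sum_eq_zero fun j _ => ?_
  rw [smul_mul_smul_comm, smul_mul_smul_comm, annC_anticomm i j, mul_comm (conj (g j)), smul_neg,
    neg_add_cancel]

theorem cC_car (f g : Fin n → ℂ) :
    cC f * star (cC g) + star (cC g) * cC f = (star f ⬝ᵥ g) • (1 : Fk n) := by
  rw [star_cC]
  unfold cC
  rw [Finset.sum_mul_sum, Finset.sum_mul_sum, Finset.sum_comm (s := Finset.univ)
    (f := fun i j => (g i • star (annC i)) * (conj (f j) • annC j)), ← Finset.sum_add_distrib,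
    dotProduct, Finset.sum_smul]
  refine Finset.sum_congr rfl fun i _ => ?_
  rw [← Finset.sum_add_distrib, Finset.sum_eq_single i]
  · rw [smul_mul_smul_comm, smul_mul_smul_comm, mul_comm (g i), ← smul_add, annC_car, if_pos rfl]
    rfl
  · intro j _ hj
    rw [smul_mul_smul_comm, smul_mul_smul_comm, mul_comm (g j), ← smul_add, annC_car,
      if_neg (Ne.symm hj), smul_zero]
  · simp

theorem norm_cC_le (f : Fin n → ℂ) : ‖cC f‖ ≤ Real.sqrt (star f ⬝ᵥ f).re := by
  have h0 : (0 : ℂ) ≤ star f ⬝ᵥ f := dotProduct_star_self_nonneg f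
  have hre : (((star f ⬝ᵥ f).re : ℝ) : ℂ) = star f ⬝ᵥ f := by
    apply Complex.ext <;> simp [(Complex.nonneg_iff.1 h0).2.symm]
  have hr0 : 0 ≤ (star f ⬝ᵥ f).re := (Complex.nonneg_iff.1 h0).1
  have h1 : star (cC f) * cC f ≤ (star f ⬝ᵥ f) • (1 : Fk n) := by
    rw [← cC_car]
    exact le_add_of_nonneg_left (mul_star_self_nonneg _)
  have h2 := CStarAlgebra.norm_le_norm_of_nonneg_of_le (star_mul_self_nonneg (cC f)) h1
  rw [CStarRing.norm_star_mul_self, norm_smul, ← hre, Complex.norm_real, Real.norm_eq_abs,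
    abs_of_nonneg hr0] at h2
  have h3 : ‖(1 : Fk n)‖ ≤ 1 := by simp
  apply Real.le_sqrt_of_sq_le
  nlinarith

theorem cC_vac (f : Fin n → ℂ) : cC f *ᵥ vac n = 0 := by
  unfold cC
  rw [Matrix.sum_mulVec]
  refine Finset.sum_eq_zero fun j _ => ?_
  rw [Matrix.smul_mulVec]
  have : annC j *ᵥ vac n = 0 := by
    funext S
    rw [vac, Matrix.mulVec_single_one]
    have h : ¬ (j ∉ S ∧ (∅ : Finset (Fin n)) = insert j S) := fun h =>
      (Finset.insert_ne_empty j S) h.2.symm
    simp only [Matrix.col_apply, annC, cx, ann, Matrix.map_apply, Matrix.of_apply, if_neg h]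
    simp
  rw [this, smul_zero]

theorem numC_mul_cC (f : Fin n → ℂ) : numC n * cC f = cC f * numC n - cC f := by
  unfold cC
  rw [Finset.mul_sum, Finset.sum_mul, ← Finset.sum_sub_distrib]
  refine Finset.sum_congr rfl fun j _ => ?_
  rw [mul_smul_comm, smul_mul_assoc, ← smul_sub, numC_mul_annC]

theorem secP_mul_cC (N : ℕ) (f : Fin n → ℂ) : secP n N * cC f = cC f * secP n (N + 1) := by
  unfold cC
  rw [Finset.mul_sum, Finset.sum_mul]
  refine Finset.sum_congr rfl fun j _ => ?_
  rw [mul_smul_comm, smul_mul_assoc, secP_mul_annC]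

theorem commute_numC_star_cC_mul (f g : Fin n → ℂ) : Commute (numC n) (star (cC f) * cC g) :=
  commute_numC_star_mul (k := 1) (star_one _) (by rw [one_smul, numC_mul_cC])
    (by rw [one_smul, numC_mul_cC])

theorem continuous_cC : Continuous (cC : (Fin n → ℂ) → Fk n) := by
  unfold cC
  exact continuous_finsetSum _ fun j _ =>
    (Complex.continuous_conj.comp (continuous_apply j)).smul continuous_const

/-- `cC` as a continuous real linear map -/
noncomputable def cCL (n : ℕ) : (Fin n → ℂ) →L[ℝ] Fk n where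
  toFun := cC
  map_add' := cC_add
  map_smul' r f := by
    have := cC_smul (r : ℂ) f
    rw [Complex.conj_ofReal, Complex.coe_smul, Complex.coe_smul] at this
    exact this
  cont := continuous_cC

theorem cC_integral {X : Type} [MeasurableSpace X] {μ : Measure X} {F : X → Fin n → ℂ}
    (hF : Integrable F μ) : Integrable (fun x => cC (F x)) μ ∧ cC (∫ x, F x ∂μ) = ∫ x, cC (F x) ∂μ :=
  ⟨(cCL n).integrable_comp hF, ((cCL n).integral_comp_comm hF).symm⟩

theorem dG_add (A B : Matrix (Fin n) (Fin n) ℂ) : dG (A + B) = dG A + dG B := by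
  simp only [dG, Matrix.add_apply, add_smul, Finset.sum_add_distrib]

theorem dG_sub (A B : Matrix (Fin n) (Fin n) ℂ) : dG (A - B) = dG A - dG B := by
  simp only [dG, Matrix.sub_apply, sub_smul, Finset.sum_sub_distrib]

theorem dG_smul (z : ℂ) (A : Matrix (Fin n) (Fin n) ℂ) : dG (z • A) = z • dG A := by
  simp only [dG, Matrix.smul_apply, smul_eq_mul, mul_smul, Finset.smul_sum]

theorem g51_dG_zero : dG (0 : Matrix (Fin n) (Fin n) ℂ) = 0 := by
  simp only [dG, Matrix.zero_apply, zero_smul, Finset.sum_const_zero]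

theorem dG_sum {ι : Type*} (s : Finset ι) (A : ι → Matrix (Fin n) (Fin n) ℂ) :
    dG (∑ i ∈ s, A i) = ∑ i ∈ s, dG (A i) := by
  classical
  induction s using Finset.induction_on with
  | empty => simp only [Finset.sum_empty, g51_dG_zero]
  | insert a s ha ih => rw [Finset.sum_insert ha, Finset.sum_insert ha, dG_add, ih]

theorem g51_num (j : Fin n) :
    star (annC j) * annC j = diagonal fun S : Finset (Fin n) => if j ∈ S then (1 : ℂ) else 0 := by
  have h : (ann j)ᵀ * ann j = diagonal fun S : Finset (Fin n) => if j ∈ S then (1 : ℝ) else 0 := by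
    apply mat_ext_mulVec
    intro Φ
    funext S
    rw [annT_ann_mulVec, Matrix.mulVec_diagonal]
    split_ifs <;> simp
  rw [annC, ← cx_transpose, ← cx_mul, h]
  ext S T
  by_cases hST : S = T
  · subst hST
    simp only [cx, Matrix.map_apply, diagonal_apply_eq]
    split_ifs <;> simp
  · simp [cx, Matrix.map_apply, diagonal_apply_ne _ hST]

theorem g51_dG_diagonal (d : Fin n → ℂ) :
    dG (diagonal d) = diagonal fun S : Finset (Fin n) => ∑ j ∈ S, d j := by
  have h : dG (diagonal d) = ∑ j, d j • (star (annC j) * annC j) := by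
    unfold dG
    refine Finset.sum_congr rfl fun i _ => ?_
    rw [Finset.sum_eq_single i]
    · rw [diagonal_apply_eq]
    · intro j _ hj
      rw [diagonal_apply_ne _ (Ne.symm hj), zero_smul]
    · intro h; exact absurd (Finset.mem_univ i) h
  rw [h]
  ext S T
  simp only [g51_num, Matrix.sum_apply, Matrix.smul_apply, smul_eq_mul]
  by_cases hST : S = T
  · subst hST
    simp only [diagonal_apply_eq, mul_ite, mul_one, mul_zero]
    rw [Finset.sum_ite_mem, Finset.univ_inter]
  · simp [diagonal_apply_ne _ hST]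

theorem dG_one : dG (1 : Matrix (Fin n) (Fin n) ℂ) = numC n := by
  rw [← diagonal_one, g51_dG_diagonal, numC]
  simp

theorem dG_diagonal (d : Fin n → ℂ) :
    dG (diagonal d) = diagonal fun S : Finset (Fin n) => ∑ j ∈ S, d j :=
  g51_dG_diagonal d

theorem dG_vecMulVec (f g : Fin n → ℂ) : dG (vecMulVec f (star g)) = star (cC f) * cC g := by
  rw [star_cC, cC, dG, Finset.sum_mul]
  refine Finset.sum_congr rfl fun i _ => ?_
  rw [Finset.mul_sum]
  refine Finset.sum_congr rfl fun j _ => ?_
  rw [smul_mul_assoc, mul_smul_comm, smul_smul, vecMulVec_apply]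
  rfl

theorem g51_cC_comm (f : Fin n → ℂ) (i j : Fin n) :
    cC f * (star (annC i) * annC j) - (star (annC i) * annC j) * cC f = conj (f i) • annC j := by
  have h1 := cC_car f (Pi.single i 1)
  have h2 := cC_anticomm f (Pi.single j 1)
  rw [cC_single] at h1 h2
  rw [dotProduct_single, mul_one] at h1
  have h1' : cC f * star (annC i) = conj (f i) • (1 : Fk n) - star (annC i) * cC f :=
    eq_sub_of_add_eq h1
  have h2' : cC f * annC j = -(annC j * cC f) := eq_neg_of_add_eq_zero_left h2
  rw [← mul_assoc, h1', sub_mul, smul_mul_assoc, one_mul, mul_assoc, h2', mul_neg, mul_assoc]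
  abel

theorem cC_comm_dG (f : Fin n → ℂ) (T : Matrix (Fin n) (Fin n) ℂ) :
    cC f * dG T - dG T * cC f = cC (star T *ᵥ f) := by
  have h : cC f * dG T - dG T * cC f = ∑ i, ∑ j, (T i j * conj (f i)) • annC j := by
    simp only [dG, Finset.mul_sum, Finset.sum_mul, ← Finset.sum_sub_distrib]
    refine Finset.sum_congr rfl fun i _ => Finset.sum_congr rfl fun j _ => ?_
    rw [mul_smul_comm, smul_mul_assoc, ← smul_sub, g51_cC_comm, smul_smul]
  rw [h, Finset.sum_comm, cC]
  refine Finset.sum_congr rfl fun j _ => ?_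
  rw [← Finset.sum_smul]
  congr 1
  simp [mulVec, dotProduct, Matrix.star_apply]

theorem dG_comm_star_cC (f : Fin n → ℂ) (T : Matrix (Fin n) (Fin n) ℂ) :
    dG T * star (cC f) - star (cC f) * dG T = star (cC (T *ᵥ f)) := by
  have h := congrArg star (cC_comm_dG f (star T))
  rw [star_sub, star_mul, star_mul, star_dG, star_star] at h
  exact h

theorem g51_comm_rank (A : Matrix (Fin n) (Fin n) ℂ) (f g : Fin n → ℂ) :
    dG A * dG (vecMulVec f (star g)) - dG (vecMulVec f (star g)) * dG A =
      dG (A * vecMulVec f (star g) - vecMulVec f (star g) * A) := by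
  have e1 : A * vecMulVec f (star g) = vecMulVec (A *ᵥ f) (star g) := by
    rw [mul_vecMulVec]
  have e2 : vecMulVec f (star g) * A = vecMulVec f (star (star A *ᵥ g)) := by
    rw [vecMulVec_mul, star_mulVec, star_eq_conjTranspose, conjTranspose_conjTranspose]
  rw [dG_sub, e1, e2, dG_vecMulVec, dG_vecMulVec, dG_vecMulVec, ← dG_comm_star_cC, ← cC_comm_dG]
  simp only [sub_mul, mul_sub, mul_assoc]
  abel

theorem g51_eq_sum_rank (B : Matrix (Fin n) (Fin n) ℂ) :
    B = ∑ k, vecMulVec (fun i => B i k) (star (Pi.single k (1 : ℂ) : Fin n → ℂ)) := by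
  ext i j
  simp [Matrix.sum_apply, vecMulVec_apply, Pi.single_apply]

theorem dG_comm (A B : Matrix (Fin n) (Fin n) ℂ) :
    dG A * dG B - dG B * dG A = dG (A * B - B * A) := by
  rw [g51_eq_sum_rank B]
  simp only [dG_sum, Finset.mul_sum, Finset.sum_mul, ← Finset.sum_sub_distrib, g51_comm_rank]

theorem g51_psd_sum (h : 0 ≤ T) :
    ∃ f : Fin n → Fin n → ℂ, T = ∑ k, vecMulVec (f k) (star (f k)) := by
  obtain ⟨S, rfl⟩ := CStarAlgebra.nonneg_iff_eq_star_mul_self.mp h
  refine ⟨fun k => star (S k), ?_⟩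
  ext i j
  simp [Matrix.sum_apply, vecMulVec_apply, Matrix.mul_apply, Matrix.star_apply]

theorem dG_nonneg (h : 0 ≤ T) : 0 ≤ dG T := by
  obtain ⟨f, rfl⟩ := g51_psd_sum h
  rw [dG_sum]
  refine Finset.sum_nonneg fun k _ => ?_
  rw [dG_vecMulVec]
  exact star_mul_self_nonneg _

theorem dG_mono (h : A ≤ B) : dG A ≤ dG B := by
  rw [← sub_nonneg, ← dG_sub]
  exact dG_nonneg (sub_nonneg.mpr h)

/-- Pauli principle -/
theorem dG_le_trace (h : 0 ≤ T) : dG T ≤ T.trace.re • (1 : Fk n) := by
  obtain ⟨f, rfl⟩ := g51_psd_sum h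
  rw [dG_sum, trace_sum, Complex.re_sum, Finset.sum_smul]
  refine Finset.sum_le_sum fun k _ => ?_
  rw [dG_vecMulVec, trace_vecMulVec, dotProduct_comm]
  have h1 := cC_car (f k) (f k)
  have h2 : (star (f k) ⬝ᵥ f k) = ((star (f k) ⬝ᵥ f k).re : ℂ) := by
    have h0 : (0 : ℂ) ≤ star (f k) ⬝ᵥ f k := dotProduct_star_self_nonneg _
    exact Complex.eq_re_of_ofReal_le (r := 0) (by rw [Complex.ofReal_zero]; exact h0)
  rw [h2, Complex.coe_smul] at h1
  rw [← h1]
  exact le_add_of_nonneg_left (mul_star_self_nonneg _)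

/-- an operator commuting with all `c_j`, `c_j^*` is a scalar -/
theorem scalar_of_commute {Y : Fk n} (h : ∀ j, Commute Y (annC j))
    (h' : ∀ j, Commute Y (star (annC j))) : Y = Y ∅ ∅ • (1 : Fk n) := by
  have hoff : ∀ S T, S ≠ T → Y S T = 0 := by
    intro S T hST
    obtain ⟨j, hj⟩ : ∃ j, ¬ (j ∈ S ↔ j ∈ T) := by
      by_contra hc
      push Not at hc
      exact hST (Finset.ext hc)
    have e := congrFun (congrFun ((h' j).mul_right (h j)).eq S) T
    rw [g51_num, Matrix.mul_diagonal, Matrix.diagonal_mul] at e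
    by_cases h1 : j ∈ S
    · have h2 : j ∉ T := fun h2 => hj ⟨fun _ => h2, fun _ => h1⟩
      simpa [h1, h2] using e.symm
    · have h2 : j ∈ T := by
        by_contra h2
        exact hj ⟨fun h => absurd h h1, fun h => absurd h h2⟩
      simpa [h1, h2] using e
  have hY : Y = diagonal fun S => Y S S := by
    ext S T
    by_cases hST : S = T
    · subst hST; rw [diagonal_apply_eq]
    · rw [diagonal_apply_ne _ hST, hoff S T hST]
  have hdiag : ∀ S, Y S S = Y ∅ ∅ := by
    intro S
    induction S using Finset.induction_on with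
    | empty => rfl
    | insert j S hj ih =>
      have e0 : (diagonal fun S => Y S S) * annC j = annC j * diagonal fun S => Y S S := by
        rw [← hY]; exact (h j).eq
      have e := congrFun (congrFun e0 S) (insert j S)
      rw [Matrix.mul_diagonal, Matrix.diagonal_mul] at e
      have hne : annC j S (insert j S) ≠ 0 := by
        have hs : sgn j S ≠ 0 := fun h0 => by
          have := sgn_mul_self j S
          rw [h0, zero_mul] at this
          exact zero_ne_one this
        simpa [annC, cx, ann, hj] using hs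
      rw [← ih]
      exact (mul_left_cancel₀ hne ((mul_comm _ _).trans e)).symm
  ext S T
  by_cases hST : S = T
  · subst hST; simp [hdiag S]
  · simp [hoff S T hST, Matrix.one_apply_ne hST]

end Crest.Agent.R340
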