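import Crest.Agent.R340.GeoRho
import Crest.Agent.R340.GeoCar

/-! # GEO: auxiliary lemmas for `GeoPair` part A (helper4) -/

set_option autoImplicit false

namespace Crest.Agent.R340

open Matrix Finset Crest.MathPhysics.Laughlin
open scoped ComplexConjugate Matrix.Norms.L2Operator

theorem h4_pairNorm {Q : ℕ} (hQ : 1 ≤ Q) {p : ℕ} (hp : p < 2 * Q - 1) :
    pairNorm Q (p + 1) = Q * ((2 * Q - 2).choose p : ℝ) := by
  obtain ⟨N, hN⟩ : ∃ N, 2 * Q = N + 2 := ⟨2 * Q - 2, by omega⟩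
  have hN' : (2 * Q : ℝ) = N + 2 := by exact_mod_cast hN
  have h1 : ((N + 1 + 1) * (N + 1).choose p : ℝ) = (N + 2).choose (p + 1) * (p + 1) := by
    exact_mod_cast Nat.add_one_mul_choose_eq (N + 1) p
  have h2 : (N.choose p * (N + 1) : ℝ) = (N + 1).choose p * ((N : ℝ) + 1 - p) := by
    have h := Nat.choose_mul_succ_eq N p
    have h' : ((N + 1 - p : ℕ) : ℝ) = (N : ℝ) + 1 - p := by
      rw [Nat.cast_sub (by omega)]; push_cast; ring
    rw [← h']
    exact_mod_cast h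
  have hQ' : (Q : ℝ) = (N + 2) / 2 := by linarith
  unfold pairNorm
  rw [show 2 * Q - 2 = N by omega, hN, hN', hQ']
  have hN0 : (N : ℝ) + 2 - 1 ≠ 0 := by
    have : (0 : ℝ) ≤ N := Nat.cast_nonneg N
    linarith
  rw [div_eq_iff (mul_ne_zero two_ne_zero hN0)]
  push_cast
  linear_combination (-((N : ℝ) + 1 - p)) * h1 - ((N : ℝ) + 2) * h2

theorem h4_D (m i : ℕ) :
    ((m : ℝ) + 1) * m.choose i = ((m : ℝ) + 1 - i) * (m + 1).choose i := by
  rcases le_or_gt i (m + 1) with h | h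
  · have h1 := Nat.choose_mul_succ_eq m i
    have h2 : ((m + 1 - i : ℕ) : ℝ) = (m : ℝ) + 1 - i := by
      rw [Nat.cast_sub h]; push_cast; ring
    have h3 : (m.choose i : ℝ) * (m + 1) = (m + 1).choose i * ((m + 1 - i : ℕ) : ℝ) := by
      exact_mod_cast h1
    rw [h2] at h3
    linarith
  · rw [Nat.choose_eq_zero_of_lt h, Nat.choose_eq_zero_of_lt (by omega)]
    simp

theorem h4_E (m k : ℕ) : (((m + 1).choose (k + 1) : ℝ) - m.choose (k + 1)) = m.choose k := by
  rw [Nat.choose_succ_succ']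
  push_cast
  ring

theorem h4_sum (m p : ℕ) :
    ∑ x ∈ antidiagonal (p + 1), ((x.2 : ℝ) - x.1) ^ 2 * ((m + 1).choose x.1 * (m + 1).choose x.2) =
      2 * (((m : ℝ) + 1) * (m + m).choose p) := by
  have hm : (0 : ℝ) < (m : ℝ) + 1 := by positivity
  have e : ∀ x : ℕ × ℕ, ((x.2 : ℝ) - x.1) ^ 2 * ((m + 1).choose x.1 * (m + 1).choose x.2) =
      ((m : ℝ) + 1) * (((x.2 : ℝ) - x.1) * (m.choose x.1 * (((m + 1).choose x.2 : ℝ) - m.choose x.2)) -
        ((x.2 : ℝ) - x.1) * ((((m + 1).choose x.1 : ℝ) - m.choose x.1) * m.choose x.2)) := by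
    intro x
    have h1 := h4_D m x.1
    have h2 := h4_D m x.2
    linear_combination (-((x.2 : ℝ) - x.1) * (m + 1).choose x.2) * h1 +
      (((x.2 : ℝ) - x.1) * (m + 1).choose x.1) * h2
  simp only [e]
  rw [← mul_sum, sum_sub_distrib, Finset.Nat.sum_antidiagonal_succ', Finset.Nat.sum_antidiagonal_succ,
    Nat.add_choose_eq m m p]
  simp only [h4_E, Nat.choose_zero_right, Nat.cast_one, sub_self, mul_zero, zero_mul, zero_add]
  rw [← sum_sub_distrib]
  push_cast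
  rw [mul_left_comm, mul_sum _ _ (2 : ℝ)]
  congr 1
  exact sum_congr rfl fun x _ => by ring

theorem h4_annC {n : ℕ} (j : Fin n) : ‖annC j‖ ≤ 1 := by
  have h := norm_cC_le (Pi.single j (1 : ℂ) : Fin n → ℂ)
  rw [cC_single] at h
  simpa using h

theorem h4_norm_BC (q : ℕ) (p : Fin (2 * q - 1)) : ‖BC q p‖ ≤ Real.sqrt ((p : ℕ) + 2) := by
  have hp := p.2
  obtain ⟨m, rfl⟩ : ∃ m, q = m + 1 := ⟨q - 1, by omega⟩
  set F : ℕ × ℕ → ℝ := fun x => |((x.2 : ℝ) - x.1) *
    Real.sqrt (((m + 1).choose x.1 : ℝ) * (m + 1).choose x.2) /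
      Real.sqrt (2 * pairNorm (m + 1) (p + 1))| with hF
  have h1 : ‖BC (m + 1) p‖ ≤ ∑ x : Fin (m + 1 + 1) × Fin (m + 1 + 1),
      |pairVec (m + 1) p x.1 x.2| := by
    rw [BC_eq, Fintype.sum_prod_type]
    refine (norm_sum_le _ _).trans (sum_le_sum fun i _ => (norm_sum_le _ _).trans
      (sum_le_sum fun j _ => ?_))
    rw [norm_smul, Complex.norm_real, Real.norm_eq_abs, abs_div]
    have h2 : ‖annC j * annC i‖ ≤ 1 :=
      (norm_mul_le _ _).trans (mul_le_one₀ (h4_annC j) (norm_nonneg _) (h4_annC i))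
    refine (mul_le_of_le_one_right (by positivity) h2).trans (div_le_self (abs_nonneg _) ?_)
    rw [abs_of_nonneg (Real.sqrt_nonneg _)]
    exact Real.one_le_sqrt.2 one_le_two
  have h2 : ∑ x : Fin (m + 1 + 1) × Fin (m + 1 + 1), |pairVec (m + 1) p x.1 x.2| ≤
      ∑ x ∈ antidiagonal ((p : ℕ) + 1), F x := by
    have e : ∀ x : Fin (m + 1 + 1) × Fin (m + 1 + 1), |pairVec (m + 1) p x.1 x.2| =
        if (x.1 : ℕ) + x.2 = p + 1 then F (x.1, x.2) else 0 := fun x => by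
      unfold pairVec
      split_ifs
      · rfl
      · exact abs_zero
    simp only [e]
    rw [← sum_filter, ← sum_image (g := fun x : Fin (m + 1 + 1) × Fin (m + 1 + 1) =>
      ((x.1 : ℕ), (x.2 : ℕ))) (f := F)]
    · refine sum_le_sum_of_subset_of_nonneg (fun y hy => ?_) fun _ _ _ => abs_nonneg _
      obtain ⟨x, hx, rfl⟩ := mem_image.1 hy
      exact mem_antidiagonal.2 (mem_filter.1 hx).2
    · intro x _ y _ h
      exact Prod.ext (Fin.ext (congrArg Prod.fst h)) (Fin.ext (congrArg Prod.snd h))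
  have hN : pairNorm (m + 1) (p + 1) = ((m : ℝ) + 1) * (m + m).choose p := by
    rw [h4_pairNorm (by omega) hp, show 2 * (m + 1) - 2 = m + m by omega]
    push_cast
    ring
  have hpos : (0 : ℝ) < 2 * pairNorm (m + 1) (p + 1) := by
    have : (0 : ℝ) < (m + m).choose p := by exact_mod_cast Nat.choose_pos (by omega)
    rw [hN]
    positivity
  have h3 : ∑ x ∈ antidiagonal ((p : ℕ) + 1), F x ^ 2 = 1 := by
    have e : ∀ x : ℕ × ℕ, F x ^ 2 = ((x.2 : ℝ) - x.1) ^ 2 *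
        ((m + 1).choose x.1 * (m + 1).choose x.2) / (2 * pairNorm (m + 1) (p + 1)) := fun x => by
      rw [hF, sq_abs, div_pow, mul_pow, Real.sq_sqrt (by positivity), Real.sq_sqrt hpos.le]
    simp only [e]
    rw [← sum_div, h4_sum, ← hN, div_self hpos.ne']
  refine h1.trans (h2.trans (Real.le_sqrt_of_sq_le ?_))
  have := sq_sum_le_card_mul_sum_sq (s := antidiagonal ((p : ℕ) + 1)) (f := F)
  rw [h3, Finset.Nat.card_antidiagonal] at this
  refine this.trans (le_of_eq ?_)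
  push_cast
  ring

open Polynomial in
theorem h4_coeff (a b : ℂ) (m j : ℕ) :
    ((C a + C b * X) ^ m).coeff j = (m.choose j : ℂ) * (a ^ (m - j) * b ^ j) := by
  have e : ∀ k, (C b * X) ^ k * C a ^ (m - k) * (m.choose k : ℂ[X]) =
      C ((m.choose k : ℂ) * (a ^ (m - k) * b ^ k)) * X ^ k := fun k => by
    simp only [mul_pow, map_mul, map_pow, map_natCast]
    ring
  rw [add_comm, add_pow, finsetSum_coeff]
  simp only [e, coeff_C_mul, coeff_X_pow, mul_ite, mul_one, mul_zero]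
  rw [sum_ite_eq]
  split_ifs with h
  · rfl
  · rw [Nat.choose_eq_zero_of_lt (by simpa using h)]
    simp

theorem h4_rho_one (m : ℕ) (u : ℂ × ℂ) (j : Fin (m + 1 + 1)) :
    (Real.sqrt ((m : ℝ) + 1) : ℂ) * rho (m + 1) u j 1 = (Real.sqrt ((m + 1).choose j) : ℂ) *
      (-u.2 * ((((m : ℂ) + 1 - (j : ℕ)) * conj u.1 ^ (m - j)) * conj u.2 ^ (j : ℕ)) +
        u.1 * (conj u.1 ^ (m + 1 - j) * (((j : ℕ) : ℂ) * conj u.2 ^ ((j : ℕ) - 1)))) := by
  have hj : (j : ℕ) ≤ m + 1 := by omega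
  have hC : (0 : ℝ) < (m + 1).choose j := by exact_mod_cast Nat.choose_pos hj
  have hs : (Real.sqrt ((m + 1).choose j) : ℂ) ≠ 0 := by
    exact_mod_cast (Real.sqrt_pos.2 hC).ne'
  have h1 : (Real.sqrt ((m + 1).choose j) : ℂ) * Real.sqrt ((m + 1).choose j) =
      ((m + 1).choose j : ℂ) := by exact_mod_cast Real.mul_self_sqrt hC.le
  have h2 : (Real.sqrt ((m : ℝ) + 1) : ℂ) * Real.sqrt ((m : ℝ) + 1) = (m : ℂ) + 1 := by
    exact_mod_cast Real.mul_self_sqrt (show (0 : ℝ) ≤ (m : ℝ) + 1 by positivity)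
  have hD : ((m : ℂ) + 1) * m.choose j = ((m : ℂ) + 1 - (j : ℕ)) * (m + 1).choose j := by
    exact_mod_cast h4_D m j
  refine mul_left_cancel₀ hs ?_
  simp only [rho, Matrix.of_apply, Fin.val_one, Nat.choose_one_right, Nat.add_sub_cancel, pow_one,
    mul_add, Polynomial.coeff_add, Polynomial.coeff_mul_C, h4_coeff]
  rw [mul_left_comm _ (Polynomial.C u.1), Polynomial.coeff_C_mul]
  push_cast
  generalize (j : ℕ) = k at *
  generalize (Real.sqrt ((m + 1).choose k) : ℂ) = t at *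
  generalize (Real.sqrt ((m : ℝ) + 1) : ℂ) = r at *
  have h3 : ∀ w : ℂ, t * (r * (r / t * w)) = ((m : ℂ) + 1) * w := fun w => by
    rw [← h2]
    field_simp
  rw [h3, h3, ← mul_assoc t t, ← mul_assoc t t, h1]
  rcases k with _ | k
  · simp only [Polynomial.coeff_mul_X_zero]
    simp
    ring
  · have hE : ((m : ℂ) + 1) * m.choose k = ((k : ℂ) + 1) * (m + 1).choose (k + 1) := by
      have := Nat.add_one_mul_choose_eq m k
      have h : ((m : ℂ) + 1) * m.choose k = (m + 1).choose (k + 1) * ((k : ℂ) + 1) := by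
        exact_mod_cast this
      rw [h, mul_comm]
    rw [Polynomial.coeff_mul_X, h4_coeff, Nat.add_sub_cancel, Nat.add_sub_add_right]
    push_cast at hD ⊢
    linear_combination (-u.2 * conj u.1 ^ (m - (k + 1)) * conj u.2 ^ (k + 1)) * hD +
      (u.1 * conj u.1 ^ (m - k) * conj u.2 ^ k) * hE

theorem h4_wedge (m : ℕ) {u : ℂ × ℂ} (hu : IsUnitSp u) (i j : Fin (m + 1 + 1)) :
    (Real.sqrt ((m : ℝ) + 1) : ℂ) *
        (rho (m + 1) u j 1 * kv (m + 1) u i - rho (m + 1) u i 1 * kv (m + 1) u j) =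
      (((j : ℕ) : ℂ) - (i : ℕ)) * ((Real.sqrt ((m + 1).choose i) : ℂ) *
        Real.sqrt ((m + 1).choose j)) *
          (conj u.1 ^ (2 * m - (i + j - 1)) * conj u.2 ^ ((i : ℕ) + j - 1)) := by
  have hi := i.2
  have hj := j.2
  have h1 : u.1 * conj u.1 + u.2 * conj u.2 = 1 := by
    rw [Complex.mul_conj, Complex.mul_conj, Complex.normSq_eq_norm_sq, Complex.normSq_eq_norm_sq]
    exact_mod_cast hu
  rw [mul_sub, ← mul_assoc, ← mul_assoc, h4_rho_one, h4_rho_one]
  simp only [kv, map_mul, map_pow]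
  generalize (i : ℕ) = k at *
  generalize (j : ℕ) = l at *
  by_cases hkl : k = l
  · subst hkl
    simp
  set a := conj u.1
  set b := conj u.2
  have A : ∀ k l : ℕ, k < m + 1 + 1 → l < m + 1 + 1 → k ≠ l →
      ((m : ℂ) + 1 - l) * a ^ (m - l) * a ^ (m + 1 - k) =
        ((m : ℂ) + 1 - l) * a ^ (2 * m - (k + l - 1)) := fun k l hk hl hkl => by
    by_cases h : l = m + 1
    · subst h
      push_cast
      simp
    · rw [mul_assoc, ← pow_add]
      congr 2
      omega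
  have B : ∀ k l : ℕ, (l : ℂ) * b ^ (l - 1) * b ^ k = (l : ℂ) * b ^ (k + l - 1) := fun k l => by
    rcases l with _ | l
    · simp
    · rw [mul_assoc, ← pow_add]
      congr 2
      omega
  have A1 := A k l hi hj hkl
  have A2 := A l k hj hi (Ne.symm hkl)
  have B1 := B k l
  have B2 := B l k
  rw [add_comm l k] at A2 B2
  have C1 : a ^ (m + 1 - k) * a ^ (m + 1 - l) = a * a ^ (2 * m - (k + l - 1)) := by
    rw [← pow_add, ← pow_succ']
    congr 1
    omega
  have C2 : b ^ k * b ^ l = b * b ^ (k + l - 1) := by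
    rw [← pow_add, ← pow_succ']
    congr 1
    omega
  generalize (Real.sqrt ((m + 1).choose k) : ℂ) = s at *
  generalize (Real.sqrt ((m + 1).choose l) : ℂ) = t at *
  linear_combination (s * t) * (-u.2 * b ^ k * b ^ l * (A1 - A2) +
    u.1 * a ^ (m + 1 - k) * a ^ (m + 1 - l) * (B1 - B2) +
    u.2 * ((l : ℂ) - k) * a ^ (2 * m - (k + l - 1)) * C2 +
    u.1 * ((l : ℂ) - k) * b ^ (k + l - 1) * C1 +
    ((l : ℂ) - k) * a ^ (2 * m - (k + l - 1)) * b ^ (k + l - 1) * h1)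

theorem h4_antisym {n : ℕ} (M : Fin n → Fin n → ℂ) :
    ∑ i, ∑ j, M i j • (annC j * annC i) =
      ∑ i, ∑ j, ((M i j - M j i) / 2) • (annC j * annC i : Fk n) := by
  have h : ∑ i, ∑ j, M j i • (annC j * annC i : Fk n) = -∑ i, ∑ j, M i j • (annC j * annC i) := by
    rw [sum_comm, ← sum_neg_distrib]
    refine sum_congr rfl fun i _ => ?_
    rw [← sum_neg_distrib]
    refine sum_congr rfl fun j _ => ?_
    rw [annC_anticomm i j, smul_neg]
  simp only [div_eq_inv_mul, mul_smul, sub_smul, ← smul_sum, sum_sub_distrib]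
  rw [h, sub_neg_eq_add, ← two_smul ℂ, smul_smul]
  simp

theorem h4_coef (m : ℕ) (u : ℂ × ℂ) (i j : Fin (m + 1 + 1)) :
    (Real.sqrt ((m : ℝ) + 1) : ℂ) * ∑ p : Fin (2 * (m + 1) - 2 + 1),
      conj (kv (2 * (m + 1) - 2) u p) *
        ((pairVec (m + 1) ⟨p, by have := p.2; omega⟩ i j / Real.sqrt 2 : ℝ) : ℂ) =
      (((j : ℕ) : ℂ) - (i : ℕ)) * ((Real.sqrt ((m + 1).choose i) : ℂ) *
        Real.sqrt ((m + 1).choose j)) *
          (u.1 ^ (2 * m - (i + j - 1)) * u.2 ^ ((i : ℕ) + j - 1)) / 2 := by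
  have hi := i.2
  have hj := j.2
  by_cases hij : (i : ℕ) = j
  · simp [pairVec, hij]
  have hp : (i : ℕ) + j - 1 < 2 * (m + 1) - 2 + 1 := by omega
  rw [sum_eq_single (⟨(i : ℕ) + j - 1, hp⟩ : Fin (2 * (m + 1) - 2 + 1))]
  · have e : (i : ℕ) + j = (i : ℕ) + j - 1 + 1 := by omega
    have e2 : 2 * (m + 1) - 2 = 2 * m := by omega
    simp only [pairVec, kv, if_pos e, map_mul, map_pow, Complex.conj_conj, Complex.conj_ofReal]
    rw [h4_pairNorm (by omega) (by omega), e2]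
    have hC : (0 : ℝ) < (2 * m).choose (i + j - 1) := by
      exact_mod_cast Nat.choose_pos (by omega)
    have hm : (0 : ℝ) < ((m + 1 : ℕ) : ℝ) := by positivity
    rw [Real.sqrt_mul (Nat.cast_nonneg _), Real.sqrt_mul zero_le_two, Real.sqrt_mul hm.le]
    have h1 : (Real.sqrt ((2 * m).choose (i + j - 1)) : ℂ) ≠ 0 := by
      exact_mod_cast (Real.sqrt_pos.2 hC).ne'
    have h2 : (Real.sqrt ((m : ℝ) + 1) : ℂ) ≠ 0 := by
      exact_mod_cast (Real.sqrt_pos.2 (show (0 : ℝ) < (m : ℝ) + 1 by positivity)).ne'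
    have h3 : (Real.sqrt 2 : ℂ) * Real.sqrt 2 = 2 := by
      exact_mod_cast Real.mul_self_sqrt zero_le_two
    have h4 : (Real.sqrt 2 : ℂ) ≠ 0 := by
      exact_mod_cast (Real.sqrt_pos.2 two_pos).ne'
    push_cast
    generalize (Real.sqrt 2 : ℂ) = w at *
    rw [← h3]
    field_simp
  · intro p _ hne
    have : ¬ ((i : ℕ) + j = p + 1) := fun h => hne (Fin.ext (by simp only; omega))
    simp [pairVec, this]
  · intro h
    exact absurd (mem_univ _) h

theorem h4_bC_kv {q : ℕ} {u : ℂ × ℂ} (hq : 1 ≤ q) (hu : IsUnitSp u) :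
    bC q (kv (2 * q - 2) u) = cC (fun j => rho q u j 1) * cC (fun j => rho q u j 0) := by
  obtain ⟨m, rfl⟩ : ∃ m, q = m + 1 := ⟨q - 1, by omega⟩
  have hB : ∀ p : Fin (2 * (m + 1) - 2 + 1),
      Bn (m + 1) p = BC (m + 1) ⟨p, by have := p.2; omega⟩ := fun p => dif_pos _
  have h2 : (Real.sqrt ((m : ℝ) + 1) : ℂ) ≠ 0 := by
    exact_mod_cast (Real.sqrt_pos.2 (show (0 : ℝ) < (m : ℝ) + 1 by positivity)).ne'
  have hR : cC (fun j => rho (m + 1) u j 1) * cC (kv (m + 1) u) =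
      ∑ i, ∑ j, conj (rho (m + 1) u j 1 * kv (m + 1) u i) • (annC j * annC i) := by
    simp only [cC, sum_mul_sum, smul_mul_smul_comm, map_mul]
    exact sum_comm
  rw [rho_col_zero, hR, h4_antisym]
  simp only [bC, hB, BC_eq, smul_sum, smul_smul]
  rw [sum_comm]
  refine sum_congr rfl fun i _ => ?_
  rw [sum_comm]
  refine sum_congr rfl fun j _ => ?_
  rw [← sum_smul]
  congr 1
  refine mul_left_cancel₀ h2 ?_
  have h := congrArg conj (h4_wedge m hu i j)
  simp only [map_mul, map_sub, map_pow, Complex.conj_conj, Complex.conj_ofReal, map_natCast] at h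
  rw [h4_coef, ← h, map_mul, map_mul, mul_div_assoc]

end Crest.Agent.R340
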