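import Crest.Agent.R340.GeoInt
import Crest.Agent.R340.GeoGam
import Crest.Agent.R340.GeoPairA4

/-! # GEO: pair operators, rotation invariance of `H`, energy density -/

set_option autoImplicit false

namespace Crest.Agent.R340

open Matrix MeasureTheory Set Crest.MathPhysics.Laughlin
open scoped ComplexConjugate Matrix.Norms.L2Operator MatrixOrder ComplexOrder

variable {q : ℕ} {u : ℂ × ℂ}

/-! ### part A -/

/-- the key identity -/
theorem bC_kv (hq : 1 ≤ q) (hu : IsUnitSp u) :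
    bC q (kv (2 * q - 2) u) = cC (fun j => rho q u j 1) * cC (fun j => rho q u j 0) := by
  exact h4_bC_kv hq hu

theorem norm_Bn_le (q p : ℕ) : ‖Bn q p‖ ≤ Real.sqrt (p + 2) := by
  unfold Bn
  split_ifs with h
  · exact h4_norm_BC q ⟨p, h⟩
  · rw [norm_zero]
    exact Real.sqrt_nonneg _

/-! ### part B -/

theorem HC_eq_Bn (hq : 1 ≤ q) : HC q = ∑ p : Fin (2 * q - 2 + 1), star (Bn q p) * Bn q p := by
  rw [HC_eq]
  refine Fintype.sum_equiv (finCongr (by omega : 2 * q - 1 = 2 * q - 2 + 1)) _ _ fun p => ?_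
  have : Bn q (finCongr (by omega : 2 * q - 1 = 2 * q - 2 + 1) p) = BC q p := by
    simp [Bn]
  rw [this]

theorem bC_add (w w' : Fin (2 * q - 2 + 1) → ℂ) : bC q (w + w') = bC q w + bC q w' := by
  simp only [bC, Pi.add_apply, map_add, add_smul, Finset.sum_add_distrib]

theorem bC_smul (z : ℂ) (w : Fin (2 * q - 2 + 1) → ℂ) : bC q (z • w) = conj z • bC q w := by
  simp only [bC, Pi.smul_apply, smul_eq_mul, map_mul, Finset.smul_sum, smul_smul]

theorem bC_single (p : Fin (2 * q - 2 + 1)) : bC q (Pi.single p 1) = Bn q p := by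
  rw [bC, Finset.sum_eq_single p]
  · simp
  · intro b _ hb
    simp [Pi.single_eq_of_ne hb]
  · simp

private theorem pB1_comm {X : Fk (q + 1)} (h : ∀ i j, Commute (annC j * annC i) X)
    (w : Fin (2 * q - 2 + 1) → ℂ) : Commute (bC q w) X := by
  refine Commute.sum_left _ _ _ fun p _ => Commute.smul_left ?_ _
  unfold Bn
  split_ifs
  · rw [BC_eq]
    exact Commute.sum_left _ _ _ fun i _ => Commute.sum_left _ _ _ fun j _ => (h i j).smul_left _
  · exact Commute.zero_left _

theorem bC_comm_cC (w : Fin (2 * q - 2 + 1) → ℂ) (f : Fin (q + 1) → ℂ) :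
    Commute (bC q w) (cC f) := by
  refine pB1_comm (fun i j => ?_) w
  have h : ∀ i : Fin (q + 1), annC i * cC f = -(cC f * annC i) := fun i => by
    rw [← cC_single]
    exact eq_neg_of_add_eq_zero_left (cC_anticomm _ _)
  change annC j * annC i * cC f = cC f * (annC j * annC i)
  rw [mul_assoc, h, mul_neg, ← mul_assoc, h, neg_mul, neg_neg, mul_assoc]

theorem bC_comm_bC (w w' : Fin (2 * q - 2 + 1) → ℂ) : Commute (bC q w) (bC q w') := by
  refine pB1_comm (fun i j => Commute.mul_left ?_ ?_) w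
  · rw [← cC_single]
    exact (bC_comm_cC w' _).symm
  · rw [← cC_single]
    exact (bC_comm_cC w' _).symm

theorem numC_mul_bC (w : Fin (2 * q - 2 + 1) → ℂ) :
    numC (q + 1) * bC q w = bC q w * numC (q + 1) - (2 : ℂ) • bC q w := by
  have h : ∀ p, numC (q + 1) * Bn q p = Bn q p * numC (q + 1) - (2 : ℂ) • Bn q p := fun p => by
    unfold Bn
    split_ifs
    · rw [BC_eq]
      simp only [Finset.mul_sum, Finset.sum_mul, Finset.smul_sum, ← Finset.sum_sub_distrib]
      refine Finset.sum_congr rfl fun i _ => Finset.sum_congr rfl fun j _ => ?_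
      rw [mul_smul_comm, smul_mul_assoc, smul_comm (2 : ℂ), ← smul_sub, ← mul_assoc, numC_mul_annC,
        sub_mul, mul_assoc, numC_mul_annC, mul_sub, two_smul, ← mul_assoc, sub_sub]
    · simp
  simp only [bC, Finset.mul_sum, Finset.sum_mul, Finset.smul_sum, ← Finset.sum_sub_distrib]
  refine Finset.sum_congr rfl fun p _ => ?_
  rw [mul_smul_comm, smul_mul_assoc, smul_comm (2 : ℂ), ← smul_sub, h]

private theorem pB1_sum {ι : Type*} (s : Finset ι) (w : ι → Fin (2 * q - 2 + 1) → ℂ) :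
    bC q (∑ i ∈ s, w i) = ∑ i ∈ s, bC q (w i) := by
  simp only [bC, Finset.sum_apply, map_sum, Finset.sum_smul]
  exact Finset.sum_comm

theorem Gam_conj_bC (hq : 1 ≤ q) (hu : IsUnitSp u) (w : Fin (2 * q - 2 + 1) → ℂ) :
    Gam (rho q u) * bC q w * star (Gam (rho q u)) = bC q (rho (2 * q - 2) u *ᵥ w) := by
  obtain ⟨a, z, hz, rfl⟩ := exists_kv_span w
  have hU := rho_unitary q hu
  have h1 : star (Gam (rho q u)) * Gam (rho q u) = 1 := (Gam_unitary hU).1
  have hcol : ∀ (v : ℂ × ℂ) (k : Fin (q + 1)),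
      rho q u *ᵥ (fun j => rho q v j k) = fun j => rho q (act u v) j k := fun v k => by
    funext j
    rw [← rho_mul]
    rfl
  rw [Matrix.mulVec_sum, pB1_sum, pB1_sum, Finset.mul_sum, Finset.sum_mul]
  refine Finset.sum_congr rfl fun i _ => ?_
  rw [Matrix.mulVec_smul, bC_smul, bC_smul, mul_smul_comm, smul_mul_assoc, rho_mulVec_kv,
    bC_kv hq (hz i), bC_kv hq (hu.act (hz i)), ← hcol, ← hcol, ← Gam_conj_cC hU, ← Gam_conj_cC hU]
  congr 1
  simp only [mul_assoc]
  rw [← mul_assoc (star (Gam (rho q u))), h1, one_mul]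

private theorem pB1_unit {U : Matrix (Fin (2 * q - 2 + 1)) (Fin (2 * q - 2 + 1)) ℂ}
    (hU : U * star U = 1) :
    ∑ p, star (bC q (U *ᵥ Pi.single p 1)) * bC q (U *ᵥ Pi.single p 1) =
      ∑ p : Fin (2 * q - 2 + 1), star (Bn q p) * Bn q p := by
  have h : ∀ a b, ∑ p, U b p * conj (U a p) = if b = a then 1 else 0 := fun a b => by
    have := congrFun (congrFun hU b) a
    simpa only [Matrix.mul_apply, Matrix.star_apply, Matrix.one_apply, Complex.star_def] using this
  simp only [bC, Matrix.mulVec_single_one, Matrix.col_apply, star_sum, star_smul, Finset.sum_mul,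
    Finset.mul_sum, smul_mul_smul_comm, Complex.star_def, Complex.conj_conj]
  rw [Finset.sum_comm]
  refine Finset.sum_congr rfl fun a _ => ?_
  rw [Finset.sum_comm]
  simp only [← Finset.sum_smul, h, ite_smul, one_smul, zero_smul, Finset.sum_ite_eq',
    Finset.mem_univ, if_true]

theorem commute_Gam_HC (hq : 1 ≤ q) (hu : IsUnitSp u) : Commute (Gam (rho q u)) (HC q) := by
  have hG := Gam_unitary (rho_unitary q hu)
  have h1 : star (Gam (rho q u)) * Gam (rho q u) = 1 := hG.1
  have h2 : Gam (rho q u) * HC q * star (Gam (rho q u)) = HC q := by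
    rw [HC_eq_Bn hq, Finset.mul_sum, Finset.sum_mul,
      ← pB1_unit (rho_unitary (2 * q - 2) hu).2]
    refine Finset.sum_congr rfl fun p _ => ?_
    rw [← Gam_conj_bC hq hu, bC_single]
    simp only [star_mul, star_star, mul_assoc]
    rw [← mul_assoc (star (Gam (rho q u))), h1, one_mul]
  change Gam (rho q u) * HC q = HC q * Gam (rho q u)
  conv_rhs => rw [← h2, mul_assoc, h1, mul_one]

theorem rotF_unitary (q : ℕ) (x : S2) : rotF q x ∈ unitary (Fk (q + 1)) := by
  exact Gam_unitary (rho_unitary q (spin_unit x))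

theorem rotF_conj_annC (q : ℕ) (x : S2) (k : Fin (q + 1)) :
    rotF q x * annC k * star (rotF q x) = cC (orb q x k) := by
  rw [← cC_single, rotF, Gam_conj_cC (rho_unitary q (spin_unit x)), Matrix.mulVec_single_one]
  rfl

theorem rotF_conj_Bn (hq : 1 ≤ q) (x : S2) (p : Fin (2 * q - 2 + 1)) :
    rotF q x * Bn q p * star (rotF q x) = Bx q x p := by
  rw [← bC_single, rotF, Gam_conj_bC hq (spin_unit x), Matrix.mulVec_single_one]
  rfl

theorem stronglyMeasurable_rotF (q : ℕ) : StronglyMeasurable (rotF q) := by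
  exact (continuous_Gam.comp (continuous_rho q)).comp_stronglyMeasurable
    measurable_spin.stronglyMeasurable

theorem By_eq (hq : 1 ≤ q) (x : S2) : By q x = cC (orb q x 1) * ca q x := by
  rw [By, coh, bC_kv hq (spin_unit x), rho_col_zero]
  rfl

theorem Bx_zero (q : ℕ) (x : S2) : Bx q x 0 = By q x := by
  rw [Bx, orb_zero, By]

theorem norm_By_le (hq : 1 ≤ q) (x : S2) : ‖By q x‖ ≤ 1 := by
  rw [By_eq hq]
  exact (norm_mul_le _ _).trans (mul_le_one₀ (norm_cC_orb_le q x 1) (norm_nonneg _) (norm_ca_le q x))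

theorem gpB_expand (w : Fin (2 * q - 2 + 1) → ℂ) : star (bC q w) * bC q w =
    ∑ j, ∑ j', (w j * conj (w j')) • (star (Bn q j) * Bn q j') := by
  unfold bC
  rw [star_sum, Finset.sum_mul_sum]
  refine Finset.sum_congr rfl fun j _ => Finset.sum_congr rfl fun j' _ => ?_
  rw [star_smul, smul_mul_smul_comm]
  simp

theorem sum_Bx (hq : 1 ≤ q) (x : S2) : ∑ p, star (Bx q x p) * Bx q x p = HC q := by
  have h : ∀ j j', ∑ p, orb (2 * q - 2) x p j * conj (orb (2 * q - 2) x p j') =
      if j = j' then 1 else 0 := fun j j' => by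
    have := congrFun (congrFun (sum_orb (2 * q - 2) x) j) j'
    rw [Matrix.sum_apply, Matrix.one_apply] at this
    simpa [vecMulVec_apply] using this
  simp only [Bx, gpB_expand]
  rw [Finset.sum_comm, HC_eq_Bn hq]
  refine Finset.sum_congr rfl fun j _ => ?_
  rw [Finset.sum_comm]
  simp only [← Finset.sum_smul, h]
  simp

theorem gpB_int (q : ℕ) (p j j' : Fin (2 * q - 2 + 1)) :
    Integrable (fun x => (orb (2 * q - 2) x p j * conj (orb (2 * q - 2) x p j')) •
      (star (Bn q j) * Bn q j')) (muq q) := by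
  have := integrable_orb q (2 * q - 2) p j j' (φ := fun _ => 1) measurable_const (C := 1)
    (fun _ => by simp)
  simp only [one_mul] at this
  exact this.smul_const _

theorem integrable_Bx (q : ℕ) (p : Fin (2 * q - 2 + 1)) :
    StronglyMeasurable (fun x => Bx q x p) ∧
      Integrable (fun x => star (Bx q x p) * Bx q x p) (muq q) := by
  constructor
  · simp only [Bx, bC]
    refine Finset.stronglyMeasurable_fun_sum _ fun j _ => StronglyMeasurable.smul_const ?_ _
    exact (Complex.continuous_conj.measurable.comp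
      ((measurable_pi_apply j).comp (measurable_orb (2 * q - 2) p))).stronglyMeasurable
  · simp only [Bx, gpB_expand]
    exact integrable_finsetSum _ fun j _ => integrable_finsetSum _ fun j' _ => gpB_int q p j j'

theorem integral_Bx (hq : 1 ≤ q) (p : Fin (2 * q - 2 + 1)) :
    ∫ x, star (Bx q x p) * Bx q x p ∂muq q = (((q : ℝ) + 1) / (2 * (q : ℝ) - 1)) • HC q := by
  have e : ((2 * q - 2 : ℕ) : ℝ) + 1 = 2 * (q : ℝ) - 1 := by
    rw [Nat.cast_sub (by omega)]; push_cast; ring
  simp only [Bx, gpB_expand]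
  rw [integral_finsetSum _ fun j _ => integrable_finsetSum _ fun j' _ => gpB_int q p j j',
    HC_eq_Bn hq, Finset.smul_sum]
  refine Finset.sum_congr rfl fun j _ => ?_
  rw [integral_finsetSum _ fun j' _ => gpB_int q p j j']
  simp only [integral_smul_const, integral_orb, e]
  rw [Finset.sum_eq_single j]
  · rw [if_pos rfl, Complex.coe_smul]
  · intro j' _ hj
    rw [if_neg (Ne.symm hj)]
    simp
  · simp

theorem HC_eq_integral (hq : 1 ≤ q) : Integrable (hx q) (muq q) ∧ HC q = ∫ x, hx q x ∂muq q := by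
  have e : hx q = fun x => ((2 * (q : ℝ) - 1) / ((q : ℝ) + 1)) • (star (Bx q x 0) * Bx q x 0) := by
    funext x; rw [Bx_zero]; rfl
  have h1 : (1 : ℝ) ≤ q := by exact_mod_cast hq
  rw [e]
  refine ⟨(integrable_Bx q 0).2.smul ((2 * (q : ℝ) - 1) / ((q : ℝ) + 1)), ?_⟩
  rw [integral_smul, integral_Bx hq, smul_smul]
  have : (2 * (q : ℝ) - 1) / ((q : ℝ) + 1) * (((q : ℝ) + 1) / (2 * (q : ℝ) - 1)) = 1 := by
    have h2 : (2 * (q : ℝ) - 1) ≠ 0 := by linarith
    have h3 : ((q : ℝ) + 1) ≠ 0 := by linarith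
    field_simp
  rw [this, one_smul]

theorem HC_mulVec_eq_zero_iff (hq : 1 ≤ q) (ψ : Finset (Fin (q + 1)) → ℂ) :
    HC q *ᵥ ψ = 0 ↔ ∀ p, Bn q p *ᵥ ψ = 0 := by
  rw [HC_eq_Bn hq, Matrix.sum_mulVec]
  constructor
  · intro h p
    have h1 : ∑ p : Fin (2 * q - 2 + 1), star (Bn q p *ᵥ ψ) ⬝ᵥ (Bn q p *ᵥ ψ) = 0 := by
      have := congrArg (fun v => star ψ ⬝ᵥ v) h
      simp only [dotProduct_sum, dotProduct_zero] at this
      rw [← this]
      refine Finset.sum_congr rfl fun p _ => ?_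
      rw [← mulVec_mulVec, dotProduct_mulVec (star ψ), star_mulVec]
      rfl
    rw [Finset.sum_eq_zero_iff_of_nonneg fun p _ => dotProduct_star_self_nonneg _] at h1
    by_cases hp : p < 2 * q - 2 + 1
    · exact dotProduct_star_self_eq_zero.1 (h1 ⟨p, hp⟩ (Finset.mem_univ _))
    · rw [Bn, dif_neg (by omega), zero_mulVec]
  · intro h
    exact Finset.sum_eq_zero fun p _ => by rw [← mulVec_mulVec, h, mulVec_zero]

theorem bC_zero_mode (hq : 1 ≤ q) {ψ : Finset (Fin (q + 1)) → ℂ} (h : HC q *ᵥ ψ = 0)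
    (w : Fin (2 * q - 2 + 1) → ℂ) : bC q w *ᵥ ψ = 0 := by
  rw [HC_mulVec_eq_zero_iff hq] at h
  rw [bC, Matrix.sum_mulVec]
  exact Finset.sum_eq_zero fun p _ => by rw [smul_mulVec, h, smul_zero]

theorem hx_zero_mode (hq : 1 ≤ q) {ψ : Finset (Fin (q + 1)) → ℂ} (h : HC q *ᵥ ψ = 0) (x : S2) :
    hx q x *ᵥ ψ = 0 := by
  rw [hx, smul_mulVec, ← mulVec_mulVec, By, bC_zero_mode hq h, mulVec_zero, smul_zero]

theorem cC_zero_mode (hq : 1 ≤ q) {ψ : Finset (Fin (q + 1)) → ℂ} (h : HC q *ᵥ ψ = 0)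
    (f : Fin (q + 1) → ℂ) : HC q *ᵥ (cC f *ᵥ ψ) = 0 := by
  rw [HC_eq_Bn hq, Matrix.sum_mulVec]
  refine Finset.sum_eq_zero fun p _ => ?_
  have h1 : Bn q p *ᵥ (cC f *ᵥ ψ) = 0 := by
    rw [← bC_single, mulVec_mulVec, (bC_comm_cC _ f).eq, ← mulVec_mulVec, bC_zero_mode hq h,
      mulVec_zero]
  rw [← mulVec_mulVec, h1, mulVec_zero]

end Crest.Agent.R340
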