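import Crest.Agent.R340.AlEmb
import Crest.Agent.R340.CBridge
import Crest.Agent.R340.GeoPair
import Crest.Agent.R340.Gap31

/-! # Row 340, module ALG part C: counting of pinned zero modes -/

set_option autoImplicit false

namespace Crest.Agent.R340.Pin

open Matrix Crest.MathPhysics.Laughlin
open scoped Matrix.Norms.L2Operator MatrixOrder ComplexOrder ComplexConjugate

theorem ac_inj {n N : ℕ} {v : Finset (Fin n) → ℂ} (hs : secP n N *ᵥ v = v)
    (h : ofFockC N v = 0) : v = 0 := by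
  have h1 := ofFockC_dot N v v hs
  rw [h, dotProduct_zero] at h1
  have h2 : (N.factorial : ℂ) ≠ 0 := by exact_mod_cast N.factorial_ne_zero
  have h3 : star v ⬝ᵥ v = 0 := (mul_eq_zero.1 h1.symm).resolve_left h2
  exact dotProduct_star_self_eq_zero.1 h3

theorem ac_pair {Q N : ℕ} (hN : 2 ≤ N) {v : FV Q} (hs : secP (Q + 1) N *ᵥ v = v)
    (h : HC Q *ᵥ v = 0) (a b : Fin N) (hab : a < b) : pairProj Q N a b *ᵥ ofFockC N v = 0 := by
  refine pairProj_zero Q N _ ?_ a b hab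
  rw [interaction_ofFockC hN hs, h]
  have : ofFockC N (0 : FV Q) = 0 := by
    have := ofFockC_smul N (0 : ℂ) (0 : FV Q)
    rwa [zero_smul, zero_smul] at this
  rw [this, dotProduct_zero]

theorem ac_zero_nil {Q N : ℕ} (hQ : Q < 3 * (N - 1)) {v : FV Q} (hs : secP (Q + 1) N *ᵥ v = v)
    (h : HC Q *ᵥ v = 0) : v = 0 := by
  have hN : 2 ≤ N := by omega
  refine ac_inj hs ?_
  set ψ := ofFockC N v with hψ
  have hA : IsAntisymmetric ψ := ofFockC_anti N v
  have hd : lauP N ∣ Uq.toP ψ := lauP_dvd fun a b hab =>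
    cube_dvd hab.ne (Uq.rename_swap_toP ψ hA a b hab.ne)
      (Uq.der_toP ψ a b hab.ne (ac_pair hN hs h a b hab))
  have h0 : Uq.toP ψ = 0 := by
    by_contra hne
    obtain ⟨G, hG⟩ := hd
    have hG0 : G ≠ 0 := by
      rintro rfl
      exact hne (by rw [hG, mul_zero])
    let e : Fin N := ⟨0, by omega⟩
    have h1 := MvPolynomial.degreeOf_mul_eq (n := e) (lauP_ne_zero (N := N)) hG0
    have h2 := degreeOf_lauP e
    have h3 := Uq.degreeOf_toP ψ e
    rw [hG, h1] at h3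
    omega
  funext m
  have h1 := Uq.coeff_toP ψ m
  rw [h0, MvPolynomial.coeff_zero] at h1
  have hw : ((Uq.wt m : ℝ) : ℂ) ≠ 0 := by exact_mod_cast (Uq.wt_pos m).ne'
  exact (mul_eq_zero.1 h1.symm).resolve_right hw

theorem ac_zero_lt {Q N : ℕ} {D : Multiset S2} {v : FV Q} (h : InZ Q D N v) (hN : 1 ≤ N)
    (hD : Q < D.card) : v = 0 :=
  eq_zero_of_all_cC hN h.1 fun f => h.2.2 f (Kv_of_lt hD f)

theorem ac_nfree_cons (q N : ℕ) (a : S2) (D : Multiset S2) :
    nfree (q + 1) (a ::ₘ D) N = nfree q D N := by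
  simp only [nfree, Multiset.card_cons]
  push_cast
  ring

theorem ac_eq_zero {N : ℕ} (hN : 1 ≤ N) (D : Multiset S2) : ∀ {Q : ℕ} {v : FV Q}, InZ Q D N v →
    nfree Q D N < 0 → v = 0 := by
  induction D using Multiset.induction_on with
  | empty =>
    intro Q v h hn
    refine ac_zero_nil (N := N) ?_ h.1 h.2.1
    simp only [nfree, Multiset.card_zero, Nat.cast_zero, sub_zero] at hn
    have : (Q : ℝ) < ((3 * (N - 1) : ℕ) : ℝ) := by
      push_cast [Nat.cast_sub hN]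
      linarith
    exact_mod_cast this
  | cons a D ih =>
    intro Q v h hn
    cases Q with
    | zero => exact ac_zero_lt h hN (by simp)
    | succ q =>
      obtain ⟨I, M, hE⟩ := exists_emb q (spin_unit a)
      obtain ⟨v', hv', rfl⟩ := hE.InZ_cons.1 h
      rw [ac_nfree_cons] at hn
      rw [ih hv' hn, mulVec_zero]

theorem ac_single {n N : ℕ} (S : Finset (Fin n)) (hS : ∀ T : Finset (Fin n), T.card = N → T = S)
    {u v : Finset (Fin n) → ℂ} (hu : secP n N *ᵥ u = u) (hv : secP n N *ᵥ v = v) (h0 : u ≠ 0) :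
    ∃ c : ℂ, v = c • u := by
  rw [secP_mulVec_iff] at hu hv
  have hu0 : u S ≠ 0 := by
    intro h
    apply h0
    funext T
    by_cases hT : T.card = N
    · rw [hS T hT]; exact h
    · exact hu T hT
  refine ⟨v S / u S, funext fun T => ?_⟩
  by_cases hT : T.card = N
  · rw [hS T hT, Pi.smul_apply, smul_eq_mul, div_mul_cancel₀ _ hu0]
  · rw [Pi.smul_apply, hu T hT, hv T hT, smul_zero]

theorem ac_unique_nil {N : ℕ} (hN : 1 ≤ N) {u v : FV (3 * (N - 1))}
    (hu : InZ (3 * (N - 1)) 0 N u) (hv : InZ (3 * (N - 1)) 0 N v) (h0 : u ≠ 0) :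
    ∃ c : ℂ, v = c • u := by
  rcases Nat.lt_or_ge N 2 with h1 | h2
  · obtain rfl : N = 1 := by omega
    refine ac_single (N := 1) Finset.univ (fun T hT => ?_) hu.1 hv.1 h0
    exact Finset.eq_univ_of_card T (by simpa using hT)
  · obtain ⟨a, ha⟩ := zero_mode_unique N h2 _ (ofFockC_anti N u) (ac_pair h2 hu.1 hu.2.1)
    obtain ⟨b, hb⟩ := zero_mode_unique N h2 _ (ofFockC_anti N v) (ac_pair h2 hv.1 hv.2.1)
    have ha0 : a ≠ 0 := by
      rintro rfl
      exact h0 (ac_inj hu.1 (by rw [ha, zero_smul]))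
    refine ⟨b / a, ?_⟩
    have hs : secP (3 * (N - 1) + 1) N *ᵥ (v + (-(b / a)) • u) = v + (-(b / a)) • u := by
      rw [mulVec_add, mulVec_smul, hu.1, hv.1]
    have := ac_inj hs (by
      rw [ofFockC_add, ofFockC_smul, ha, hb, smul_smul, ← add_smul]
      have : b + -(b / a) * a = 0 := by field_simp; ring
      rw [this, zero_smul])
    rw [neg_smul, ← sub_eq_add_neg, sub_eq_zero] at this
    exact this

theorem ac_unique_pos {N : ℕ} (hN : 1 ≤ N) (D : Multiset S2) : ∀ {Q : ℕ} {u v : FV Q},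
    InZ Q D N u → InZ Q D N v → nfree Q D N = 0 → u ≠ 0 → ∃ c : ℂ, v = c • u := by
  induction D using Multiset.induction_on with
  | empty =>
    intro Q u v hu hv hn h0
    simp only [nfree, Multiset.card_zero, Nat.cast_zero, sub_zero] at hn
    have : (Q : ℝ) = ((3 * (N - 1) : ℕ) : ℝ) := by
      push_cast [Nat.cast_sub hN]
      linarith
    obtain rfl : Q = 3 * (N - 1) := by exact_mod_cast this
    exact ac_unique_nil hN hu hv h0
  | cons a D ih =>
    intro Q u v hu hv hn h0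
    cases Q with
    | zero => exact absurd (ac_zero_lt hu hN (by simp)) h0
    | succ q =>
      obtain ⟨I, M, hE⟩ := exists_emb q (spin_unit a)
      obtain ⟨u', hu', rfl⟩ := hE.InZ_cons.1 hu
      obtain ⟨v', hv', rfl⟩ := hE.InZ_cons.1 hv
      rw [ac_nfree_cons] at hn
      obtain ⟨c, hc⟩ := ih hu' hv' hn (by rintro rfl; exact h0 (mulVec_zero _))
      exact ⟨c, by rw [hc, mulVec_smul]⟩

theorem ac_unique {Q N : ℕ} {D : Multiset S2} {u v : FV Q} (hu : InZ Q D N u) (hv : InZ Q D N v)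
    (hn : nfree Q D N = 0) (h0 : u ≠ 0) : ∃ c : ℂ, v = c • u := by
  rcases Nat.eq_zero_or_pos N with rfl | hN
  · exact ac_single (N := 0) ∅ (fun T hT => Finset.card_eq_zero.1 hT) hu.1 hv.1 h0
  · exact ac_unique_pos hN D hu hv hn h0

theorem Emb.adj_kv {q : ℕ} {u : ℂ × ℂ}
    {I : Matrix (Finset (Fin (q + 2))) (Finset (Fin (q + 1))) ℂ}
    {M : Matrix (Fin (q + 2)) (Fin (q + 1)) ℂ} (h : Emb q u I M) (y : ℂ × ℂ) :
    Mᴴ *ᵥ kv (q + 1) y = conj (wedge u y) • kv q y := by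
  funext j
  have h1 := h.ev (Pi.single j 1) y
  rw [evalO, evalO, dotProduct_mulVec, dotProduct_single_one, dotProduct_single_one] at h1
  have h2 : (Mᴴ *ᵥ kv (q + 1) y) j = conj ((star (kv (q + 1) y) ᵥ* M) j) := by
    simp [mulVec, vecMul, dotProduct, conjTranspose_apply, mul_comm]
  rw [h2, h1]
  simp

theorem Emb.ch_mul {q : ℕ} {u : ℂ × ℂ}
    {I : Matrix (Finset (Fin (q + 2))) (Finset (Fin (q + 1))) ℂ}
    {M : Matrix (Fin (q + 2)) (Fin (q + 1)) ℂ} (h : Emb q u I M) (y : ℂ × ℂ) :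
    ch (q + 1) y * I = wedge u y • (I * ch q y) := by
  rw [ch, h.cc, h.adj_kv, cC_smul, Matrix.mul_smul, ch]
  simp

theorem ac_ham {Q : ℕ} {v : FV Q} (h : HC Q *ᵥ v = 0) (f : Fin (Q + 1) → ℂ) :
    HC Q *ᵥ (cC f *ᵥ v) = 0 := by
  rcases Nat.eq_zero_or_pos Q with rfl | hQ
  · rw [HC_zero, zero_mulVec]
  · exact cC_zero_mode hQ h f

theorem ac_orb {Q : ℕ} {v : FV Q} (h : HC Q *ᵥ v = 0) (y : S2) (k : Fin (Q + 1))
    (hk : (k : ℕ) < 3) : cC (orb Q y k) *ᵥ (ca Q y *ᵥ v) = 0 := by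
  have hU := rotF_unitary Q y
  have h1 : star (rotF Q y) * rotF Q y = 1 := hU.1
  have key : cC (orb Q y k) * ca Q y = rotF Q y * (annC k * annC 0) * star (rotF Q y) := by
    rw [ca, ← orb_zero, ← rotF_conj_annC, ← rotF_conj_annC]
    calc rotF Q y * annC k * star (rotF Q y) * (rotF Q y * annC 0 * star (rotF Q y))
        = rotF Q y * annC k * (star (rotF Q y) * rotF Q y) * annC 0 * star (rotF Q y) := by
          simp only [Matrix.mul_assoc]
      _ = _ := by rw [h1]; simp only [Matrix.mul_assoc, Matrix.mul_one]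
  have hz : HC Q *ᵥ (star (rotF Q y) *ᵥ v) = 0 := by
    have hc : Commute (star (rotF Q y)) (HC Q) := by
      rw [rotF, star_Gam, star_rho]
      exact commute_Gam_HC' Q (spin_unit y).inv
    rw [mulVec_mulVec, ← hc.eq, ← mulVec_mulVec, h, mulVec_zero]
  rw [HC_mulVec_iff] at hz
  rw [mulVec_mulVec, key, ← mulVec_mulVec, ← mulVec_mulVec]
  suffices hs : (annC k * annC 0) *ᵥ (star (rotF Q y) *ᵥ v) = 0 by rw [hs, mulVec_zero]
  obtain ⟨k, hk'⟩ := k
  simp only at hk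
  interval_cases k
  · have : (⟨0, hk'⟩ : Fin (Q + 1)) = 0 := rfl
    rw [this, annC_mul_self, zero_mulVec]
  · obtain ⟨q, rfl⟩ : ∃ q, Q = q + 1 := ⟨Q - 1, by omega⟩
    obtain ⟨z, hz0, e⟩ := Bn_zero q
    have := hz 0
    rw [e, smul_mulVec] at this
    exact (smul_eq_zero.1 this).resolve_left hz0
  · obtain ⟨q, rfl⟩ : ∃ q, Q = q + 2 := ⟨Q - 2, by omega⟩
    obtain ⟨z, hz0, e⟩ := Bn_one q
    have := hz 1
    rw [e, smul_mulVec] at this
    exact (smul_eq_zero.1 this).resolve_left hz0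

theorem ac_fill
    (hrep : ∀ (Q : ℕ) (a : S2) (v : FV Q), HC Q *ᵥ v = 0 →
      (∀ k : Fin (Q + 1), (k : ℕ) < 3 → cC (orb Q a k) *ᵥ v = 0) →
        v ∈ ZD Q (Multiset.replicate 3 a))
    {N : ℕ} (y : S2) (D : Multiset S2) : ∀ {Q : ℕ} {v : FV Q}, InZ Q D (N + 1) v →
      InZ Q (D + Multiset.replicate 3 y) N (ca Q y *ᵥ v) := by
  induction D using Multiset.induction_on with
  | empty =>
    intro Q v h
    rw [zero_add]
    refine ⟨?_, hrep Q y _ (ac_ham h.2.1 _) fun k hk => ac_orb h.2.1 y k hk⟩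
    rw [mulVec_mulVec, ca, secP_mul_cC, ← mulVec_mulVec, h.1]
  | cons a D ih =>
    intro Q v h
    cases Q with
    | zero =>
      rw [ac_zero_lt h (by omega) (by simp), mulVec_zero]
      exact ⟨mulVec_zero _, Submodule.zero_mem _⟩
    | succ q =>
      obtain ⟨I, M, hE⟩ := exists_emb q (spin_unit a)
      obtain ⟨v', hv', rfl⟩ := hE.InZ_cons.1 h
      rw [Multiset.cons_add]
      refine hE.InZ_cons.2 ⟨wedge (spin a) (spin y) • (ca q y *ᵥ v'), ?_, ?_⟩
      · have := ih hv'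
        exact ⟨by rw [mulVec_smul, this.1], Submodule.smul_mem _ _ this.2⟩
      · rw [mulVec_mulVec, ca_eq, hE.ch_mul, smul_mulVec, mulVec_smul, mulVec_mulVec, ca_eq]

end Crest.Agent.R340.Pin
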