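import Crest.Agent.R340.AlShift

/-! # Row 340, module ALG: multiplication by one linear factor (architect helper44) -/

set_option autoImplicit false

namespace Crest.Agent.R340.Pin

open Matrix Crest.MathPhysics.Laughlin
open scoped Matrix.Norms.L2Operator MatrixOrder ComplexOrder ComplexConjugate

variable {q Q : ℕ}

/-- `M` multiplies wave functions by `u ∧ y`, `I` is its second quantisation -/
structure Emb (q : ℕ) (u : ℂ × ℂ) (I : Matrix (Finset (Fin (q + 2))) (Finset (Fin (q + 1))) ℂ)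
    (M : Matrix (Fin (q + 2)) (Fin (q + 1)) ℂ) : Prop where
  ev : ∀ ψ y, evalO (q + 1) (M *ᵥ ψ) y = wedge u y * evalO q ψ y
  surj : ∀ f', ∃ f, Mᴴ *ᵥ f = f'
  inj : ∀ v, I *ᵥ v = 0 → v = 0
  cc : ∀ f, cC f * I = I * cC (Mᴴ *ᵥ f)
  ham : ∀ v, HC (q + 1) *ᵥ (I *ᵥ v) = 0 ↔ HC q *ᵥ v = 0
  sec : ∀ N, secP (q + 2) N * I = I * secP (q + 1) N
  onto : ∀ χ, ch (q + 1) u *ᵥ χ = 0 → ∃ v, χ = I *ᵥ v

/-! ### part A: wave functions -/

theorem evalO_eq (Q : ℕ) (ψ : Fin (Q + 1) → ℂ) (y : ℂ × ℂ) : evalO Q ψ y =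
    ∑ j : Fin (Q + 1), (Real.sqrt (Q.choose j) : ℂ) * (y.1 ^ (Q - j) * y.2 ^ (j : ℕ)) * ψ j := by
  unfold evalO dotProduct
  refine Finset.sum_congr rfl fun j _ => ?_
  simp only [Pi.star_apply, kv, RCLike.star_def, map_mul, Complex.conj_ofReal, Complex.conj_conj]

theorem evalO_add (Q : ℕ) (ψ φ : Fin (Q + 1) → ℂ) (y : ℂ × ℂ) :
    evalO Q (ψ + φ) y = evalO Q ψ y + evalO Q φ y := by
  unfold evalO
  rw [dotProduct_add]

theorem evalO_smul (Q : ℕ) (z : ℂ) (ψ : Fin (Q + 1) → ℂ) (y : ℂ × ℂ) :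
    evalO Q (z • ψ) y = z * evalO Q ψ y := by
  unfold evalO
  rw [dotProduct_smul, smul_eq_mul]

/-- `g29_ext` -/
theorem evalO_ext {ψ φ : Fin (Q + 1) → ℂ} (h : ∀ y, evalO Q ψ y = evalO Q φ y) : ψ = φ := by
  exact g29_ext fun w => h (1, w)

/-- `star_rho`, `rho_mulVec_kv` -/
theorem evalO_rho (Q : ℕ) (u : ℂ × ℂ) (ψ : Fin (Q + 1) → ℂ) (y : ℂ × ℂ) :
    evalO Q (rho Q u *ᵥ ψ) y = evalO Q ψ (act (spInv u) y) := by
  unfold evalO
  rw [← rho_mulVec_kv, ← star_rho, Matrix.star_mulVec, dotProduct_mulVec,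
    Matrix.star_eq_conjTranspose, conjTranspose_conjTranspose]

theorem act_spInv {u : ℂ × ℂ} (hu : IsUnitSp u) (y : ℂ × ℂ) : act u (act (spInv u) y) = y := by
  have h := g29_unit hu
  refine Prod.ext ?_ ?_
  · simp only [act, spInv, map_neg, Complex.conj_conj]
    linear_combination y.1 * h
  · simp only [act, spInv, map_neg, Complex.conj_conj]
    linear_combination y.2 * h

theorem act_spInv_snd (u y : ℂ × ℂ) : (act (spInv u) y).2 = wedge u y := by
  simp only [act, spInv, wedge, Complex.conj_conj]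
  ring

theorem wedge_self (u : ℂ × ℂ) : wedge u u = 0 := by
  unfold wedge
  ring

/-- `spin_wedge_sq`, `tS` -/
theorem wedge_spin_ne {a b : S2} (h : a ≠ b) : wedge (spin a) (spin b) ≠ 0 := by
  intro h0
  have h1 := spin_wedge_sq b a
  have h2 : -(spin a).2 * (spin b).1 + (spin a).1 * (spin b).2 = 0 := by
    unfold wedge at h0
    linear_combination h0
  rw [h2, tS] at h1
  have h3 : ‖(b : EuclideanSpace ℝ (Fin 3)) - (a : EuclideanSpace ℝ (Fin 3))‖ ^ 2 = 0 := by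
    simp only [norm_zero] at h1
    linarith
  have h4 := norm_eq_zero.1 (pow_eq_zero_iff (two_ne_zero) |>.1 h3)
  exact h (Subtype.ext (sub_eq_zero.1 h4).symm)

/-- a nonzero wave function is not killed by a linear factor (`t ↦ evalO ψ (1, t)` is a polynomial
vanishing off at most one point; `eq_zero_of_kv`) -/
theorem eq_zero_of_wedge_mul {u : ℂ × ℂ} (hu : IsUnitSp u) {ψ : Fin (Q + 1) → ℂ}
    (h : ∀ y, wedge u y * evalO Q ψ y = 0) : ψ = 0 := by
  refine eq_zero_of_kv fun w => ?_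
  change evalO Q ψ (1, w) = 0
  by_cases h1 : u.1 = 0
  · have h2 : u.2 ≠ 0 := by
      intro h2
      have := g29_unit hu
      simp [h1, h2] at this
    have h3 := h (1, w)
    have h4 : wedge u (1, w) ≠ 0 := by
      simpa [wedge, h1] using h2
    exact (mul_eq_zero.1 h3).resolve_left h4
  · have hc : Continuous fun t : ℂ => evalO Q ψ (1, t) := by
      simp only [evalO_eq]
      fun_prop
    have he : (fun t : ℂ => evalO Q ψ (1, t)) = fun _ => 0 := by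
      refine Continuous.ext_on (dense_compl_singleton (u.2 / u.1)) hc continuous_const ?_
      intro t ht
      have h4 : wedge u (1, t) ≠ 0 := by
        intro h5
        apply ht
        simp only [wedge, mul_one] at h5
        rw [Set.mem_singleton_iff, eq_div_iff h1]
        linear_combination h5
      exact (mul_eq_zero.1 (h (1, t))).resolve_left h4
    exact congrFun he w

theorem en61_kv (Q : ℕ) : kv Q (1, 0) = Pi.single 0 1 := by
  funext j
  refine Fin.cases ?_ (fun j => ?_) j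
  · simp [kv]
  · simp [kv]

theorem en61_choose (q j : ℕ) : Real.sqrt ((q + 1).choose (j + 1)) *
    Real.sqrt (((j : ℝ) + 1) / (q + 1)) = Real.sqrt (q.choose j) := by
  rw [← Real.sqrt_mul (Nat.cast_nonneg _)]
  congr 1
  have h : ((q : ℝ) + 1) * q.choose j = (q + 1).choose (j + 1) * ((j : ℝ) + 1) := by
    exact_mod_cast Nat.add_one_mul_choose_eq q j
  have hq : (q : ℝ) + 1 ≠ 0 := by positivity
  field_simp
  linarith

theorem en61_dd (q j : ℕ) : dd j * Real.sqrt (((j : ℝ) + 1) / (q + 1)) =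
    1 * ((Real.sqrt ((q : ℝ) + 1))⁻¹ * 1 ^ j) := by
  have hj : 0 < Real.sqrt ((j : ℝ) + 1) := Real.sqrt_pos.2 (by positivity)
  rw [dd, Real.sqrt_div (by positivity), one_pow]
  field_simp

/-- North pole: `s j = √((j+1)/(q+1))`, `M i j = if i = j.succ then s j else 0`,
`I = shM * Gam (diagonal s)`; `dd j * s j = (√(q+1))⁻¹` (`Bdf_mul_Gam`, `Bdf_geom` with `τ = 1`,
`Bn_mul_shM`, `Bn_mul_shM_lt`, `HC_mulVec_iff`, `kap_pos`; `q = 0`: `HC_zero`, `Bn 0 p = 0`);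
`kv (q+1) (1,0) = Pi.single 0 1`. -/
theorem exists_emb_north (q : ℕ) : ∃ I M, Emb q (1, 0) I M := by
  set s : ℕ → ℝ := fun j => Real.sqrt (((j : ℝ) + 1) / (q + 1)) with hs
  have hs0 : ∀ j, (s j : ℂ) ≠ 0 := fun j =>
    Complex.ofReal_ne_zero.2 (Real.sqrt_pos.2 (by positivity)).ne'
  set G : Fk (q + 1) := Gam (diagonal fun j : Fin (q + 1) => (s j : ℂ)) with hG
  set G' : Fk (q + 1) := Gam (diagonal fun j : Fin (q + 1) => (s j : ℂ)⁻¹) with hG'
  have hGG' : G * G' = 1 := by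
    rw [hG, hG', ← Gam_mul, diagonal_mul_diagonal]
    simp only [mul_inv_cancel₀ (hs0 _), diagonal_one, Gam_one]
  have hG'G : G' * G = 1 := by
    rw [hG, hG', ← Gam_mul, diagonal_mul_diagonal]
    simp only [inv_mul_cancel₀ (hs0 _), diagonal_one, Gam_one]
  set M : Matrix (Fin (q + 2)) (Fin (q + 1)) ℂ :=
    Matrix.of fun i j => if i = j.succ then (s j : ℂ) else 0 with hM
  have hM0 : ∀ ψ, (M *ᵥ ψ) 0 = 0 := by
    intro ψ
    simp [hM, mulVec, dotProduct, (Fin.succ_ne_zero _).symm]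
  have hM1 : ∀ ψ (j : Fin (q + 1)), (M *ᵥ ψ) j.succ = s j * ψ j := by
    intro ψ j
    simp [hM, mulVec, dotProduct]
  have hM2 : ∀ f (j : Fin (q + 1)), (Mᴴ *ᵥ f) j = s j * f j.succ := by
    intro f j
    simp [hM, mulVec, dotProduct, conjTranspose_apply, apply_ite star]
  have hinj : ∀ v, (shM (q + 1) * G) *ᵥ v = 0 → v = 0 := by
    intro v hv
    have h1 : (G' * ((shM (q + 1))ᴴ * (shM (q + 1) * G))) *ᵥ v = 0 := by
      rw [← mulVec_mulVec, ← mulVec_mulVec, hv, mulVec_zero, mulVec_zero]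
    rwa [← Matrix.mul_assoc (shM (q + 1))ᴴ, shM_star_mul, Matrix.one_mul, hG'G, one_mulVec] at h1
  have hB : ∀ p, Bn (q + 1) (p + 2) * (shM (q + 1) * G) =
      ((kap q p : ℂ) * (((Real.sqrt ((q : ℝ) + 1))⁻¹ ^ 2 * 1 ^ (p + 1) : ℝ) : ℂ)) •
        ((shM (q + 1) * G) * Bn q p) := by
    intro p
    have e : (fun j => dd j * s j) =
        fun j : ℕ => (fun _ : ℕ => (1 : ℝ)) j * ((Real.sqrt ((q : ℝ) + 1))⁻¹ * 1 ^ j) :=
      funext fun j => en61_dd q j
    rw [← Matrix.mul_assoc, Bn_mul_shM, Matrix.smul_mul, Matrix.mul_assoc, hG, Bdf_mul_Gam, e,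
      Bdf_geom, ← Bn_eq_Bdf, mul_smul_comm, Matrix.mul_smul, smul_smul, Matrix.mul_assoc]
  refine ⟨shM (q + 1) * G, M, fun ψ y => ?_, fun f' => ?_, hinj, fun f => ?_, fun v => ?_,
    fun N => ?_, fun χ hχ => ?_⟩
  · rw [evalO_eq, evalO_eq, Fin.sum_univ_succ, hM0, mul_zero, zero_add, Finset.mul_sum]
    refine Finset.sum_congr rfl fun j _ => ?_
    have h : (Real.sqrt ((q + 1).choose (j + 1)) : ℂ) * (s j : ℂ) = Real.sqrt (q.choose j) := by
      rw [← Complex.ofReal_mul, en61_choose]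
    rw [hM1, Fin.val_succ, Nat.add_sub_add_right, ← h, wedge]
    ring
  · refine ⟨Fin.cons 0 fun j => (s j : ℂ)⁻¹ * f' j, funext fun j => ?_⟩
    rw [hM2, Fin.cons_succ, mul_inv_cancel_left₀ (hs0 _)]
  · rw [← Matrix.mul_assoc, cC_mul_shM, Matrix.mul_assoc, hG, cC_mul_Gam, Matrix.mul_assoc]
    congr 3
    funext j
    rw [hM2, star_eq_conjTranspose, diagonal_conjTranspose, mulVec_diagonal]
    simp
  · rw [HC_mulVec_iff]
    constructor
    · intro h
      rcases Nat.eq_zero_or_pos q with hq | hq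
      · subst hq
        rw [HC_zero, zero_mulVec]
      · rw [HC_mulVec_iff]
        intro p
        have h1 := h (p + 2)
        rw [mulVec_mulVec, hB, smul_mulVec, smul_eq_zero, ← mulVec_mulVec] at h1
        refine hinj _ (h1.resolve_left (mul_ne_zero ?_ ?_))
        · exact Complex.ofReal_ne_zero.2 (kap_pos hq p).ne'
        · have : 0 < Real.sqrt ((q : ℝ) + 1) := Real.sqrt_pos.2 (by positivity)
          exact Complex.ofReal_ne_zero.2 (by positivity)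
    · intro h p
      rw [HC_mulVec_iff] at h
      rw [mulVec_mulVec]
      rcases lt_or_ge p 2 with hp | hp
      · rw [← Matrix.mul_assoc, Bn_mul_shM_lt q hp, Matrix.zero_mul, zero_mulVec]
      · obtain ⟨p, rfl⟩ := Nat.exists_eq_add_of_le' hp
        rw [hB, smul_mulVec, ← mulVec_mulVec, h, mulVec_zero, smul_zero]
  · rw [← Matrix.mul_assoc, secP_mul_shM, Matrix.mul_assoc, hG, secP_mul_Gam, Matrix.mul_assoc]
  · rw [ch, en61_kv, cC_single] at hχ
    refine ⟨G' *ᵥ ((shM (q + 1))ᴴ *ᵥ χ), ?_⟩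
    rw [mulVec_mulVec, Matrix.mul_assoc, hGG', Matrix.mul_one]
    exact eq_shM_of_annC hχ

theorem a29_Gam_inj {n : ℕ} {U : Matrix (Fin n) (Fin n) ℂ} (hU : U ∈ unitary (Matrix (Fin n) (Fin n) ℂ))
    {v : Finset (Fin n) → ℂ} : Gam U *ᵥ v = 0 ↔ v = 0 := by
  refine ⟨fun h => ?_, fun h => by rw [h, mulVec_zero]⟩
  have h1 : star (Gam U) * Gam U = 1 := (Gam_unitary hU).1
  rw [← one_mulVec v, ← h1, ← mulVec_mulVec, h, mulVec_zero]

/-- conjugate: `I' = Gam (rho (q+1) u) * I * Gam (rho q (spInv u))`,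
`M' = rho (q+1) u * M * rho q (spInv u)` (`cC_mul_Gam`, `commute_Gam_HC'`, `secP_mul_Gam`,
`Gam_unitary`, `rho_mulVec_kv`) -/
theorem exists_emb (q : ℕ) {u : ℂ × ℂ} (hu : IsUnitSp u) : ∃ I M, Emb q u I M := by
  obtain ⟨I, M, h⟩ := exists_emb_north q
  have hU := rho_unitary (q + 1) hu
  have hV' := rho_unitary q hu.inv
  have sU := star_rho (q + 1) u
  have ii : spInv (spInv u) = u := by simp [spInv]
  have sV' : star (rho q (spInv u)) = rho q u := by rw [star_rho, ii]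
  have hU1 : star (rho (q + 1) u) * rho (q + 1) u = 1 := hU.1
  have hU2 : rho (q + 1) u * star (rho (q + 1) u) = 1 := hU.2
  have hV1 : rho q u * rho q (spInv u) = 1 := by rw [← sV']; exact hV'.1
  have hV2 : rho q (spInv u) * rho q u = 1 := by rw [← sV']; exact hV'.2
  have hM : (rho (q + 1) u * M * rho q (spInv u))ᴴ = rho q u * (Mᴴ * star (rho (q + 1) u)) := by
    rw [conjTranspose_mul, conjTranspose_mul, ← sV']
    rfl
  refine ⟨Gam (rho (q + 1) u) * I * Gam (rho q (spInv u)), rho (q + 1) u * M * rho q (spInv u),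
    fun ψ y => ?_, fun f' => ?_, fun v hv => ?_, fun f => ?_, fun v => ?_, fun N => ?_,
    fun χ hχ => ?_⟩
  · rw [← mulVec_mulVec, ← mulVec_mulVec, evalO_rho, h.ev, evalO_rho, ii, act_spInv hu,
      ← act_spInv_snd u y, wedge]
    simp
  · obtain ⟨f, hf⟩ := h.surj (rho q (spInv u) *ᵥ f')
    refine ⟨rho (q + 1) u *ᵥ f, ?_⟩
    rw [hM, ← mulVec_mulVec, ← mulVec_mulVec, mulVec_mulVec f, hU1, one_mulVec, hf, mulVec_mulVec,
      hV1, one_mulVec]
  · rw [← mulVec_mulVec, ← mulVec_mulVec, a29_Gam_inj hU] at hv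
    exact (a29_Gam_inj hV').1 (h.inj _ hv)
  · rw [hM, ← mulVec_mulVec, ← mulVec_mulVec, ← Matrix.mul_assoc, ← Matrix.mul_assoc, cC_mul_Gam,
      Matrix.mul_assoc (Gam _) (cC _), h.cc, ← Matrix.mul_assoc, Matrix.mul_assoc _ (cC _),
      cC_mul_Gam, sV', ← Matrix.mul_assoc]
  · have c1 : HC (q + 1) * Gam (rho (q + 1) u) = Gam (rho (q + 1) u) * HC (q + 1) :=
      (commute_Gam_HC' (q + 1) hu).eq.symm
    have c2 : HC q * Gam (rho q (spInv u)) = Gam (rho q (spInv u)) * HC q :=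
      (commute_Gam_HC' q hu.inv).eq.symm
    rw [← mulVec_mulVec, ← mulVec_mulVec, mulVec_mulVec _ (HC _), c1, ← mulVec_mulVec,
      a29_Gam_inj hU, h.ham, mulVec_mulVec, c2, ← mulVec_mulVec, a29_Gam_inj hV']
  · rw [← Matrix.mul_assoc, ← Matrix.mul_assoc, secP_mul_Gam, Matrix.mul_assoc (Gam _) (secP _ _),
      h.sec, ← Matrix.mul_assoc, Matrix.mul_assoc _ (secP _ _), secP_mul_Gam, ← Matrix.mul_assoc]
  · have e : act u (1, 0) = u := by simp [act]
    have h0 : ch (q + 1) (1, 0) *ᵥ (Gam (star (rho (q + 1) u)) *ᵥ χ) = 0 := by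
      rw [mulVec_mulVec, ch, cC_mul_Gam, star_star, rho_mulVec_kv, e, ← mulVec_mulVec]
      rw [ch] at hχ
      rw [hχ, mulVec_zero]
    obtain ⟨v, hv⟩ := h.onto _ h0
    refine ⟨Gam (rho q u) *ᵥ v, ?_⟩
    rw [← mulVec_mulVec, ← mulVec_mulVec, mulVec_mulVec v, ← Gam_mul, hV2, Gam_one, one_mulVec,
      ← hv, mulVec_mulVec, ← Gam_mul, hU2, Gam_one, one_mulVec]

/-! ### part B: removing one pin -/

variable {a : S2} {D : Multiset S2} {I : Matrix (Finset (Fin (q + 2))) (Finset (Fin (q + 1))) ℂ}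
  {M : Matrix (Fin (q + 2)) (Fin (q + 1)) ℂ}

theorem Dv_nil (ψ : Fin (Q + 1) → ℂ) : Dv Q 0 ψ := by
  refine ⟨fun j => if h : j < Q + 1 then (Real.sqrt (Q.choose j) : ℂ) * ψ ⟨j, h⟩ else 0, fun y => ?_⟩
  rw [evalO_eq, Finset.sum_range]
  simp only [piD, Multiset.map_zero, Multiset.prod_zero, one_mul, Multiset.card_zero, Nat.sub_zero]
  refine Finset.sum_congr rfl fun j _ => ?_
  rw [dif_pos j.2]
  ring

theorem Kv_nil {f : Fin (Q + 1) → ℂ} : Kv Q 0 f ↔ f = 0 := by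
  refine ⟨fun h => dotProduct_star_self_eq_zero.1 (h f (Dv_nil f)), fun h ψ _ => ?_⟩
  simp [h]

theorem mem_ZD_nil {v : FV Q} : v ∈ ZD Q 0 ↔ HC Q *ᵥ v = 0 := by
  refine ⟨fun h => h.1, fun h => ⟨h, fun f hf => ?_⟩⟩
  simp [Kv_nil.1 hf, cC]

theorem Dv_of_lt (h : Q < D.card) {ψ : Fin (Q + 1) → ℂ} : Dv Q D ψ ↔ ψ = 0 := by
  have e : Q + 1 - D.card = 0 := by omega
  constructor
  · rintro ⟨b, hb⟩
    refine evalO_ext fun y => ?_
    rw [hb, e]
    simp [evalO]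
  · rintro rfl
    exact ⟨0, fun y => by simp [evalO]⟩

theorem Kv_of_lt (h : Q < D.card) (f : Fin (Q + 1) → ℂ) : Kv Q D f := by
  intro ψ hψ
  simp [(Dv_of_lt h).1 hψ]

/-- induction on `D` generalising `Q` (`exists_emb`, `Emb.ev`) -/
theorem exists_Dv (Q : ℕ) (D : Multiset S2) (b : ℕ → ℂ) : ∃ ψ, ∀ y : ℂ × ℂ, evalO Q ψ y =
    piD D y * ∑ j ∈ Finset.range (Q + 1 - D.card), b j * (y.1 ^ (Q - D.card - j) * y.2 ^ j) := by
  induction D using Multiset.induction_on generalizing Q with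
  | empty =>
    refine ⟨fun j => b j / (Real.sqrt (Q.choose j) : ℂ), fun y => ?_⟩
    rw [evalO_eq, Finset.sum_range]
    simp only [piD, Multiset.map_zero, Multiset.prod_zero, one_mul, Multiset.card_zero, Nat.sub_zero]
    refine Finset.sum_congr rfl fun j _ => ?_
    have h0 : (Real.sqrt (Q.choose j) : ℂ) ≠ 0 := by
      have : 0 < Q.choose j := Nat.choose_pos (Nat.lt_succ_iff.1 j.2)
      exact_mod_cast (Real.sqrt_pos.2 (by exact_mod_cast this)).ne'
    field_simp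
  | cons a D ih =>
    cases Q with
    | zero => exact ⟨0, fun y => by simp [evalO]⟩
    | succ q =>
      obtain ⟨I, M, h⟩ := exists_emb q (spin_unit a)
      obtain ⟨ψ, hψ⟩ := ih q
      refine ⟨M *ᵥ ψ, fun y => ?_⟩
      rw [h.ev, hψ, Multiset.card_cons, Nat.add_sub_add_right, Nat.add_sub_add_right]
      simp only [piD, Multiset.map_cons, Multiset.prod_cons, mul_assoc]

theorem Emb.Dv_cons (h : Emb q (spin a) I M) {ψ : Fin (q + 2) → ℂ} :
    Dv (q + 1) (a ::ₘ D) ψ ↔ ∃ ψ', Dv q D ψ' ∧ ψ = M *ᵥ ψ' := by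
  have key : ∀ (b : ℕ → ℂ) (y : ℂ × ℂ), piD (a ::ₘ D) y *
      ∑ j ∈ Finset.range (q + 1 + 1 - (a ::ₘ D).card),
        b j * (y.1 ^ (q + 1 - (a ::ₘ D).card - j) * y.2 ^ j) = wedge (spin a) y * (piD D y *
      ∑ j ∈ Finset.range (q + 1 - D.card), b j * (y.1 ^ (q - D.card - j) * y.2 ^ j)) := by
    intro b y
    rw [Multiset.card_cons, Nat.add_sub_add_right, Nat.add_sub_add_right]
    simp only [piD, Multiset.map_cons, Multiset.prod_cons, mul_assoc]
  constructor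
  · rintro ⟨b, hb⟩
    obtain ⟨ψ', hψ'⟩ := exists_Dv q D b
    exact ⟨ψ', ⟨b, hψ'⟩, evalO_ext fun y => by rw [hb, key, h.ev, hψ']⟩
  · rintro ⟨ψ', ⟨b, hb⟩, rfl⟩
    exact ⟨b, fun y => by rw [key, h.ev, hb]⟩

theorem Emb.Kv_cons (h : Emb q (spin a) I M) {f : Fin (q + 2) → ℂ} :
    Kv (q + 1) (a ::ₘ D) f ↔ Kv q D (Mᴴ *ᵥ f) := by
  have key : ∀ ψ', star f ⬝ᵥ (M *ᵥ ψ') = star (Mᴴ *ᵥ f) ⬝ᵥ ψ' := by
    intro ψ'
    rw [star_mulVec, conjTranspose_conjTranspose, dotProduct_mulVec]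
  constructor
  · intro hf ψ' hψ'
    rw [← key]
    exact hf _ (h.Dv_cons.2 ⟨ψ', hψ', rfl⟩)
  · intro hf ψ hψ
    obtain ⟨ψ', hψ', rfl⟩ := h.Dv_cons.1 hψ
    rw [key]
    exact hf _ hψ'

theorem Kv_coh {D : Multiset S2} (ha : a ∈ D) : Kv Q D (coh Q a) := by
  rintro ψ ⟨b, hb⟩
  have h0 : piD D (spin a) = 0 :=
    Multiset.prod_eq_zero (Multiset.mem_map.2 ⟨a, ha, wedge_self _⟩)
  have := hb (spin a)
  rw [h0, zero_mul] at this
  exact this

theorem Emb.ZD_cons (h : Emb q (spin a) I M) {v : FV (q + 1)} :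
    v ∈ ZD (q + 1) (a ::ₘ D) ↔ ∃ v' ∈ ZD q D, v = I *ᵥ v' := by
  have key : ∀ f v', cC f *ᵥ (I *ᵥ v') = I *ᵥ (cC (Mᴴ *ᵥ f) *ᵥ v') := by
    intro f v'
    rw [mulVec_mulVec, mulVec_mulVec, h.cc]
  constructor
  · intro hv
    obtain ⟨v', rfl⟩ := h.onto v (hv.2 _ (Kv_coh (Multiset.mem_cons_self a D)))
    refine ⟨v', ⟨(h.ham v').1 hv.1, fun f' hf' => ?_⟩, rfl⟩
    obtain ⟨f, rfl⟩ := h.surj f'
    refine h.inj _ ?_
    rw [← key]
    exact hv.2 f (h.Kv_cons.2 hf')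
  · rintro ⟨v', hv', rfl⟩
    refine ⟨(h.ham v').2 hv'.1, fun f hf => ?_⟩
    rw [key, hv'.2 _ (h.Kv_cons.1 hf), mulVec_zero]

theorem Emb.InZ_cons (h : Emb q (spin a) I M) {N : ℕ} {v : FV (q + 1)} :
    InZ (q + 1) (a ::ₘ D) N v ↔ ∃ v', InZ q D N v' ∧ v = I *ᵥ v' := by
  have key : ∀ v', secP (q + 2) N *ᵥ (I *ᵥ v') = I *ᵥ (secP (q + 1) N *ᵥ v') := by
    intro v'
    rw [mulVec_mulVec, mulVec_mulVec, h.sec]
  constructor
  · rintro ⟨hs, hv⟩
    obtain ⟨v', hv', rfl⟩ := h.ZD_cons.1 hv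
    refine ⟨v', ⟨?_, hv'⟩, rfl⟩
    rw [← sub_eq_zero]
    refine h.inj _ ?_
    rw [mulVec_sub, ← key, hs, sub_self]
  · rintro ⟨v', ⟨hs, hv'⟩, rfl⟩
    exact ⟨by rw [key, hs], h.ZD_cons.2 ⟨v', hv', rfl⟩⟩

/-- a wave function vanishing at `a` is in the range of `M`: north pole first or directly from
`Emb.surj`, `Emb.ev` and a dimension count (`ker Mᴴ` is the line of `coh a`) -/
theorem Emb.range (h : Emb q (spin a) I M) {ψ : Fin (q + 2) → ℂ}
    (h0 : evalO (q + 1) ψ (spin a) = 0) : ∃ ψ', ψ = M *ᵥ ψ' := by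
  let φ : (Fin (q + 2) → ℂ) →ₗ[ℂ] ℂ :=
    { toFun := fun ψ => evalO (q + 1) ψ (spin a)
      map_add' := fun ψ ψ' => evalO_add _ _ _ _
      map_smul' := fun z ψ => evalO_smul _ _ _ _ }
  have hle : LinearMap.range M.mulVecLin ≤ LinearMap.ker φ := by
    rintro _ ⟨ψ', rfl⟩
    show evalO (q + 1) (M *ᵥ ψ') (spin a) = 0
    rw [h.ev, wedge_self, zero_mul]
  have hinj : Function.Injective M.mulVecLin := by
    rw [← LinearMap.ker_eq_bot, LinearMap.ker_eq_bot']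
    intro ψ' hψ'
    refine eq_zero_of_wedge_mul (spin_unit a) fun y => ?_
    have e : M *ᵥ ψ' = 0 := hψ'
    rw [← h.ev, e, evalO, dotProduct_zero]
  have hr : Module.finrank ℂ (LinearMap.range M.mulVecLin) = q + 1 := by
    rw [LinearMap.finrank_range_of_inj hinj]
    simp
  have hne : LinearMap.ker φ ≠ ⊤ := by
    intro ht
    have hm : kv (q + 1) (spin a) ∈ LinearMap.ker φ := ht ▸ Submodule.mem_top
    have h1 : evalO (q + 1) (kv (q + 1) (spin a)) (spin a) = 0 := hm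
    have h2 := g29_unit (spin_unit a)
    rw [evalO, kv_dot, mul_comm (spin a).1, mul_comm (spin a).2, h2, one_pow] at h1
    exact one_ne_zero h1
  have hk : Module.finrank ℂ (LinearMap.ker φ) < q + 2 := by
    simpa using Submodule.finrank_lt hne
  have heq := Submodule.eq_of_le_of_finrank_le hle (by omega)
  have hm : ψ ∈ LinearMap.range M.mulVecLin := heq ▸ (show ψ ∈ LinearMap.ker φ from h0)
  obtain ⟨ψ', hψ'⟩ := hm
  exact ⟨ψ', hψ'.symm⟩

/-- a vector killed by all annihilators is a multiple of the vacuum -/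
theorem eq_zero_of_all_cC {n N : ℕ} (hN : 1 ≤ N) {v : Finset (Fin n) → ℂ}
    (hs : secP n N *ᵥ v = v) (h : ∀ f, cC f *ᵥ v = 0) : v = 0 := by
  funext S
  by_cases hS : S.card = N
  · obtain ⟨j, hj⟩ : S.Nonempty := Finset.card_pos.1 (by omega)
    have h1 : annC j *ᵥ v = 0 := by rw [← cC_single]; exact h _
    have h2 : (star (annC j) * annC j) *ᵥ v = 0 := by
      rw [← Matrix.mulVec_mulVec, h1, Matrix.mulVec_zero]
    rw [g51_num] at h2
    have h3 := congrFun h2 S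
    rw [Matrix.mulVec_diagonal] at h3
    simpa [hj] using h3
  · exact (secP_mulVec_iff v).1 hs S hS

end Crest.Agent.R340.Pin
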