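import Crest.Agent.R340.AlEmb

/-! # Row 340, module ALG: one-body facts about `Dv`, `Kv` (architect helper44) -/

set_option autoImplicit false

namespace Crest.Agent.R340.Pin

open Matrix Crest.MathPhysics.Laughlin
open scoped Matrix.Norms.L2Operator MatrixOrder ComplexOrder ComplexConjugate

variable {Q : ℕ} {D D' : Multiset S2}

/-! ### part A: linear algebra and cancellation -/

/-- double orthogonal complement (`Submodule.orthogonal_orthogonal` in `EuclideanSpace`) -/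
theorem mem_span_of_perp {ι : Type} [Fintype ι] (S : Set (ι → ℂ)) {f : ι → ℂ}
    (h : ∀ ψ, (∀ g ∈ S, star g ⬝ᵥ ψ = 0) → star f ⬝ᵥ ψ = 0) : f ∈ Submodule.span ℂ S := by
  set K : Submodule ℂ (EuclideanSpace ℂ ι) :=
    (Submodule.span ℂ S).comap (WithLp.linearEquiv 2 ℂ (ι → ℂ)).toLinearMap with hK
  have h1 : (WithLp.toLp 2 f : EuclideanSpace ℂ ι) ∈ Kᗮᗮ := by
    rw [Submodule.mem_orthogonal']
    intro ψ hψ
    rw [EuclideanSpace.inner_eq_star_dotProduct, dotProduct_comm]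
    refine h _ fun g hg => ?_
    have h2 := (Submodule.mem_orthogonal K ψ).1 hψ (WithLp.toLp 2 g) (Submodule.subset_span hg)
    rwa [EuclideanSpace.inner_eq_star_dotProduct, dotProduct_comm] at h2
  rw [Submodule.orthogonal_orthogonal] at h1
  exact h1

theorem Dv_add {ψ φ : Fin (Q + 1) → ℂ} (h : Dv Q D ψ) (h' : Dv Q D φ) : Dv Q D (ψ + φ) := by
  obtain ⟨b, hb⟩ := h
  obtain ⟨b', hb'⟩ := h'
  refine ⟨fun j => b j + b' j, fun y => ?_⟩
  have e : evalO Q (ψ + φ) y = evalO Q ψ y + evalO Q φ y := dotProduct_add _ _ _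
  rw [e, hb, hb', ← mul_add, ← Finset.sum_add_distrib]
  simp only [add_mul]

theorem Dv_smul (z : ℂ) {ψ : Fin (Q + 1) → ℂ} (h : Dv Q D ψ) : Dv Q D (z • ψ) := by
  obtain ⟨b, hb⟩ := h
  refine ⟨fun j => z * b j, fun y => ?_⟩
  have e : evalO Q (z • ψ) y = z * evalO Q ψ y := dotProduct_smul _ _ _
  rw [e, hb, mul_left_comm, Finset.mul_sum _ _ z]
  simp only [mul_assoc]

theorem Dv_zero (Q : ℕ) (D : Multiset S2) : Dv Q D 0 := by
  refine ⟨fun _ => 0, fun y => ?_⟩
  simp [evalO]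

/-- `mem_span_of_perp` with `S = {ψ | Dv Q D ψ}`, `Submodule.span_induction` -/
theorem Dv_of_perp {ψ : Fin (Q + 1) → ℂ} (h : ∀ f, Kv Q D f → star f ⬝ᵥ ψ = 0) : Dv Q D ψ := by
  have h1 : ψ ∈ Submodule.span ℂ {φ | Dv Q D φ} := mem_span_of_perp _ fun f hf => by
    have h2 := h f fun φ hφ => by
      have := congrArg star (hf φ hφ)
      rwa [star_dotProduct, star_star, star_zero] at this
    have := congrArg star h2
    rwa [star_dotProduct, star_star, star_zero] at this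
  clear h
  induction h1 using Submodule.span_induction with
  | mem x hx => exact hx
  | zero => exact Dv_zero Q D
  | add x y _ _ hx hy => exact Dv_add hx hy
  | smul z x _ hx => exact Dv_smul z hx

/-- `mem_span_of_perp`, `Submodule.span_induction`, `cC_add`, `cC_smul` -/
theorem mem_ZD_of_gen (S : Set (Fin (Q + 1) → ℂ)) (h1 : ∀ g ∈ S, Kv Q D g)
    (h2 : ∀ ψ, (∀ g ∈ S, star g ⬝ᵥ ψ = 0) → Dv Q D ψ) {v : FV Q} :
    v ∈ ZD Q D ↔ HC Q *ᵥ v = 0 ∧ ∀ g ∈ S, cC g *ᵥ v = 0 := by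
  refine ⟨fun h => ⟨h.1, fun g hg => h.2 g (h1 g hg)⟩, fun h => ⟨h.1, fun f hf => ?_⟩⟩
  have h3 : f ∈ Submodule.span ℂ S := mem_span_of_perp S fun ψ hψ => hf ψ (h2 ψ hψ)
  clear hf
  induction h3 using Submodule.span_induction with
  | mem x hx => exact h.2 x hx
  | zero => simp [cC]
  | add x y _ _ hx hy => rw [cC_add, add_mulVec, hx, hy, add_zero]
  | smul z x _ hx => rw [cC_smul, smul_mulVec, hx, smul_zero]

/-- along `t ↦ y + t • (-conj u.2, conj u.1)` the wedge is `wedge u y + t`; continuity at `t = 0` -/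
theorem cancel_wedge {u : ℂ × ℂ} (hu : IsUnitSp u) {F : ℂ × ℂ → ℂ} (hF : Continuous F)
    (h : ∀ y, wedge u y * F y = 0) (y : ℂ × ℂ) : F y = 0 := by
  have h1 := g29_unit hu
  have hc : Continuous fun t : ℂ => F (y.1 - t * conj u.2, y.2 + t * conj u.1) :=
    hF.comp (by fun_prop)
  have he : (fun t : ℂ => F (y.1 - t * conj u.2, y.2 + t * conj u.1)) = fun _ => 0 := by
    refine Continuous.ext_on (dense_compl_singleton (-wedge u y)) hc continuous_const ?_
    intro t ht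
    refine (mul_eq_zero.1 (h (y.1 - t * conj u.2, y.2 + t * conj u.1))).resolve_left fun h5 => ht ?_
    simp only [wedge] at h5
    rw [Set.mem_singleton_iff, wedge]
    linear_combination h5 - t * h1
  simpa using congrFun he 0

theorem continuous_piD (D : Multiset S2) : Continuous (piD D) := by
  unfold piD wedge
  exact continuous_multiset_prod D fun a _ => by fun_prop

theorem continuous_evalO (Q : ℕ) (ψ : Fin (Q + 1) → ℂ) : Continuous (evalO Q ψ) := by
  have e : evalO Q ψ = fun y => ∑ j : Fin (Q + 1),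
      (Real.sqrt (Q.choose j) : ℂ) * (y.1 ^ (Q - j) * y.2 ^ (j : ℕ)) * ψ j :=
    funext (evalO_eq Q ψ)
  rw [e]
  fun_prop

theorem cancel_piD (D : Multiset S2) {F : ℂ × ℂ → ℂ} (hF : Continuous F)
    (h : ∀ y, piD D y * F y = 0) (y : ℂ × ℂ) : F y = 0 := by
  induction D using Multiset.induction_on generalizing y with
  | empty => simpa [piD] using h y
  | cons a D ih =>
    refine ih (fun z => cancel_wedge (spin_unit a) ((continuous_piD D).mul hF) (fun w => ?_) z) y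
    have h1 := h w
    rw [piD, Multiset.map_cons, Multiset.prod_cons, mul_assoc] at h1
    exact h1

theorem piD_add (D D' : Multiset S2) (y : ℂ × ℂ) : piD (D + D') y = piD D y * piD D' y := by
  simp only [piD, Multiset.map_add, Multiset.prod_add]

theorem piD_spin_ne {b : S2} (h : b ∉ D) : piD D (spin b) ≠ 0 := by
  refine Multiset.prod_ne_zero fun h0 => ?_
  obtain ⟨a, ha, e⟩ := Multiset.mem_map.1 h0
  exact wedge_spin_ne (fun hab : a = b => h (hab ▸ ha)) e

/-! ### part B: divisibility -/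

/-- `b j = √C(r,j) φ j` (`evalO_eq`, `Fin.sum_univ_eq_sum_range`) -/
theorem Dv_iff {r : ℕ} (h : D.card + r = Q) {ψ : Fin (Q + 1) → ℂ} :
    Dv Q D ψ ↔ ∃ φ : Fin (r + 1) → ℂ, ∀ y, evalO Q ψ y = piD D y * evalO r φ y := by
  have e1 : Q + 1 - D.card = r + 1 := by omega
  have e2 : Q - D.card = r := by omega
  unfold Dv
  rw [e1, e2]
  have hs : ∀ j : Fin (r + 1), (Real.sqrt (r.choose j) : ℂ) ≠ 0 := fun j =>
    Complex.ofReal_ne_zero.2 (Real.sqrt_pos.2
      (Nat.cast_pos.2 (Nat.choose_pos (Nat.lt_succ_iff.1 j.2)))).ne'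
  constructor
  · rintro ⟨b, hb⟩
    refine ⟨fun j => (Real.sqrt (r.choose j) : ℂ)⁻¹ * b j, fun y => ?_⟩
    rw [hb, evalO_eq, ← Fin.sum_univ_eq_sum_range fun j => b j * (y.1 ^ (r - j) * y.2 ^ j)]
    congr 1
    refine Finset.sum_congr rfl fun j _ => ?_
    have := hs j
    field_simp
  · rintro ⟨φ, hφ⟩
    refine ⟨fun j => if hj : j < r + 1 then (Real.sqrt (r.choose j) : ℂ) * φ ⟨j, hj⟩ else 0,
      fun y => ?_⟩
    rw [hφ, evalO_eq, Finset.sum_range]
    congr 1
    refine Finset.sum_congr rfl fun j _ => ?_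
    simp only [dif_pos j.2]
    ring

theorem w81_cons (w : S2) (D : Multiset S2) (y : ℂ × ℂ) :
    piD (w ::ₘ D) y = wedge (spin w) y * piD D y := by
  simp only [piD, Multiset.map_cons, Multiset.prod_cons]

theorem w81_cont (u : ℂ × ℂ) : Continuous (wedge u) := by
  unfold wedge
  fun_prop

theorem w81_ex {ψ : Fin (Q + 1) → ℂ} (h : Dv Q D ψ) (h0 : ψ ≠ 0) : ∃ r, D.card + r = Q :=
  ⟨Q - D.card, by
    have : ¬ Q < D.card := fun hlt => h0 ((Dv_of_lt hlt).1 h)
    omega⟩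

/-- `r = 0`: `Dv_of_lt`, `evalO 0 φ` is constant.  `r = r' + 1`: `Dv_iff` for `w ::ₘ D`,
`exists_emb`, `Emb.range`, `Emb.ev`; for `→` use `cancel_piD`, `wedge_self`. -/
theorem Dv_cons_iff {r : ℕ} (h : D.card + r = Q) {ψ : Fin (Q + 1) → ℂ} {φ : Fin (r + 1) → ℂ}
    (e : ∀ y, evalO Q ψ y = piD D y * evalO r φ y) (w : S2) :
    Dv Q (w ::ₘ D) ψ ↔ evalO r φ (spin w) = 0 := by
  cases r with
  | zero =>
    have hc : ∀ y, evalO 0 φ y = φ 0 := fun y => by simp [evalO_eq]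
    rw [Dv_of_lt (by rw [Multiset.card_cons]; omega)]
    constructor
    · rintro rfl
      refine cancel_piD D (continuous_evalO 0 φ) (fun y => ?_) _
      rw [← e, evalO, dotProduct_zero]
    · intro h0
      refine evalO_ext fun y => ?_
      rw [e, hc, ← hc (spin w), h0, mul_zero, evalO, dotProduct_zero]
  | succ r =>
    rw [Dv_iff (r := r) (by rw [Multiset.card_cons]; omega)]
    constructor
    · rintro ⟨φ', e'⟩
      have h1 := cancel_piD D (F := fun y => evalO (r + 1) φ y - wedge (spin w) y * evalO r φ' y)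
        ((continuous_evalO _ _).sub ((w81_cont _).mul (continuous_evalO _ _))) (fun y => by
          have h2 := e' y
          rw [e, w81_cons] at h2
          linear_combination h2) (spin w)
      simpa [wedge_self] using h1
    · intro h0
      obtain ⟨I, M, hE⟩ := exists_emb r (spin_unit w)
      obtain ⟨φ', rfl⟩ := hE.range h0
      refine ⟨φ', fun y => ?_⟩
      rw [e, hE.ev, w81_cons]
      ring

theorem Dv_of_cons {w : S2} {ψ : Fin (Q + 1) → ℂ} (h : Dv Q (w ::ₘ D) ψ) : Dv Q D ψ := by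
  by_cases h0 : ψ = 0
  · rw [h0]; exact Dv_zero Q D
  obtain ⟨r, hr⟩ := w81_ex h h0
  obtain ⟨φ, e⟩ := (Dv_iff hr).1 h
  obtain ⟨I, M, hE⟩ := exists_emb r (spin_unit w)
  rw [Multiset.card_cons] at hr
  refine (Dv_iff (r := r + 1) (by omega)).2 ⟨M *ᵥ φ, fun y => ?_⟩
  rw [e, hE.ev, w81_cons]
  ring

theorem Dv_mono (hD : D ≤ D') {ψ : Fin (Q + 1) → ℂ} (h : Dv Q D' ψ) : Dv Q D ψ := by
  obtain ⟨E, rfl⟩ := Multiset.le_iff_exists_add.1 hD
  clear hD
  induction E using Multiset.induction_on with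
  | empty => simpa using h
  | cons a E ih =>
    rw [Multiset.add_cons] at h
    exact ih (Dv_of_cons h)

theorem Kv_mono (hD : D ≤ D') {f : Fin (Q + 1) → ℂ} (h : Kv Q D f) : Kv Q D' f :=
  fun ψ hψ => h ψ (Dv_mono hD hψ)

/-- Induction on `D' = b ::ₘ E`: `evalO ψ = π_D π_E g` (induction, or `ψ = 0` by `Dv_of_lt`),
`evalO ψ = π_D' g₂`; `cancel_piD E` gives `π_D g = (b ∧ y) g₂`; put `y = spin b`; `Dv_cons_iff`. -/
theorem Dv_add_of_disjoint (h : Disjoint D D') {ψ : Fin (Q + 1) → ℂ} (h1 : Dv Q D ψ)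
    (h2 : Dv Q D' ψ) : Dv Q (D + D') ψ := by
  by_cases h0 : ψ = 0
  · rw [h0]; exact Dv_zero Q _
  induction D' using Multiset.induction_on with
  | empty => simpa using h1
  | cons b E ih =>
    obtain ⟨hb, hE⟩ := Multiset.disjoint_cons_right.1 h
    have h3 := ih hE (Dv_of_cons h2)
    obtain ⟨r, hr⟩ := w81_ex h3 h0
    obtain ⟨g, e⟩ := (Dv_iff hr).1 h3
    obtain ⟨r', hr'⟩ := w81_ex h2 h0
    obtain ⟨g', e'⟩ := (Dv_iff hr').1 h2
    rw [Multiset.add_cons, Dv_cons_iff hr e]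
    have h4 := cancel_piD E
      (F := fun y => piD D y * evalO r g y - wedge (spin b) y * evalO r' g' y)
      (((continuous_piD D).mul (continuous_evalO _ _)).sub
        ((w81_cont _).mul (continuous_evalO _ _))) (fun y => by
        have h5 := e' y
        rw [e, w81_cons, piD_add] at h5
        linear_combination h5) (spin b)
    simp only [wedge_self, zero_mul, sub_zero] at h4
    exact (mul_eq_zero.1 h4).resolve_left (piD_spin_ne hb)

/-! ### part C: units -/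

/-- expansion in the orbitals at `a` (`sum_orb`, `kv_dot_rho`) -/
theorem evalO_orb (Q : ℕ) (a : S2) (ψ : Fin (Q + 1) → ℂ) (y : ℂ × ℂ) :
    evalO Q ψ y = ∑ k : Fin (Q + 1), (Real.sqrt (Q.choose k) : ℂ) *
      ((conj (spin a).1 * y.1 + conj (spin a).2 * y.2) ^ (Q - k) * wedge (spin a) y ^ (k : ℕ)) *
        (star (orb Q a k) ⬝ᵥ ψ) := by
  have e : ψ = ∑ k : Fin (Q + 1), (star (orb Q a k) ⬝ᵥ ψ) • orb Q a k := by
    conv_lhs => rw [← one_mulVec ψ, ← sum_orb Q a, Matrix.sum_mulVec]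
    refine Finset.sum_congr rfl fun k _ => ?_
    rw [vecMulVec_mulVec]
    funext j
    simp [mul_comm]
  unfold evalO
  conv_lhs => rw [e, dotProduct_sum]
  refine Finset.sum_congr rfl fun k _ => ?_
  have h := kv_dot_rho Q y (spin a) k
  change star (kv Q y) ⬝ᵥ orb Q a k = _ at h
  have hw : wedge (spin a) y = -(spin a).2 * y.1 + (spin a).1 * y.2 := by unfold wedge; ring
  rw [dotProduct_smul, smul_eq_mul, h, hw, mul_comm]

/-- the quotient by `(a ∧ y) ^ m`: `φ = rho r (spin a) *ᵥ fun l => √C(Q,l+m) / √C(r,l) c_{l+m}`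
(`evalO_rho`, `evalO_eq`, `evalO_orb`; `√Q ^ m ≠ 0` because `m ≤ Q`) -/
theorem exists_quot {m r : ℕ} (h : m + r = Q) (a : S2) {ψ : Fin (Q + 1) → ℂ}
    (h0 : ∀ k : Fin (Q + 1), (k : ℕ) < m → star (orb Q a k) ⬝ᵥ ψ = 0) :
    ∃ φ : Fin (r + 1) → ℂ, (∀ y, evalO Q ψ y = piD (Multiset.replicate m a) y * evalO r φ y) ∧
      ∀ w, evalO r φ (spin w) = (Real.sqrt Q : ℂ) ^ m * (star (fo Q a m w) ⬝ᵥ ψ) := by
  subst h
  have split : ∀ G : Fin (m + r + 1) → ℂ, (∀ k : Fin (m + r + 1), (k : ℕ) < m → G k = 0) →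
      ∑ k, G k = ∑ l : Fin (r + 1), G (Fin.natAdd m l) := by
    intro G hG
    have := Fin.sum_univ_add (a := m) (b := r + 1) G
    refine this.trans ?_
    rw [Finset.sum_eq_zero fun i _ => hG _ i.2, zero_add]
  let φ₀ : Fin (r + 1) → ℂ := fun l =>
    (Real.sqrt ((m + r).choose (m + l)) : ℂ) / (Real.sqrt (r.choose l) : ℂ) *
      (star (orb (m + r) a (Fin.natAdd m l)) ⬝ᵥ ψ)
  have ev : ∀ y, evalO r (rho r (spin a) *ᵥ φ₀) y = ∑ l : Fin (r + 1),
      (Real.sqrt ((m + r).choose (m + l)) : ℂ) *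
        ((conj (spin a).1 * y.1 + conj (spin a).2 * y.2) ^ (r - l) * wedge (spin a) y ^ (l : ℕ)) *
        (star (orb (m + r) a (Fin.natAdd m l)) ⬝ᵥ ψ) := by
    intro y
    rw [evalO_rho, evalO_eq, act_spInv_snd]
    have e1 : (act (spInv (spin a)) y).1 = conj (spin a).1 * y.1 + conj (spin a).2 * y.2 := by
      simp only [act, spInv, map_neg]; ring
    rw [e1]
    refine Finset.sum_congr rfl fun l _ => ?_
    have hl : (Real.sqrt (r.choose l) : ℂ) ≠ 0 := Complex.ofReal_ne_zero.2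
      (Real.sqrt_pos.2 (by exact_mod_cast Nat.choose_pos (Nat.lt_succ_iff.1 l.2))).ne'
    simp only [φ₀]
    field_simp
  have hsub : ∀ l : ℕ, m + r - (m + l) = r - l := fun l => by omega
  refine ⟨rho r (spin a) *ᵥ φ₀, fun y => ?_, fun w => ?_⟩
  · rw [ev, evalO_orb _ a, split _ fun k hk => by rw [h0 k hk, mul_zero], Finset.mul_sum]
    refine Finset.sum_congr rfl fun l _ => ?_
    simp only [piD, Multiset.map_replicate, Multiset.prod_replicate, Fin.val_natAdd, hsub, pow_add]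
    ring
  · have hQ : ((Real.sqrt ((m + r : ℕ) : ℝ) : ℝ) : ℂ) ^ m ≠ 0 := by
      rcases Nat.eq_zero_or_pos m with rfl | hm
      · simp
      · exact pow_ne_zero _ (Complex.ofReal_ne_zero.2 (Real.sqrt_pos.2 (by
          have : 0 < m + r := by omega
          exact_mod_cast this)).ne')
    rw [ev, fo, star_sum, sum_dotProduct, split _ fun k hk => by
      rw [if_neg (by omega), star_zero, zero_dotProduct], Finset.mul_sum]
    refine Finset.sum_congr rfl fun l _ => ?_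
    rw [if_pos (by simp), star_smul, smul_dotProduct, smul_eq_mul, RCLike.star_def,
      Complex.conj_conj]
    simp only [Fin.val_natAdd, hsub, Nat.add_sub_cancel_left, Complex.ofReal_div,
      Complex.ofReal_pow]
    field_simp

theorem c95_fo (a : S2) (k : Fin (Q + 1)) (ψ : Fin (Q + 1) → ℂ) :
    star (fo Q a k a) ⬝ᵥ ψ = ((Real.sqrt (Q.choose k) / Real.sqrt Q ^ (k : ℕ) : ℝ) : ℂ) *
      (star (orb Q a k) ⬝ᵥ ψ) := by
  rw [fo, Finset.sum_eq_single k]
  · rw [if_pos le_rfl, g29_unit (spin_unit a), one_pow, Nat.sub_self, pow_zero, mul_one, mul_one,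
      star_smul, smul_dotProduct, smul_eq_mul, Complex.conj_ofReal, Complex.star_def,
      Complex.conj_ofReal]
  · intro j _ hj
    split_ifs with h
    · have : (j : ℕ) - k ≠ 0 := fun h0 => hj (Fin.ext (by omega))
      rw [wedge_self, zero_pow this, mul_zero, mul_zero, map_zero, zero_smul]
    · rfl
  · simp

theorem c95_sqrt {m : ℕ} (h : m ≤ Q) : (Real.sqrt Q : ℝ) ^ m ≠ 0 := by
  rcases Nat.eq_zero_or_pos m with rfl | hm
  · simp
  · have : (0 : ℝ) < Q := by exact_mod_cast hm.trans_le h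
    positivity

/-- `→`: with `y = act (spin a) (1, t)` the polynomial `∑ √C(Q,k) c_k t ^ k` is `t ^ m` times a
polynomial (or induction on `m` by `Dv_cons_iff`); `←`: `exists_quot`, `Dv_iff`; `Q < m`:
`Dv_of_lt`, `sum_orb`. -/
theorem Dv_replicate (a : S2) (m : ℕ) {ψ : Fin (Q + 1) → ℂ} :
    Dv Q (Multiset.replicate m a) ψ ↔
      ∀ k : Fin (Q + 1), (k : ℕ) < m → star (orb Q a k) ⬝ᵥ ψ = 0 := by
  constructor
  · induction m with
    | zero => exact fun _ k hk => absurd hk (Nat.not_lt_zero _)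
    | succ m ih =>
      intro h k hk
      rw [Multiset.replicate_succ] at h
      have h0 := ih (Dv_of_cons h)
      rcases Nat.lt_succ_iff_lt_or_eq.1 hk with hk | rfl
      · exact h0 k hk
      have hkQ : (k : ℕ) ≤ Q := Nat.lt_succ_iff.1 k.2
      obtain ⟨φ, h1, h2⟩ := exists_quot (Nat.add_sub_cancel' hkQ) a h0
      have h3 := (Dv_cons_iff (by rw [Multiset.card_replicate, Nat.add_sub_cancel' hkQ]) h1 a).1 h
      rw [h2, c95_fo] at h3
      have h4 := c95_sqrt hkQ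
      have h5 : Real.sqrt (Q.choose k) ≠ 0 := by
        have : (0 : ℝ) < Q.choose k := by exact_mod_cast Nat.choose_pos hkQ
        positivity
      refine (mul_eq_zero.1 ((mul_eq_zero.1 h3).resolve_left ?_)).resolve_left ?_
      · exact_mod_cast h4
      · exact_mod_cast div_ne_zero h5 h4
  · intro h0
    rcases le_or_gt m Q with hm | hm
    · obtain ⟨φ, h1, -⟩ := exists_quot (Nat.add_sub_cancel' hm) a h0
      exact (Dv_iff (by rw [Multiset.card_replicate, Nat.add_sub_cancel' hm])).2 ⟨φ, h1⟩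
    · have : ψ = 0 := evalO_ext fun y => by
        rw [evalO_orb Q a ψ y, evalO, dotProduct_zero]
        exact Finset.sum_eq_zero fun k _ => by rw [h0 k (by omega), mul_zero]
      rw [this]
      exact Dv_zero _ _

/-- `exists_quot`, `Dv_cons_iff`; `Q < m`: both sides say `ψ = 0` -/
theorem Dv_unit (hQ : 1 ≤ Q) (a w : S2) (m : ℕ) {ψ : Fin (Q + 1) → ℂ} :
    Dv Q (w ::ₘ Multiset.replicate m a) ψ ↔
      Dv Q (Multiset.replicate m a) ψ ∧ star (fo Q a m w) ⬝ᵥ ψ = 0 := by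
  rcases le_or_gt m Q with hm | hm
  · have key : Dv Q (Multiset.replicate m a) ψ →
        (Dv Q (w ::ₘ Multiset.replicate m a) ψ ↔ star (fo Q a m w) ⬝ᵥ ψ = 0) := fun h => by
      obtain ⟨φ, h1, h2⟩ := exists_quot (Nat.add_sub_cancel' hm) a ((Dv_replicate a m).1 h)
      have h4 : (Real.sqrt Q : ℂ) ^ m ≠ 0 := by exact_mod_cast c95_sqrt hm
      rw [Dv_cons_iff (by rw [Multiset.card_replicate, Nat.add_sub_cancel' hm]) h1 w, h2, mul_eq_zero,
        or_iff_right h4]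
    exact ⟨fun h => ⟨Dv_of_cons h, (key (Dv_of_cons h)).1 h⟩, fun h => (key h.1).2 h.2⟩
  · have _ := hQ
    rw [Dv_of_lt (by rw [Multiset.card_cons, Multiset.card_replicate]; omega),
      Dv_of_lt (by rwa [Multiset.card_replicate])]
    exact ⟨fun h => ⟨h, by rw [h, dotProduct_zero]⟩, fun h => h.1⟩

/-! ### part D: the statements of `IfAlg`, part B -/

variable {v : FV Q}

theorem ZD_anti' (h : D ≤ D') : ZD Q D' ≤ ZD Q D :=
  fun _ hv => ⟨hv.1, fun f hf => hv.2 f (Kv_mono h hf)⟩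

/-- `mem_ZD_of_gen` with `S = {f | Kv Q D f ∨ Kv Q D' f}`, `Dv_of_perp`, `Dv_add_of_disjoint` -/
theorem mem_ZD_add' (h : Disjoint D D') : v ∈ ZD Q (D + D') ↔ v ∈ ZD Q D ∧ v ∈ ZD Q D' := by
  refine ⟨fun hv => ⟨ZD_anti' (Multiset.le_add_right D D') hv,
    ZD_anti' (Multiset.le_add_left D' D) hv⟩, fun hv => ?_⟩
  refine (mem_ZD_of_gen {f | Kv Q D f ∨ Kv Q D' f} (fun g hg => ?_) fun ψ H => ?_).2
    ⟨hv.1.1, fun g hg => ?_⟩
  · rcases hg with hg | hg
    · exact Kv_mono (Multiset.le_add_right D D') hg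
    · exact Kv_mono (Multiset.le_add_left D' D) hg
  · exact Dv_add_of_disjoint h (Dv_of_perp fun f hf => H f (Or.inl hf))
      (Dv_of_perp fun f hf => H f (Or.inr hf))
  · rcases hg with hg | hg
    · exact hv.1.2 g hg
    · exact hv.2.2 g hg

theorem mem_ZD_replicate' (a : S2) (m : ℕ) : v ∈ ZD Q (Multiset.replicate m a) ↔
    HC Q *ᵥ v = 0 ∧ ∀ k : Fin (Q + 1), (k : ℕ) < m → cC (orb Q a k) *ᵥ v = 0 := by
  rw [mem_ZD_of_gen {g | ∃ k : Fin (Q + 1), (k : ℕ) < m ∧ g = orb Q a k}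
    (by rintro _ ⟨k, hk, rfl⟩ ψ hψ; exact (Dv_replicate a m).1 hψ k hk)
    fun ψ H => (Dv_replicate a m).2 fun k hk => H _ ⟨k, hk, rfl⟩]
  refine and_congr_right fun _ => ⟨fun H k hk => H _ ⟨k, hk, rfl⟩, ?_⟩
  rintro H _ ⟨k, hk, rfl⟩
  exact H k hk

/-- `mem_ZD_of_gen` with `S = {f | Kv Q (replicate m a) f ∨ f = fo Q a m w}` -/
theorem mem_ZD_unit' (hQ : 1 ≤ Q) (a w : S2) (m : ℕ) :
    v ∈ ZD Q (w ::ₘ Multiset.replicate m a) ↔
      v ∈ ZD Q (Multiset.replicate m a) ∧ cC (fo Q a m w) *ᵥ v = 0 := by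
  rw [mem_ZD_of_gen {f | Kv Q (Multiset.replicate m a) f ∨ f = fo Q a m w}
    (by
      rintro g (hg | rfl)
      · exact Kv_mono (Multiset.le_cons_self _ _) hg
      · exact fun ψ hψ => ((Dv_unit hQ a w m).1 hψ).2)
    fun ψ H => (Dv_unit hQ a w m).2 ⟨Dv_of_perp fun f hf => H f (Or.inl hf), H _ (Or.inr rfl)⟩]
  refine ⟨fun H => ⟨⟨H.1, fun f hf => H.2 f (Or.inl hf)⟩, H.2 _ (Or.inr rfl)⟩,
    fun H => ⟨H.1.1, ?_⟩⟩
  rintro g (hg | rfl)
  · exact H.1.2 g hg
  · exact H.2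

/-- `w ::ₘ D = replicate 1 w + D`, `orb_zero` -/
theorem mem_ZD_cons_of_not_mem' {w : S2} (h : w ∉ D) :
    v ∈ ZD Q (w ::ₘ D) ↔ v ∈ ZD Q D ∧ ca Q w *ᵥ v = 0 := by
  have e : w ::ₘ D = Multiset.replicate 1 w + D := by simp
  have hd : Disjoint (Multiset.replicate 1 w) D := by
    rw [Multiset.disjoint_left]
    intro x hx
    rw [Multiset.eq_of_mem_replicate hx]
    exact h
  rw [e, mem_ZD_add' hd, mem_ZD_replicate']
  unfold ca
  rw [← orb_zero]
  refine ⟨fun H => ⟨H.2, H.1.2 0 (by simp)⟩, fun H => ⟨⟨H.1.1, fun k hk => ?_⟩, H.1⟩⟩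
  have : k = 0 := Fin.ext (by simpa using hk)
  rw [this]
  exact H.2

open Classical in
/-- `D = replicate (count b) b + D.filter (· ≠ b)` (`Multiset.filter_add_not`, `filter_eq`) -/
theorem mem_ZD_cons_near' (hQ : 1 ≤ Q) {w b : S2} (h : w ∈ D → w = b) :
    v ∈ ZD Q (w ::ₘ D) ↔ v ∈ ZD Q D ∧ cC (fo Q b (D.count b) w) *ᵥ v = 0 := by
  have e : D = Multiset.replicate (D.count b) b + D.filter (fun x => ¬ x = b) := by
    rw [← Multiset.filter_eq' D b, Multiset.filter_add_not]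
  have hd : Disjoint (Multiset.replicate (D.count b) b) (D.filter fun x => ¬ x = b) := by
    rw [Multiset.disjoint_left]
    intro x hx hx'
    exact (Multiset.mem_filter.1 hx').2 (Multiset.eq_of_mem_replicate hx)
  have hd' : Disjoint (w ::ₘ Multiset.replicate (D.count b) b) (D.filter fun x => ¬ x = b) := by
    rw [Multiset.disjoint_left]
    intro x hx hx'
    rcases Multiset.mem_cons.1 hx with rfl | hx
    · exact (Multiset.mem_filter.1 hx').2 (h (Multiset.mem_filter.1 hx').1)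
    · exact (Multiset.mem_filter.1 hx').2 (Multiset.eq_of_mem_replicate hx)
  have e' : w ::ₘ D = (w ::ₘ Multiset.replicate (D.count b) b) + D.filter (fun x => ¬ x = b) := by
    rw [Multiset.cons_add, ← e]
  have e2 : v ∈ ZD Q D ↔ v ∈ ZD Q (Multiset.replicate (D.count b) b) ∧
      v ∈ ZD Q (D.filter fun x => ¬ x = b) := by
    rw [← mem_ZD_add' hd, ← e]
  rw [e', mem_ZD_add' hd', mem_ZD_unit' hQ, e2]
  tauto

end Crest.Agent.R340.Pin
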