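import Crest.Agent.R340.AlT
import Crest.Agent.R340.AlWave
import Crest.Agent.R340.AlCnt

/-! # Row 340, module ALG: the coherent annihilator is onto (helper44) -/

set_option autoImplicit false

namespace Crest.Agent.R340.Pin

open Matrix MvPolynomial Crest.MathPhysics.Laughlin
open scoped Matrix.Norms.L2Operator MatrixOrder ComplexOrder ComplexConjugate

variable {Q N : ℕ} {T : Multiset S2}

theorem piD_smul (T : Multiset S2) (c : ℂ) (y : ℂ × ℂ) :
    piD T (c • y) = c ^ T.card * piD T y := by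
  induction T using Multiset.induction_on with
  | empty => simp [piD]
  | cons a T ih =>
    simp only [piD, Multiset.map_cons, Multiset.prod_cons, Multiset.card_cons] at ih ⊢
    rw [ih]
    simp only [wedge, Prod.smul_fst, Prod.smul_snd, smul_eq_mul]
    ring

theorem fill_onto' {w c : ℂ} {y : S2} (hc : c ≠ 0) (hst : spin y = c • ((1, w) : ℂ × ℂ))
    (hy : y ∉ T) (hT : T.card ≤ Q) {η : FV Q} (h : InZ Q (T + Multiset.replicate 3 y) N η) :
    ∃ u, InZ Q T (N + 1) u ∧ ca Q y *ᵥ u = η := by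
  by_cases h0 : η = 0
  · exact ⟨0, ⟨mulVec_zero _, Submodule.zero_mem _⟩, by rw [mulVec_zero, h0]⟩
  have hπ : piD T (1, w) ≠ 0 := fun e => piD_spin_ne hy (by rw [hst, piD_smul, e, mul_zero])
  obtain ⟨n', hn, s', hs', e'⟩ : ∃ n', T.card + 3 * N + n' = Q ∧ ∃ s' ∈ Sy N n',
      PF N η = lauP N * PiP (T + Multiset.replicate 3 y) N * s' := by
    rcases Nat.eq_zero_or_pos N with rfl | hN
    · refine ⟨Q - T.card, by omega, C (η ∅), ⟨IsSymmetric.C _, fun a => a.elim0⟩, ?_⟩
      simp [PF_zero, lauP, PiP]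
    · have hle : T.card + 3 * N ≤ Q := by
        by_contra hlt
        refine h0 (ac_eq_zero hN _ h ?_)
        have : (Q : ℝ) < T.card + 3 * N := by exact_mod_cast not_le.1 hlt
        simp only [nfree, Multiset.card_add, Multiset.card_replicate]
        push_cast
        linarith
      refine ⟨Q - (T.card + 3 * N), by omega, h.exists_sym ?_⟩
      simp only [Multiset.card_add, Multiset.card_replicate]
      omega
  have hP : PiP (T + Multiset.replicate 3 y) N =
      C (c ^ (3 * N)) * ((∏ a : Fin N, (X a - C w) ^ 3) * PiP T N) := by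
    have e1 : T + Multiset.replicate 3 y = y ::ₘ y ::ₘ y ::ₘ T := by
      rw [add_comm]; simp [Multiset.replicate_succ]
    have e2 : ∀ a : Fin N, lf (spin y) a = C c * (X a - C w) := fun a => by
      simp only [lf, hst, Prod.smul_fst, Prod.smul_snd, smul_eq_mul, mul_one, map_mul]
      ring
    simp only [e1, PiP_cons, e2, Finset.prod_mul_distrib, Finset.prod_const, Finset.card_univ,
      Fintype.card_fin, Finset.prod_pow, map_pow]
    ring
  obtain ⟨s, h1, h2, h3⟩ := sym_lift w hs'.1 hs'.2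
  obtain ⟨u, hu, hu'⟩ := exists_InZ_of_sym (N := N + 1) (T := T) (n' := n') (Q := Q)
    (by simpa using hn) (s := s) ⟨h1, h2⟩
  have hsec : secP (Q + 1) N *ᵥ (ch Q (1, w) *ᵥ u) = ch Q (1, w) *ᵥ u := by
    rw [mulVec_mulVec, ch, secP_mul_cC, ← mulVec_mulVec, hu.1]
  have key : c ^ (3 * N) • (ch Q (1, w) *ᵥ u) - piD T (1, w) • η = 0 := by
    refine PF_inj (N := N) ?_ ?_
    · rw [mulVec_sub, mulVec_smul, mulVec_smul, hsec, h.1]
    · rw [PF_sub, PF_smul, PF_smul, PF_ch, hu', map_mul, map_mul, evw_lauP, evw_PiP, h3, e', hP]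
      ring
  have hca : ca Q y = c ^ Q • ch Q (1, w) := by
    rw [ca_eq, hst, ch, kv_smul, cC_smul, ch]
    simp
  refine ⟨(c ^ (3 * N) / (piD T (1, w) * c ^ Q)) • u, hu.smul' _, ?_⟩
  rw [sub_eq_zero] at key
  have hcQ : c ^ Q ≠ 0 := pow_ne_zero _ hc
  rw [hca, mulVec_smul, smul_mulVec, smul_smul,
    show c ^ (3 * N) / (piD T (1, w) * c ^ Q) * c ^ Q = (piD T (1, w))⁻¹ * c ^ (3 * N) by
      field_simp,
    ← smul_smul, key, smul_smul, inv_mul_cancel₀ hπ, one_smul]

end Crest.Agent.R340.Pin
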