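import Crest.Agent.R340.AlShift
import Crest.Agent.R340.CBridge
import Crest.Agent.R340.LauZero
import Crest.Agent.R340.Gap31

/-! # Row 340, module ALG: unpinned zero modes are `lauP * symmetric` (architect helper44) -/

set_option autoImplicit false

namespace Crest.Agent.R340.Pin

open Matrix MvPolynomial Crest.MathPhysics.Laughlin
open scoped Matrix.Norms.L2Operator MatrixOrder ComplexOrder ComplexConjugate

variable {Q N : ℕ}

/-- the polynomial of the `N`-particle component -/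
noncomputable def PF (N : ℕ) (v : FV Q) : MvPolynomial (Fin N) ℂ := Uq.toP (ofFockC N v)

/-- put the first variable to `w` -/
noncomputable def evw (N : ℕ) (w : ℂ) :
    MvPolynomial (Fin (N + 1)) ℂ →ₐ[ℂ] MvPolynomial (Fin N) ℂ :=
  aeval (Fin.cons (C w) X : Fin (N + 1) → MvPolynomial (Fin N) ℂ)

/-! ### part A: the dictionary -/

theorem pA_toP_smul (z : ℂ) (ψ : (Fin N → Fin (Q + 1)) → ℂ) :
    Uq.toP (z • ψ) = C z * Uq.toP ψ := by
  unfold Uq.toP
  rw [Finset.mul_sum]
  refine Finset.sum_congr rfl fun m _ => ?_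
  rw [C_mul_monomial, Pi.smul_apply, smul_eq_mul, mul_assoc]

theorem pA_toP_add (φ ψ : (Fin N → Fin (Q + 1)) → ℂ) :
    Uq.toP (φ + ψ) = Uq.toP φ + Uq.toP ψ := by
  unfold Uq.toP
  rw [← Finset.sum_add_distrib]
  refine Finset.sum_congr rfl fun m _ => ?_
  rw [Pi.add_apply, add_mul, map_add]

theorem pA_toP_sum {ι : Type*} (s : Finset ι) (f : ι → (Fin N → Fin (Q + 1)) → ℂ) :
    Uq.toP (∑ i ∈ s, f i) = ∑ i ∈ s, Uq.toP (f i) := by
  unfold Uq.toP
  rw [Finset.sum_comm]
  refine Finset.sum_congr rfl fun m _ => ?_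
  rw [Finset.sum_apply, Finset.sum_mul, map_sum]

theorem PF_sub (N : ℕ) (v w : FV Q) : PF N (v - w) = PF N v - PF N w := by
  rw [eq_sub_iff_add_eq, PF, PF, PF, ← pA_toP_add, ← ofFockC_add, sub_add_cancel]

theorem PF_smul (N : ℕ) (z : ℂ) (v : FV Q) : PF N (z • v) = C z * PF N v := by
  rw [PF, PF, ofFockC_smul, pA_toP_smul]

/-- `Uq.coeff_toP`, `Uq.wt_pos`, `ofFockC_dot` -/
theorem PF_inj {v : FV Q} (hs : secP (Q + 1) N *ᵥ v = v) (h : PF N v = 0) : v = 0 := by
  have h0 : ofFockC N v = 0 := by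
    funext m
    have h1 := Uq.coeff_toP (ofFockC N v) m
    unfold PF at h
    rw [h, coeff_zero] at h1
    have hw : ((Uq.wt m : ℝ) : ℂ) ≠ 0 := by exact_mod_cast (Uq.wt_pos m).ne'
    exact (mul_eq_zero.1 h1.symm).resolve_right hw
  have h1 := ofFockC_dot N v v hs
  rw [h0, dotProduct_zero] at h1
  have h2 : (N.factorial : ℂ) ≠ 0 := by exact_mod_cast N.factorial_ne_zero
  exact dotProduct_star_self_eq_zero.1 ((mul_eq_zero.1 h1.symm).resolve_left h2)

theorem degreeOf_PF (v : FV Q) (a : Fin N) : degreeOf a (PF N v) ≤ Q := Uq.degreeOf_toP _ a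

/-- compare coefficients; `ofFockC_anti` -/
theorem rename_PF (v : FV Q) (π : Equiv.Perm (Fin N)) :
    rename π (PF N v) = C ((Equiv.Perm.sign π : ℤ) : ℂ) * PF N v := by
  unfold PF Uq.toP
  rw [map_sum, Finset.mul_sum]
  let e : (Fin N → Fin (Q + 1)) ≃ (Fin N → Fin (Q + 1)) :=
    { toFun := fun m => m ∘ π.symm
      invFun := fun m => m ∘ π
      left_inv := fun m => by funext c; simp
      right_inv := fun m => by funext c; simp }
  refine Fintype.sum_equiv e _ _ fun m => ?_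
  have h0 : Finsupp.mapDomain π (expo m) = expo (e m) := by
    ext c
    rw [Finsupp.mapDomain_equiv_apply, Uq.expo_apply, Uq.expo_apply]
    rfl
  have h1 : ofFockC N v m = ((Equiv.Perm.sign π : ℤ) : ℂ) * ofFockC N v (e m) := by
    rw [← ofFockC_anti N v π (e m)]
    exact congrArg _ (e.left_inv m).symm
  have h2 : Uq.wt (e m) = Uq.wt m := Uq.wt_comp m π.symm
  rw [rename_monomial, h0, C_mul_monomial, h2, h1, mul_assoc]

/-- `N ≤ 1`: `lauP N = 1`; else `interaction_ofFockC`, `pairProj_zero` (Gap31), `Uq.der_toP`,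
`Uq.rename_swap_toP`, `cube_dvd`, `lauP_dvd` -/
theorem lauP_dvd_PF {v : FV Q} (hs : secP (Q + 1) N *ᵥ v = v) (h0 : HC Q *ᵥ v = 0) :
    lauP N ∣ PF N v := by
  refine lauP_dvd fun a b hab => ?_
  have hN : 2 ≤ N := by
    have h1 := b.isLt
    have h2 : (a : ℕ) < b := hab
    omega
  refine cube_dvd hab.ne (Uq.rename_swap_toP _ (ofFockC_anti N v) a b hab.ne)
    (Uq.der_toP _ a b hab.ne (pairProj_zero Q N _ ?_ a b hab))
  have h1 := ofFockC_smul N (0 : ℂ) (0 : FV Q)
  rw [zero_smul, zero_smul] at h1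
  rw [interaction_ofFockC hN hs, h0, h1, dotProduct_zero]

theorem pA_annC_secP_zero {n : ℕ} (j : Fin n) : annC j * secP n 0 = 0 := by
  ext S T
  simp only [secP, Matrix.mul_diagonal, annC, cx, ann, Matrix.map_apply, Matrix.of_apply,
    Matrix.zero_apply]
  by_cases h : j ∉ S ∧ T = insert j S
  · obtain ⟨h1, rfl⟩ := h
    simp
  · simp [h]

/-- a sector with at most one particle is killed by `HC` -/
theorem HC_mulVec_of_le_one (hN : N ≤ 1) {v : FV Q} (hs : secP (Q + 1) N *ᵥ v = v) :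
    HC Q *ᵥ v = 0 := by
  have key : ∀ i j : Fin (Q + 1), (annC j * annC i) *ᵥ v = 0 := by
    intro i j
    rw [← hs, mulVec_mulVec, mul_assoc]
    interval_cases N
    · rw [pA_annC_secP_zero, mul_zero, zero_mulVec]
    · rw [← secP_mul_annC 0 i, ← mul_assoc, pA_annC_secP_zero, zero_mul, zero_mulVec]
  rw [HC_eq, Matrix.sum_mulVec]
  refine Finset.sum_eq_zero fun p _ => ?_
  rw [← mulVec_mulVec, BC_eq]
  simp only [Matrix.sum_mulVec, smul_mulVec, key, smul_zero, Finset.sum_const_zero, mulVec_zero]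

theorem a2_der {F : MvPolynomial (Fin N) ℂ} (hL : lauP N ∣ F) {a b : Fin N} (hab : a < b) :
    rename (fun c => if c = a then b else c) (X b * pderiv b F - X a * pderiv a F) = 0 := by
  have h1 : (X b - X a : MvPolynomial (Fin N) ℂ) ^ 3 ∣ lauP N := by
    unfold lauP
    refine dvd_trans ?_ (Finset.dvd_prod_of_mem _ (Finset.mem_univ a))
    refine dvd_trans ?_ (Finset.dvd_prod_of_mem _ (Finset.mem_univ b))
    rw [if_pos hab]
  obtain ⟨G, hG⟩ := h1.trans hL
  have h2 : ∀ c, (X b - X a : MvPolynomial (Fin N) ℂ) ∣ pderiv c F := by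
    intro c
    rw [hG, Derivation.leibniz, Derivation.leibniz_pow]
    simp only [smul_eq_mul, nsmul_eq_mul]
    refine dvd_add (Dvd.dvd.mul_right (dvd_pow_self _ (by norm_num)) _) ?_
    refine Dvd.dvd.mul_left (Dvd.dvd.mul_left (Dvd.dvd.mul_right ?_ _) _) _
    exact dvd_pow_self _ (by norm_num)
  exact (dvd_iff_sbs a b _).1 (dvd_sub ((h2 b).mul_left _) ((h2 a).mul_left _))

/-- `ψ m = coeff (expo m) F / wt m`, `exists_ofFockC`, `LauZ.pairProj_of_der` (with `dvd_iff_sbs`: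
the derivative expression is divisible by `X b - X a`), `interaction_ofFockC`, `ofFockC_dot`
applied to `HC v` (in sector `N`: `commute_secP`), `HC_mulVec_of_le_one` -/
theorem exists_PF {F : MvPolynomial (Fin N) ℂ}
    (hA : ∀ π : Equiv.Perm (Fin N), rename π F = C ((Equiv.Perm.sign π : ℤ) : ℂ) * F)
    (hd : ∀ a, degreeOf a F ≤ Q) (hL : lauP N ∣ F) :
    ∃ v : FV Q, secP (Q + 1) N *ᵥ v = v ∧ HC Q *ᵥ v = 0 ∧ PF N v = F := by
  let ψ : (Fin N → Fin (Q + 1)) → ℂ := fun m => coeff (expo m) F / (Uq.wt m : ℂ)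
  have hw : ∀ m : Fin N → Fin (Q + 1), ((Uq.wt m : ℝ) : ℂ) ≠ 0 := fun m => by
    exact_mod_cast (Uq.wt_pos m).ne'
  have hψ : ∀ m, ψ m * (Uq.wt m : ℂ) = coeff (expo m) F := fun m => div_mul_cancel₀ _ (hw m)
  have hP : Uq.toP ψ = F := by
    ext d
    by_cases h : ∃ m : Fin N → Fin (Q + 1), expo m = d
    · obtain ⟨m, rfl⟩ := h
      rw [Uq.coeff_toP, hψ]
    · have h1 : coeff d F = 0 := by
        by_contra hne
        refine h ⟨fun a => ⟨d a, Nat.lt_succ_of_le ?_⟩, ?_⟩
        · exact (monomial_le_degreeOf a (mem_support_iff.2 hne)).trans (hd a)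
        · ext a
          rw [Uq.expo_apply]
      rw [h1]
      unfold Uq.toP
      rw [coeff_sum]
      refine Finset.sum_eq_zero fun m _ => ?_
      rw [coeff_monomial, if_neg fun e => h ⟨m, e⟩]
  have hanti : IsAntisymmetric ψ := by
    intro π m
    refine mul_right_cancel₀ (hw m) ?_
    rw [mul_assoc, hψ, ← Uq.wt_comp m π, hψ, ← coeff_C_mul, ← hA]
    have h : expo m = Finsupp.mapDomain π (expo (m ∘ π)) := by
      ext c
      rw [Finsupp.mapDomain_equiv_apply, Uq.expo_apply, Uq.expo_apply]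
      simp
    rw [h, coeff_rename_mapDomain _ π.injective]
  obtain ⟨v, hv, e⟩ := exists_ofFockC hanti
  refine ⟨v, hv, ?_, by rw [PF, e, hP]⟩
  rcases le_or_gt N 1 with hN | hN
  · exact HC_mulVec_of_le_one hN hv
  have h0 : interaction Q N *ᵥ ψ = 0 := by
    unfold interaction
    rw [Matrix.sum_mulVec]
    refine Finset.sum_eq_zero fun a _ => ?_
    rw [Matrix.sum_mulVec]
    refine Finset.sum_eq_zero fun b _ => ?_
    split_ifs with hab
    · refine LauZ.pairProj_of_der _ hab.ne ?_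
      rw [hP]
      exact a2_der hL hab
    · exact Matrix.zero_mulVec _
  refine PF_inj (N := N) ?_ ?_
  · rw [mulVec_mulVec, (commute_secP (commute_numC_HC Q) N).eq, ← mulVec_mulVec, hv]
  · rw [PF, ← interaction_ofFockC hN hv, e, h0]
    simp [Uq.toP]

/-- `ofFockC_cons`, `ofFockC_sum`, `Fin.consEquiv` / `Fin.insertNthEquiv`,
`wt (cons j r) = √C(Q,j) wt r` -/
theorem PF_ch (N : ℕ) (w : ℂ) (v : FV Q) :
    PF N (ch Q (1, w) *ᵥ v) = evw N w (PF (N + 1) v) := by
  unfold PF ch cC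
  rw [Matrix.sum_mulVec, ofFockC_sum, pA_toP_sum]
  simp only [smul_mulVec, ofFockC_smul, pA_toP_smul]
  unfold Uq.toP
  rw [map_sum, ← (Fin.consEquiv fun _ : Fin (N + 1) => Fin (Q + 1)).sum_comp,
    Fintype.sum_prod_type]
  refine Finset.sum_congr rfl fun j _ => ?_
  rw [Finset.mul_sum]
  refine Finset.sum_congr rfl fun r _ => ?_
  have e0 : (Fin.consEquiv fun _ : Fin (N + 1) => Fin (Q + 1)) (j, r) = Fin.cons j r := rfl
  rw [e0, ofFockC_cons, evw, aeval_monomial, Finsupp.prod_fintype _ _ (by simp),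
    Fin.prod_univ_succ, monomial_eq, Finsupp.prod_fintype _ _ (by simp)]
  simp only [Uq.expo_apply, Uq.wt, Fin.prod_univ_succ, Fin.cons_zero, Fin.cons_succ, kv, map_mul,
    Complex.conj_ofReal, Complex.conj_conj, one_pow, one_mul, algebraMap_eq, Complex.ofReal_mul,
    map_pow]
  ring

theorem ch_north (Q : ℕ) : ch Q (1, 0) = annC 0 := by
  unfold ch cC
  rw [Finset.sum_eq_single 0]
  · simp [kv]
  · intro j _ hj
    have h : (j : ℕ) ≠ 0 := fun h => hj (Fin.ext h)
    simp [kv, h]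
  · simp

/-- `ofFock` with no particle is the vacuum coefficient -/
theorem PF_zero (v : FV Q) : PF 0 v = C (v ∅) := by
  unfold PF Uq.toP
  rw [Fintype.sum_unique, Subsingleton.elim (expo _) 0, monomial_zero']
  simp only [Uq.wt, ofFockC, ofFock, Finset.univ_eq_empty, Finset.prod_empty, Complex.ofReal_one,
    mul_one]
  rw [mul_comm, Complex.re_add_im]


private theorem dg_sum_agree {M : Type*} [AddCommMonoid M] (a : Fin N) (m' : Fin N → Fin (Q + 1))
    (F : (Fin N → Fin (Q + 1)) → M) :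
    (∑ m, if (∀ c, c ≠ a → m c = m' c) then F m else 0) = ∑ j, F (Function.update m' a j) := by
  rw [← Finset.sum_filter]
  refine Finset.sum_bij' (fun m _ => m a) (fun j _ => Function.update m' a j) (by simp) ?_ ?_
    (by simp) ?_
  · intro j _
    simp only [Finset.mem_filter, Finset.mem_univ, true_and]
    intro c hc
    exact Function.update_of_ne hc _ _
  · intro m hm
    simp only [Finset.mem_filter, Finset.mem_univ, true_and] at hm
    funext c
    by_cases hc : c = a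
    · subst hc; simp
    · rw [Function.update_of_ne hc, hm c hc]
  · intro m hm
    simp only [Finset.mem_filter, Finset.mem_univ, true_and] at hm
    congr 1
    funext c
    by_cases hc : c = a
    · subst hc; simp
    · rw [Function.update_of_ne hc, hm c hc]

private noncomputable def dgG (Q : ℕ) (t : ℂ) (j : Fin (Q + 1)) : ℂ :=
  (Real.sqrt (Q.choose j) : ℂ) * t ^ (j : ℕ)

private theorem dg_evalO (ψ : Fin (Q + 1) → ℂ) (t : ℂ) :
    evalO Q ψ (1, t) = ∑ j, dgG Q t j * ψ j := by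
  unfold evalO dotProduct dgG
  refine Finset.sum_congr rfl fun j _ => ?_
  simp only [Pi.star_apply, kv, RCLike.star_def, map_mul, Complex.conj_ofReal, Complex.conj_conj,
    one_pow, one_mul]

private theorem dg_eval_toP (ψ : (Fin N → Fin (Q + 1)) → ℂ) (x : Fin N → ℂ) (a : Fin N) :
    eval x (Uq.toP ψ) =
      ∑ m, dgG Q (x a) (m a) * (ψ m * ∏ c ∈ Finset.univ.erase a, dgG Q (x c) (m c)) := by
  unfold Uq.toP
  rw [map_sum]
  refine Finset.sum_congr rfl fun m _ => ?_
  rw [eval_monomial, Finsupp.prod_fintype _ _ (by simp), mul_left_comm,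
    Finset.mul_prod_erase Finset.univ (fun c => dgG Q (x c) (m c)) (Finset.mem_univ a), mul_assoc]
  congr 1
  simp only [Uq.wt, Complex.ofReal_prod, dgG, Finset.prod_mul_distrib, Uq.expo_apply]

private noncomputable def dgPhi (ψ : (Fin N → Fin (Q + 1)) → ℂ) (x : Fin N → ℂ) (a : Fin N)
    (j : Fin (Q + 1)) : ℂ :=
  ∑ m, if m a = j then ψ m * ∏ c ∈ Finset.univ.erase a, dgG Q (x c) (m c) else 0

private theorem dg_sum_phi (ψ : (Fin N → Fin (Q + 1)) → ℂ) (x : Fin N → ℂ) (a : Fin N)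
    (u : Fin (Q + 1) → ℂ) :
    ∑ j, u j * dgPhi ψ x a j =
      ∑ m, u (m a) * (ψ m * ∏ c ∈ Finset.univ.erase a, dgG Q (x c) (m c)) := by
  simp only [dgPhi, Finset.mul_sum]
  rw [Finset.sum_comm]
  refine Finset.sum_congr rfl fun m _ => ?_
  simp only [mul_ite, mul_zero]
  rw [Finset.sum_ite_eq]
  simp

private theorem dg_phi_eval (ψ : (Fin N → Fin (Q + 1)) → ℂ) (x : Fin N → ℂ) (a : Fin N) (t : ℂ) :
    evalO Q (dgPhi ψ x a) (1, t) = eval (Function.update x a t) (Uq.toP ψ) := by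
  rw [dg_evalO, dg_sum_phi, dg_eval_toP _ _ a]
  refine Finset.sum_congr rfl fun m _ => ?_
  rw [Function.update_self]
  congr 2
  refine Finset.prod_congr rfl fun c hc => ?_
  rw [Function.update_of_ne (Finset.ne_of_mem_erase hc)]

private theorem dg_embed_eval (Λ : Matrix (Fin (Q + 1)) (Fin (Q + 1)) ℂ)
    (ψ : (Fin N → Fin (Q + 1)) → ℂ) (x : Fin N → ℂ) (a : Fin N) :
    eval x (Uq.toP (embedSite Λ a *ᵥ ψ)) = evalO Q (Λ *ᵥ dgPhi ψ x a) (1, x a) := by
  rw [dg_evalO, dg_eval_toP _ _ a]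
  have e1 : ∀ j, (Λ *ᵥ dgPhi ψ x a) j =
      ∑ m, Λ j (m a) * (ψ m * ∏ c ∈ Finset.univ.erase a, dgG Q (x c) (m c)) := fun j =>
    dg_sum_phi ψ x a (Λ j)
  have e2 : ∀ m : Fin N → Fin (Q + 1), dgG Q (x a) (m a) * ((embedSite Λ a *ᵥ ψ) m *
      ∏ c ∈ Finset.univ.erase a, dgG Q (x c) (m c)) =
      ∑ m', if (∀ c, c ≠ a → m c = m' c) then dgG Q (x a) (m a) * (Λ (m a) (m' a) *
        (ψ m' * ∏ c ∈ Finset.univ.erase a, dgG Q (x c) (m' c))) else 0 := by
    intro m
    simp only [embedSite, mulVec, dotProduct, Matrix.of_apply, Finset.sum_mul, Finset.mul_sum]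
    refine Finset.sum_congr rfl fun m' _ => ?_
    split_ifs with h
    · rw [Finset.prod_congr rfl fun c hc => by rw [h c (Finset.ne_of_mem_erase hc)]]
      ring
    · simp
  simp only [e1, e2, Finset.mul_sum]
  rw [Finset.sum_comm, Finset.sum_comm (s := Finset.univ (α := Fin (Q + 1)))]
  refine Finset.sum_congr rfl fun m' _ => ?_
  rw [dg_sum_agree a m' fun m => dgG Q (x a) (m a) * (Λ (m a) (m' a) *
        (ψ m' * ∏ c ∈ Finset.univ.erase a, dgG Q (x c) (m' c)))]
  simp only [Function.update_self]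

private theorem dg_toP_sum {ι : Type*} (s : Finset ι) (f : ι → (Fin N → Fin (Q + 1)) → ℂ) :
    Uq.toP (∑ i ∈ s, f i) = ∑ i ∈ s, Uq.toP (f i) := by
  unfold Uq.toP
  rw [Finset.sum_comm]
  refine Finset.sum_congr rfl fun m _ => ?_
  rw [Finset.sum_apply, Finset.sum_mul, map_sum]

/-- `dΓ(Λ)` divides.  `oneBody_ofFockC`; for a point `x` and a position `a` put
`φ j = ∑_{m, m a = j} ψ m ∏_{c ≠ a} √C(Q, m c) x c ^ m c`; then `eval x (toP ψ) = evalO φ (1, x a)`,
`eval x (toP (embedSite Λ a *ᵥ ψ)) = evalO (Λ *ᵥ φ) (1, x a)`, `evalO φ (1, w) = 0` (update `x a`);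
`MvPolynomial.funext`, cancel `X a - C w ≠ 0`. -/
theorem PF_dG {w : ℂ} {Λ : Matrix (Fin (Q + 1)) (Fin (Q + 1)) ℂ} (hΛ : IsDiv Q w Λ) {v : FV Q}
    (hs : secP (Q + 1) N *ᵥ v = v) (H : Fin N → MvPolynomial (Fin N) ℂ)
    (hH : ∀ a, PF N v = (X a - C w) * H a) : PF N (dG Λ *ᵥ v) = ∑ a, H a := by

  unfold PF at hH ⊢
  rw [← oneBody_ofFockC Λ hs, oneBody, Matrix.sum_mulVec, dg_toP_sum]
  refine Finset.sum_congr rfl fun a _ => ?_
  have hne : (X a - C w : MvPolynomial (Fin N) ℂ) ≠ 0 := by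
    intro h
    have := congrArg (eval fun _ => w + 1) h
    simp at this
  refine mul_left_cancel₀ hne ?_
  rw [← hH a]
  refine MvPolynomial.funext fun x => ?_
  have h0 : evalO Q (dgPhi (ofFockC N v) x a) (1, w) = 0 := by
    rw [dg_phi_eval, hH a]
    simp
  have h1 := hΛ _ h0 (1, x a)
  rw [dg_phi_eval, Function.update_eq_self, ← dg_embed_eval] at h1
  simpa using h1

/-! ### part B: polynomials -/

theorem evw_lauP (N : ℕ) (w : ℂ) :
    evw N w (lauP (N + 1)) = (∏ a, (X a - C w) ^ 3) * lauP N := by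
  unfold lauP evw
  simp only [Fin.prod_univ_succ, if_false, Fin.succ_pos, if_true, one_mul,
    Fin.not_lt_zero, Fin.succ_lt_succ_iff, map_mul, map_prod, map_pow, map_sub, aeval_X,
    Fin.cons_zero, Fin.cons_succ, apply_ite (aeval (R := ℂ)
      (Fin.cons (C w) X : Fin (N + 1) → MvPolynomial (Fin N) ℂ)), map_one]

theorem h4_coeff_rename {k : ℕ} (π : Equiv.Perm (Fin k)) (p : MvPolynomial (Fin k) ℂ)
    (β : Fin k →₀ ℕ) : coeff β (rename π p) = coeff (Finsupp.equivMapDomain π.symm β) p := by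
  have h := coeff_rename_mapDomain π π.injective p (Finsupp.equivMapDomain π.symm β)
  rwa [← Finsupp.equivMapDomain_eq_mapDomain, ← Finsupp.equivMapDomain_trans,
    Equiv.symm_trans_self, Finsupp.equivMapDomain_refl] at h

theorem h4_tail {s' : MvPolynomial (Fin N) ℂ} (hs : s'.IsSymmetric) (β : Fin (N + 1) →₀ ℕ)
    (π : Equiv.Perm (Fin (N + 1))) (h : β (π 0) = β 0) :
    coeff (Finsupp.equivMapDomain π.symm β).tail s' = coeff β.tail s' := by
  obtain ⟨⟨p, e⟩, rfl⟩ := Equiv.Perm.decomposeFin.symm.surjective π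
  rw [Equiv.Perm.decomposeFin_symm_apply_zero] at h
  have e1 : (Finsupp.equivMapDomain (Equiv.Perm.decomposeFin.symm (p, e)).symm β).tail =
      Finsupp.equivMapDomain e.symm β.tail := by
    ext x
    simp only [Finsupp.tail_apply, Finsupp.equivMapDomain_apply, Equiv.symm_symm,
      Equiv.Perm.decomposeFin_symm_apply_succ]
    exact Equiv.apply_swap_eq_self h.symm _
  rw [e1, ← h4_coeff_rename, hs e]

theorem h4_tail' {s' : MvPolynomial (Fin N) ℂ} (hs : s'.IsSymmetric) (β : Fin (N + 1) →₀ ℕ)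
    (π τ : Equiv.Perm (Fin (N + 1))) (h : β (π 0) = β (τ 0)) :
    coeff (Finsupp.equivMapDomain π.symm β).tail s' =
      coeff (Finsupp.equivMapDomain τ.symm β).tail s' := by
  rw [← h4_tail hs (Finsupp.equivMapDomain τ.symm β) (π.trans τ.symm) (by simpa using h)]
  congr 2
  ext x
  simp

/-- Symmetric lift.  E.g. `s = ∑ π : Perm (Fin (N+1)), rename π (X 0 ^ c * rename Fin.succ s'')`
with `coeff γ s'' = coeff γ s' / cnt γ`, `cnt γ = #{π | (Fin.cons c γ) (π 0) = c}`; if
`β 0 = c = β (π 0)` then `β ∘ π = β ∘ (swap 0 (π 0) * π)` and `swap 0 (π 0) * π` fixes `0`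
(`Equiv.Perm.decomposeFin`); `finSuccEquiv_coeff_coeff`. -/
theorem sym_lift_coeff {n c : ℕ} (hc : c ≤ n) {s' : MvPolynomial (Fin N) ℂ} (hs : s'.IsSymmetric)
    (hd : ∀ a, degreeOf a s' ≤ n) : ∃ s : MvPolynomial (Fin (N + 1)) ℂ, s.IsSymmetric ∧
      (∀ a, degreeOf a s ≤ n) ∧ (finSuccEquiv ℂ N s).coeff c = s' := by
  classical
  let g : (Fin (N + 1) →₀ ℕ) → ℂ := fun β =>
    if h : ∃ π : Equiv.Perm (Fin (N + 1)), β (π 0) = c then
      coeff (Finsupp.equivMapDomain h.choose.symm β).tail s' else 0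
  have hg : ∀ (β : Fin (N + 1) →₀ ℕ) (π : Equiv.Perm (Fin (N + 1))), β (π 0) = c →
      g β = coeff (Finsupp.equivMapDomain π.symm β).tail s' := fun β π h => by
    have h' : ∃ π : Equiv.Perm (Fin (N + 1)), β (π 0) = c := ⟨π, h⟩
    simp only [g, dif_pos h']
    exact h4_tail' hs β _ _ (h'.choose_spec.trans h.symm)
  have hgπ : ∀ (β : Fin (N + 1) →₀ ℕ) (π : Equiv.Perm (Fin (N + 1))),
      g (Finsupp.equivMapDomain π.symm β) = g β := fun β π => by
    by_cases h : ∃ τ : Equiv.Perm (Fin (N + 1)), β (τ 0) = c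
    · obtain ⟨τ, hτ⟩ := h
      rw [hg β τ hτ, hg _ (τ.trans π.symm) (by simpa using hτ)]
      congr 2
      ext x
      simp
    · have h' : ¬ ∃ τ : Equiv.Perm (Fin (N + 1)), (Finsupp.equivMapDomain π.symm β) (τ 0) = c :=
        fun ⟨τ, hτ⟩ => h ⟨τ.trans π, by simpa using hτ⟩
      simp only [g, dif_neg h, dif_neg h']
  let B : Finset (Fin (N + 1) →₀ ℕ) := Finset.Iic (Finsupp.equivFunOnFinite.symm fun _ => n)
  have hB : ∀ β, β ∈ B ↔ ∀ i, β i ≤ n := fun β => by
    simp [B, Finsupp.le_def]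
  have hco : ∀ β, coeff β (∑ γ ∈ B, monomial γ (g γ)) = if β ∈ B then g β else 0 := fun β => by
    simp only [coeff_sum, coeff_monomial]
    exact Finset.sum_ite_eq' B β g
  refine ⟨∑ γ ∈ B, monomial γ (g γ), fun π => ?_, fun a => ?_, ?_⟩
  · ext β
    rw [h4_coeff_rename, hco, hco, hgπ]
    refine if_congr ?_ rfl rfl
    rw [hB, hB]
    exact ⟨fun h i => by simpa using h (π.symm i), fun h i => by simpa using h (π i)⟩
  · refine degreeOf_le_iff.2 fun β hβ => ?_
    rw [mem_support_iff, hco] at hβ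
    by_contra h
    exact hβ (if_neg fun h' => h ((hB β).1 h' a))
  · ext m
    rw [finSuccEquiv_coeff_coeff, hco, hg _ 1 (by simp)]
    have e : (Finsupp.equivMapDomain (1 : Equiv.Perm (Fin (N + 1))).symm (m.cons c)).tail = m := by
      ext x
      simp [Finsupp.tail_apply]
    rw [e]
    split_ifs with h
    · rfl
    · by_contra h0
      refine h ((hB _).2 fun i => Fin.cases (by simpa using hc) (fun j => ?_) i)
      simpa using degreeOf_le_iff.1 (hd j) m (mem_support_iff.2 (Ne.symm h0))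

theorem evw_eq (N : ℕ) (w : ℂ) (s : MvPolynomial (Fin (N + 1)) ℂ) :
    evw N w s = (finSuccEquiv ℂ N s).eval (C w) := by
  induction s using MvPolynomial.induction_on with
  | C c => simp [evw, finSuccEquiv_apply]
  | add p q hp hq => simp only [map_add, Polynomial.eval_add, hp, hq]
  | mul_X p i hp =>
    rw [map_mul, map_mul, Polynomial.eval_mul, hp]
    congr 1
    refine Fin.cases ?_ (fun j => ?_) i
    · simp [evw, finSuccEquiv_X_zero]
    · simp [evw, finSuccEquiv_X_succ]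

/-- translation does not raise degrees (`degreeOf_sum_le`, `degreeOf_prod_le`, `degreeOf_pow_le`) -/
theorem degreeOf_translate (w : ℂ) (s : MvPolynomial (Fin N) ℂ) (a : Fin N) :
    degreeOf a (aeval (fun i => X i + C w : Fin N → MvPolynomial (Fin N) ℂ) s) ≤ degreeOf a s := by
  rw [aeval_def, eval₂_eq']
  refine (degreeOf_sum_le _ _ _).trans (Finset.sup_le fun d hd => ?_)
  rw [algebraMap_eq]
  refine (degreeOf_C_mul_le _ _ _).trans ((degreeOf_prod_le _ _ _).trans ?_)
  refine le_trans ?_ (monomial_le_degreeOf a hd)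
  have h : ∀ i : Fin N, degreeOf a ((X i + C w : MvPolynomial (Fin N) ℂ) ^ d i) ≤
      if a = i then d i else 0 := fun i => by
    refine (degreeOf_pow_le _ _ _).trans ?_
    have h1 : degreeOf a (X i + C w : MvPolynomial (Fin N) ℂ) ≤ if a = i then 1 else 0 := by
      refine (degreeOf_add_le _ _ _).trans ?_
      rw [degreeOf_C, degreeOf_X]
      simp
    refine (Nat.mul_le_mul_left _ h1).trans ?_
    split_ifs <;> simp
  refine (Finset.sum_le_sum fun i _ => h i).trans ?_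
  simp

theorem b2_sym_translate (w : ℂ) {s : MvPolynomial (Fin N) ℂ} (hs : s.IsSymmetric) :
    (aeval (fun i => X i + C w : Fin N → MvPolynomial (Fin N) ℂ) s).IsSymmetric := by
  intro π
  have h : (rename π).comp (aeval (fun i => X i + C w : Fin N → MvPolynomial (Fin N) ℂ)) =
      (aeval (fun i => X i + C w : Fin N → MvPolynomial (Fin N) ℂ)).comp (rename π) := by
    ext i : 1
    simp
  have h1 := AlgHom.congr_fun h s
  simp only [AlgHom.comp_apply] at h1
  rw [h1, hs π]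

/-- translate by `w`, `sym_lift_coeff` with `c = 0`, translate back -/
theorem sym_lift {n : ℕ} (w : ℂ) {s' : MvPolynomial (Fin N) ℂ} (hs : s'.IsSymmetric)
    (hd : ∀ a, degreeOf a s' ≤ n) : ∃ s : MvPolynomial (Fin (N + 1)) ℂ, s.IsSymmetric ∧
      (∀ a, degreeOf a s ≤ n) ∧ evw N w s = s' := by
  obtain ⟨s, h1, h2, h3⟩ := sym_lift_coeff (Nat.zero_le n) (b2_sym_translate w hs)
    fun a => (degreeOf_translate w s' a).trans (hd a)
  refine ⟨_, b2_sym_translate (-w) h1, fun a => (degreeOf_translate (-w) s a).trans (h2 a), ?_⟩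
  have e1 : (evw N w).comp
      (aeval (fun i => X i + C (-w) : Fin (N + 1) → MvPolynomial (Fin (N + 1)) ℂ)) =
      (aeval (fun i => X i + C (-w) : Fin N → MvPolynomial (Fin N) ℂ)).comp (evw N 0) := by
    ext i : 1
    refine Fin.cases ?_ (fun j => ?_) i <;> simp [evw]
  have e2 : (aeval (fun i => X i + C (-w) : Fin N → MvPolynomial (Fin N) ℂ)).comp
      (aeval (fun i => X i + C w : Fin N → MvPolynomial (Fin N) ℂ)) = AlgHom.id ℂ _ := by
    ext i : 1
    simp
  have e3 := AlgHom.congr_fun e1 s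
  have e4 := AlgHom.congr_fun e2 s'
  simp only [AlgHom.comp_apply, AlgHom.id_apply] at e3 e4
  rw [e3, evw_eq, map_zero, ← Polynomial.coeff_zero_eq_eval_zero, h3, e4]

theorem b2_dvd_iff (a : Fin N) (w : ℂ) (G : MvPolynomial (Fin N) ℂ) :
    (X a - C w) ∣ G ↔
      aeval (Function.update X a (C w) : Fin N → MvPolynomial (Fin N) ℂ) G = 0 := by
  constructor
  · rintro ⟨H, rfl⟩
    simp
  · intro h
    have key : ∀ G : MvPolynomial (Fin N) ℂ, (X a - C w) ∣
        G - aeval (Function.update X a (C w) : Fin N → MvPolynomial (Fin N) ℂ) G := by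
      intro G
      induction G using MvPolynomial.induction_on with
      | C c => simp
      | add p q hp hq =>
        rw [map_add, add_sub_add_comm]
        exact dvd_add hp hq
      | mul_X p c hp =>
        rw [map_mul, aeval_X]
        refine (dvd_add (hp.mul_right (X c)) (Dvd.dvd.mul_left
          (?_ : (X a - C w) ∣ X c - Function.update X a (C w) c)
          (aeval (Function.update X a (C w) : Fin N → MvPolynomial (Fin N) ℂ) p))).trans
          (dvd_of_eq (by ring))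
        by_cases hc : c = a
        · subst hc; simp
        · simp [Function.update_of_ne hc]
    have h1 := key G
    rwa [h, sub_zero] at h1

theorem b2_ne_zero (a : Fin N) (w : ℂ) : (X a - C w : MvPolynomial (Fin N) ℂ) ≠ 0 := by
  intro h
  have := congrArg (eval fun _ => w + 1) h
  simp at this

theorem b2_prime (a : Fin N) (w : ℂ) : Prime (X a - C w : MvPolynomial (Fin N) ℂ) := by
  refine ⟨b2_ne_zero a w, fun hu => ?_, fun x y hxy => ?_⟩
  · have := (b2_dvd_iff a w 1).1 hu.dvd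
    simp at this
  · rw [b2_dvd_iff, map_mul, mul_eq_zero] at hxy
    simpa only [b2_dvd_iff] using hxy

/-- `X 0 - C w ∣ s` (`evw_eq`, `Polynomial.dvd_iff_isRoot`), symmetry, the `X a - C w` are pairwise
relatively prime primes -/
theorem prod_dvd_of_evw {w : ℂ} {s : MvPolynomial (Fin (N + 1)) ℂ} (hs : s.IsSymmetric)
    (h : evw N w s = 0) : (∏ a, (X a - C w)) ∣ s := by
  have h0 : (X 0 - C w) ∣ s := by
    rw [b2_dvd_iff]
    have e : (aeval (Function.update X 0 (C w) : Fin (N + 1) → MvPolynomial (Fin (N + 1)) ℂ)) =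
        (rename Fin.succ).comp (evw N w) := by
      ext i : 1
      refine Fin.cases ?_ (fun j => ?_) i
      · simp [evw]
      · simp [evw]
    rw [e, AlgHom.comp_apply, h, map_zero]
  refine Finset.prod_dvd_of_isRelPrime ?_ fun a _ => ?_
  · intro a _ b _ hne
    simp only [Function.onFun]
    rw [(b2_prime a w).irreducible.isRelPrime_iff_not_dvd, b2_dvd_iff, map_sub, aeval_X, aeval_C,
      Function.update_of_ne (Ne.symm hne)]
    exact b2_ne_zero b w
  · have h1 := map_dvd (rename (Equiv.swap 0 a)) h0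
    rwa [hs, map_sub, rename_X, rename_C, Equiv.swap_apply_left] at h1

/-! ### part C: the three facts -/

/-- too many particles (`degreeOf_lauP`, `degreeOf_mul_eq`) -/
theorem zero_of_lt (hN : 1 ≤ N) (h : Q < 3 * (N - 1)) {v : FV Q} (hs : secP (Q + 1) N *ᵥ v = v)
    (h0 : HC Q *ᵥ v = 0) : v = 0 := by
  obtain ⟨G, hG⟩ := lauP_dvd_PF hs h0
  refine PF_inj hs ?_
  by_contra hne
  have hG0 : G ≠ 0 := fun h' => hne (by rw [hG, h', mul_zero])
  have h1 := degreeOf_PF v (⟨0, hN⟩ : Fin N)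
  rw [hG, degreeOf_mul_eq lauP_ne_zero hG0] at h1
  have h2 := degreeOf_lauP (⟨0, hN⟩ : Fin N)
  omega

theorem alC41_const (h : Q = 3 * (N - 1)) {v : FV Q} (hv : secP (Q + 1) N *ᵥ v = v)
    (hv0 : HC Q *ᵥ v = 0) : ∃ c : ℂ, PF N v = C c * lauP N := by
  obtain ⟨G, hG⟩ := lauP_dvd_PF hv hv0
  by_cases h0 : G = 0
  · exact ⟨0, by simp [hG, h0]⟩
  have hvars : G.vars = ∅ := by
    rw [Finset.eq_empty_iff_forall_notMem]
    intro e he
    rw [mem_vars_iff_degreeOf_ne_zero] at he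
    have h1 := degreeOf_PF v e
    rw [hG, degreeOf_mul_eq lauP_ne_zero h0] at h1
    have h2 := degreeOf_lauP e
    omega
  refine ⟨G.coeff 0, ?_⟩
  rw [← vars_eq_empty_iff_eq_C.1 hvars, hG, mul_comm]

/-- no hole: `PF N v = C c * lauP N` (the quotient has all degrees `0`; `poly_unique`) -/
theorem unique_of_eq (hN : 1 ≤ N) (h : Q = 3 * (N - 1)) {v w : FV Q}
    (hv : secP (Q + 1) N *ᵥ v = v) (hv0 : HC Q *ᵥ v = 0) (hw : secP (Q + 1) N *ᵥ w = w)
    (hw0 : HC Q *ᵥ w = 0) (hne : v ≠ 0) : ∃ c : ℂ, w = c • v := by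
  have _ := hN
  obtain ⟨a, ha⟩ := alC41_const h hv hv0
  obtain ⟨b, hb⟩ := alC41_const h hw hw0
  have ha0 : a ≠ 0 := fun h' => hne (PF_inj hv (by rw [ha, h', map_zero, zero_mul]))
  refine ⟨b / a, sub_eq_zero.1 (PF_inj (N := N) ?_ ?_)⟩
  · rw [mulVec_sub, mulVec_smul, hv, hw]
  · rw [PF_sub, PF_smul, ha, hb, ← mul_assoc, ← map_mul, div_mul_cancel₀ _ ha0, sub_self]

/-- `c_0` of a zero mode has the orbitals `< 3` empty (`annC_mul_self`, `Bn_zero`, `Bn_one`) -/
theorem annC_annC_zero {v : FV Q} (h0 : HC Q *ᵥ v = 0) {j : Fin (Q + 1)} (hj : (j : ℕ) < 3) :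
    annC j *ᵥ (annC 0 *ᵥ v) = 0 := by
  rw [HC_mulVec_iff] at h0
  rw [mulVec_mulVec]
  obtain ⟨j, hjQ⟩ := j
  simp only at hj
  interval_cases j
  · rw [show (⟨0, hjQ⟩ : Fin (Q + 1)) = 0 from rfl, annC_mul_self, zero_mulVec]
  · obtain ⟨q, rfl⟩ : ∃ q, Q = q + 1 := ⟨Q - 1, by omega⟩
    obtain ⟨z, hz, h⟩ := Bn_zero q
    have h1 := h0 0
    rw [h, smul_mulVec, smul_eq_zero] at h1
    exact h1.resolve_left hz
  · obtain ⟨q, rfl⟩ : ∃ q, Q = q + 2 := ⟨Q - 2, by omega⟩
    obtain ⟨z, hz, h⟩ := Bn_one q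
    have h1 := h0 1
    rw [h, smul_mulVec, smul_eq_zero] at h1
    exact h1.resolve_left hz

end Crest.Agent.R340.Pin
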