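import Crest.Agent.R340.FiltDefs

/-!
# Row 340, module FLOW: abstract locality framework

`X` = space of coherent points with measure `μ` and (magnetic) distance `d`, `c x` = annihilator of
the unit coherent state at `x`, `Nn` = number operator.  All constants are explicit parameters, so
that theorems of the form `∃ C, ∀ systems, Frame ... → ...` are uniform in the flux.
-/

set_option autoImplicit false

namespace Crest.Agent.R340.Fw

open MeasureTheory Crest.Agent.R340.Filt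

variable {𝔄 : Type} [CStarAlgebra 𝔄] {X : Type}

/-- commutator locality function -/
noncomputable def loc (c : X → 𝔄) (A : 𝔄) (y : X) : ℝ :=
  ‖A * c y - c y * A‖ + ‖A * star (c y) - star (c y) * A‖

/-- anticommutator locality function (for odd operators) -/
noncomputable def gloc (c : X → 𝔄) (Y : 𝔄) (y : X) : ℝ :=
  ‖Y * c y + c y * Y‖ + ‖Y * star (c y) + star (c y) * Y‖

/-- `A` is quasi-local at `x`, stretched exponential rate `a`, size `K` -/
def QL (c : X → 𝔄) (d : X → X → ℝ) (A : 𝔄) (x : X) (a K : ℝ) : Prop :=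
  ‖A‖ ≤ K ∧ ∀ y, loc c A y ≤ K * Real.exp (-a * Real.sqrt (d x y))

/-- `A` is local at `x` with exponential tails, size `K` -/
def EL (c : X → 𝔄) (d : X → X → ℝ) (A : 𝔄) (x : X) (K : ℝ) : Prop :=
  ‖A‖ ≤ K ∧ ∀ y, loc c A y ≤ K * Real.exp (-d x y)

/-- Lieb-Robinson bound for the dynamics of `K` -/
def LR (c : X → 𝔄) (d : X → X → ℝ) (Nn K : 𝔄) (v : ℝ) : Prop :=
  ∀ (A : 𝔄) (x : X) (κ : ℝ), Commute Nn A → (∀ y, loc c A y ≤ κ * Real.exp (-d x y)) →
    ∀ (t : ℝ) (y : X), loc c (tau K t A) y ≤ v * κ * Real.exp (v * |t| - d x y)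

variable [MeasurableSpace X]

/-- The geometric / CAR data.  `cv` = volume constants, `cr` = reconstruction constants,
`K0` = overlap constant. -/
structure Frame (cv cr : ℝ → ℝ) (K0 : ℝ) (μ : Measure X) (d : X → X → ℝ) (c : X → 𝔄)
    (Nn : 𝔄) : Prop where
  fin : IsFiniteMeasure μ
  d_nonneg : ∀ x y, 0 ≤ d x y
  d_symm : ∀ x y, d x y = d y x
  d_tri : ∀ x y z, d x z ≤ d x y + d y z
  d_bdd : ∃ R, ∀ x y, d x y ≤ R
  meas_d : ∀ x, Measurable (d x)
  meas_c : StronglyMeasurable c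
  norm_c : ∀ x, ‖c x‖ ≤ 1
  car0 : ∀ x y, c x * c y + c y * c x = 0
  car1 : ∀ x y, ∃ z : ℂ, c x * star (c y) + star (c y) * c x = z • (1 : 𝔄)
  numN : ∀ x, Commute Nn (star (c x) * c x)
  ov : ∀ x, EL c d (star (c x) * c x) x K0
  vol : ∀ a, 0 < a → ∀ x, ∫ y, Real.exp (-a * Real.sqrt (d x y)) ∂μ ≤ cv a
  recon : ∀ a, 0 < a → a ≤ 1 → ∀ (y : X) (K : ℝ) (Y A : 𝔄), Commute Nn A → ‖Y‖ ≤ K →
    (∀ z, gloc c Y z ≤ K * Real.exp (-a * Real.sqrt (d y z))) →
    ‖A * Y - Y * A‖ ≤ cr a * K * ∫ u, Real.exp (-(a / 2) * Real.sqrt (d y u)) * loc c A u ∂μ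

/-- `H = ∫ h x dμ` with exponentially local, number conserving, self-adjoint densities -/
structure Ham (K0 : ℝ) (μ : Measure X) (d : X → X → ℝ) (c : X → 𝔄) (Nn : 𝔄) (h : X → 𝔄)
    (H : 𝔄) : Prop where
  int : Integrable h μ
  eq : H = ∫ x, h x ∂μ
  sa : ∀ x, IsSelfAdjoint (h x)
  num : ∀ x, Commute Nn (h x)
  el : ∀ x, EL c d (h x) x K0

/-- the second quantised Toeplitz operator `∫ φ(x) c(x)^* c(x) dμ(x)` -/
noncomputable def pot (μ : Measure X) (c : X → 𝔄) (φ : X → ℝ) : 𝔄 :=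
  ∫ x, (φ x : ℂ) • (star (c x) * c x) ∂μ

open Matrix in
open scoped Matrix.Norms.L2Operator in
/-- RELATIVE FORM BOUND (output of SELF + (Q)): a sum of quasi-local terms each killing `ψ` is
bounded below by `-R ε H` in the sector `Pi`. -/
def Rel {n : Type} [Fintype n] [DecidableEq n] (μ : Measure X) (d : X → X → ℝ)
    (c : X → Matrix n n ℂ) (Nn Pi H : Matrix n n ℂ) (ψ : n → ℂ) (a R : ℝ) : Prop :=
  ∀ (ε : ℝ) (M : X → Matrix n n ℂ), Integrable M μ → (∀ x, IsSelfAdjoint (M x)) →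
    (∀ x, Commute Nn (M x)) → (∀ x, QL c d (M x) x a ε) → (∀ x, M x *ᵥ ψ = 0) →
    ∀ φ : n → ℂ, Pi *ᵥ φ = φ →
      -(R * ε) * (star φ ⬝ᵥ H *ᵥ φ).re ≤ (star φ ⬝ᵥ (∫ x, M x ∂μ) *ᵥ φ).re

end Crest.Agent.R340.Fw
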