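import Crest.Agent.R340.GeoDefs
import Crest.Agent.R340.FwDefs

/-!
# Row 340: locality classes and pins (definitions), `X = S2`, geometry = `GeoDefs`

THE locality classes: `QL Q α a C x A` (commutators, `Fw.loc (ca Q)`), `OL` (anticommutators,
`Fw.gloc (ca Q)`, odd operators), weight `exp (-(a * dq ^ α))`.
A pin is a point `a : S2`; `ca Q a = ch Q (spin a)`.  `ZD Q D` = zero modes of `HC Q` all of whose
particles vanish on the multiset of pins `D`; `PD Q D` its orthogonal projection.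
-/

set_option autoImplicit false

namespace Crest.Agent.R340.Pin

open Matrix MeasureTheory Crest.MathPhysics.Laughlin
open scoped Matrix.Norms.L2Operator MatrixOrder ComplexOrder ComplexConjugate

/-- vectors of the Fock space -/
abbrev FV (Q : ℕ) : Type := Finset (Fin (Q + 1)) → ℂ

/-- squared norm -/
noncomputable def nq {ι : Type} [Fintype ι] (v : ι → ℂ) : ℝ := (star v ⬝ᵥ v).re

/-- quadratic form -/
noncomputable def qf {ι : Type} [Fintype ι] (A : Matrix ι ι ℂ) (v : ι → ℂ) : ℝ :=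
  (star v ⬝ᵥ A *ᵥ v).re

/-- orthogonal projection on a subspace -/
noncomputable def projOf {ι : Type} [Fintype ι] [DecidableEq ι] (S : Submodule ℂ (ι → ℂ)) :
    Matrix ι ι ℂ :=
  (Matrix.toEuclideanCLM (n := ι) (𝕜 := ℂ)).symm
    (S.comap (WithLp.linearEquiv 2 ℂ (ι → ℂ)).toLinearMap).starProjection

theorem projOf_proj {ι : Type} [Fintype ι] [DecidableEq ι] (S : Submodule ℂ (ι → ℂ)) :
    IsStarProjection (projOf S) :=
  (isStarProjection_starProjection (U := S.comap (WithLp.linearEquiv 2 ℂ (ι → ℂ)).toLinearMap)).map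
    (Matrix.toEuclideanCLM (n := ι) (𝕜 := ℂ)).symm

theorem projOf_mulVec_iff {ι : Type} [Fintype ι] [DecidableEq ι] (S : Submodule ℂ (ι → ℂ))
    (v : ι → ℂ) : projOf S *ᵥ v = v ↔ v ∈ S := by
  have h : WithLp.toLp 2 (projOf S *ᵥ v) =
      (S.comap (WithLp.linearEquiv 2 ℂ (ι → ℂ)).toLinearMap).starProjection (WithLp.toLp 2 v) := by
    rw [← Matrix.toEuclideanCLM_toLp, projOf, StarAlgEquiv.apply_symm_apply]
  rw [← (WithLp.toLp_injective 2).eq_iff, h, Submodule.starProjection_eq_self_iff]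
  rfl

/-! ### locality -/

/-- the weight -/
noncomputable def wt (α a r : ℝ) : ℝ := Real.exp (-(a * r ^ α))

/-- number conserving -/
def NC {n : ℕ} (A : Fk n) : Prop := Commute (numC n) A

/-- lowers the particle number by `k` -/
def Low {n : ℕ} (k : ℤ) (A : Fk n) : Prop := numC n * A - A * numC n = -(k : ℂ) • A

/-- quasi-local at `x` (commutators; for even operators) -/
def QL (Q : ℕ) (α a C : ℝ) (x : S2) (A : Fk (Q + 1)) : Prop :=
  ‖A‖ ≤ C ∧ ∀ y, Fw.loc (ca Q) A y ≤ C * wt α a (dq Q x y)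

/-- quasi-local at `x` (anticommutators; for odd operators) -/
def OL (Q : ℕ) (α a C : ℝ) (x : S2) (Y : Fk (Q + 1)) : Prop :=
  ‖Y‖ ≤ C ∧ ∀ y, Fw.gloc (ca Q) Y y ≤ C * wt α a (dq Q x y)

/-- number conserving and quasi-local -/
def NL (Q : ℕ) (α a C : ℝ) (x : S2) (A : Fk (Q + 1)) : Prop := NC A ∧ QL Q α a C x A

/-- a family of sites with quadratic volume growth (`muq Q` with `x = id`, the counting measure of a
finite separated family, `nuC Q` with `x = ster`) -/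
structure Sites (Q : ℕ) (G : ℝ) {ι : Type} [MeasurableSpace ι] (ν : Measure ι) (x : ι → S2) :
    Prop where
  fin : IsFiniteMeasure ν
  meas : Measurable x
  growth : ∀ u r, 0 ≤ r → ν.real {i | dq Q (x i) u ≤ r} ≤ G * (1 + r) ^ 2

/-- an interaction with self-adjoint number conserving terms; the operator is `∫ i, M i ∂ν` -/
structure SInter (Q : ℕ) (α a C G : ℝ) {ι : Type} [MeasurableSpace ι] (ν : Measure ι) (x : ι → S2)
    (M : ι → Fk (Q + 1)) : Prop where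
  sites : Sites Q G ν x
  int : Integrable M ν
  sa : ∀ i, IsSelfAdjoint (M i)
  loc : ∀ i, NL Q α a C (x i) (M i)

/-- `K` is a local Hamiltonian -/
def LocHam (Q : ℕ) (α a C G : ℝ) (K : Fk (Q + 1)) : Prop :=
  ∃ (ι : Type) (_ : MeasurableSpace ι) (ν : Measure ι) (x : ι → S2) (M : ι → Fk (Q + 1)),
    SInter Q α a C G ν x M ∧ K = ∫ i, M i ∂ν

/-- `K ≥ 0` has kernel `ran P` and gap `g` -/
structure Parent {n : ℕ} (K P : Fk n) (g : ℝ) : Prop where
  nonneg : 0 ≤ K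
  kill : K * P = 0
  gap : g • (1 - P) ≤ K

/-! ### pins -/

/-- `u ∧ y` -/
def wedge (u y : ℂ × ℂ) : ℂ := u.1 * y.2 - u.2 * y.1

/-- value of a one-body wave function at the spinor `y` -/
noncomputable def evalO (Q : ℕ) (ψ : Fin (Q + 1) → ℂ) (y : ℂ × ℂ) : ℂ := star (kv Q y) ⬝ᵥ ψ

/-- the field `ĉ(y) = ∑ √C(Q,j) y₀^(Q-j) y₁^j c_j`, holomorphic in `y`; `ca Q x = ch Q (spin x)` -/
noncomputable def ch (Q : ℕ) (y : ℂ × ℂ) : Fk (Q + 1) := cC (kv Q y)

theorem ca_eq (Q : ℕ) (x : S2) : ca Q x = ch Q (spin x) := rfl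

/-- the density at `x` -/
noncomputable def nx (Q : ℕ) (x : S2) : Fk (Q + 1) := star (ca Q x) * ca Q x

/-- `π_D(y) = ∏_{a ∈ D} spin a ∧ y` -/
noncomputable def piD (D : Multiset S2) (y : ℂ × ℂ) : ℂ := (D.map fun a => wedge (spin a) y).prod

/-- the one-body wave function `ψ` is divisible by `π_D` -/
def Dv (Q : ℕ) (D : Multiset S2) (ψ : Fin (Q + 1) → ℂ) : Prop :=
  ∃ b : ℕ → ℂ, ∀ y : ℂ × ℂ, evalO Q ψ y = piD D y *
    ∑ j ∈ Finset.range (Q + 1 - D.card), b j * (y.1 ^ (Q - D.card - j) * y.2 ^ j)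

/-- `f` is orthogonal to all wave functions divisible by `π_D` -/
def Kv (Q : ℕ) (D : Multiset S2) (f : Fin (Q + 1) → ℂ) : Prop :=
  ∀ ψ, Dv Q D ψ → star f ⬝ᵥ ψ = 0

/-- zero modes vanishing on the pins -/
def ZD (Q : ℕ) (D : Multiset S2) : Submodule ℂ (FV Q) where
  carrier := {v | HC Q *ᵥ v = 0 ∧ ∀ f, Kv Q D f → cC f *ᵥ v = 0}
  add_mem' := fun {u v} hu hv => ⟨by rw [mulVec_add, hu.1, hv.1, add_zero],
    fun f hf => by rw [mulVec_add, hu.2 f hf, hv.2 f hf, add_zero]⟩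
  zero_mem' := ⟨mulVec_zero _, fun _ _ => mulVec_zero _⟩
  smul_mem' := fun c v hv => ⟨by rw [mulVec_smul, hv.1, smul_zero],
    fun f hf => by rw [mulVec_smul, hv.2 f hf, smul_zero]⟩

/-- projection on `ZD` -/
noncomputable def PD (Q : ℕ) (D : Multiset S2) : Fk (Q + 1) := projOf (ZD Q D)

/-- `v` is a pinned zero mode with `N` particles -/
def InZ (Q : ℕ) (D : Multiset S2) (N : ℕ) (v : FV Q) : Prop :=
  secP (Q + 1) N *ᵥ v = v ∧ v ∈ ZD Q D

/-- number of free holes `n - |D|`, `n = Q - 3 (N - 1)` -/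
noncomputable def nfree (Q : ℕ) (D : Multiset S2) (N : ℕ) : ℝ :=
  (Q : ℝ) - 3 * ((N : ℝ) - 1) - D.card

/-- distinct elements are `R`-separated -/
def Sep (Q : ℕ) (R : ℝ) (T : Multiset S2) : Prop := ∀ a ∈ T, ∀ b ∈ T, a ≠ b → R ≤ dq Q a b

open Classical in
/-- separated pins of multiplicity at most three -/
def AdmT (Q : ℕ) (R : ℝ) (T : Multiset S2) : Prop := Sep Q R T ∧ ∀ a, T.count a ≤ 3

/-- separated simple pins -/
def AdmS (Q : ℕ) (R : ℝ) (S : Multiset S2) : Prop := Sep Q R S ∧ S.Nodup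

/-- `M ≤ lam` on the pinned zero modes with `N` particles -/
def Bnd (Q : ℕ) (D : Multiset S2) (N : ℕ) (M : Fk (Q + 1)) (lam : ℝ) : Prop :=
  ∀ v, InZ Q D N v → qf M v ≤ lam * nq v

/-- The vector completing the first `m` orbitals at `a` to a basis of `Kv (w ::ₘ replicate m a)`,
of norm between `c(dq a w)` and `1`, smooth in `spin w`: expand `coh w` in the orbitals at `a`,
drop `k < m`, divide by `(√Q conj (a ∧ w)) ^ m`.  `fo Q a 0 w = coh Q w`. -/
noncomputable def fo (Q : ℕ) (a : S2) (m : ℕ) (w : S2) : Fin (Q + 1) → ℂ :=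
  ∑ k : Fin (Q + 1), if m ≤ (k : ℕ) then
    conj (((Real.sqrt (Q.choose k) / Real.sqrt Q ^ m : ℝ) : ℂ) *
      ((conj (spin a).1 * (spin w).1 + conj (spin a).2 * (spin w).2) ^ (Q - k) *
        wedge (spin a) (spin w) ^ ((k : ℕ) - m))) • orb Q a k else 0

/-- the penalty of the first `m` orbitals at `a` (unit `replicate m a`) -/
noncomputable def nA (Q : ℕ) (a : S2) (m : ℕ) : Fk (Q + 1) :=
  ∑ k : Fin (Q + 1), if (k : ℕ) < m then star (cC (orb Q a k)) * cC (orb Q a k) else 0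

/-- the penalty of the unit `w ::ₘ replicate m a` -/
noncomputable def nU (Q : ℕ) (a : S2) (m : ℕ) (w : S2) : Fk (Q + 1) :=
  nA Q a m + star (cC (fo Q a m w)) * cC (fo Q a m w)

/-- the chart: `spin (ster w) = (1, w) / √(1 + |w|²)` -/
noncomputable def ster (w : ℂ) : S2 :=
  ⟨!₂[2 * w.re / (1 + ‖w‖ ^ 2), 2 * w.im / (1 + ‖w‖ ^ 2), (1 - ‖w‖ ^ 2) / (1 + ‖w‖ ^ 2)], by
    have h : (0 : ℝ) < 1 + ‖w‖ ^ 2 := by positivity
    have h2 : ‖w‖ ^ 2 = w.re ^ 2 + w.im ^ 2 := by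
      rw [Complex.sq_norm, Complex.normSq_apply]; ring
    rw [mem_sphere_zero_iff_norm, EuclideanSpace.norm_eq, Real.sqrt_eq_one]
    simp only [Fin.sum_univ_three, Real.norm_eq_abs, sq_abs]
    simp only [Matrix.cons_val_zero, Matrix.cons_val_one, Matrix.cons_val]
    field_simp
    rw [h2]
    ring⟩

/-- the invariant measure in the chart, total mass `Q + 1` -/
noncomputable def nuC (Q : ℕ) : Measure ℂ :=
  volume.withDensity fun w => ENNReal.ofReal ((Q + 1) / (Real.pi * (1 + ‖w‖ ^ 2) ^ 2))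

/-- `Λ` acts as `z₀ / (z₁ - w z₀)` on wave functions vanishing at `(1, w)` -/
def IsDiv (Q : ℕ) (w : ℂ) (Λ : Matrix (Fin (Q + 1)) (Fin (Q + 1)) ℂ) : Prop :=
  ∀ ψ, evalO Q ψ (1, w) = 0 → ∀ y : ℂ × ℂ,
    (y.2 - w * y.1) * evalO Q (Λ *ᵥ ψ) y = y.1 * evalO Q ψ y

end Crest.Agent.R340.Pin
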