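import Crest.Agent.R340.GeoPair
import Crest.Agent.R340.PinDefs

/-! # Row 340, module ALG: the shift `e_j ↦ e_{j+1}` and the pair vectors (architect helper44) -/

set_option autoImplicit false

namespace Crest.Agent.R340.Pin

open Matrix Crest.MathPhysics.Laughlin
open scoped Matrix.Norms.L2Operator MatrixOrder ComplexOrder ComplexConjugate

variable {n q : ℕ}

/-- the isometry of Fock spaces induced by `e_j ↦ e_{j+1}`; its range is "orbital `0` empty" -/
def shM (n : ℕ) : Matrix (Finset (Fin (n + 1))) (Finset (Fin n)) ℂ :=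
  Matrix.of fun T S => if T = S.map (Fin.succEmb n) then 1 else 0

/-- pair annihilator with coefficient matrix `a` -/
noncomputable def PB (a : Fin n → Fin n → ℂ) : Fk n := ∑ i, ∑ j, a i j • (annC j * annC i)

/-- `pairVec` with natural number indices -/
noncomputable def pv (Q p i j : ℕ) : ℝ :=
  if i + j = p + 1 then ((j : ℝ) - i) * Real.sqrt ((Q.choose i : ℝ) * Q.choose j) /
    Real.sqrt (2 * pairNorm Q (p + 1)) else 0

/-- `d_j = (j + 1) ^ (-1/2)` -/
noncomputable def dd (j : ℕ) : ℝ := (Real.sqrt (j + 1))⁻¹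

/-- the factor between the pair vectors of flux `q + 1` (shifted) and `q` -/
noncomputable def kap (q p : ℕ) : ℝ :=
  Real.sqrt (((q : ℝ) + 1) * ((p + 1) * (p + 2)) / (2 * (2 * q - 1)))

/-- the deformed pair annihilators `B_p[d]` -/
noncomputable def Bdf (q : ℕ) (d : ℕ → ℝ) (p : ℕ) : Fk (q + 1) :=
  PB fun i j => ((pv q p i j * (d i * d j) / Real.sqrt 2 : ℝ) : ℂ)

/-! ### part A: the shift -/

theorem shA1_zero (S : Finset (Fin n)) : (0 : Fin (n + 1)) ∉ S.map (Fin.succEmb n) := by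
  simp [Fin.succ_ne_zero]

theorem shA1_cases (T : Finset (Fin (n + 1))) :
    0 ∈ T ∨ ∃ S : Finset (Fin n), T = S.map (Fin.succEmb n) := by
  by_cases h : 0 ∈ T
  · exact Or.inl h
  · refine Or.inr ⟨Finset.univ.filter fun j => j.succ ∈ T, ?_⟩
    ext k
    refine Fin.cases ?_ (fun k => ?_) k
    · exact iff_of_false h (shA1_zero _)
    · exact Iff.symm ((Finset.mem_map' (Fin.succEmb n)).trans (by simp))

theorem shA1_right {m : Type} (A : Matrix m (Finset (Fin (n + 1))) ℂ) (T : m) (S : Finset (Fin n)) :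
    (A * shM n) T S = A T (S.map (Fin.succEmb n)) := by
  simp [shM, Matrix.mul_apply]

theorem shA1_left {m : Type} (B : Matrix (Finset (Fin n)) m ℂ) (S₀ : Finset (Fin n)) (S : m) :
    (shM n * B) (S₀.map (Fin.succEmb n)) S = B S₀ S := by
  simp [shM, Matrix.mul_apply]

theorem shA1_left0 {m : Type} (B : Matrix (Finset (Fin n)) m ℂ) {T : Finset (Fin (n + 1))}
    (h : 0 ∈ T) (S : m) : (shM n * B) T S = 0 := by
  rw [Matrix.mul_apply]
  refine Finset.sum_eq_zero fun U _ => ?_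
  rw [shM, Matrix.of_apply, if_neg, zero_mul]
  rintro rfl
  exact shA1_zero _ h

theorem shA1_ann (j : Fin n) (S T : Finset (Fin n)) :
    annC j S T = if j ∉ S ∧ T = insert j S then (sgn j S : ℂ) else 0 := by
  simp only [annC, cx, ann, Matrix.map_apply, Matrix.of_apply]
  split_ifs <;> simp

theorem shA1_sgn (j : Fin n) (S : Finset (Fin n)) :
    sgn j.succ (S.map (Fin.succEmb n)) = sgn j S := by
  unfold sgn
  rw [Finset.filter_map, Finset.card_map]
  simp [Function.comp_def]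

theorem shA1_sgn0 (T : Finset (Fin (n + 1))) : sgn 0 T = 1 := by
  simp [sgn]

theorem shM_star_mul (n : ℕ) : (shM n)ᴴ * shM n = 1 := by
  ext S S'
  rw [shA1_right, conjTranspose_apply, shM, Matrix.of_apply, Matrix.one_apply]
  simp only [Finset.map_inj, eq_comm (a := S)]
  split_ifs <;> simp

theorem annC_succ_mul_shM (j : Fin n) : annC j.succ * shM n = shM n * annC j := by
  ext T S
  rw [shA1_right, shA1_ann]
  rcases shA1_cases T with h | ⟨S₀, rfl⟩
  · rw [shA1_left0 _ h, if_neg]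
    rintro ⟨-, h2⟩
    exact shA1_zero S (h2 ▸ Finset.mem_insert_of_mem h)
  · rw [shA1_left, shA1_ann, shA1_sgn]
    refine if_congr (and_congr (not_congr (Finset.mem_map' (Fin.succEmb n))) ?_) rfl rfl
    rw [← Finset.map_inj (f := Fin.succEmb n), Finset.map_insert]
    rfl

theorem annC_zero_mul_shM (n : ℕ) : annC (0 : Fin (n + 1)) * shM n = 0 := by
  ext T S
  rw [shA1_right, shA1_ann, if_neg, Matrix.zero_apply]
  rintro ⟨-, h2⟩
  exact shA1_zero S (h2 ▸ Finset.mem_insert_self _ _)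

theorem shM_mul_star (n : ℕ) : shM n * (shM n)ᴴ = annC 0 * star (annC (0 : Fin (n + 1))) := by
  ext T T'
  rcases shA1_cases T with h | ⟨S₀, rfl⟩
  · rw [shA1_left0 _ h, Matrix.mul_apply]
    refine (Finset.sum_eq_zero fun U _ => ?_).symm
    rw [shA1_ann, if_neg (fun h' => h'.1 h), zero_mul]
  · have h0 := shA1_zero S₀
    rw [shA1_left, conjTranspose_apply, shM, Matrix.of_apply, Matrix.mul_apply,
      Finset.sum_eq_single (insert 0 (S₀.map (Fin.succEmb n)))]
    · rw [star_apply, shA1_ann, if_pos (And.intro h0 rfl), shA1_ann, shA1_sgn0, shA1_sgn0]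
      have : T' = S₀.map (Fin.succEmb n) ↔
          0 ∉ T' ∧ insert 0 (S₀.map (Fin.succEmb n)) = insert 0 T' := by
        constructor
        · rintro rfl; exact ⟨h0, rfl⟩
        · rintro ⟨h1, h2⟩
          rw [← Finset.erase_insert h1, ← h2, Finset.erase_insert h0]
      rw [if_congr this rfl rfl]
      simp
    · intro U _ hU
      rw [shA1_ann, if_neg (fun h' => hU h'.2), zero_mul]
    · intro h; exact absurd (Finset.mem_univ _) h

theorem secP_mul_shM (n N : ℕ) : secP (n + 1) N * shM n = shM n * secP n N := by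
  ext T S
  rw [secP, secP, diagonal_mul, mul_diagonal, shM, Matrix.of_apply]
  by_cases h : T = S.map (Fin.succEmb n)
  · rw [if_pos h, h, Finset.card_map, mul_comm]
  · rw [if_neg h, mul_zero, zero_mul]

theorem cC_mul_shM (f : Fin (n + 1) → ℂ) : cC f * shM n = shM n * cC fun j => f j.succ := by
  rw [cC, cC, Fin.sum_univ_succ, Matrix.add_mul, Matrix.smul_mul, annC_zero_mul_shM, smul_zero,
    zero_add, Matrix.sum_mul, Matrix.mul_sum]
  refine Finset.sum_congr rfl fun j _ => ?_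
  rw [Matrix.smul_mul, Matrix.mul_smul, annC_succ_mul_shM]

/-- `shM_mul_star`, `annC_car` -/
theorem eq_shM_of_annC {χ : Finset (Fin (n + 1)) → ℂ} (h : annC 0 *ᵥ χ = 0) :
    χ = shM n *ᵥ ((shM n)ᴴ *ᵥ χ) := by
  have h1 := annC_car (0 : Fin (n + 1)) 0
  rw [if_pos rfl] at h1
  rw [mulVec_mulVec, shM_mul_star, eq_sub_of_add_eq h1, sub_mulVec, one_mulVec, ← mulVec_mulVec, h,
    mulVec_zero, sub_zero]

theorem PB_mul_shM (a : Fin (n + 1) → Fin (n + 1) → ℂ) :
    PB a * shM n = shM n * PB fun i j => a i.succ j.succ := by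
  have h0 : ∀ i : Fin (n + 1), annC 0 * annC i * shM n = 0 := fun i => by
    rw [annC_anticomm, Matrix.neg_mul, Matrix.mul_assoc, annC_zero_mul_shM, Matrix.mul_zero,
      neg_zero]
  have h1 : ∀ j : Fin (n + 1), annC j * annC 0 * shM n = 0 := fun j => by
    rw [Matrix.mul_assoc, annC_zero_mul_shM, Matrix.mul_zero]
  have h2 : ∀ i j : Fin n, annC j.succ * annC i.succ * shM n = shM n * (annC j * annC i) :=
    fun i j => by
      rw [Matrix.mul_assoc, annC_succ_mul_shM, ← Matrix.mul_assoc, annC_succ_mul_shM,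
        Matrix.mul_assoc]
  simp only [PB, Matrix.sum_mul, Matrix.mul_sum, Matrix.smul_mul, Matrix.mul_smul]
  rw [Fin.sum_univ_succ]
  simp only [h1, smul_zero, Finset.sum_const_zero, zero_add]
  refine Finset.sum_congr rfl fun i _ => ?_
  rw [Fin.sum_univ_succ]
  simp only [h0, h2, smul_zero, zero_add]

/-- `cC_mul_Gam` with `Pi.single j 1`, `cC_single` -/
theorem annC_mul_Gam_diag (d : Fin n → ℂ) (j : Fin n) :
    annC j * Gam (diagonal d) = d j • (Gam (diagonal d) * annC j) := by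
  have e : star (diagonal d) *ᵥ Pi.single j 1 = conj (d j) • (Pi.single j 1 : Fin n → ℂ) := by
    funext i
    rw [Matrix.star_eq_conjTranspose, diagonal_conjTranspose, mulVec_diagonal]
    by_cases h : i = j
    · subst h
      simp
    · simp [Pi.single_eq_of_ne h]
  rw [← cC_single, cC_mul_Gam, e, cC_smul, Complex.conj_conj, mul_smul_comm]

theorem PB_mul_Gam_diag (a : Fin n → Fin n → ℂ) (d : Fin n → ℂ) :
    PB a * Gam (diagonal d) = Gam (diagonal d) * PB fun i j => a i j * (d i * d j) := by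
  simp only [PB, Finset.sum_mul, Finset.mul_sum, smul_mul_assoc, mul_smul_comm]
  refine Finset.sum_congr rfl fun i _ => Finset.sum_congr rfl fun j _ => ?_
  rw [mul_assoc, annC_mul_Gam_diag, mul_smul_comm, ← mul_assoc, annC_mul_Gam_diag, smul_mul_assoc,
    smul_smul, smul_smul, mul_assoc, mul_assoc]

theorem PB_smul (z : ℂ) (a : Fin n → Fin n → ℂ) : (PB fun i j => z * a i j) = z • PB a := by
  simp only [PB, Finset.smul_sum, smul_smul]

theorem PB_sub (a b : Fin n → Fin n → ℂ) : (PB fun i j => a i j - b i j) = PB a - PB b := by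
  simp only [PB, sub_smul, Finset.sum_sub_distrib]

theorem norm_PB_le (a : Fin n → Fin n → ℂ) : ‖PB a‖ ≤ ∑ i, ∑ j, ‖a i j‖ := by
  have h : ∀ j : Fin n, ‖annC j‖ ≤ 1 := fun j => by
    have := norm_cC_le (Pi.single j 1 : Fin n → ℂ)
    rw [cC_single] at this
    simpa using this
  refine (norm_sum_le _ _).trans (Finset.sum_le_sum fun i _ => (norm_sum_le _ _).trans
    (Finset.sum_le_sum fun j _ => ?_))
  rw [norm_smul]
  exact mul_le_of_le_one_right (norm_nonneg _)
    ((norm_mul_le _ _).trans (mul_le_one₀ (h j) (norm_nonneg _) (h i)))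

theorem secP_mul_Gam (A : Matrix (Fin n) (Fin n) ℂ) (N : ℕ) :
    secP n N * Gam A = Gam A * secP n N :=
  (commute_secP (commute_numC_Gam A) N).eq

/-! ### part B: pair vectors -/

/-- for `2 q - 1 ≤ p` both sides vanish (`i + j ≥ 2 q` forces `i = j`) -/
theorem Bn_eq_Bdf (q p : ℕ) : Bn q p = Bdf q (fun _ => 1) p := by
  unfold Bn Bdf PB
  split_ifs with h
  · rw [BC_eq]
    simp only [pairVec, pv, mul_one]
  · symm
    refine Finset.sum_eq_zero fun i _ => Finset.sum_eq_zero fun j _ => ?_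
    have : pv q p i j = 0 := by
      unfold pv
      split_ifs with hij
      · have hi := i.2
        have hj := j.2
        have : (i : ℕ) = j := by omega
        simp [this]
      · rfl
    simp [this]

theorem b75_pairNorm {Q : ℕ} (hQ : 1 ≤ Q) {p : ℕ} (hp : p < 2 * Q - 1) :
    pairNorm Q (p + 1) = Q * ((2 * Q - 2).choose p : ℝ) := by
  obtain ⟨m, hm⟩ : ∃ m, 2 * Q = m + 2 := ⟨2 * Q - 2, by omega⟩
  have h1 : ((m + 1 + 1 : ℕ) : ℝ) * ((m + 1).choose p : ℕ) = ((m + 1 + 1).choose (p + 1) : ℕ) * ((p + 1 : ℕ) : ℝ) := by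
    exact_mod_cast Nat.add_one_mul_choose_eq (m + 1) p
  have h2 : ((m.choose p : ℕ) : ℝ) * ((m + 1 : ℕ) : ℝ) = ((m + 1).choose p : ℕ) * ((m + 1 - p : ℕ) : ℝ) := by
    exact_mod_cast Nat.choose_mul_succ_eq m p
  rw [Nat.cast_sub (by omega)] at h2
  have hQ' : (2 * Q : ℝ) = m + 2 := by exact_mod_cast hm
  have h3 : (Q : ℝ) = (m + 2) / 2 := by linarith
  unfold pairNorm
  rw [hm, show m + 2 - 2 = m by omega, h3]
  push_cast at h1 h2 ⊢
  have h4 : (0 : ℝ) < m + 1 := by positivity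
  rw [div_eq_iff (by nlinarith)]
  have e : m + 1 + 1 = m + 2 := rfl
  rw [e] at h1
  linear_combination (-(m + 1 - p : ℝ)) * h1 - (m + 2 : ℝ) * h2

theorem b75_choose (q i : ℕ) :
    (((q + 1).choose (i + 1) : ℕ) : ℝ) = ((q : ℝ) + 1) * q.choose i * dd i ^ 2 := by
  have h1 : ((q + 1 : ℕ) : ℝ) * (q.choose i : ℕ) = ((q + 1).choose (i + 1) : ℕ) * ((i + 1 : ℕ) : ℝ) := by
    exact_mod_cast Nat.add_one_mul_choose_eq q i
  have h2 : (0 : ℝ) < i + 1 := by positivity
  rw [dd, inv_pow, Real.sq_sqrt h2.le]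
  push_cast at h1
  rw [h1]
  field_simp

theorem b75_ratio {q p : ℕ} (h : p + 1 < 2 * q) :
    pairNorm (q + 1) (p + 2 + 1) * (((p : ℝ) + 1) * (p + 2)) =
      pairNorm q (p + 1) * (2 * (2 * q - 1) * (q + 1)) ∧ 0 < pairNorm q (p + 1) := by
  rw [b75_pairNorm (by omega) (by omega), b75_pairNorm (by omega) (by omega)]
  obtain ⟨m, hm⟩ : ∃ m, 2 * q = m + 2 := ⟨2 * q - 2, by omega⟩
  have hQ' : (2 * q : ℝ) = m + 2 := by exact_mod_cast hm
  rw [show 2 * (q + 1) - 2 = m + 1 + 1 by omega, show 2 * q - 2 = m by omega]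
  have h1 : ((m + 1 + 1 : ℕ) : ℝ) * ((m + 1).choose (p + 1) : ℕ) =
      ((m + 1 + 1).choose (p + 1 + 1) : ℕ) * ((p + 1 + 1 : ℕ) : ℝ) := by
    exact_mod_cast Nat.add_one_mul_choose_eq (m + 1) (p + 1)
  have h2 : ((m + 1 : ℕ) : ℝ) * (m.choose p : ℕ) =
      ((m + 1).choose (p + 1) : ℕ) * ((p + 1 : ℕ) : ℝ) := by
    exact_mod_cast Nat.add_one_mul_choose_eq m p
  have h3 : (q : ℝ) = (m + 2) / 2 := by linarith
  refine ⟨?_, mul_pos (by exact_mod_cast (by omega : 0 < q))
    (by exact_mod_cast Nat.choose_pos (by omega))⟩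
  have e : p + 1 + 1 = p + 2 := rfl
  rw [e] at h1
  push_cast at h1 h2 ⊢
  rw [h3]
  linear_combination (-((m + 2 : ℝ) / 2 + 1) * (p + 1)) * h1 -
    (((m + 2 : ℝ) / 2 + 1) * (m + 2)) * h2

/-- `C(q+1,i+1) = (q+1)/(i+1) C(q,i)` and, for `p + 1 < 2 q`,
`pairNorm q (p+1) / pairNorm (q+1) (p+3) = (p+1)(p+2) / (2 (2q-1) (q+1))`; for `2 q ≤ p + 1` both
sides vanish (`i = j` or an index exceeds `q`). -/
theorem pv_succ (q p i j : ℕ) :
    pv (q + 1) (p + 2) (i + 1) (j + 1) = kap q p * (pv q p i j * (dd i * dd j)) := by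
  unfold pv
  by_cases hij : i + j = p + 1
  swap
  · rw [if_neg hij, if_neg (by omega)]
    simp
  rw [if_pos hij, if_pos (by omega)]
  have hd : ∀ i, 0 ≤ dd i := fun i => inv_nonneg.2 (Real.sqrt_nonneg _)
  have h1 : Real.sqrt ((((q + 1).choose (i + 1) : ℕ) : ℝ) * ((q + 1).choose (j + 1) : ℕ)) =
      ((q : ℝ) + 1) * (dd i * dd j) * Real.sqrt ((q.choose i : ℝ) * q.choose j) := by
    rw [b75_choose, b75_choose, show ((q : ℝ) + 1) * q.choose i * dd i ^ 2 *
      (((q : ℝ) + 1) * q.choose j * dd j ^ 2) = (((q : ℝ) + 1) * (dd i * dd j)) ^ 2 *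
        ((q.choose i : ℝ) * q.choose j) by ring, Real.sqrt_mul (sq_nonneg _),
      Real.sqrt_sq (mul_nonneg (by positivity) (mul_nonneg (hd i) (hd j)))]
  rw [h1]
  by_cases hp : p + 1 < 2 * q
  · obtain ⟨h2, h3⟩ := b75_ratio hp
    have hq : (0 : ℝ) < 2 * q - 1 := by
      have : (1 : ℝ) ≤ q := by exact_mod_cast (by omega : 1 ≤ q)
      linarith
    have hpp : (0 : ℝ) < ((p : ℝ) + 1) * (p + 2) := by positivity
    have h4 : pairNorm (q + 1) (p + 2 + 1) =
        pairNorm q (p + 1) * (2 * (2 * q - 1) * (q + 1)) / (((p : ℝ) + 1) * (p + 2)) :=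
      eq_div_of_mul_eq hpp.ne' h2
    have h5 : 0 < pairNorm (q + 1) (p + 2 + 1) := by
      rw [h4]
      positivity
    have h6 : ((q : ℝ) + 1) / Real.sqrt (2 * pairNorm (q + 1) (p + 2 + 1)) =
        kap q p / Real.sqrt (2 * pairNorm q (p + 1)) := by
      rw [kap, ← Real.sqrt_div (by positivity), ← Real.sqrt_sq (by positivity : (0 : ℝ) ≤ q + 1),
        ← Real.sqrt_div (sq_nonneg _), Real.sqrt_sq (by positivity : (0 : ℝ) ≤ q + 1), h4]
      congr 1
      field_simp
    push_cast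
    calc _ = ((j : ℝ) - i) * (dd i * dd j) * Real.sqrt ((q.choose i : ℝ) * q.choose j) *
          (((q : ℝ) + 1) / Real.sqrt (2 * pairNorm (q + 1) (p + 2 + 1))) := by ring
      _ = _ := by
        rw [h6]
        ring
  · by_cases h : i = j
    · simp [h]
    · have h0 : (q.choose i : ℝ) * q.choose j = 0 := by
        rcases (by omega : q < i ∨ q < j) with h' | h' <;> simp [Nat.choose_eq_zero_of_lt h']
      simp [h0]

theorem kap_pos (hq : 1 ≤ q) (p : ℕ) : 0 < kap q p := by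
  have h : (0 : ℝ) < 2 * q - 1 := by
    have : (1 : ℝ) ≤ q := by exact_mod_cast hq
    linarith
  exact Real.sqrt_pos.2 (by positivity)

theorem kap_sq_ge (hq : 1 ≤ q) (p : ℕ) : ((p : ℝ) + 1) * (p + 2) / 4 ≤ kap q p ^ 2 := by
  have h : (0 : ℝ) < 2 * q - 1 := by
    have : (1 : ℝ) ≤ q := by exact_mod_cast hq
    linarith
  have hpp : (0 : ℝ) < ((p : ℝ) + 1) * (p + 2) := by positivity
  rw [kap, Real.sq_sqrt (by positivity), div_le_div_iff₀ (by norm_num) (by positivity)]
  nlinarith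

theorem Bn_mul_shM (q p : ℕ) :
    Bn (q + 1) (p + 2) * shM (q + 1) = (kap q p : ℂ) • (shM (q + 1) * Bdf q dd p) := by
  rw [Bn_eq_Bdf, Bdf, PB_mul_shM, Bdf, ← Matrix.mul_smul, ← PB_smul]
  congr 2
  funext i j
  rw [Fin.val_succ, Fin.val_succ, pv_succ]
  push_cast
  ring

theorem Bn_mul_shM_lt (q : ℕ) {p : ℕ} (hp : p < 2) : Bn (q + 1) p * shM (q + 1) = 0 := by
  rw [Bn_eq_Bdf, Bdf, PB_mul_shM]
  have : ∀ i j : Fin (q + 1), pv (q + 1) p i.succ j.succ = 0 := by
    intro i j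
    unfold pv
    split_ifs with hij
    · have : ((i.succ : Fin (q + 2)) : ℕ) = (j.succ : Fin (q + 2)) := by
        simp only [Fin.val_succ] at hij ⊢
        omega
      rw [this, sub_self, zero_mul, zero_div]
    · rfl
  simp only [this, PB]
  simp

theorem Bdf_mul_Gam (q : ℕ) (d s : ℕ → ℝ) (p : ℕ) :
    Bdf q d p * Gam (diagonal fun j : Fin (q + 1) => (s j : ℂ)) =
      Gam (diagonal fun j : Fin (q + 1) => (s j : ℂ)) * Bdf q (fun j => d j * s j) p := by
  unfold Bdf
  rw [PB_mul_Gam_diag]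
  congr 2
  funext i j
  push_cast
  ring

/-- geometric weights are an exact symmetry -/
theorem Bdf_geom (q : ℕ) (A τ : ℝ) (d : ℕ → ℝ) (p : ℕ) :
    Bdf q (fun j => d j * (A * τ ^ j)) p = ((A ^ 2 * τ ^ (p + 1) : ℝ) : ℂ) • Bdf q d p := by
  unfold Bdf
  rw [← PB_smul]
  congr 1
  funext i j
  rw [← Complex.ofReal_mul]
  congr 1
  by_cases h : (i : ℕ) + j = p + 1
  · rw [← h]
    ring
  · simp [pv, h]

theorem HC_zero : HC 0 = 0 := by
  rw [HC_eq]
  exact Finset.sum_eq_zero fun p _ => absurd p.2 (by omega)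

theorem HC_mulVec_iff (q : ℕ) (ψ : FV q) : HC q *ᵥ ψ = 0 ↔ ∀ p, Bn q p *ᵥ ψ = 0 := by
  constructor
  · intro h p
    unfold Bn
    split_ifs with hp
    · have h1 : ∑ p : Fin (2 * q - 1), star (BC q p *ᵥ ψ) ⬝ᵥ (BC q p *ᵥ ψ) = 0 := by
        have := congrArg (fun v => star ψ ⬝ᵥ v) h
        simp only [dotProduct_zero] at this
        rw [← this, HC_eq, Matrix.sum_mulVec, dotProduct_sum]
        refine Finset.sum_congr rfl fun p _ => ?_
        rw [← mulVec_mulVec, dotProduct_mulVec (star ψ), star_mulVec, Matrix.star_eq_conjTranspose]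
      exact dotProduct_star_self_eq_zero.mp ((Finset.sum_eq_zero_iff_of_nonneg
        fun p _ => dotProduct_star_self_nonneg _).mp h1 ⟨p, hp⟩ (Finset.mem_univ _))
    · exact zero_mulVec _
  · intro h
    rw [HC_eq, Matrix.sum_mulVec]
    refine Finset.sum_eq_zero fun p _ => ?_
    have := h p
    rw [Bn, dif_pos p.2] at this
    rw [← mulVec_mulVec, this, mulVec_zero]

theorem commute_Gam_HC' (q : ℕ) {u : ℂ × ℂ} (hu : IsUnitSp u) :
    Commute (Gam (rho q u)) (HC q) := by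
  rcases Nat.eq_zero_or_pos q with rfl | hq
  · rw [HC_zero]
    exact Commute.zero_right _
  · exact commute_Gam_HC hq hu

theorem alB2_pos {q s : ℕ} (h1 : 1 ≤ s) (h2 : s + 1 ≤ 2 * q) : 0 < pairNorm q s := by
  have a1 : (1 : ℝ) ≤ s := by exact_mod_cast h1
  have a2 : (s : ℝ) + 1 ≤ 2 * q := by exact_mod_cast h2
  have a3 : (0 : ℝ) < Nat.choose (2 * q) s := by exact_mod_cast Nat.choose_pos (by omega)
  exact div_pos (mul_pos (mul_pos (by linarith) (by linarith)) a3) (by linarith)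

theorem alB2_Bn (q p : ℕ) (hp : p < 2) (k : Fin (q + 1)) (hk : (k : ℕ) = p + 1) (h2 : p + 2 ≤ 2 * q) :
    ∃ z : ℂ, z ≠ 0 ∧ Bn q p = z • (annC k * annC 0) := by
  have hk0 : k ≠ 0 := fun h => by simp [h] at hk
  have hne : ((0 : Fin (q + 1)), k) ≠ (k, 0) := fun h => hk0 (congrArg Prod.snd h)
  have hpos : 0 < pv q p (0 : Fin (q + 1)) k := by
    have a3 : (0 : ℝ) < Nat.choose q (p + 1) := by exact_mod_cast Nat.choose_pos (by have := k.2; omega)
    have a4 := alB2_pos (q := q) (s := p + 1) (by omega) (by omega)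
    simp only [pv, hk, Fin.val_zero, zero_add, if_true, Nat.choose_zero_right, Nat.cast_one, one_mul,
      Nat.cast_zero, sub_zero]
    positivity
  have hneg : pv q p k (0 : Fin (q + 1)) = -pv q p (0 : Fin (q + 1)) k := by
    simp only [pv, hk, Fin.val_zero, zero_add, add_zero, if_true, Nat.choose_zero_right, Nat.cast_one,
      one_mul, mul_one, Nat.cast_zero, sub_zero, zero_sub]
    ring
  refine ⟨((2 * (pv q p (0 : Fin (q + 1)) k / Real.sqrt 2) : ℝ) : ℂ), ?_, ?_⟩
  · exact Complex.ofReal_ne_zero.2 (by positivity)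
  · rw [Bn_eq_Bdf, Bdf, PB, ← Fintype.sum_prod_type', Fintype.sum_eq_add (0, k) (k, 0) hne]
    · simp only [hneg, mul_one]
      rw [annC_anticomm 0 k, smul_neg, ← neg_smul, ← add_smul]
      congr 1
      push_cast
      ring
    · rintro ⟨i, j⟩ ⟨h1, h3⟩
      have : pv q p i j = 0 := by
        unfold pv
        split_ifs with hij
        · have : (i : ℕ) = j := by
            simp only [ne_eq, Prod.mk.injEq, Fin.ext_iff, Fin.val_zero, hk] at h1 h3
            omega
          simp [this]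
        · rfl
      simp [this]

/-- `B_0 = z c_1 c_0` -/
theorem Bn_zero (q : ℕ) : ∃ z : ℂ, z ≠ 0 ∧
    Bn (q + 1) 0 = z • (annC (1 : Fin (q + 2)) * annC 0) := by
  exact alB2_Bn (q + 1) 0 (by omega) 1 (by simp) (by omega)

/-- `B_1 = z c_2 c_0` -/
theorem Bn_one (q : ℕ) : ∃ z : ℂ, z ≠ 0 ∧
    Bn (q + 2) 1 = z • (annC (2 : Fin (q + 3)) * annC 0) := by
  exact alB2_Bn (q + 2) 1 (by omega) 2 (by simp) (by omega)

end Crest.Agent.R340.Pin
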