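import Crest.Agent.R340.AlEmb
import Crest.Agent.R340.AlPoly

/-! # Row 340, module ALG: the polynomial model of `ZD` and the map `T_w` (architect helper44) -/

set_option autoImplicit false

namespace Crest.Agent.R340.Pin

open Matrix MvPolynomial Crest.MathPhysics.Laughlin
open scoped Matrix.Norms.L2Operator MatrixOrder ComplexOrder ComplexConjugate

variable {q Q N n' : ℕ} {T : Multiset S2}

/-- the linear factor `u ∧ (1, X i)` -/
noncomputable def lf (u : ℂ × ℂ) (i : Fin N) : MvPolynomial (Fin N) ℂ := C u.1 * X i - C u.2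

/-- `∏_i π_T(1, X i)` -/
noncomputable def PiP (T : Multiset S2) (N : ℕ) : MvPolynomial (Fin N) ℂ :=
  ∏ i : Fin N, (T.map fun a => lf (spin a) i).prod

/-- symmetric polynomials of degree at most `n` in each variable -/
def Sy (N n : ℕ) : Submodule ℂ (MvPolynomial (Fin N) ℂ) where
  carrier := {s | s.IsSymmetric ∧ ∀ a, degreeOf a s ≤ n}
  add_mem' := fun {s t} hs ht => ⟨hs.1.add ht.1, fun a =>
    (degreeOf_add_le a s t).trans (max_le (hs.2 a) (ht.2 a))⟩
  zero_mem' := ⟨IsSymmetric.zero, fun a => by simp⟩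
  smul_mem' := fun c s hs => ⟨hs.1.smul c, fun a => by
    rw [smul_eq_C_mul]; exact (degreeOf_C_mul_le _ _ _).trans (hs.2 a)⟩

/-! ### part A: the model -/

/-- `MvPolynomial.funext`; `eval x p = eval (tail x) (evw (x 0) p)` -/
theorem evw_ext {p p' : MvPolynomial (Fin (N + 1)) ℂ} (h : ∀ w, evw N w p = evw N w p') :
    p = p' := by
  apply (finSuccEquiv ℂ N).injective
  have hinj : Function.Injective (C : ℂ → MvPolynomial (Fin N) ℂ) := C_injective _ _
  have hinf : (Set.range (C : ℂ → MvPolynomial (Fin N) ℂ)).Infinite :=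
    Set.infinite_range_of_injective hinj
  refine Polynomial.eq_of_infinite_eval_eq _ _ (hinf.mono ?_)
  rintro _ ⟨w, rfl⟩
  have := h w
  rwa [evw_eq, evw_eq] at this

theorem PiP_cons (a : S2) (T : Multiset S2) (N : ℕ) :
    PiP (a ::ₘ T) N = (∏ i, lf (spin a) i) * PiP T N := by
  simp only [PiP, Multiset.map_cons, Multiset.prod_cons, Finset.prod_mul_distrib]

theorem lf_ne_zero {u : ℂ × ℂ} (hu : IsUnitSp u) (i : Fin N) : lf u i ≠ 0 := by
  intro h0
  have h1 := congrArg (eval fun _ => (0 : ℂ)) h0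
  have h2 := congrArg (eval fun _ => (1 : ℂ)) h0
  simp only [lf, map_sub, map_mul, eval_C, eval_X, mul_zero, zero_sub, map_zero, neg_eq_zero,
    mul_one] at h1 h2
  rw [h1, sub_zero] at h2
  have h3 := g29_unit hu
  rw [h1, h2] at h3
  simp at h3

theorem PiP_ne_zero (T : Multiset S2) (N : ℕ) : PiP T N ≠ 0 := by
  induction T using Multiset.induction_on with
  | empty => simp [PiP]
  | cons a T ih =>
    rw [PiP_cons]
    exact mul_ne_zero (Finset.prod_ne_zero_iff.2 fun i _ => lf_ne_zero (spin_unit a) i) ih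

theorem PiP_symm (T : Multiset S2) (N : ℕ) : (PiP T N).IsSymmetric := by
  intro e
  unfold PiP
  rw [map_prod]
  refine Fintype.prod_equiv e _ _ fun i => ?_
  rw [map_multiset_prod, Multiset.map_map]
  congr 1
  refine Multiset.map_congr rfl fun a _ => ?_
  simp [lf]

theorem t95_evw_lf (u : ℂ × ℂ) (N : ℕ) (w : ℂ) :
    evw N w (∏ i : Fin (N + 1), lf u i) = C (wedge u (1, w)) * ∏ i : Fin N, lf u i := by
  rw [Fin.prod_univ_succ, map_mul, map_prod]
  congr 1
  · simp [evw, lf, wedge]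
  · refine Finset.prod_congr rfl fun i _ => ?_
    simp [evw, lf]

theorem evw_PiP (T : Multiset S2) (N : ℕ) (w : ℂ) :
    evw N w (PiP T (N + 1)) = C (piD T (1, w)) * PiP T N := by
  induction T using Multiset.induction_on with
  | empty => simp [PiP, piD]
  | cons a T ih =>
    rw [PiP_cons, PiP_cons, map_mul, ih, t95_evw_lf]
    simp only [piD, Multiset.map_cons, Multiset.prod_cons, map_mul]
    ring

theorem t95_adj_kv {u : ℂ × ℂ}
    {I : Matrix (Finset (Fin (q + 2))) (Finset (Fin (q + 1))) ℂ}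
    {M : Matrix (Fin (q + 2)) (Fin (q + 1)) ℂ} (h : Emb q u I M) (y : ℂ × ℂ) :
    Mᴴ *ᵥ kv (q + 1) y = conj (wedge u y) • kv q y := by
  funext j
  have h1 := h.ev (Pi.single j 1) y
  rw [evalO, evalO, dotProduct_mulVec, dotProduct_single_one, dotProduct_single_one] at h1
  have h2 : (Mᴴ *ᵥ kv (q + 1) y) j = conj ((star (kv (q + 1) y) ᵥ* M) j) := by
    simp [mulVec, vecMul, dotProduct, conjTranspose_apply, mul_comm]
  rw [h2, h1]
  simp

theorem t95_ch_mul {u : ℂ × ℂ}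
    {I : Matrix (Finset (Fin (q + 2))) (Finset (Fin (q + 1))) ℂ}
    {M : Matrix (Fin (q + 2)) (Fin (q + 1)) ℂ} (h : Emb q u I M) (y : ℂ × ℂ) :
    ch (q + 1) y * I = wedge u y • (I * ch q y) := by
  rw [ch, h.cc, t95_adj_kv h, cC_smul, Matrix.mul_smul, ch]
  simp

theorem t95_col {u : ℂ × ℂ}
    {I : Matrix (Finset (Fin (q + 2))) (Finset (Fin (q + 1))) ℂ}
    {M : Matrix (Fin (q + 2)) (Fin (q + 1)) ℂ} (h : Emb q u I M)
    (S : Finset (Fin (q + 2))) (S' : Finset (Fin (q + 1))) (hS : S.card ≠ S'.card) :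
    I S S' = 0 := by
  have h1 := congrFun (congrFun (h.sec S'.card) S) S'
  rw [secP, secP, diagonal_mul, mul_diagonal, if_neg hS, if_pos rfl, zero_mul, mul_one] at h1
  exact h1.symm

/-- `z = (I *ᵥ vac) ∅` (`Emb.sec 0`, `Emb.inj`, `PF_zero`); induction on `N` by `evw_ext`, `PF_ch`:
`Mᴴ *ᵥ kv (q+1) y = conj (wedge u y) • kv q y` from `Emb.ev`, so
`ch (q+1) y * I = wedge u y • (I * ch q y)`. -/
theorem Emb.PF_eq {u : ℂ × ℂ} {I : Matrix (Finset (Fin (q + 2))) (Finset (Fin (q + 1))) ℂ}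
    {M : Matrix (Fin (q + 2)) (Fin (q + 1)) ℂ} (h : Emb q u I M) : ∃ z : ℂ, z ≠ 0 ∧
      ∀ (N : ℕ) (v : FV q), PF N (I *ᵥ v) = C z * ((∏ i, lf u i) * PF N v) := by
  refine ⟨I ∅ ∅, fun h0 => ?_, fun N => ?_⟩
  · have h1 : I *ᵥ (Pi.single ∅ 1 : FV q) = 0 := by
      funext S
      rw [mulVec_single_one]
      by_cases hS : S = ∅
      · subst hS; exact h0
      · exact t95_col h S ∅ (by simpa using hS)
    have h2 := congrFun (h.inj _ h1) ∅
    simp at h2
  · induction N with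
    | zero =>
      intro v
      rw [PF_zero, PF_zero, Finset.univ_eq_empty, Finset.prod_empty, one_mul, ← map_mul]
      congr 1
      rw [mulVec, dotProduct, Finset.sum_eq_single ∅]
      · intro S _ hS
        rw [t95_col h ∅ S (fun e => hS (Finset.card_eq_zero.1 (by simpa using e.symm))), zero_mul]
      · simp
    | succ N ih =>
      intro v
      refine evw_ext fun w => ?_
      rw [← PF_ch, mulVec_mulVec, t95_ch_mul h, smul_mulVec, PF_smul, ← mulVec_mulVec, ih,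
        map_mul, map_mul, t95_evw_lf, ← PF_ch]
      have hC : evw N w (C (I ∅ ∅)) = C (I ∅ ∅) := by simp [evw]
      rw [hC]
      ring

theorem InZ.smul' {v : FV Q} (h : InZ Q T N v) (z : ℂ) : InZ Q T N (z • v) := by
  exact ⟨by rw [mulVec_smul, h.1], (ZD Q T).smul_mem z h.2⟩

/-- induction on `T` generalising `Q` (`exists_emb`, `Emb.InZ_cons`, `Emb.PF_eq`, `PF_smul`) -/
theorem InZ.exists_base {r : ℕ} (hr : T.card + r = Q) {v : FV Q} (h : InZ Q T N v) :
    ∃ v0 : FV r, InZ r 0 N v0 ∧ PF N v = PiP T N * PF N v0 := by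
  induction T using Multiset.induction_on generalizing Q v with
  | empty =>
    obtain rfl : r = Q := by simpa using hr
    exact ⟨v, h, by simp [PiP]⟩
  | cons a T ih =>
    rw [Multiset.card_cons] at hr
    obtain ⟨q, rfl⟩ : ∃ q, Q = q + 1 := ⟨T.card + r, by omega⟩
    obtain ⟨I, M, hE⟩ := exists_emb q (spin_unit a)
    obtain ⟨v', hv', rfl⟩ := hE.InZ_cons.1 h
    obtain ⟨z, _, hz⟩ := hE.PF_eq
    obtain ⟨v0, hv0, e⟩ := ih (show T.card + r = q by omega) hv'
    refine ⟨z • v0, hv0.smul' z, ?_⟩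
    rw [hz, e, PiP_cons, PF_smul]
    ring

theorem exists_InZ_of_base {r : ℕ} (hr : T.card + r = Q) {v0 : FV r} (h : InZ r 0 N v0) :
    ∃ v : FV Q, InZ Q T N v ∧ PF N v = PiP T N * PF N v0 := by
  induction T using Multiset.induction_on generalizing Q with
  | empty =>
    obtain rfl : r = Q := by simpa using hr
    exact ⟨v0, h, by simp [PiP]⟩
  | cons a T ih =>
    rw [Multiset.card_cons] at hr
    obtain ⟨q, rfl⟩ : ∃ q, Q = q + 1 := ⟨T.card + r, by omega⟩
    obtain ⟨I, M, hE⟩ := exists_emb q (spin_unit a)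
    obtain ⟨z, hz0, hz⟩ := hE.PF_eq
    obtain ⟨v', hv', e⟩ := ih (show T.card + r = q by omega)
    refine ⟨I *ᵥ (z⁻¹ • v'), hE.InZ_cons.2 ⟨_, hv'.smul' _, rfl⟩, ?_⟩
    have h1 : (C z : MvPolynomial (Fin N) ℂ) * C z⁻¹ = 1 := by
      rw [← C_mul, mul_inv_cancel₀ hz0, C_1]
    rw [hz, PF_smul, e, PiP_cons]
    linear_combination ((∏ i, lf (spin a) i) * PiP T N * PF N v0) * h1

/-- `exists_base`, `lauP_dvd_PF`, `rename_PF`, `LauZ.rename_lauP`, `degreeOf_mul_eq`,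
`degreeOf_lauP`, `degreeOf_PF` -/
theorem InZ.exists_sym (hn : T.card + 3 * (N - 1) + n' = Q) {v : FV Q} (h : InZ Q T N v) :
    ∃ s ∈ Sy N n', PF N v = lauP N * PiP T N * s := by
  obtain ⟨v0, hv0, e⟩ := h.exists_base (r := 3 * (N - 1) + n') (by omega)
  obtain ⟨s, hs⟩ := lauP_dvd_PF hv0.1 (mem_ZD_nil.1 hv0.2)
  refine ⟨s, ⟨fun π => ?_, fun a => ?_⟩, by rw [e, hs]; ring⟩
  · have h1 := rename_PF v0 π
    rw [hs, map_mul, LauZ.rename_lauP, mul_assoc] at h1
    have h2 : (C ((Equiv.Perm.sign π : ℤ) : ℂ) : MvPolynomial (Fin N) ℂ) ≠ 0 := by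
      rw [Ne, C_eq_zero]
      exact_mod_cast (Equiv.Perm.sign π).ne_zero
    exact mul_left_cancel₀ lauP_ne_zero (mul_left_cancel₀ h2 h1)
  · by_cases h0 : s = 0
    · simp [h0]
    have h1 := degreeOf_PF v0 a
    rw [hs, degreeOf_mul_eq lauP_ne_zero h0] at h1
    have h2 := degreeOf_lauP a
    omega

/-- `exists_PF` for `lauP N * s` at flux `3 (N - 1) + n'` (`LauZ.degreeOf_lauP_le`) -/
theorem exists_InZ_of_sym (hn : T.card + 3 * (N - 1) + n' = Q) {s : MvPolynomial (Fin N) ℂ}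
    (hs : s ∈ Sy N n') : ∃ v : FV Q, InZ Q T N v ∧ PF N v = lauP N * PiP T N * s := by
  obtain ⟨v0, h1, h2, h3⟩ := exists_PF (Q := 3 * (N - 1) + n') (F := lauP N * s)
    (fun π => by rw [map_mul, LauZ.rename_lauP, hs.1 π, mul_assoc])
    (fun a => (degreeOf_mul_le a _ _).trans (add_le_add (LauZ.degreeOf_lauP_le a) (hs.2 a)))
    (dvd_mul_right _ _)
  obtain ⟨v, hv, e⟩ := exists_InZ_of_base (Q := Q) (T := T) (r := 3 * (N - 1) + n') (by omega)
    (v0 := v0) ⟨h1, mem_ZD_nil.2 h2⟩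
  exact ⟨v, hv, by rw [e, h3]; ring⟩

theorem t29_deg (w : ℂ) (a : Fin N) :
    degreeOf a (X a - C w : MvPolynomial (Fin N) ℂ) = 1 := by
  rw [sub_eq_add_neg, degreeOf_add_eq_of_degreeOf_lt, degreeOf_X_self]
  rw [degreeOf_neg, degreeOf_C, degreeOf_X_self]
  exact one_pos

theorem t29_ne (w : ℂ) (a : Fin N) : (X a - C w : MvPolynomial (Fin N) ℂ) ≠ 0 := fun h => by
  have := t29_deg w a
  rw [h, degreeOf_zero] at this
  exact zero_ne_one this

theorem t29_lf (c w : ℂ) (N : ℕ) : (∏ i : Fin N, lf (c • ((1, w) : ℂ × ℂ)) i) =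
    C (c ^ N) * ∏ i : Fin N, (X i - C w) := by
  have e : ∀ i : Fin N, lf (c • ((1, w) : ℂ × ℂ)) i = C c * (X i - C w) := fun i => by
    simp only [lf, Prod.smul_fst, Prod.smul_snd, smul_eq_mul, mul_one, C_mul]
    ring
  simp only [e, Finset.prod_mul_distrib, Finset.prod_const, Finset.card_univ, Fintype.card_fin,
    C_pow]

/-- `→`: `prod_dvd_of_evw`, `s = ∏ (X a - w) * s₁`; `n' = 0` forces `s = 0`; else `s₁ ∈ Sy _ (n'-1)`,
`exists_InZ_of_sym` for `ster w ::ₘ T`, `PF_inj`.  `←`: `Q < card`: `Kv_of_lt`,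
`eq_zero_of_all_cC`; else `exists_base`, `lauP_dvd_PF`, cancel.  `hst` is `spin_ster`. -/
theorem evw_eq_zero_iff (hn : T.card + 3 * N + n' = Q) {w : ℂ} {c : ℂ} (hc : c ≠ 0)
    (hst : spin (ster w) = c • ((1, w) : ℂ × ℂ)) {v : FV Q} (h : InZ Q T (N + 1) v)
    {s : MvPolynomial (Fin (N + 1)) ℂ} (hs : s ∈ Sy (N + 1) n')
    (e : PF (N + 1) v = lauP (N + 1) * PiP T (N + 1) * s) :
    evw N w s = 0 ↔ v ∈ ZD Q (ster w ::ₘ T) := by
  have hL : lauP (N + 1) * PiP T (N + 1) ≠ 0 := mul_ne_zero lauP_ne_zero (PiP_ne_zero _ _)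
  have hP : PiP (ster w ::ₘ T) (N + 1) =
      C (c ^ (N + 1)) * (∏ i : Fin (N + 1), (X i - C w)) * PiP T (N + 1) := by
    rw [PiP_cons, hst, t29_lf]
  have hp0 : (∏ i : Fin (N + 1), (X i - C w) : MvPolynomial (Fin (N + 1)) ℂ) ≠ 0 :=
    Finset.prod_ne_zero_iff.2 fun i _ => t29_ne w i
  constructor
  · intro h0
    obtain ⟨s₁, rfl⟩ := prod_dvd_of_evw hs.1 h0
    by_cases h1 : s₁ = 0
    · rw [h1, mul_zero, mul_zero] at e
      rw [PF_inj h.1 e]
      exact Submodule.zero_mem _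
    have hd : ∀ a, degreeOf a s₁ + 1 ≤ n' := fun a => by
      have h2 := hs.2 a
      rw [degreeOf_mul_eq hp0 h1, degreeOf_prod_eq _ _ fun i _ => t29_ne w i] at h2
      have h3 := Finset.single_le_sum
        (f := fun i => degreeOf a (X i - C w : MvPolynomial (Fin (N + 1)) ℂ))
        (fun i _ => Nat.zero_le _) (Finset.mem_univ a)
      rw [t29_deg] at h3
      omega
    have hsym : s₁.IsSymmetric := fun π => by
      have h2 := hs.1 π
      have h3 : rename π (∏ i : Fin (N + 1), (X i - C w) : MvPolynomial (Fin (N + 1)) ℂ) =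
          ∏ i : Fin (N + 1), (X i - C w) := by
        simp only [map_prod, map_sub, rename_X, rename_C]
        exact Equiv.prod_comp π fun i => (X i - C w : MvPolynomial (Fin (N + 1)) ℂ)
      rw [map_mul, h3] at h2
      exact mul_left_cancel₀ hp0 h2
    obtain ⟨m, rfl⟩ : ∃ m, n' = m + 1 := ⟨n' - 1, by have := hd 0; omega⟩
    have hs1 : s₁ ∈ Sy (N + 1) m := ⟨hsym, fun a => by have := hd a; omega⟩
    obtain ⟨v', hv', e'⟩ := exists_InZ_of_sym (T := ster w ::ₘ T) (Q := Q) (n' := m)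
      (by rw [Multiset.card_cons, Nat.add_sub_cancel]; omega)
      ((Sy (N + 1) m).smul_mem (c ^ (N + 1))⁻¹ hs1)
    have hcc : (C (c ^ (N + 1)) * C (c ^ (N + 1))⁻¹ : MvPolynomial (Fin (N + 1)) ℂ) = 1 := by
      rw [← C_mul, mul_inv_cancel₀ (pow_ne_zero _ hc), C_1]
    have hvv : v - v' = 0 := by
      refine PF_inj (N := N + 1) (by rw [mulVec_sub, h.1, hv'.1]) ?_
      rw [PF_sub, e, e', hP, smul_eq_C_mul]
      linear_combination (-(lauP (N + 1) * PiP T (N + 1) * (∏ i : Fin (N + 1), (X i - C w)) * s₁)) * hcc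
    rw [sub_eq_zero.1 hvv]
    exact hv'.2
  · intro hv
    rcases lt_or_ge Q (ster w ::ₘ T).card with hQ | hQ
    · have h0 : v = 0 := eq_zero_of_all_cC (Nat.le_add_left 1 N) h.1
        fun f => hv.2 f (Kv_of_lt hQ f)
      have h1 : PF (N + 1) v = 0 := by
        have := PF_sub (N + 1) v v
        rw [sub_self, sub_self] at this
        rw [h0, this]
      rw [h1] at e
      rw [(mul_eq_zero.1 e.symm).resolve_left hL, map_zero]
    · obtain ⟨r, hr⟩ := Nat.exists_eq_add_of_le hQ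
      obtain ⟨v0, hv0, e0⟩ := InZ.exists_base (T := ster w ::ₘ T) (N := N + 1) hr.symm ⟨h.1, hv⟩
      obtain ⟨G, hG⟩ := lauP_dvd_PF hv0.1 hv0.2.1
      have h1 : s = (∏ i : Fin (N + 1), (X i - C w)) * (C (c ^ (N + 1)) * G) := by
        refine mul_left_cancel₀ hL ?_
        rw [← e, e0, hG, hP]
        ring
      rw [h1, map_mul, map_prod, Finset.prod_eq_zero (Finset.mem_univ 0), zero_mul]
      simp [evw]

/-! ### part B: linear algebra -/

theorem tb1_add (N : ℕ) (v w : FV Q) : PF N (v + w) = PF N v + PF N w := by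
  have h := PF_sub N (v + w) w
  rw [add_sub_cancel_right] at h
  rw [h, sub_add_cancel]

/-- choose `s` by `InZ.exists_sym`; linear by cancellation (`PF_sub`, `PF_smul`) -/
theorem exists_sigma (hn : T.card + 3 * (N - 1) + n' = Q) {P : Fk (Q + 1)}
    (hP : ∀ v, InZ Q T N (P *ᵥ v)) : ∃ σ : FV Q →ₗ[ℂ] MvPolynomial (Fin N) ℂ,
      ∀ v, σ v ∈ Sy N n' ∧ PF N (P *ᵥ v) = lauP N * PiP T N * σ v := by
  choose s hs hs' using fun v => (hP v).exists_sym hn
  have h0 : lauP N * PiP T N ≠ 0 := mul_ne_zero lauP_ne_zero (PiP_ne_zero T N)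
  refine ⟨⟨⟨s, fun v w => mul_left_cancel₀ h0 ?_⟩, fun z v => mul_left_cancel₀ h0 ?_⟩,
    fun v => ⟨hs v, hs' v⟩⟩
  · rw [mul_add, ← hs', ← hs', ← hs', mulVec_add, tb1_add]
  · show _ * s (z • v) = _ * z • s v
    rw [← hs', mulVec_smul, PF_smul, hs', smul_eq_C_mul]
    ring

/-- `LinearMap.exists_leftInverse_of_injective` on the sector (`PF_inj`) -/
theorem exists_ofP (Q N : ℕ) : ∃ ρ : MvPolynomial (Fin N) ℂ →ₗ[ℂ] FV Q,
    ∀ v, secP (Q + 1) N *ᵥ v = v → ρ (PF N v) = v := by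
  let f : FV Q →ₗ[ℂ] MvPolynomial (Fin N) ℂ :=
    ⟨⟨PF N, tb1_add N⟩, fun z v => (PF_smul N z v).trans (smul_eq_C_mul _ _).symm⟩
  let S : Submodule ℂ (FV Q) := LinearMap.eqLocus (secP (Q + 1) N).mulVecLin LinearMap.id
  obtain ⟨g, hg⟩ := (f.domRestrict S).exists_leftInverse_of_injective
    (LinearMap.ker_eq_bot'.2 fun v hv => Subtype.ext (PF_inj v.2 hv))
  exact ⟨S.subtype ∘ₗ g, fun v hv => congrArg Subtype.val (LinearMap.congr_fun hg ⟨v, hv⟩)⟩

/-- `Sy N n ≤ restrictDegree` is finite dimensional; `Module.finBasis`,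
`LinearMap.exists_leftInverse_of_injective` -/
theorem exists_coord (N n : ℕ) : ∃ (m : ℕ) (co : MvPolynomial (Fin N) ℂ →ₗ[ℂ] (Fin m → ℂ))
    (e : (Fin m → ℂ) →ₗ[ℂ] MvPolynomial (Fin N) ℂ),
    (∀ x, e x ∈ Sy N n) ∧ (∀ x, co (e x) = x) ∧ ∀ s ∈ Sy N n, e (co s) = s := by
  have : Module.Finite ℂ (Sy N n) := Submodule.finiteDimensional_of_le
    (S₂ := restrictDegree (Fin N) ℂ n) fun s hs => (mem_restrictDegree _ _ _).2 fun d hd i =>
      degreeOf_le_iff.1 (hs.2 i) d hd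
  obtain ⟨g, hg⟩ := (Sy N n).subtype.exists_leftInverse_of_injective (Submodule.ker_subtype _)
  have hg' : ∀ s : Sy N n, g s = s := fun s => LinearMap.congr_fun hg s
  let b := (Module.finBasis ℂ (Sy N n)).equivFun
  refine ⟨_, b.toLinearMap ∘ₗ g, (Sy N n).subtype ∘ₗ b.symm.toLinearMap, fun x => (b.symm x).2,
    fun x => ?_, fun s hs => ?_⟩
  · show b (g (b.symm x : Sy N n)) = x
    rw [hg', b.apply_symm_apply]
  · show (b.symm (b (g (⟨s, hs⟩ : Sy N n))) : MvPolynomial (Fin N) ℂ) = s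
    rw [hg', b.symm_apply_apply]

/-- `Matrix.mulVec_injective_iff_isUnit`; `A Aᴴ x = 0 → Aᴴ x = 0 → x ⊥ range A` -/
theorem isUnit_mul_conjTranspose {m : ℕ} {ι : Type} [Fintype ι] {A : Matrix (Fin m) ι ℂ}
    (h : ∀ x, ∃ v, A *ᵥ v = x) : IsUnit (A * Aᴴ) := by
  rw [← Matrix.mulVec_injective_iff_isUnit]
  intro x y hxy
  have h0 : (A * Aᴴ) *ᵥ (x - y) = 0 := by
    rw [Matrix.mulVec_sub, sub_eq_zero]
    exact hxy
  rw [Matrix.self_mul_conjTranspose_mulVec_eq_zero] at h0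
  obtain ⟨v, hv⟩ := h (x - y)
  have h1 : star (x - y) ⬝ᵥ (x - y) = 0 := by
    have h2 := congrArg star h0
    rw [Matrix.star_mulVec, conjTranspose_conjTranspose, star_zero] at h2
    calc star (x - y) ⬝ᵥ (x - y) = star (x - y) ⬝ᵥ (A *ᵥ v) := by rw [hv]
      _ = 0 := by rw [Matrix.dotProduct_mulVec, h2, zero_dotProduct]
  exact sub_eq_zero.1 (dotProduct_star_self_eq_zero.1 h1)

/-- `finSuccEquiv_coeff_coeff`, `degreeOf_coeff_finSuccEquiv` -/
theorem coeff_mem_Sy {n : ℕ} {s : MvPolynomial (Fin (N + 1)) ℂ} (hs : s ∈ Sy (N + 1) n) (k : ℕ) :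
    (finSuccEquiv ℂ N s).coeff k ∈ Sy N n := by
  refine ⟨fun e => ?_, fun a => (degreeOf_coeff_finSuccEquiv s a k).trans (hs.2 a.succ)⟩
  have key : ((finSuccEquiv ℂ N : _ →ₐ[ℂ] _).comp
      (rename (Equiv.Perm.decomposeFin.symm (0, e) : Equiv.Perm (Fin (N + 1))))) =
      (Polynomial.mapAlgHom (rename e : MvPolynomial (Fin N) ℂ →ₐ[ℂ] MvPolynomial (Fin N) ℂ)).comp
        (finSuccEquiv ℂ N : _ →ₐ[ℂ] _) := by
    refine MvPolynomial.algHom_ext fun i => ?_
    refine Fin.cases ?_ (fun j => ?_) i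
    · simp [finSuccEquiv_X_zero]
    · simp [finSuccEquiv_X_succ]
  have h1 := congrArg (fun φ => Polynomial.coeff (φ s) k) key
  simp only [AlgHom.comp_apply, hs.1 _, Polynomial.coe_mapAlgHom,
    Polynomial.coeff_map] at h1
  exact h1.symm

/-- `evw_eq`, `natDegree_finSuccEquiv`, `Polynomial.eval_eq_sum_range'` -/
theorem evw_eq_sum {n : ℕ} {s : MvPolynomial (Fin (N + 1)) ℂ} (hs : s ∈ Sy (N + 1) n) (w : ℂ) :
    evw N w s = ∑ k ∈ Finset.range (n + 1), w ^ k • (finSuccEquiv ℂ N s).coeff k := by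
  rw [evw_eq, Polynomial.eval_eq_sum_range' (n := n + 1)
    (by rw [natDegree_finSuccEquiv]; exact Nat.lt_succ_of_le (hs.2 0))]
  refine Finset.sum_congr rfl fun k _ => ?_
  rw [smul_eq_C_mul, map_pow, mul_comm]

/-! ### part C: the derivative -/

theorem hasDerivAt_piD (T : Multiset S2) {w : ℂ} (h : piD T (1, w) ≠ 0) :
    HasDerivAt (fun z => piD T (1, z))
      ((T.map fun a => (spin a).1 / wedge (spin a) (1, w)).sum * piD T (1, w)) w := by
  induction T using Multiset.induction_on with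
  | empty => simpa [piD] using hasDerivAt_const w (1 : ℂ)
  | cons a T ih =>
    have e : ∀ z : ℂ, piD (a ::ₘ T) (1, z) = wedge (spin a) (1, z) * piD T (1, z) := fun z => by
      simp only [piD, Multiset.map_cons, Multiset.prod_cons]
    rw [e] at h
    have h1 := left_ne_zero_of_mul h
    have h2 := right_ne_zero_of_mul h
    have hw : HasDerivAt (fun z : ℂ => wedge (spin a) (1, z)) (spin a).1 w := by
      simpa [wedge] using ((hasDerivAt_id w).const_mul (spin a).1).sub_const (spin a).2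
    simp only [e, Multiset.map_cons, Multiset.sum_cons]
    refine (hw.fun_mul (ih h2)).congr_deriv ?_
    rw [add_mul, ← mul_assoc ((spin a).1 / _), div_mul_cancel₀ _ h1]
    ring

theorem x71_sum_insert {ι R : Type} [DecidableEq ι] [CommRing R] (f : ι → R) {b : ι} {s : Finset ι}
    (hb : b ∉ s) : ∑ a ∈ insert b s, f a ^ 2 * ∏ c ∈ (insert b s).erase a, f c ^ 3 =
      f b ^ 2 * ∏ c ∈ s, f c ^ 3 + f b ^ 3 * ∑ a ∈ s, f a ^ 2 * ∏ c ∈ s.erase a, f c ^ 3 := by
  rw [Finset.sum_insert hb, Finset.erase_insert hb, Finset.mul_sum]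
  congr 1
  refine Finset.sum_congr rfl fun a ha => ?_
  have hab : b ≠ a := fun e => hb (e ▸ ha)
  rw [Finset.erase_insert_of_ne hab, Finset.prod_insert fun h => hb (Finset.mem_of_mem_erase h)]
  ring

theorem x71_deriv {f3 f2 f1 f0 : ℂ → ℂ} {d3 d2 d1 d0 w : ℂ} (h3 : HasDerivAt f3 (-3 * d3) w)
    (h2 : HasDerivAt f2 (-3 * d2) w) (h1 : HasDerivAt f1 (-3 * d1) w)
    (h0 : HasDerivAt f0 (-3 * d0) w) :
    HasDerivAt (fun z => f3 z - 3 * z * f2 z + 3 * z ^ 2 * f1 z - z ^ 3 * f0 z)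
      (-3 * ((f2 w - 2 * w * f1 w + w ^ 2 * f0 w) +
        (d3 - 3 * w * d2 + 3 * w ^ 2 * d1 - w ^ 3 * d0))) w := by
  have hz := hasDerivAt_id' w
  refine (((h3.fun_sub ((hz.const_mul 3).fun_mul h2)).fun_add
    (((hz.fun_pow 2).const_mul 3).fun_mul h1)).fun_sub ((hz.fun_pow 3).fun_mul h0)).congr_deriv ?_
  simp only [Nat.cast_ofNat, Nat.add_one_sub_one]
  ring

/-- induction on the finite set, generalising `φ` (expand the cube; `φ ∘ₗ LinearMap.mulLeft ℂ _`) -/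
theorem hasDerivAt_cubes (s : Finset (Fin N)) (φ : MvPolynomial (Fin N) ℂ →ₗ[ℂ] ℂ) (w : ℂ) :
    HasDerivAt (fun z => φ (∏ a ∈ s, (X a - C z) ^ 3))
      (-3 * φ (∑ a ∈ s, (X a - C w) ^ 2 * ∏ c ∈ s.erase a, (X c - C w) ^ 3)) w := by
  induction s using Finset.induction_on generalizing φ with
  | empty => simpa using hasDerivAt_const w (φ 1)
  | insert b s hb ih =>
    have ex : ∀ (z : ℂ) (P : MvPolynomial (Fin N) ℂ), φ ((X b - C z) ^ 3 * P) =
        φ (X b ^ 3 * P) - 3 * z * φ (X b ^ 2 * P) + 3 * z ^ 2 * φ (X b * P) - z ^ 3 * φ P := by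
      intro z P
      have : (X b - C z) ^ 3 * P = X b ^ 3 * P - (3 * z) • (X b ^ 2 * P) + (3 * z ^ 2) • (X b * P)
          - (z ^ 3) • P := by
        simp only [smul_eq_C_mul, map_mul, map_pow, map_ofNat]; ring
      rw [this]; simp only [map_sub, map_add, map_smul, smul_eq_mul]
    have ex2 : ∀ (P : MvPolynomial (Fin N) ℂ), φ ((X b - C w) ^ 2 * P) =
        φ (X b ^ 2 * P) - 2 * w * φ (X b * P) + w ^ 2 * φ P := by
      intro P
      have : (X b - C w) ^ 2 * P = X b ^ 2 * P - (2 * w) • (X b * P) + (w ^ 2) • P := by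
        simp only [smul_eq_C_mul, map_mul, map_pow, map_ofNat]; ring
      rw [this]; simp only [map_sub, map_add, map_smul, smul_eq_mul]
    have h3 := ih (φ ∘ₗ LinearMap.mulLeft ℂ (X b ^ 3))
    have h2 := ih (φ ∘ₗ LinearMap.mulLeft ℂ (X b ^ 2))
    have h1 := ih (φ ∘ₗ LinearMap.mulLeft ℂ (X b))
    have h0 := ih φ
    simp only [LinearMap.comp_apply, LinearMap.mulLeft_apply] at h3 h2 h1
    rw [x71_sum_insert (fun a => (X a - C w : MvPolynomial (Fin N) ℂ)) hb, map_add, ex, ex2]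
    simp only [Finset.prod_insert hb, ex]
    exact x71_deriv h3 h2 h1 h0

end Crest.Agent.R340.Pin
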