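import Crest.Agent.R340.AlT

/-! # Row 340, module ALG: the holomorphic evaluation map (helper44) -/

set_option autoImplicit false

namespace Crest.Agent.R340.Pin

open Matrix MvPolynomial Crest.MathPhysics.Laughlin
open scoped Matrix.Norms.L2Operator MatrixOrder ComplexOrder ComplexConjugate

variable {Q N n' : ℕ}

theorem secP_mul_dG {n : ℕ} (N : ℕ) (A : Matrix (Fin n) (Fin n) ℂ) :
    secP n N * dG A = dG A * secP n N := by
  refine (commute_secP ?_ N).eq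
  rw [← dG_one]
  have := dG_comm (1 : Matrix (Fin n) (Fin n) ℂ) A
  rw [one_mul, mul_one, sub_self, g51_dG_zero, sub_eq_zero] at this
  exact this

theorem mat_ext_mulVec {ι κ : Type} [Fintype κ] [DecidableEq κ] {A B : Matrix ι κ ℂ}
    (h : ∀ v, A *ᵥ v = B *ᵥ v) : A = B := by
  ext i j
  have := congrFun (h (Pi.single j 1)) i
  simpa using this

theorem exists_T' (T : Multiset S2) (hn : T.card + 3 * N + n' = Q) {P : Fk (Q + 1)}
    (hP : ∀ v, InZ Q T (N + 1) (P *ᵥ v)) (hP' : ∀ v, InZ Q T (N + 1) v → P *ᵥ v = v)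
    (hst : ∀ w : ℂ, ∃ c : ℂ, c ≠ 0 ∧ spin (ster w) = c • ((1, w) : ℂ × ℂ)) :
    ∃ (m : ℕ) (Tc : ℕ → Matrix (Fin m) (Finset (Fin (Q + 1))) ℂ)
      (L : ℂ → Matrix (Finset (Fin (Q + 1))) (Fin m) ℂ),
      (∀ k, Tc k * P = Tc k) ∧
      (∀ w : ℂ, IsUnit ((∑ k ∈ Finset.range (n' + 1), w ^ k • Tc k) *
        (∑ k ∈ Finset.range (n' + 1), w ^ k • Tc k)ᴴ)) ∧
      IsUnit (Tc n' * (Tc n')ᴴ) ∧
      (∀ (w : ℂ) (v : FV Q), InZ Q T (N + 1) v →
        ((∑ k ∈ Finset.range (n' + 1), w ^ k • Tc k) *ᵥ v = 0 ↔ v ∈ ZD Q (ster w ::ₘ T))) ∧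
      (∀ w : ℂ, ch Q (1, w) * P = L w * ∑ k ∈ Finset.range (n' + 1), w ^ k • Tc k) ∧
      ∀ (w : ℂ) (Λ : Matrix (Fin (Q + 1)) (Fin (Q + 1)) ℂ), IsDiv Q w Λ → piD T (1, w) ≠ 0 →
        ∀ i j, HasDerivAt (fun z => L z i j)
          (((T.map fun a => (spin a).1 / wedge (spin a) (1, w)).sum • L w -
            (3 : ℂ) • (dG Λ * L w)) i j) w := by
  have hn' : T.card + 3 * (N + 1 - 1) + n' = Q := by simpa using hn
  obtain ⟨σ, hσ⟩ := exists_sigma hn' hP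
  obtain ⟨ρ, hρ⟩ := exists_ofP Q N
  obtain ⟨m, co, e, he, hce, hec⟩ := exists_coord N n'
  have hne : lauP (N + 1) * PiP T (N + 1) ≠ 0 := mul_ne_zero lauP_ne_zero (PiP_ne_zero _ _)
  -- `σ` recovers the symmetric factor
  have hσ' : ∀ v s, InZ Q T (N + 1) v → PF (N + 1) v = lauP (N + 1) * PiP T (N + 1) * s →
      σ v = s := fun v s hv h => by
    have := (hσ v).2
    rw [hP' v hv, h] at this
    exact (mul_left_cancel₀ hne this).symm
  have hσP : ∀ v, σ (P *ᵥ v) = σ v := fun v => hσ' _ _ (hP v) (hσ v).2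
  let cf : ℕ → MvPolynomial (Fin (N + 1)) ℂ →ₗ[ℂ] MvPolynomial (Fin N) ℂ := fun k =>
    ((Polynomial.lcoeff (MvPolynomial (Fin N) ℂ) k).restrictScalars ℂ) ∘ₗ
      (finSuccEquiv ℂ N).toLinearMap
  have hcf : ∀ k s, cf k s = (finSuccEquiv ℂ N s).coeff k := fun _ _ => rfl
  let Tc : ℕ → Matrix (Fin m) (Finset (Fin (Q + 1))) ℂ := fun k =>
    LinearMap.toMatrix' (co ∘ₗ cf k ∘ₗ σ)
  have hTc : ∀ k v, Tc k *ᵥ v = co ((finSuccEquiv ℂ N (σ v)).coeff k) := fun k v => by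
    simp only [Tc, LinearMap.toMatrix'_mulVec, LinearMap.comp_apply, hcf]
  have hTw : ∀ (w : ℂ) v, (∑ k ∈ Finset.range (n' + 1), w ^ k • Tc k) *ᵥ v =
      co (evw N w (σ v)) := fun w v => by
    rw [evw_eq_sum (hσ v).1, map_sum, Matrix.sum_mulVec]
    simp only [Matrix.smul_mulVec, hTc, map_smul]
  have hev : ∀ (w : ℂ) s, s ∈ Sy (N + 1) n' → evw N w s ∈ Sy N n' := fun w s hs => by
    rw [evw_eq_sum hs]
    exact Submodule.sum_mem _ fun k _ => Submodule.smul_mem _ _ (coeff_mem_Sy hs k)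
  let F : ℂ → MvPolynomial (Fin N) ℂ := fun z =>
    C (piD T (1, z)) * ((∏ a, (X a - C z) ^ 3) * (lauP N * PiP T N))
  let L : ℂ → Matrix (Finset (Fin (Q + 1))) (Fin m) ℂ := fun z =>
    LinearMap.toMatrix' (ρ ∘ₗ LinearMap.mulLeft ℂ (F z) ∘ₗ e)
  have hL : ∀ z x, L z *ᵥ x = ρ (F z * e x) := fun z x => by
    simp only [L, LinearMap.toMatrix'_mulVec, LinearMap.comp_apply, LinearMap.mulLeft_apply]
  -- the field applied to a pinned zero mode
  have hch : ∀ (w : ℂ) v s, InZ Q T (N + 1) v →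
      PF (N + 1) v = lauP (N + 1) * PiP T (N + 1) * s →
      secP (Q + 1) N *ᵥ (ch Q (1, w) *ᵥ v) = ch Q (1, w) *ᵥ v ∧
        PF N (ch Q (1, w) *ᵥ v) = F w * evw N w s := fun w v s hv h => by
    refine ⟨?_, ?_⟩
    · rw [mulVec_mulVec, ch, secP_mul_cC, ← mulVec_mulVec, hv.1]
    · rw [PF_ch, h, map_mul, map_mul, evw_lauP, evw_PiP]
      simp only [F]
      ring
  have hlift : ∀ (w : ℂ) x, ∃ v, InZ Q T (N + 1) v ∧ evw N w (σ v) = e x ∧
      PF (N + 1) v = lauP (N + 1) * PiP T (N + 1) * σ v := fun w x => by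
    obtain ⟨s, h1, h2, h3⟩ := sym_lift w (he x).1 (he x).2
    obtain ⟨v, hv, hv'⟩ := exists_InZ_of_sym hn' (s := s) ⟨h1, h2⟩
    exact ⟨v, hv, by rw [hσ' v s hv hv', h3], by rw [hσ' v s hv hv', hv']⟩
  refine ⟨m, Tc, L, fun k => mat_ext_mulVec fun v => ?_, fun w => ?_, ?_, fun w v hv => ?_,
    fun w => mat_ext_mulVec fun v => ?_, fun w Λ hΛ hπ i j => ?_⟩
  · rw [← mulVec_mulVec, hTc, hTc, hσP]
  · refine isUnit_mul_conjTranspose fun x => ?_
    obtain ⟨v, _, h, _⟩ := hlift w x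
    exact ⟨v, by rw [hTw, h, hce]⟩
  · refine isUnit_mul_conjTranspose fun x => ?_
    obtain ⟨s, h1, h2, h3⟩ := sym_lift_coeff le_rfl (he x).1 (he x).2
    obtain ⟨v, hv, hv'⟩ := exists_InZ_of_sym hn' (s := s) ⟨h1, h2⟩
    exact ⟨v, by rw [hTc, hσ' v s hv hv', h3, hce]⟩
  · obtain ⟨c, hc, hc'⟩ := hst w
    have e1 := (hσ v).2
    rw [hP' v hv] at e1
    rw [hTw, ← evw_eq_zero_iff hn hc hc' hv (hσ v).1 e1]
    constructor
    · intro h
      rw [← hec _ (hev w _ (hσ v).1), h, map_zero]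
    · intro h
      rw [h, map_zero]
  · obtain ⟨h1, h2⟩ := hch w _ _ (hP v) (hσ v).2
    rw [← mulVec_mulVec, ← mulVec_mulVec, hTw, hL, hec _ (hev w _ (hσ v).1), ← h2, hρ _ h1]
  · have hcol : ∀ (A : Matrix (Finset (Fin (Q + 1))) (Fin m) ℂ), A i j =
        (A *ᵥ Pi.single j 1) i := fun A => by simp
    set x : Fin m → ℂ := Pi.single j 1 with hx
    obtain ⟨v, hv, h1, h2⟩ := hlift w x
    obtain ⟨h3, h4⟩ := hch w v _ hv h2
    rw [h1] at h4
    set G : MvPolynomial (Fin N) ℂ := lauP N * PiP T N * e x with hG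
    let φ : MvPolynomial (Fin N) ℂ →ₗ[ℂ] ℂ :=
      LinearMap.proj i ∘ₗ ρ ∘ₗ LinearMap.mulRight ℂ G
    have hφ : ∀ p, φ p = ρ (p * G) i := fun _ => rfl
    have hLz : ∀ z, L z i j = piD T (1, z) * φ (∏ a, (X a - C z) ^ 3) := fun z => by
      rw [hcol (L z), hL, hφ]
      have : F z * e x = piD T (1, z) • ((∏ a, (X a - C z) ^ 3) * G) := by
        simp only [F, hG, smul_eq_C_mul]; ring
      rw [this, map_smul, Pi.smul_apply, smul_eq_mul]
    have hLw : L w *ᵥ x = ch Q (1, w) *ᵥ v := by rw [hL, ← h4, hρ _ h3]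
    have hd : dG Λ *ᵥ (ch Q (1, w) *ᵥ v) = ρ (∑ a, C (piD T (1, w)) *
        (((X a - C w) ^ 2 * ∏ c ∈ Finset.univ.erase a, (X c - C w) ^ 3) * G)) := by
      rw [← PF_dG hΛ h3 _ fun a => ?_, hρ]
      · rw [mulVec_mulVec, secP_mul_dG, ← mulVec_mulVec, h3]
      · rw [h4]
        simp only [F, hG]
        rw [← Finset.mul_prod_erase Finset.univ _ (Finset.mem_univ a)]
        ring
    have hd' : (dG Λ * L w) i j = piD T (1, w) *
        φ (∑ a, (X a - C w) ^ 2 * ∏ c ∈ Finset.univ.erase a, (X c - C w) ^ 3) := by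
      rw [hcol (dG Λ * L w), ← mulVec_mulVec, hLw, hd, hφ, ← Finset.mul_sum, ← Finset.sum_mul,
        ← smul_eq_C_mul, map_smul, Pi.smul_apply, smul_eq_mul]
    have := (hasDerivAt_piD T hπ).mul (hasDerivAt_cubes Finset.univ φ w)
    rw [funext hLz]
    refine HasDerivAt.congr_deriv this ?_
    rw [Matrix.sub_apply, Matrix.smul_apply, Matrix.smul_apply, hd', hLz, smul_eq_mul, smul_eq_mul]
    ring

end Crest.Agent.R340.Pin
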