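import Crest.Agent.R340.Defs

/-! Row 340: real versions of the tensor operators, permutation covariance, positivity. -/

set_option autoImplicit false

namespace Crest.Agent.R340

open Matrix Crest.MathPhysics.Laughlin

noncomputable def pR (q N : ℕ) (a b : Fin N) :
    Matrix (Fin N → Fin (q + 1)) (Fin N → Fin (q + 1)) ℝ :=
  Matrix.of fun m m' =>
    if (∀ c, c ≠ a → c ≠ b → m c = m' c) then
      ∑ p : Fin (2 * q - 1), pairVec q p (m a) (m b) * pairVec q p (m' a) (m' b)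
    else 0

noncomputable def hR (q N : ℕ) : Matrix (Fin N → Fin (q + 1)) (Fin N → Fin (q + 1)) ℝ :=
  ∑ a : Fin N, ∑ b : Fin N, if a < b then pR q N a b else 0

/-- Real antisymmetric tensors. -/
def IsAS {n N : ℕ} (ψ : (Fin N → Fin n) → ℝ) : Prop :=
  ∀ (π : Equiv.Perm (Fin N)) (m : Fin N → Fin n), ψ (m ∘ π) = ((Equiv.Perm.sign π : ℤ) : ℝ) * ψ m

lemma pairProj_apply (q N : ℕ) (a b : Fin N) (m m' : Fin N → Fin (q + 1)) :
    pairProj q N a b m m' = ((pR q N a b m m' : ℝ) : ℂ) := by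
  unfold pairProj pR
  simp only [of_apply]
  split_ifs <;> simp

lemma interaction_apply (q N : ℕ) (m m' : Fin N → Fin (q + 1)) :
    interaction q N m m' = ((hR q N m m' : ℝ) : ℂ) := by
  unfold interaction hR
  simp only [Matrix.sum_apply, Complex.ofReal_sum]
  refine Finset.sum_congr rfl fun a _ => Finset.sum_congr rfl fun b _ => ?_
  split_ifs
  · exact pairProj_apply ..
  · simp

lemma pairVec_swap (q : ℕ) (p : Fin (2 * q - 1)) (i j : Fin (q + 1)) :
    pairVec q p j i = -pairVec q p i j := by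
  unfold pairVec
  rw [add_comm (j : ℕ) i, mul_comm (Nat.choose q j : ℝ)]
  split_ifs
  · ring
  · simp

lemma pR_comm (q N : ℕ) (a b : Fin N) : pR q N a b = pR q N b a := by
  ext m m'
  unfold pR
  simp only [of_apply]
  have : (∀ c, c ≠ a → c ≠ b → m c = m' c) ↔ (∀ c, c ≠ b → c ≠ a → m c = m' c) :=
    ⟨fun h c h1 h2 => h c h2 h1, fun h c h1 h2 => h c h2 h1⟩
  simp only [this]
  split_ifs
  · refine Finset.sum_congr rfl fun p _ => ?_
    rw [pairVec_swap q p (m a), pairVec_swap q p (m' a)]; ring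
  · rfl

lemma pR_perm (q N : ℕ) (a b : Fin N) (π : Equiv.Perm (Fin N)) (m m' : Fin N → Fin (q + 1)) :
    pR q N a b (m ∘ π) (m' ∘ π) = pR q N (π a) (π b) m m' := by
  unfold pR
  simp only [of_apply, Function.comp]
  have : (∀ c, c ≠ a → c ≠ b → m (π c) = m' (π c)) ↔ (∀ c, c ≠ π a → c ≠ π b → m c = m' c) := by
    constructor
    · intro h c h1 h2
      have := h (π.symm c) (fun e => h1 (by rw [← e]; simp)) (fun e => h2 (by rw [← e]; simp))
      simpa using this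
    · intro h c h1 h2
      exact h _ (fun e => h1 (π.injective e)) (fun e => h2 (π.injective e))
  simp only [this]

lemma pR_symm (q N : ℕ) (a b : Fin N) (m m' : Fin N → Fin (q + 1)) :
    pR q N a b m m' = pR q N a b m' m := by
  unfold pR
  simp only [of_apply]
  have : (∀ c, c ≠ a → c ≠ b → m c = m' c) ↔ (∀ c, c ≠ a → c ≠ b → m' c = m c) :=
    ⟨fun h c h1 h2 => (h c h1 h2).symm, fun h c h1 h2 => (h c h1 h2).symm⟩
  simp only [this]
  split_ifs
  · exact Finset.sum_congr rfl fun p _ => mul_comm _ _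
  · rfl

lemma hR_symm (q N : ℕ) (m m' : Fin N → Fin (q + 1)) : hR q N m m' = hR q N m' m := by
  unfold hR
  simp only [Matrix.sum_apply]
  refine Finset.sum_congr rfl fun a _ => Finset.sum_congr rfl fun b _ => ?_
  split_ifs
  · exact pR_symm ..
  · rfl

lemma hR_transpose (q N : ℕ) : (hR q N)ᵀ = hR q N := by
  ext m m'; exact hR_symm ..

lemma two_hR (q N : ℕ) (m m' : Fin N → Fin (q + 1)) :
    2 * hR q N m m' = ∑ a : Fin N, ∑ b : Fin N, if a ≠ b then pR q N a b m m' else 0 := by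
  have h1 : hR q N m m' = ∑ a : Fin N, ∑ b : Fin N, if a < b then pR q N a b m m' else 0 := by
    unfold hR
    simp only [Matrix.sum_apply]
    refine Finset.sum_congr rfl fun a _ => Finset.sum_congr rfl fun b _ => ?_
    split_ifs <;> rfl
  have h2 : hR q N m m' = ∑ a : Fin N, ∑ b : Fin N, if b < a then pR q N a b m m' else 0 := by
    rw [h1, Finset.sum_comm]
    refine Finset.sum_congr rfl fun a _ => Finset.sum_congr rfl fun b _ => ?_
    rw [pR_comm]
  rw [two_mul]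
  nth_rewrite 1 [h1]
  rw [h2, ← Finset.sum_add_distrib]
  refine Finset.sum_congr rfl fun a _ => ?_
  rw [← Finset.sum_add_distrib]
  refine Finset.sum_congr rfl fun b _ => ?_
  rcases lt_trichotomy a b with h | h | h
  · simp [h, h.ne, not_lt.mpr h.le]
  · simp [h]
  · simp [h, h.ne', not_lt.mpr h.le]

lemma hR_perm (q N : ℕ) (π : Equiv.Perm (Fin N)) (m m' : Fin N → Fin (q + 1)) :
    hR q N (m ∘ π) (m' ∘ π) = hR q N m m' := by
  have : 2 * hR q N (m ∘ π) (m' ∘ π) = 2 * hR q N m m' := by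
    rw [two_hR, two_hR]
    simp only [pR_perm]
    rw [← Equiv.sum_comp π (fun a => ∑ b : Fin N, if a ≠ b then pR q N a b m m' else 0)]
    refine Finset.sum_congr rfl fun a _ => ?_
    rw [← Equiv.sum_comp π (fun b => if π a ≠ b then pR q N (π a) b m m' else 0)]
    simp
  linarith

/-- Reindexing of configurations by a permutation. -/
def permCfg {n N : ℕ} (π : Equiv.Perm (Fin N)) : (Fin N → Fin n) ≃ (Fin N → Fin n) where
  toFun m := m ∘ π
  invFun m := m ∘ π.symm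
  left_inv m := by ext c; simp
  right_inv m := by ext c; simp

lemma sum_permCfg {n N : ℕ} {M : Type*} [AddCommMonoid M] (π : Equiv.Perm (Fin N))
    (f : (Fin N → Fin n) → M) : ∑ m, f (m ∘ π) = ∑ m, f m :=
  Equiv.sum_comp (permCfg π) f

lemma interaction_antisym (q N : ℕ) (ψ : (Fin N → Fin (q + 1)) → ℂ) (h : IsAntisymmetric ψ) :
    IsAntisymmetric ((interaction q N).mulVec ψ) := by
  intro π m
  simp only [mulVec, dotProduct, interaction_apply]
  rw [← sum_permCfg π, Finset.mul_sum]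
  refine Finset.sum_congr rfl fun m' _ => ?_
  rw [hR_perm, h]; ring

lemma sum_cons {n N : ℕ} {M : Type*} [AddCommMonoid M] (f : (Fin (N + 1) → Fin n) → M) :
    ∑ m, f m = ∑ i, ∑ r : Fin N → Fin n, f (Fin.cons i r) := by
  rw [← (Fin.consEquiv fun _ : Fin (N + 1) => Fin n).sum_comp, Fintype.sum_prod_type]
  rfl

/-- Contraction of the first two tensor slots with the pair vector. -/
noncomputable def beta (q N : ℕ) (p : Fin (2 * q - 1)) (ψ : (Fin (N + 2) → Fin (q + 1)) → ℝ)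
    (r : Fin N → Fin (q + 1)) : ℝ :=
  ∑ i, ∑ j, pairVec q p i j * ψ (Fin.cons i (Fin.cons j r))

lemma pR01 (q N : ℕ) (i j i' j' : Fin (q + 1)) (r r' : Fin N → Fin (q + 1)) :
    pR q (N + 2) 0 1 (Fin.cons i (Fin.cons j r)) (Fin.cons i' (Fin.cons j' r')) =
      if r = r' then ∑ p : Fin (2 * q - 1), pairVec q p i j * pairVec q p i' j' else 0 := by
  unfold pR
  simp only [of_apply]
  have : (∀ c : Fin (N + 2), c ≠ 0 → c ≠ 1 →
      (Fin.cons i (Fin.cons j r) : Fin (N + 2) → Fin (q + 1)) c =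
        (Fin.cons i' (Fin.cons j' r') : Fin (N + 2) → Fin (q + 1)) c) ↔ r = r' := by
    constructor
    · intro h
      funext c
      have := h c.succ.succ (Fin.succ_ne_zero _) (by
        intro e
        have := congrArg Fin.val e
        simp at this)
      simpa using this
    · rintro rfl c h0 h1
      obtain ⟨c, rfl⟩ := Fin.exists_succ_eq.mpr h0
      have : c ≠ 0 := by rintro rfl; exact h1 rfl
      obtain ⟨c, rfl⟩ := Fin.exists_succ_eq.mpr this
      simp
  simp only [this]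
  rfl

lemma dot_pR01 (q N : ℕ) (φ ψ : (Fin (N + 2) → Fin (q + 1)) → ℝ) :
    φ ⬝ᵥ (pR q (N + 2) 0 1 *ᵥ ψ) = ∑ p, beta q N p φ ⬝ᵥ beta q N p ψ := by
  simp only [mulVec, dotProduct, sum_cons (N := N + 1), sum_cons (N := N), pR01, beta,
    ite_mul, zero_mul, Finset.sum_ite_eq, Finset.mem_univ, if_true]
  simp only [Finset.sum_mul, Finset.mul_sum]
  symm
  calc (∑ p : Fin (2 * q - 1), ∑ r : Fin N → Fin (q + 1), ∑ i' : Fin (q + 1), ∑ j' : Fin (q + 1),
        ∑ i : Fin (q + 1), ∑ j : Fin (q + 1),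
        pairVec q p i j * φ (Fin.cons i (Fin.cons j r)) *
          (pairVec q p i' j' * ψ (Fin.cons i' (Fin.cons j' r))))
      = ∑ x : Fin (2 * q - 1) × (Fin N → Fin (q + 1)) × Fin (q + 1) × Fin (q + 1) ×
          Fin (q + 1) × Fin (q + 1),
        pairVec q x.1 x.2.2.2.2.1 x.2.2.2.2.2 *
          φ (Fin.cons x.2.2.2.2.1 (Fin.cons x.2.2.2.2.2 x.2.1)) *
          (pairVec q x.1 x.2.2.1 x.2.2.2.1 * ψ (Fin.cons x.2.2.1 (Fin.cons x.2.2.2.1 x.2.1))) := by
        simp only [Fintype.sum_prod_type]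
    _ = ∑ x : Fin (q + 1) × Fin (q + 1) × (Fin N → Fin (q + 1)) × Fin (q + 1) × Fin (q + 1) ×
          Fin (2 * q - 1),
        φ (Fin.cons x.1 (Fin.cons x.2.1 x.2.2.1)) *
          (pairVec q x.2.2.2.2.2 x.1 x.2.1 * pairVec q x.2.2.2.2.2 x.2.2.2.1 x.2.2.2.2.1 *
            ψ (Fin.cons x.2.2.2.1 (Fin.cons x.2.2.2.2.1 x.2.2.1))) := by
        refine Finset.sum_bij' (fun x _ => (x.2.2.2.2.1, x.2.2.2.2.2, x.2.1, x.2.2.1, x.2.2.2.1, x.1))
          (fun x _ => (x.2.2.2.2.2, x.2.2.1, x.2.2.2.1, x.2.2.2.2.1, x.1, x.2.1))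
          (by simp) (by simp) (by simp) (by simp) (fun x _ => by ring)
    _ = _ := by simp only [Fintype.sum_prod_type]

lemma exists_perm01 {N : ℕ} (a b : Fin (N + 2)) (h : a ≠ b) :
    ∃ π : Equiv.Perm (Fin (N + 2)), π 0 = a ∧ π 1 = b := by
  refine ⟨Equiv.swap 0 a * Equiv.swap 1 (Equiv.swap 0 a b), ?_, ?_⟩
  · have h1 : (0 : Fin (N + 2)) ≠ Equiv.swap 0 a b := by
      intro e
      have := congrArg (Equiv.swap 0 a) e
      simp at this
      exact h this
    rw [Equiv.Perm.mul_apply, Equiv.swap_apply_of_ne_of_ne (by simp) h1]; simp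
  · simp

lemma dot_pR_perm (q N : ℕ) (a b : Fin N) (π : Equiv.Perm (Fin N))
    (φ ψ : (Fin N → Fin (q + 1)) → ℝ) :
    φ ⬝ᵥ (pR q N (π a) (π b) *ᵥ ψ) =
      (fun m => φ (m ∘ π.symm)) ⬝ᵥ (pR q N a b *ᵥ fun m => ψ (m ∘ π.symm)) := by
  simp only [mulVec, dotProduct]
  rw [← sum_permCfg π (fun m => φ (m ∘ π.symm) * _)]
  refine Finset.sum_congr rfl fun m _ => ?_
  rw [← sum_permCfg π (fun m' => pR q N a b (m ∘ π) m' * _)]
  simp only [pR_perm, Function.comp_assoc, Equiv.self_comp_symm, Function.comp_id]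

lemma pR_nonneg (q N : ℕ) (a b : Fin N) (h : a ≠ b) (ψ : (Fin N → Fin (q + 1)) → ℝ) :
    0 ≤ ψ ⬝ᵥ (pR q N a b *ᵥ ψ) := by
  obtain ⟨N, rfl⟩ : ∃ M, N = M + 2 := by
    refine ⟨N - 2, ?_⟩
    have ha := a.2
    have hb := b.2
    have : a.1 ≠ b.1 := fun e => h (Fin.ext e)
    omega
  obtain ⟨π, rfl, rfl⟩ := exists_perm01 a b h
  rw [dot_pR_perm, dot_pR01]
  exact Finset.sum_nonneg fun p _ => Finset.sum_nonneg fun r _ => mul_self_nonneg _

lemma dot_pR_as (q N : ℕ) (a b : Fin (N + 2)) (h : a ≠ b)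
    (φ ψ : (Fin (N + 2) → Fin (q + 1)) → ℝ) (hφ : IsAS φ) (hψ : IsAS ψ) :
    φ ⬝ᵥ (pR q (N + 2) a b *ᵥ ψ) = ∑ p, beta q N p φ ⬝ᵥ beta q N p ψ := by
  obtain ⟨π, rfl, rfl⟩ := exists_perm01 a b h
  rw [dot_pR_perm, ← dot_pR01]
  have e1 : (fun m => φ (m ∘ π.symm)) = ((Equiv.Perm.sign π.symm : ℤ) : ℝ) • φ := by
    funext m; exact hφ _ _
  have e2 : (fun m => ψ (m ∘ π.symm)) = ((Equiv.Perm.sign π.symm : ℤ) : ℝ) • ψ := by
    funext m; exact hψ _ _
  rw [e1, e2, mulVec_smul, smul_dotProduct, dotProduct_smul, smul_smul]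
  have : ((Equiv.Perm.sign π.symm : ℤ) : ℝ) * ((Equiv.Perm.sign π.symm : ℤ) : ℝ) = 1 := by
    rw [← Int.cast_mul, ← Units.val_mul, Int.units_mul_self]; simp
  rw [this, one_smul]

lemma dot_hR (q N : ℕ) (φ ψ : (Fin N → Fin (q + 1)) → ℝ) :
    φ ⬝ᵥ (hR q N *ᵥ ψ) =
      ∑ a : Fin N, ∑ b : Fin N, if a < b then φ ⬝ᵥ (pR q N a b *ᵥ ψ) else 0 := by
  unfold hR
  simp only [Matrix.sum_mulVec, dotProduct_sum]
  refine Finset.sum_congr rfl fun a _ => Finset.sum_congr rfl fun b _ => ?_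
  split_ifs <;> simp

lemma sum_lt_const (N : ℕ) (x : ℝ) :
    2 * (∑ a : Fin N, ∑ b : Fin N, if a < b then x else 0) = N * (N - 1) * x := by
  have h2 : (∑ a : Fin N, ∑ b : Fin N, if a < b then x else 0) =
      ∑ a : Fin N, ∑ b : Fin N, if b < a then x else 0 := Finset.sum_comm
  rw [two_mul]
  nth_rewrite 1 [h2]
  rw [← Finset.sum_add_distrib]
  have : ∀ a : Fin N, ((∑ b : Fin N, if b < a then x else 0) + ∑ b : Fin N, if a < b then x else 0)
      = (N - 1) * x := by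
    intro a
    rw [← Finset.sum_add_distrib]
    have : ∀ b : Fin N, ((if b < a then x else 0) + if a < b then x else 0) =
        x - if a = b then x else 0 := by
      intro b
      rcases lt_trichotomy a b with h | h | h
      · simp [h, h.ne, not_lt.mpr h.le]
      · simp [h]
      · simp [h, h.ne', not_lt.mpr h.le]
    simp only [this, Finset.sum_sub_distrib]
    simp; ring
  simp only [this]
  simp; ring

lemma dot_hR_as (q N : ℕ) (φ ψ : (Fin (N + 2) → Fin (q + 1)) → ℝ) (hφ : IsAS φ) (hψ : IsAS ψ) :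
    2 * (φ ⬝ᵥ (hR q (N + 2) *ᵥ ψ)) =
      (N + 2) * (N + 1) * ∑ p, beta q N p φ ⬝ᵥ beta q N p ψ := by
  rw [dot_hR]
  have : (∑ a : Fin (N + 2), ∑ b : Fin (N + 2),
      if a < b then φ ⬝ᵥ (pR q (N + 2) a b *ᵥ ψ) else 0) =
      ∑ a : Fin (N + 2), ∑ b : Fin (N + 2),
        if a < b then ∑ p, beta q N p φ ⬝ᵥ beta q N p ψ else 0 := by
    refine Finset.sum_congr rfl fun a _ => Finset.sum_congr rfl fun b _ => ?_
    split_ifs with h
    · exact dot_pR_as q N a b h.ne φ ψ hφ hψ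
    · rfl
  rw [this, sum_lt_const]
  push_cast; ring

lemma hR_nonneg (q N : ℕ) (ψ : (Fin N → Fin (q + 1)) → ℝ) : 0 ≤ ψ ⬝ᵥ (hR q N *ᵥ ψ) := by
  rw [dot_hR]
  refine Finset.sum_nonneg fun a _ => Finset.sum_nonneg fun b _ => ?_
  split_ifs with h
  · exact pR_nonneg q N a b h.ne ψ
  · exact le_rfl

end Crest.Agent.R340
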