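import Crest.Agent.R340.Car
import Crest.Agent.R340.Tens

/-! Row 340: bridge between the Fock space and antisymmetric tensors. -/

set_option autoImplicit false

namespace Crest.Agent.R340

open Matrix Crest.MathPhysics.Laughlin

variable {n : ℕ}

/-- `ofFock N Φ m = ⟨∅, c_{m (N-1)} ⋯ c_{m 0} Φ⟩`. -/
def ofFock : (N : ℕ) → (Finset (Fin n) → ℝ) → (Fin N → Fin n) → ℝ
  | 0, Φ, _ => Φ ∅
  | N + 1, Φ, m => ofFock N (ann (m 0) *ᵥ Φ) (Fin.tail m)

lemma ofFock_cons (N : ℕ) (Φ : Finset (Fin n) → ℝ) (j : Fin n) (r : Fin N → Fin n) :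
    ofFock (N + 1) Φ (Fin.cons j r) = ofFock N (ann j *ᵥ Φ) r := by
  simp [ofFock]

lemma ofFock_add (N : ℕ) : ∀ (Φ Ψ : Finset (Fin n) → ℝ) (m : Fin N → Fin n),
    ofFock N (Φ + Ψ) m = ofFock N Φ m + ofFock N Ψ m := by
  induction N with
  | zero => intro Φ Ψ m; rfl
  | succ N ih => intro Φ Ψ m; simp only [ofFock, mulVec_add, ih]

lemma ofFock_smul (N : ℕ) : ∀ (c : ℝ) (Φ : Finset (Fin n) → ℝ) (m : Fin N → Fin n),
    ofFock N (c • Φ) m = c * ofFock N Φ m := by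
  induction N with
  | zero => intro c Φ m; rfl
  | succ N ih => intro c Φ m; simp only [ofFock, mulVec_smul, ih]

lemma ofFock_zero (N : ℕ) (m : Fin N → Fin n) : ofFock N (0 : Finset (Fin n) → ℝ) m = 0 := by
  have := ofFock_smul N 0 (0 : Finset (Fin n) → ℝ) m
  simpa using this

lemma ofFock_neg (N : ℕ) (Φ : Finset (Fin n) → ℝ) (m : Fin N → Fin n) :
    ofFock N (-Φ) m = -ofFock N Φ m := by
  have := ofFock_smul N (-1) Φ m
  simpa using this

lemma ofFock_sum (N : ℕ) {ι : Type*} (s : Finset ι) (Φ : ι → Finset (Fin n) → ℝ)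
    (m : Fin N → Fin n) : ofFock N (∑ i ∈ s, Φ i) m = ∑ i ∈ s, ofFock N (Φ i) m := by
  classical
  induction s using Finset.induction_on with
  | empty => simp [ofFock_zero]
  | insert a s h ih => rw [Finset.sum_insert h, Finset.sum_insert h, ofFock_add, ih]

/-- `Φ` lives in the `N`-particle sector. -/
def Sec (N : ℕ) (Φ : Finset (Fin n) → ℝ) : Prop := ∀ S, S.card ≠ N → Φ S = 0

lemma Sec.ann {N : ℕ} {Φ : Finset (Fin n) → ℝ} (h : Sec (N + 1) Φ) (j : Fin n) :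
    Sec N (ann j *ᵥ Φ) := by
  intro S hS
  rw [ann_mulVec]
  split_ifs with hj
  · rfl
  · rw [h _ (by rw [Finset.card_insert_of_notMem hj]; omega), mul_zero]

lemma Sec.annT {N : ℕ} {Φ : Finset (Fin n) → ℝ} (h : Sec N Φ) (j : Fin n) :
    Sec (N + 1) ((R340.ann j)ᵀ *ᵥ Φ) := by
  intro S hS
  rw [annT_mulVec]
  split_ifs with hj
  · have := Finset.card_erase_add_one hj
    rw [h _ (by omega), mul_zero]
  · rfl

lemma Sec.sum {N : ℕ} {ι : Type*} (s : Finset ι) {Φ : ι → Finset (Fin n) → ℝ}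
    (h : ∀ i ∈ s, Sec N (Φ i)) : Sec N (∑ i ∈ s, Φ i) := by
  intro S hS
  rw [Finset.sum_apply]
  exact Finset.sum_eq_zero fun i hi => h i hi S hS

lemma Sec.smul {N : ℕ} {Φ : Finset (Fin n) → ℝ} (h : Sec N Φ) (c : ℝ) : Sec N (c • Φ) := by
  intro S hS; simp [h S hS]

lemma Sec.add {N : ℕ} {Φ Ψ : Finset (Fin n) → ℝ} (h : Sec N Φ) (h' : Sec N Ψ) :
    Sec N (Φ + Ψ) := by
  intro S hS; simp [h S hS, h' S hS]

lemma Sec.sum_annT_ann {N : ℕ} {Φ : Finset (Fin n) → ℝ} (h : Sec N Φ) :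
    ∑ j, (R340.ann j)ᵀ *ᵥ (R340.ann j *ᵥ Φ) = (N : ℝ) • Φ := by
  funext S
  rw [Finset.sum_apply]
  simp only [mulVec_mulVec, annT_ann_mulVec]
  rw [← Finset.sum_filter]
  by_cases hS : S.card = N
  · simp [hS]
  · simp [h S hS]

lemma ofFock_dot (N : ℕ) : ∀ (Φ Ψ : Finset (Fin n) → ℝ), Sec N Φ →
    ofFock N Φ ⬝ᵥ ofFock N Ψ = (N.factorial : ℝ) * (Φ ⬝ᵥ Ψ) := by
  induction N with
  | zero =>
    intro Φ Ψ h
    simp only [dotProduct, ofFock, Nat.factorial_zero, Nat.cast_one, one_mul]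
    rw [Finset.sum_eq_single (∅ : Finset (Fin n))]
    · simp
    · intro S _ hS
      rw [h S (by simpa using hS), zero_mul]
    · simp
  | succ N ih =>
    intro Φ Ψ h
    have : ofFock (N + 1) Φ ⬝ᵥ ofFock (N + 1) Ψ =
        ∑ j, ofFock N (ann j *ᵥ Φ) ⬝ᵥ ofFock N (ann j *ᵥ Ψ) := by
      simp only [dotProduct, sum_cons (N := N), ofFock_cons]
    rw [this]
    simp only [fun j => ih _ (ann j *ᵥ Ψ) (h.ann j)]
    rw [← Finset.mul_sum]
    have e : ∑ j, (ann j *ᵥ Φ) ⬝ᵥ (ann j *ᵥ Ψ) = ((N + 1 : ℕ) : ℝ) * (Φ ⬝ᵥ Ψ) := by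
      have : ∀ j, (ann j *ᵥ Φ) ⬝ᵥ (ann j *ᵥ Ψ) = ((ann j)ᵀ *ᵥ (ann j *ᵥ Φ)) ⬝ᵥ Ψ := by
        intro j
        rw [dotProduct_comm _ Ψ, dot_annT, dotProduct_comm]
      simp only [this]
      rw [← sum_dotProduct, h.sum_annT_ann, smul_dotProduct, smul_eq_mul]
    rw [e, Nat.factorial_succ]; push_cast; ring

lemma ofFock_inj {N : ℕ} {Φ : Finset (Fin n) → ℝ} (h : Sec N Φ) (h0 : ofFock N Φ = 0) :
    Φ = 0 := by
  have := ofFock_dot N Φ Φ h
  rw [h0, zero_dotProduct] at this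
  have hf : (N.factorial : ℝ) ≠ 0 := by positivity
  exact dotProduct_self_eq_zero.mp ((mul_eq_zero.mp this.symm).resolve_left hf)

lemma isAS_of_adj {N : ℕ} (ψ : (Fin (N + 1) → Fin n) → ℝ)
    (h : ∀ (i : Fin N) (m : Fin (N + 1) → Fin n),
      ψ (m ∘ Equiv.swap i.castSucc i.succ) = -ψ m) : IsAS ψ := by
  intro π
  have hπ : π ∈ Submonoid.closure
      (Set.range fun i : Fin N => Equiv.swap i.castSucc i.succ) := by
    rw [Equiv.Perm.mclosure_swap_castSucc_succ]; trivial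
  induction hπ using Submonoid.closure_induction with
  | mem x hx =>
    obtain ⟨i, rfl⟩ := hx
    intro m
    rw [h, Equiv.Perm.sign_swap (Fin.castSucc_lt_succ (i := i)).ne]; simp
  | one => intro m; simp
  | mul x y _ _ hx hy =>
    intro m
    have : m ∘ ⇑(x * y) = (m ∘ x) ∘ y := rfl
    rw [this, hy, hx, Equiv.Perm.sign_mul]; push_cast; ring

lemma ofFock_adj (N : ℕ) : ∀ (Φ : Finset (Fin n) → ℝ) (i : Fin N) (m : Fin (N + 1) → Fin n),
    ofFock (N + 1) Φ (m ∘ Equiv.swap i.castSucc i.succ) = -ofFock (N + 1) Φ m := by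
  induction N with
  | zero => intro Φ i; exact i.elim0
  | succ N ih =>
    intro Φ i m
    refine Fin.cases ?_ (fun i => ?_) i
    · have e : m ∘ Equiv.swap (Fin.castSucc (0 : Fin (N + 1))) (Fin.succ 0) =
          Fin.cons (m 1) (Fin.cons (m 0) (Fin.tail (Fin.tail m))) := by
        funext c
        refine Fin.cases ?_ (fun c => ?_) c
        · simp
        refine Fin.cases ?_ (fun c => ?_) c
        · simp
        · rw [Function.comp_apply, Equiv.swap_apply_of_ne_of_ne]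
          · simp [Fin.tail]
          · simp [Fin.succ_ne_zero]
          · intro e
            have := congrArg Fin.val e
            simp at this
      have e2 : m = Fin.cons (m 0) (Fin.cons (m 1) (Fin.tail (Fin.tail m))) := by
        funext c
        refine Fin.cases ?_ (fun c => ?_) c
        · simp
        refine Fin.cases ?_ (fun c => ?_) c
        · simp
        · simp [Fin.tail]
      rw [e]
      conv_rhs => rw [e2]
      simp only [ofFock_cons, mulVec_mulVec]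
      rw [ann_anticomm, neg_mulVec, ofFock_neg]
    · have e : m ∘ Equiv.swap (Fin.castSucc i.succ) (Fin.succ i.succ) =
          Fin.cons (m 0) (Fin.tail m ∘ Equiv.swap i.castSucc i.succ) := by
        funext c
        refine Fin.cases ?_ (fun c => ?_) c
        · rw [Function.comp_apply, Equiv.swap_apply_of_ne_of_ne]
          · simp
          · rw [← Fin.succ_castSucc]; exact (Fin.succ_ne_zero _).symm
          · exact (Fin.succ_ne_zero _).symm
        · rw [← Fin.succ_castSucc, Function.comp_apply, Fin.cons_succ, Function.comp_apply,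
            (Fin.succ_injective _).swap_apply]
          rfl
      rw [e, ofFock_cons, ih]
      rfl

lemma ofFock_isAS (N : ℕ) (Φ : Finset (Fin n) → ℝ) : IsAS (ofFock N Φ) := by
  cases N with
  | zero =>
    intro π m
    have : π = 1 := Subsingleton.elim _ _
    subst this; simp
  | succ N => exact isAS_of_adj _ (ofFock_adj N Φ)

lemma IsAS.tail {N : ℕ} {ψ : (Fin (N + 1) → Fin n) → ℝ} (h : IsAS ψ) (j : Fin n) :
    IsAS (fun r : Fin N → Fin n => ψ (Fin.cons j r)) := by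
  intro π r
  have := h (Equiv.Perm.decomposeFin.symm (0, π)) (Fin.cons j r)
  rw [Equiv.Perm.decomposeFin.symm_sign] at this
  simp only [if_true, one_mul] at this
  rw [← this]
  show ψ _ = ψ _
  congr 1
  funext c
  refine Fin.cases ?_ (fun c => ?_) c
  · simp
  · simp

lemma IsAS.swap01 {N : ℕ} {ψ : (Fin (N + 2) → Fin n) → ℝ} (h : IsAS ψ) (i j : Fin n)
    (r : Fin N → Fin n) : ψ (Fin.cons j (Fin.cons i r)) = -ψ (Fin.cons i (Fin.cons j r)) := by
  have := h (Equiv.swap 0 1) (Fin.cons i (Fin.cons j r))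
  rw [Equiv.Perm.sign_swap (by simp)] at this
  simp only [Units.val_neg, Units.val_one, Int.cast_neg, Int.cast_one, neg_mul, one_mul] at this
  rw [← this]
  congr 1
  funext c
  refine Fin.cases ?_ (fun c => ?_) c
  · simp
  refine Fin.cases ?_ (fun c => ?_) c
  · simp
  · rw [Function.comp_apply, Equiv.swap_apply_of_ne_of_ne]
    · simp
    · simp [Fin.succ_ne_zero]
    · intro e
      have := congrArg Fin.val e
      simp at this

lemma exists_ofFock (N : ℕ) : ∀ ψ : (Fin N → Fin n) → ℝ, IsAS ψ →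
    ∃ Φ, Sec N Φ ∧ ofFock N Φ = ψ := by
  induction N with
  | zero =>
    intro ψ _
    refine ⟨fun S => if S = ∅ then ψ Fin.elim0 else 0, ?_, ?_⟩
    · intro S hS
      simp only
      rw [if_neg]
      rintro rfl; simp at hS
    · funext m
      simp only [ofFock, if_true]
      congr 1
      exact Subsingleton.elim _ _
  | succ N ih =>
    intro ψ h
    choose Φ hΦ hψ using fun j => ih _ (h.tail j)
    have key : ∀ i j, ann i *ᵥ Φ j = -(ann j *ᵥ Φ i) := by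
      intro i j
      cases N with
      | zero =>
        have : ∀ i j, ann i *ᵥ Φ j = 0 := by
          intro i j
          funext S
          rw [ann_mulVec]
          split_ifs with hi
          · rfl
          · rw [hΦ j _ (by rw [Finset.card_insert_of_notMem hi]; omega)]; simp
        simp [this]
      | succ N =>
        rw [← add_eq_zero_iff_eq_neg]
        apply ofFock_inj (((hΦ j).ann i).add ((hΦ i).ann j))
        funext r
        rw [ofFock_add, ← ofFock_cons, ← ofFock_cons, hψ, hψ]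
        simp only [Pi.zero_apply]
        rw [h.swap01]; ring
    refine ⟨(1 / ((N : ℝ) + 1)) • ∑ j, (ann j)ᵀ *ᵥ Φ j,
      (Sec.sum _ fun j _ => (hΦ j).annT j).smul _, ?_⟩
    funext m
    have hc : ∀ i, ann i *ᵥ ((1 / ((N : ℝ) + 1)) • ∑ j, (ann j)ᵀ *ᵥ Φ j) = Φ i := by
      intro i
      rw [mulVec_smul, mulVec_sum]
      have : ∀ j, ann i *ᵥ ((ann j)ᵀ *ᵥ Φ j) =
          (if i = j then Φ j else 0) + (ann j)ᵀ *ᵥ (ann j *ᵥ Φ i) := by
        intro j
        rw [mulVec_mulVec, ann_annT', sub_mulVec, ← mulVec_mulVec, key, mulVec_neg]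
        split_ifs <;> simp
      simp only [this, Finset.sum_add_distrib, Finset.sum_ite_eq, Finset.mem_univ, if_true]
      rw [(hΦ i).sum_annT_ann]
      have : (N : ℝ) + 1 ≠ 0 := by positivity
      funext S
      simp only [Pi.smul_apply, Pi.add_apply, smul_eq_mul]
      field_simp
      ring
    conv_lhs => rw [← Fin.cons_self_tail m]
    rw [ofFock_cons, hc, hψ]
    simp

lemma beta_ofFock (Q N : ℕ) (p : Fin (2 * Q - 1)) (Φ : Finset (Fin (Q + 1)) → ℝ) :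
    beta Q N p (ofFock (N + 2) Φ) = ofFock N (Real.sqrt 2 • (Bop Q p *ᵥ Φ)) := by
  funext r
  unfold beta Bop
  simp only [ofFock_cons, Matrix.sum_mulVec, Finset.smul_sum, ofFock_sum, smul_mulVec,
    smul_smul, ofFock_smul, mulVec_mulVec]
  refine Finset.sum_congr rfl fun i _ => Finset.sum_congr rfl fun j _ => ?_
  have : Real.sqrt 2 ≠ 0 := by positivity
  congr 1
  field_simp

lemma Sec.bop {Q N : ℕ} {Φ : Finset (Fin (Q + 1)) → ℝ} (h : Sec (N + 2) Φ)
    (p : Fin (2 * Q - 1)) : Sec N (Bop Q p *ᵥ Φ) := by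
  unfold Bop
  simp only [Matrix.sum_mulVec, smul_mulVec, ← mulVec_mulVec]
  exact Sec.sum _ fun i _ => Sec.sum _ fun j _ => ((h.ann i).ann j).smul _

lemma Sec.bopT {Q N : ℕ} {Φ : Finset (Fin (Q + 1)) → ℝ} (h : Sec N Φ)
    (p : Fin (2 * Q - 1)) : Sec (N + 2) ((Bop Q p)ᵀ *ᵥ Φ) := by
  unfold Bop
  simp only [transpose_sum, transpose_smul, transpose_mul, Matrix.sum_mulVec, smul_mulVec,
    ← mulVec_mulVec]
  exact Sec.sum _ fun i _ => Sec.sum _ fun j _ => ((h.annT j).annT i).smul _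

lemma Sec.hf {Q N : ℕ} {Φ : Finset (Fin (Q + 1)) → ℝ} (h : Sec (N + 2) Φ) :
    Sec (N + 2) (Hf Q *ᵥ Φ) := by
  unfold Hf
  simp only [Matrix.sum_mulVec, ← mulVec_mulVec]
  exact Sec.sum _ fun p _ => (h.bop p).bopT p

lemma dot_Hf (Q : ℕ) (Φ Ψ : Finset (Fin (Q + 1)) → ℝ) :
    Φ ⬝ᵥ (Hf Q *ᵥ Ψ) = ∑ p, (Bop Q p *ᵥ Φ) ⬝ᵥ (Bop Q p *ᵥ Ψ) := by
  unfold Hf
  simp only [Matrix.sum_mulVec, dotProduct_sum, ← mulVec_mulVec, dot_annT]

lemma dot_hR_ofFock (Q N : ℕ) (Φ Ψ : Finset (Fin (Q + 1)) → ℝ) (h : Sec (N + 2) Φ) :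
    ofFock (N + 2) Φ ⬝ᵥ (hR Q (N + 2) *ᵥ ofFock (N + 2) Ψ) =
      ((N + 2).factorial : ℝ) * (Φ ⬝ᵥ (Hf Q *ᵥ Ψ)) := by
  have h1 := dot_hR_as Q N _ _ (ofFock_isAS (N + 2) Φ) (ofFock_isAS (N + 2) Ψ)
  simp only [beta_ofFock] at h1
  simp only [fun p => ofFock_dot N _ (Real.sqrt 2 • (Bop Q p *ᵥ Ψ)) ((h.bop p).smul (Real.sqrt 2)),
    smul_dotProduct, dotProduct_smul, smul_eq_mul, ← mul_assoc] at h1
  have h2 : Real.sqrt 2 * Real.sqrt 2 = 2 := Real.mul_self_sqrt (by norm_num)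
  simp only [mul_assoc (N.factorial : ℝ), h2, ← Finset.mul_sum] at h1
  rw [dot_Hf, Nat.factorial_succ, Nat.factorial_succ]
  push_cast
  linarith

lemma real_gap {Q : ℕ} {γ : ℝ} (hG : FockGap Q γ) (N : ℕ) (ψ : (Fin N → Fin (Q + 1)) → ℝ)
    (h : IsAS ψ) : γ * (ψ ⬝ᵥ (hR Q N *ᵥ ψ)) ≤ (hR Q N *ᵥ ψ) ⬝ᵥ (hR Q N *ᵥ ψ) := by
  rcases lt_or_ge N 2 with hN | hN
  · have : hR Q N = 0 := by
      unfold hR
      refine Finset.sum_eq_zero fun a _ => Finset.sum_eq_zero fun b _ => if_neg ?_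
      have := a.2
      have := b.2
      rw [Fin.lt_def]; omega
    simp [this]
  obtain ⟨N, rfl⟩ : ∃ M, N = M + 2 := ⟨N - 2, by omega⟩
  obtain ⟨Φ, hΦ, rfl⟩ := exists_ofFock _ ψ h
  have h1 := dot_hR_ofFock Q N Φ Φ hΦ
  have h2 := dot_hR_ofFock Q N (Hf Q *ᵥ Φ) Φ hΦ.hf
  have h3 := ofFock_dot (N + 2) (Hf Q *ᵥ Φ) (Hf Q *ᵥ Φ) hΦ.hf
  have h4 := hG Φ
  set u := hR Q (N + 2) *ᵥ ofFock (N + 2) Φ
  set v := ofFock (N + 2) (Hf Q *ᵥ Φ)
  have h5 : 0 ≤ (u - v) ⬝ᵥ (u - v) := Finset.sum_nonneg fun i _ => mul_self_nonneg _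
  rw [sub_dotProduct, dotProduct_sub, dotProduct_sub, dotProduct_comm u v] at h5
  have hf : (0 : ℝ) < (N + 2).factorial := by positivity
  rw [h1]
  nlinarith [mul_le_mul_of_nonneg_left h4 hf.le]

lemma re_dot_map {ι : Type*} [Fintype ι] (A : Matrix ι ι ℂ) (B : Matrix ι ι ℝ)
    (hA : ∀ i j, A i j = (B i j : ℂ)) (φ ψ : ι → ℂ) :
    (star φ ⬝ᵥ A *ᵥ ψ).re =
      (fun i => (φ i).re) ⬝ᵥ (B *ᵥ fun i => (ψ i).re) +
        (fun i => (φ i).im) ⬝ᵥ (B *ᵥ fun i => (ψ i).im) := by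
  simp only [dotProduct, mulVec, hA, Finset.mul_sum, Complex.re_sum, ← Finset.sum_add_distrib]
  refine Finset.sum_congr rfl fun i _ => Finset.sum_congr rfl fun j _ => ?_
  simp

lemma re_mulVec_map {ι : Type*} [Fintype ι] (A : Matrix ι ι ℂ) (B : Matrix ι ι ℝ)
    (hA : ∀ i j, A i j = (B i j : ℂ)) (ψ : ι → ℂ) :
    (fun i => ((A *ᵥ ψ) i).re) = B *ᵥ fun i => (ψ i).re := by
  funext i
  simp [dotProduct, mulVec, hA]

lemma im_mulVec_map {ι : Type*} [Fintype ι] (A : Matrix ι ι ℂ) (B : Matrix ι ι ℝ)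
    (hA : ∀ i j, A i j = (B i j : ℂ)) (ψ : ι → ℂ) :
    (fun i => ((A *ᵥ ψ) i).im) = B *ᵥ fun i => (ψ i).im := by
  funext i
  simp [dotProduct, mulVec, hA]

lemma isAS_re {q N : ℕ} {ψ : (Fin N → Fin (q + 1)) → ℂ} (h : IsAntisymmetric ψ) :
    IsAS fun m => (ψ m).re := by
  intro π m; simp only; rw [h]; simp

lemma isAS_im {q N : ℕ} {ψ : (Fin N → Fin (q + 1)) → ℂ} (h : IsAntisymmetric ψ) :
    IsAS fun m => (ψ m).im := by
  intro π m; simp only; rw [h]; simp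

theorem tensorGap_of_fockGap {Q : ℕ} {γ : ℝ} (hG : FockGap Q γ) : TensorGap Q γ := by
  intro N ψ h
  have hA := interaction_apply Q N
  rw [re_dot_map _ _ hA, re_dot_map _ _ hA, re_mulVec_map _ _ hA, im_mulVec_map _ _ hA]
  have e : ∀ u : (Fin N → Fin (Q + 1)) → ℝ,
      u ⬝ᵥ (hR Q N *ᵥ (hR Q N *ᵥ u)) = (hR Q N *ᵥ u) ⬝ᵥ (hR Q N *ᵥ u) := by
    intro u
    rw [dotProduct_mulVec, ← mulVec_transpose, hR_transpose]
  rw [e, e, mul_add]
  exact add_le_add (real_gap hG N _ (isAS_re h)) (real_gap hG N _ (isAS_im h))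

end Crest.Agent.R340
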