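import Mathlib

/-!
# Row 340, module FILT: definitions

Everything is stated in a unital C⋆-algebra `𝔄` (finite dimensional where spectral theory is used).
For matrices: `open scoped Matrix.Norms.L2Operator MatrixOrder ComplexOrder`.
-/

set_option autoImplicit false

namespace Crest.Agent.R340.Filt

open MeasureTheory Complex

variable {𝔄 : Type} [CStarAlgebra 𝔄]

/-- `e^{itH}` -/
noncomputable def ev (H : 𝔄) (t : ℝ) : 𝔄 := NormedSpace.exp (((t : ℂ) * I) • H)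

/-- Heisenberg evolution `e^{itH} A e^{-itH}` -/
noncomputable def tau (H : 𝔄) (t : ℝ) (A : 𝔄) : 𝔄 := ev H t * A * ev H (-t)

/-- `∫ w(t) e^{itξ} dt` -/
noncomputable def ft (w : ℝ → ℂ) (ξ : ℝ) : ℂ := ∫ t : ℝ, w t * exp ((t : ℂ) * I * (ξ : ℂ))

/-- two-sided filter `∫ w(t) e^{itH} A e^{-itK} dt` -/
noncomputable def filt2 (w : ℝ → ℂ) (H K A : 𝔄) : 𝔄 := ∫ t : ℝ, w t • (ev H t * A * ev K (-t))

/-- filter `∫ w(t) e^{itH} A e^{-itH} dt` -/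
noncomputable def filt (w : ℝ → ℂ) (H A : 𝔄) : 𝔄 := ∫ t : ℝ, w t • tau H t A

/-- `∫ w(t) e^{itH} dt = (ft w)(H)` -/
noncomputable def fcal (w : ℝ → ℂ) (H : 𝔄) : 𝔄 := ∫ t : ℝ, w t • ev H t

/-- A filter pair for the gap `γ`: `w` real, `ŵ = 1` near `0`, `ŵ = 0` outside `(-γ, γ)`;
`W` real with `ξ Ŵ(ξ) = i (1 - ŵ(ξ))`, `Ŵ(0) = 0` (so `Ŵ(ξ) = i / ξ` for `|ξ| ≥ γ`). -/
structure IsFilt (γ : ℝ) (w W : ℝ → ℂ) : Prop where
  pos : 0 < γ
  int_w : Integrable w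
  int_W : Integrable W
  real_w : ∀ t, (starRingEnd ℂ) (w t) = w t
  real_W : ∀ t, (starRingEnd ℂ) (W t) = W t
  even_w : ∀ t, w (-t) = w t
  one : ∀ ξ : ℝ, |ξ| ≤ γ / 4 → ft w ξ = 1
  zero : ∀ ξ : ℝ, γ ≤ |ξ| → ft w ξ = 0
  inv : ∀ ξ : ℝ, (ξ : ℂ) * ft W ξ = I * (1 - ft w ξ)
  inv0 : ft W 0 = 0

/-- stretched exponential decay -/
def Decay (C c : ℝ) (w : ℝ → ℂ) : Prop := ∀ t : ℝ, ‖w t‖ ≤ C * Real.exp (-c * Real.sqrt |t|)

/-- the eigenprojection of `H` at `lam` (zero off the spectrum) -/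
noncomputable def sp (H : 𝔄) (lam : ℝ) : 𝔄 := cfc (fun x : ℝ => if x = lam then (1 : ℝ) else 0) H

/-- the range of `p` lies in the spectral subspace of `H` for the set `S` -/
def SuppIn (H p : 𝔄) (S : Set ℝ) : Prop := ∀ lam, lam ∉ S → sp H lam * p = 0

/-- In the sector `Pi`, `p` is the spectral projection of `H` below the gap `(a, b)`. -/
structure Gap [PartialOrder 𝔄] (Pi H p : 𝔄) (a b : ℝ) : Prop where
  sa : IsSelfAdjoint H
  projPi : IsStarProjection Pi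
  proj : IsStarProjection p
  le : Pi * p = p
  cPi : Commute Pi H
  cp : Commute p H
  low : p * H * p ≤ a • p
  high : b • (Pi - p) ≤ (Pi - p) * H * (Pi - p)

/-- `U' = i D U`, `U 0 = 1` -/
structure IsFlow (D U : ℝ → 𝔄) : Prop where
  zero : U 0 = 1
  deriv : ∀ s, HasDerivAt U (I • (D s * U s)) s

open Matrix in
/-- `ψ` is a normalised ground vector of `H` in the sector `Pi`, energy `E`, gap `Δ`. -/
structure GS {n : Type} [Fintype n] (Pi H : Matrix n n ℂ) (ψ : n → ℂ) (E Δ : ℝ) : Prop where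
  sec : Pi *ᵥ ψ = ψ
  norm : star ψ ⬝ᵥ ψ = 1
  eig : H *ᵥ ψ = (E : ℂ) • ψ
  gap : ∀ φ : n → ℂ, Pi *ᵥ φ = φ → star ψ ⬝ᵥ φ = 0 →
    (E + Δ) * (star φ ⬝ᵥ φ).re ≤ (star φ ⬝ᵥ H *ᵥ φ).re

end Crest.Agent.R340.Filt
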