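import Crest.Agent.R340.Bridge
import Crest.Agent.R340.FiltDefs

/-! # Row 340: the complex Fock space (definitions and elementary facts) -/

set_option autoImplicit false

namespace Crest.Agent.R340

open Matrix Crest.MathPhysics.Laughlin
open scoped Matrix.Norms.L2Operator MatrixOrder ComplexOrder

/-- operators on the complex Fock space over `n` orbitals -/
abbrev Fk (n : ℕ) : Type := Matrix (Finset (Fin n)) (Finset (Fin n)) ℂ

variable {n : ℕ}

/-- complexification -/
def cx (A : Matrix (Finset (Fin n)) (Finset (Fin n)) ℝ) : Fk n := A.map fun x => (x : ℂ)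

/-- `c_j` -/
def annC (j : Fin n) : Fk n := cx (ann j)

/-- `B_p` -/
noncomputable def BC (Q : ℕ) (p : Fin (2 * Q - 1)) : Fk (Q + 1) := cx (Bop Q p)

/-- the Laughlin Hamiltonian -/
noncomputable def HC (Q : ℕ) : Fk (Q + 1) := cx (Hf Q)

/-- second quantisation `dΓ(T) = Σ T_ij c_i^* c_j` -/
noncomputable def dG (T : Matrix (Fin n) (Fin n) ℂ) : Fk n :=
  ∑ i, ∑ j, T i j • (star (annC i) * annC j)

/-- projection on the `N`-particle sector -/
def secP (n N : ℕ) : Fk n := Matrix.diagonal fun S => if S.card = N then 1 else 0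

/-- number operator -/
def numC (n : ℕ) : Fk n := Matrix.diagonal fun S => (S.card : ℂ)

theorem cx_mul (A B : Matrix (Finset (Fin n)) (Finset (Fin n)) ℝ) : cx (A * B) = cx A * cx B := by
  ext S T; simp [cx, Matrix.mul_apply]

theorem cx_add (A B : Matrix (Finset (Fin n)) (Finset (Fin n)) ℝ) : cx (A + B) = cx A + cx B := by
  ext S T; simp [cx]

theorem cx_neg (A : Matrix (Finset (Fin n)) (Finset (Fin n)) ℝ) : cx (-A) = -cx A := by
  ext S T; simp [cx]

theorem cx_smul (c : ℝ) (A : Matrix (Finset (Fin n)) (Finset (Fin n)) ℝ) :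
    cx (c • A) = (c : ℂ) • cx A := by
  ext S T; simp [cx]

theorem cx_sum {ι : Type*} (s : Finset ι) (A : ι → Matrix (Finset (Fin n)) (Finset (Fin n)) ℝ) :
    cx (∑ i ∈ s, A i) = ∑ i ∈ s, cx (A i) := by
  ext S T; simp [cx, Matrix.sum_apply]

theorem cx_transpose (A : Matrix (Finset (Fin n)) (Finset (Fin n)) ℝ) : cx Aᵀ = star (cx A) := by
  ext S T; simp [cx, Matrix.star_apply]

theorem cx_one : cx (1 : Matrix (Finset (Fin n)) (Finset (Fin n)) ℝ) = 1 := by
  ext S T; by_cases h : S = T <;> simp [cx, Matrix.one_apply, h]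

theorem cx_zero : cx (0 : Matrix (Finset (Fin n)) (Finset (Fin n)) ℝ) = 0 := by
  ext S T; simp [cx]

theorem annC_anticomm (i j : Fin n) : annC i * annC j = -(annC j * annC i) := by
  rw [annC, annC, ← cx_mul, ann_anticomm, cx_neg, cx_mul]

theorem annC_mul_self (i : Fin n) : annC i * annC i = 0 := by
  rw [annC, ← cx_mul, ann_mul_self, cx_zero]

theorem annC_car (i j : Fin n) :
    annC i * star (annC j) + star (annC j) * annC i = if i = j then 1 else 0 := by
  rw [annC, annC, ← cx_transpose, ← cx_mul, ← cx_mul, ← cx_add, ann_annT]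
  split_ifs
  · exact cx_one
  · exact cx_zero

theorem BC_eq (Q : ℕ) (p : Fin (2 * Q - 1)) : BC Q p = ∑ i : Fin (Q + 1), ∑ j : Fin (Q + 1),
    ((pairVec Q p i j / Real.sqrt 2 : ℝ) : ℂ) • (annC j * annC i) := by
  simp only [BC, Bop, cx_sum, cx_smul, cx_mul, annC]

theorem HC_eq (Q : ℕ) : HC Q = ∑ p : Fin (2 * Q - 1), star (BC Q p) * BC Q p := by
  simp only [HC, Hf, cx_sum, cx_mul, cx_transpose, BC]

theorem HC_nonneg (Q : ℕ) : 0 ≤ HC Q := by
  rw [HC_eq]
  exact Finset.sum_nonneg fun p _ => star_mul_self_nonneg _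

theorem HC_sa (Q : ℕ) : IsSelfAdjoint (HC Q) := IsSelfAdjoint.of_nonneg (HC_nonneg Q)

theorem secP_proj (n N : ℕ) : IsStarProjection (secP n N) := by
  constructor
  · rw [IsIdempotentElem, secP, Matrix.diagonal_mul_diagonal]
    congr 1
    funext S
    split_ifs <;> simp
  · rw [IsSelfAdjoint, secP, Matrix.star_eq_conjTranspose, Matrix.diagonal_conjTranspose]
    congr 1
    funext S
    simp only [Pi.star_apply]
    split_ifs <;> simp

theorem secP_mulVec_iff {N : ℕ} (Φ : Finset (Fin n) → ℂ) :
    secP n N *ᵥ Φ = Φ ↔ ∀ S, S.card ≠ N → Φ S = 0 := by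
  constructor
  · intro h S hS
    rw [← h, secP, Matrix.mulVec_diagonal, if_neg hS, zero_mul]
  · intro h
    funext S
    rw [secP, Matrix.mulVec_diagonal]
    split_ifs with hS
    · exact one_mul _
    · rw [zero_mul, h S hS]

theorem secP_mul_annC (N : ℕ) (j : Fin n) : secP n N * annC j = annC j * secP n (N + 1) := by
  ext S T
  simp only [secP, Matrix.diagonal_mul, Matrix.mul_diagonal, annC, cx, ann, Matrix.map_apply,
    Matrix.of_apply]
  by_cases h : j ∉ S ∧ T = insert j S
  · obtain ⟨h1, rfl⟩ := h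
    simp [Finset.card_insert_of_notMem h1]
  · simp [h]

theorem numC_mul_annC (j : Fin n) : numC n * annC j = annC j * numC n - annC j := by
  ext S T
  simp only [numC, Matrix.diagonal_mul, Matrix.mul_diagonal, annC, cx, ann, Matrix.map_apply,
    Matrix.of_apply, Matrix.sub_apply]
  by_cases h : j ∉ S ∧ T = insert j S
  · obtain ⟨h1, rfl⟩ := h
    simp [Finset.card_insert_of_notMem h1, h1]
    ring
  · simp [h]

/-- an operator commuting with the number operator commutes with every sector projection -/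
theorem commute_secP {A : Fk n} (h : Commute (numC n) A) (N : ℕ) : Commute (secP n N) A := by
  ext S T
  have := congrFun (congrFun h.eq S) T
  simp only [numC, secP, Matrix.diagonal_mul, Matrix.mul_diagonal] at this ⊢
  by_cases hA : A S T = 0
  · simp [hA]
  · have e : (S.card : ℂ) = T.card := mul_right_cancel₀ hA (this.trans (mul_comm _ _))
    have e' : S.card = T.card := by exact_mod_cast e
    rw [e', mul_comm]

theorem numC_sa (n : ℕ) : IsSelfAdjoint (numC n) := by
  rw [IsSelfAdjoint, numC, Matrix.star_eq_conjTranspose, Matrix.diagonal_conjTranspose]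
  congr 1
  funext S
  simp

theorem numC_mul_star_annC (j : Fin n) :
    numC n * star (annC j) = star (annC j) * numC n + star (annC j) := by
  have := congrArg star (numC_mul_annC j)
  rw [star_sub, star_mul, star_mul, (numC_sa n).star_eq] at this
  rw [this]
  abel

/-- `[N, A] = -k A`, `[N, B] = -k B` gives `[N, A^* B] = 0` -/
theorem commute_numC_star_mul {A B : Fk n} {k : ℂ} (hk : star k = k)
    (hA : numC n * A = A * numC n - k • A) (hB : numC n * B = B * numC n - k • B) :
    Commute (numC n) (star A * B) := by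
  have h := congrArg star hA
  rw [star_sub, star_mul, star_mul, (numC_sa n).star_eq, star_smul, hk] at h
  have h' : numC n * star A = star A * numC n + k • star A := by rw [h]; abel
  rw [Commute, SemiconjBy, ← mul_assoc, h', add_mul, mul_assoc, hB, mul_sub, mul_smul_comm,
    smul_mul_assoc, mul_assoc]
  abel

theorem commute_numC_dG (T : Matrix (Fin n) (Fin n) ℂ) : Commute (numC n) (dG T) := by
  refine Commute.sum_right _ _ _ fun i _ => Commute.sum_right _ _ _ fun j _ =>
    Commute.smul_right ?_ _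
  exact commute_numC_star_mul (k := 1) (star_one _) (by rw [one_smul, numC_mul_annC])
    (by rw [one_smul, numC_mul_annC])

theorem numC_mul_BC (Q : ℕ) (p : Fin (2 * Q - 1)) :
    numC (Q + 1) * BC Q p = BC Q p * numC (Q + 1) - (2 : ℂ) • BC Q p := by
  rw [BC_eq]
  simp only [Finset.mul_sum, Finset.sum_mul, Finset.smul_sum, ← Finset.sum_sub_distrib]
  refine Finset.sum_congr rfl fun i _ => Finset.sum_congr rfl fun j _ => ?_
  rw [mul_smul_comm, smul_mul_assoc, smul_comm, ← smul_sub, ← mul_assoc, numC_mul_annC, sub_mul,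
    mul_assoc, numC_mul_annC, mul_sub, two_smul, mul_assoc]
  congr 1
  abel

theorem commute_numC_HC (Q : ℕ) : Commute (numC (Q + 1)) (HC Q) := by
  rw [HC_eq]
  exact Commute.sum_right _ _ _ fun p _ =>
    commute_numC_star_mul (k := 2) (by simp) (numC_mul_BC Q p) (numC_mul_BC Q p)

theorem star_dG (T : Matrix (Fin n) (Fin n) ℂ) : star (dG T) = dG (star T) := by
  simp only [dG, star_sum, star_smul, star_mul, star_star, Matrix.star_apply]
  exact Finset.sum_comm

theorem dG_sa {T : Matrix (Fin n) (Fin n) ℂ} (h : IsSelfAdjoint T) : IsSelfAdjoint (dG T) := by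
  rw [IsSelfAdjoint, star_dG, h.star_eq]

end Crest.Agent.R340
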