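import Crest.Agent.R340.Defs

/-! Canonical anticommutation relations on the real Fock space. -/

set_option autoImplicit false

namespace Crest.Agent.R340

open Matrix

variable {n : ℕ}

lemma sgn_mul_self (j : Fin n) (S : Finset (Fin n)) : sgn j S * sgn j S = 1 := by
  unfold sgn; rw [← mul_pow]; simp

lemma sgn_insert (i j : Fin n) (S : Finset (Fin n)) (h : i ∉ S) :
    sgn j (insert i S) = (if i < j then -1 else 1) * sgn j S := by
  unfold sgn
  rw [Finset.filter_insert]
  split_ifs with hij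
  · rw [Finset.card_insert_of_notMem (by simp [h]), pow_succ]; ring
  · simp

lemma sgn_insert_self (j : Fin n) (S : Finset (Fin n)) : sgn j (insert j S) = sgn j S := by
  unfold sgn
  rw [Finset.filter_insert]; simp

lemma sgn_erase_self (j : Fin n) (S : Finset (Fin n)) : sgn j (S.erase j) = sgn j S := by
  by_cases h : j ∈ S
  · conv_rhs => rw [← Finset.insert_erase h]
    rw [sgn_insert_self]
  · rw [Finset.erase_eq_of_notMem h]

lemma sgn_erase (i j : Fin n) (S : Finset (Fin n)) (h : i ∈ S) :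
    sgn j (S.erase i) = (if i < j then -1 else 1) * sgn j S := by
  conv_rhs => rw [← Finset.insert_erase h]
  rw [sgn_insert i j _ (by simp)]
  split_ifs <;> ring

lemma ann_mulVec (j : Fin n) (Φ : Finset (Fin n) → ℝ) (S : Finset (Fin n)) :
    (ann j *ᵥ Φ) S = if j ∈ S then 0 else sgn j S * Φ (insert j S) := by
  unfold ann
  simp only [mulVec, dotProduct, of_apply]
  by_cases h : j ∈ S
  · simp [h]
  · simp only [h, not_false_eq_true, true_and, if_false, ite_mul, zero_mul]
    rw [Finset.sum_ite_eq' Finset.univ (insert j S)]; simp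

lemma annT_mulVec (j : Fin n) (Φ : Finset (Fin n) → ℝ) (S : Finset (Fin n)) :
    ((ann j)ᵀ *ᵥ Φ) S = if j ∈ S then sgn j S * Φ (S.erase j) else 0 := by
  unfold ann
  simp only [mulVec, dotProduct, transpose_apply, of_apply]
  by_cases h : j ∈ S
  · simp only [h, if_true]
    rw [Finset.sum_eq_single (S.erase j)]
    · simp [Finset.insert_erase h, sgn_erase_self]
    · intro T _ hT
      rw [if_neg, zero_mul]
      rintro ⟨h1, h2⟩
      apply hT
      rw [h2, Finset.erase_insert h1]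
    · simp
  · simp only [h, if_false]
    apply Finset.sum_eq_zero
    intro T _
    rw [if_neg, zero_mul]
    rintro ⟨_, h2⟩
    apply h; rw [h2]; simp

lemma mat_ext_mulVec {m : Type*} [Fintype m] [DecidableEq m] {A B : Matrix m m ℝ}
    (h : ∀ v, A *ᵥ v = B *ᵥ v) : A = B := by
  ext i j
  have := congrFun (h (Pi.single j 1)) i
  simpa [mulVec_single_one] using this

lemma ann_anticomm (i j : Fin n) : ann i * ann j = -(ann j * ann i) := by
  apply mat_ext_mulVec
  intro Φ
  funext S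
  rw [neg_mulVec, ← mulVec_mulVec, ← mulVec_mulVec, Pi.neg_apply]
  simp only [ann_mulVec, Finset.mem_insert]
  by_cases hi : i ∈ S
  · simp [hi]
  by_cases hj : j ∈ S
  · simp [hj]
  by_cases hij : i = j
  · subst hij; simp [hi]
  have hji : ¬ j = i := fun h => hij h.symm
  simp only [hi, hj, hij, hji, or_self, if_false]
  rw [sgn_insert i j S hi, sgn_insert j i S hj, Finset.insert_comm]
  rcases lt_or_gt_of_ne hij with h | h
  · simp [h, not_lt.mpr h.le]; ring
  · simp [h, not_lt.mpr h.le]; ring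

lemma ann_mul_self (i : Fin n) : ann i * ann i = 0 := by
  have h := ann_anticomm i i
  have h2 : (2 : ℝ) • (ann i * ann i) = 0 := by
    rw [two_smul]; nth_rewrite 1 [h]; simp
  simpa using h2

lemma annT_anticomm (i j : Fin n) : (ann i)ᵀ * (ann j)ᵀ = -((ann j)ᵀ * (ann i)ᵀ) := by
  rw [← transpose_mul, ← transpose_mul, ann_anticomm, transpose_neg]

lemma ann_annT (i j : Fin n) :
    ann i * (ann j)ᵀ + (ann j)ᵀ * ann i = if i = j then 1 else 0 := by
  apply mat_ext_mulVec
  intro Φ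
  funext S
  rw [add_mulVec, ← mulVec_mulVec, ← mulVec_mulVec, Pi.add_apply]
  simp only [ann_mulVec, annT_mulVec, Finset.mem_insert, Finset.mem_erase]
  by_cases hij : i = j
  · subst hij
    by_cases hi : i ∈ S
    · simp [hi, sgn_erase_self, Finset.insert_erase hi, ← mul_assoc, sgn_mul_self]
    · simp [hi, sgn_insert_self, Finset.erase_insert hi, ← mul_assoc, sgn_mul_self]
  have hji : ¬ j = i := fun h => hij h.symm
  by_cases hi : i ∈ S
  · by_cases hj : j ∈ S <;> simp [hi, hj, hij]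
  by_cases hj : j ∈ S
  · simp only [hi, hj, hij, hji, if_false, if_true, or_true, and_false, zero_mulVec,
      Pi.zero_apply]
    rw [sgn_insert i j S hi, sgn_erase j i S hj, Finset.erase_insert_of_ne hij]
    rcases lt_or_gt_of_ne hij with h | h
    · simp [h, not_lt.mpr h.le]; ring
    · simp [h, not_lt.mpr h.le]; ring
  · simp [hi, hj, hij, hji]

lemma ann_annT' (i j : Fin n) :
    ann i * (ann j)ᵀ = (if i = j then 1 else 0) - (ann j)ᵀ * ann i := by
  rw [← ann_annT, add_sub_cancel_right]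

lemma annT_ann_mulVec (j : Fin n) (Φ : Finset (Fin n) → ℝ) (S : Finset (Fin n)) :
    (((ann j)ᵀ * ann j) *ᵥ Φ) S = if j ∈ S then Φ S else 0 := by
  rw [← mulVec_mulVec, annT_mulVec, ann_mulVec]
  by_cases hj : j ∈ S
  · simp [hj, sgn_erase_self, Finset.insert_erase hj, ← mul_assoc, sgn_mul_self]
  · simp [hj]

lemma dot_annT (A : Matrix (Finset (Fin n)) (Finset (Fin n)) ℝ) (Φ Ψ : Finset (Fin n) → ℝ) :
    Φ ⬝ᵥ (Aᵀ *ᵥ Ψ) = (A *ᵥ Φ) ⬝ᵥ Ψ := by
  rw [dotProduct_mulVec, vecMul_transpose]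

/-- `Σ_j ⟨c_j Φ, c_j Ψ⟩ = Σ_S |S| Φ(S) Ψ(S)`. -/
lemma sum_ann_dot (Φ Ψ : Finset (Fin n) → ℝ) :
    ∑ j, (ann j *ᵥ Φ) ⬝ᵥ (ann j *ᵥ Ψ) = ∑ S, (S.card : ℝ) * (Φ S * Ψ S) := by
  have : ∀ j, (ann j *ᵥ Φ) ⬝ᵥ (ann j *ᵥ Ψ) = ∑ S, if j ∈ S then Φ S * Ψ S else 0 := by
    intro j
    rw [← dot_annT, mulVec_mulVec]
    unfold dotProduct
    refine Finset.sum_congr rfl fun S _ => ?_
    rw [annT_ann_mulVec]; split_ifs <;> simp
  simp_rw [this]
  rw [Finset.sum_comm]
  refine Finset.sum_congr rfl fun S _ => ?_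
  rw [← Finset.sum_filter]; simp

end Crest.Agent.R340
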