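import Crest.Agent.R340.FiltFunB

/-! # FILT: filter pairs `(w, W)` and scalar tail bounds -/

set_option autoImplicit false

namespace Crest.Agent.R340.Filt

open MeasureTheory Complex

theorem h93_pow_exp {c s : ℝ} (hc : 0 < c) (hs : 0 ≤ s) (m : ℕ) :
    s ^ m * Real.exp (-c * s) ≤ (m.factorial : ℝ) / c ^ m := by
  have h := Real.pow_div_factorial_le_exp (c * s) (by positivity) m
  have hf : (0 : ℝ) < m.factorial := by positivity
  rw [div_le_iff₀ hf, mul_pow] at h
  rw [le_div_iff₀ (by positivity), neg_mul, Real.exp_neg]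
  have he := Real.exp_pos (c * s)
  calc s ^ m * (Real.exp (c * s))⁻¹ * c ^ m = c ^ m * s ^ m * (Real.exp (c * s))⁻¹ := by ring
    _ ≤ Real.exp (c * s) * m.factorial * (Real.exp (c * s))⁻¹ := by gcongr
    _ = m.factorial := by field_simp

theorem Decay.integrable_pow {C c : ℝ} (hc : 0 < c) (k : ℕ) :
    Integrable fun t : ℝ => |t| ^ k * (C * Real.exp (-c * Real.sqrt |t|)) := by
  set K : ℝ := ((2 * k).factorial : ℝ) / c ^ (2 * k) + ((2 * k + 4).factorial : ℝ) / c ^ (2 * k + 4)
    with hK
  refine (integrable_inv_one_add_sq.const_mul (|C| * K)).mono' (by fun_prop)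
    (Filter.Eventually.of_forall fun t => ?_)
  have hs : 0 ≤ Real.sqrt |t| := Real.sqrt_nonneg _
  have h2 : Real.sqrt |t| ^ 2 = |t| := Real.sq_sqrt (abs_nonneg t)
  have a1 := h93_pow_exp hc hs (2 * k)
  have a2 := h93_pow_exp hc hs (2 * k + 4)
  have e4 : Real.sqrt |t| ^ 4 = t ^ 2 := by
    rw [show (4 : ℕ) = 2 * 2 from rfl, pow_mul, h2, sq_abs]
  rw [pow_add (Real.sqrt |t|), e4] at a2
  rw [pow_mul (Real.sqrt |t|), h2] at a1 a2
  have he := Real.exp_pos (-c * Real.sqrt |t|)
  rw [Real.norm_eq_abs, abs_mul, abs_mul, abs_of_pos he, abs_of_nonneg (by positivity),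
    ← div_eq_mul_inv, le_div_iff₀ (by positivity)]
  have h3 : |t| ^ k * Real.exp (-c * Real.sqrt |t|) * (1 + t ^ 2) ≤ K := by
    rw [hK]; nlinarith
  calc |t| ^ k * (|C| * Real.exp (-c * Real.sqrt |t|)) * (1 + t ^ 2)
      = |C| * (|t| ^ k * Real.exp (-c * Real.sqrt |t|) * (1 + t ^ 2)) := by ring
    _ ≤ |C| * K := by gcongr

theorem h93_int {c : ℝ} (hc : 0 < c) : Integrable fun t : ℝ => Real.exp (-c * Real.sqrt |t|) := by
  simpa using Decay.integrable_pow (C := 1) hc 0

/-- tails of a stretched exponential -/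
theorem Decay.tail {c : ℝ} (hc : 0 < c) : ∃ C' : ℝ, 0 < C' ∧ ∀ T : ℝ, 0 ≤ T →
    ∫ t in {t : ℝ | T ≤ |t|}, Real.exp (-c * Real.sqrt |t|) ≤
      C' * Real.exp (-(c / 2) * Real.sqrt T) := by
  have hc2 : 0 < c / 2 := by positivity
  have hi := h93_int hc2
  have h0 : 0 ≤ ∫ t : ℝ, Real.exp (-(c / 2) * Real.sqrt |t|) :=
    integral_nonneg fun t => (Real.exp_pos _).le
  refine ⟨(∫ t : ℝ, Real.exp (-(c / 2) * Real.sqrt |t|)) + 1, by linarith, fun T hT => ?_⟩
  have hm : MeasurableSet {t : ℝ | T ≤ |t|} :=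
    (isClosed_le continuous_const continuous_abs).measurableSet
  have he := Real.exp_pos (-(c / 2) * Real.sqrt T)
  calc ∫ t in {t : ℝ | T ≤ |t|}, Real.exp (-c * Real.sqrt |t|)
      ≤ ∫ t in {t : ℝ | T ≤ |t|},
          Real.exp (-(c / 2) * Real.sqrt |t|) * Real.exp (-(c / 2) * Real.sqrt T) := by
        refine setIntegral_mono_on (h93_int hc).integrableOn (hi.mul_const _).integrableOn hm
          fun t ht => ?_
        rw [← Real.exp_add]
        have : Real.sqrt T ≤ Real.sqrt |t| := Real.sqrt_le_sqrt ht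
        exact Real.exp_le_exp.2 (by nlinarith)
    _ ≤ ∫ t : ℝ, Real.exp (-(c / 2) * Real.sqrt |t|) * Real.exp (-(c / 2) * Real.sqrt T) :=
        setIntegral_le_integral (hi.mul_const _)
          (Filter.Eventually.of_forall fun t => by positivity)
    _ ≤ _ := by
        rw [integral_mul_const]
        nlinarith

/-- filter against a Lieb-Robinson bound `min 1 (exp (v |t| - ρ))` -/
theorem Decay.lr {c v : ℝ} (hc : 0 < c) (hv : 0 < v) : ∃ C' c' : ℝ, 0 < C' ∧ 0 < c' ∧
    ∀ ρ : ℝ, 0 ≤ ρ → ∫ t : ℝ, Real.exp (-c * Real.sqrt |t|) * min 1 (Real.exp (v * |t| - ρ)) ≤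
      C' * Real.exp (-c' * Real.sqrt ρ) := by
  have hc2 : 0 < c / 2 := by positivity
  have hi := h93_int hc2
  have h0 : 0 ≤ ∫ t : ℝ, Real.exp (-(c / 2) * Real.sqrt |t|) :=
    integral_nonneg fun t => (Real.exp_pos _).le
  have hsv : 0 < Real.sqrt (2 * v) := Real.sqrt_pos.2 (by positivity)
  set c' : ℝ := min 1 (c / 2 / Real.sqrt (2 * v)) with hc'
  have hc'0 : 0 < c' := lt_min one_pos (by positivity)
  refine ⟨((∫ t : ℝ, Real.exp (-(c / 2) * Real.sqrt |t|)) + 1) * Real.exp (1 / 2), c',
    by positivity, hc'0, fun ρ hρ => ?_⟩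
  have hr : 0 ≤ Real.sqrt ρ := Real.sqrt_nonneg _
  have hr2 : Real.sqrt ρ ^ 2 = ρ := Real.sq_sqrt hρ
  have he := Real.exp_pos (-c' * Real.sqrt ρ)
  have he' := Real.exp_pos (1 / 2)
  calc ∫ t : ℝ, Real.exp (-c * Real.sqrt |t|) * min 1 (Real.exp (v * |t| - ρ))
      ≤ ∫ t : ℝ, Real.exp (-(c / 2) * Real.sqrt |t|) *
          (Real.exp (1 / 2) * Real.exp (-c' * Real.sqrt ρ)) := by
        refine integral_mono_of_nonneg (Filter.Eventually.of_forall fun t => ?_) (hi.mul_const _)
          (Filter.Eventually.of_forall fun t => ?_)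
        · exact mul_nonneg (Real.exp_pos _).le (le_min zero_le_one (Real.exp_pos _).le)
        · have hs : 0 ≤ Real.sqrt |t| := Real.sqrt_nonneg _
          beta_reduce
          rw [← Real.exp_add, ← Real.exp_add]
          rcases le_total (ρ / (2 * v)) |t| with ht | ht
          · have h1 : Real.sqrt ρ / Real.sqrt (2 * v) ≤ Real.sqrt |t| := by
              rw [← Real.sqrt_div hρ]
              exact Real.sqrt_le_sqrt ht
            have h2 : c' * Real.sqrt ρ ≤ c / 2 * Real.sqrt |t| :=
              calc c' * Real.sqrt ρ ≤ c / 2 / Real.sqrt (2 * v) * Real.sqrt ρ := by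
                    gcongr; exact min_le_right _ _
                _ = c / 2 * (Real.sqrt ρ / Real.sqrt (2 * v)) := by ring
                _ ≤ _ := by gcongr
            calc Real.exp (-c * Real.sqrt |t|) * min 1 (Real.exp (v * |t| - ρ))
                ≤ Real.exp (-c * Real.sqrt |t|) * 1 := by gcongr; exact min_le_left _ _
              _ ≤ _ := by rw [mul_one]; exact Real.exp_le_exp.2 (by linarith)
          · have h1 : v * |t| ≤ ρ / 2 := by
              rw [le_div_iff₀ (by positivity)] at ht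
              linarith
            have h2 : c' * Real.sqrt ρ ≤ 1 * Real.sqrt ρ := by gcongr; exact min_le_left _ _
            calc Real.exp (-c * Real.sqrt |t|) * min 1 (Real.exp (v * |t| - ρ))
                ≤ Real.exp (-c * Real.sqrt |t|) * Real.exp (v * |t| - ρ) := by
                  gcongr; exact min_le_right _ _
              _ ≤ _ := by
                  rw [← Real.exp_add]
                  refine Real.exp_le_exp.2 ?_
                  nlinarith [sq_nonneg (Real.sqrt ρ - 1), mul_nonneg hc.le hs]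
    _ ≤ _ := by
        rw [integral_mul_const]
        nlinarith [mul_pos he' he]

/-- the signed indicator of the interval between `0` and `s` -/
noncomputable def h66k (t s : ℝ) : ℝ :=
  if 0 < t ∧ t < s then 1 else if s < t ∧ t < 0 then -1 else 0

theorem h66k_meas : Measurable fun p : ℝ × ℝ => h66k p.1 p.2 := by
  unfold h66k
  refine Measurable.ite ?_ measurable_const (Measurable.ite ?_ measurable_const measurable_const)
  · exact (measurableSet_lt measurable_const measurable_fst).inter
      (measurableSet_lt measurable_fst measurable_snd)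
  · exact (measurableSet_lt measurable_snd measurable_fst).inter
      (measurableSet_lt measurable_fst measurable_const)

theorem h66k_le (t s : ℝ) : |h66k t s| ≤ 1 := by
  unfold h66k
  split_ifs <;> simp

theorem h66k_zero {t s : ℝ} (h : ¬ |t| ≤ |s|) : h66k t s = 0 := by
  unfold h66k
  rw [if_neg, if_neg]
  · rintro ⟨h1, h2⟩
    exact h (by rw [abs_of_neg h2, abs_of_neg (h1.trans h2)]; linarith)
  · rintro ⟨h1, h2⟩
    exact h (by rw [abs_of_pos h1, abs_of_pos (h1.trans h2)]; linarith)

theorem h66k_int (e : ℝ → ℂ) (s : ℝ) :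
    ∫ t, (h66k t s : ℂ) * e t = ∫ t in (0 : ℝ)..s, e t := by
  rcases le_total 0 s with hs | hs
  · rw [intervalIntegral.integral_of_le hs, integral_Ioc_eq_integral_Ioo,
      ← integral_indicator measurableSet_Ioo]
    refine integral_congr_ae (Filter.Eventually.of_forall fun t => ?_)
    unfold h66k
    by_cases ht : t ∈ Set.Ioo 0 s
    · simp only [Set.indicator_of_mem ht, if_pos (show 0 < t ∧ t < s from ht)]
      simp
    · simp only [Set.indicator_of_notMem ht, if_neg (show ¬ (0 < t ∧ t < s) from ht),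
        if_neg (show ¬ (s < t ∧ t < 0) from fun h => by linarith [h.1, h.2])]
      simp
  · rw [intervalIntegral.integral_of_ge hs, integral_Ioc_eq_integral_Ioo,
      ← integral_indicator measurableSet_Ioo, ← integral_neg]
    refine integral_congr_ae (Filter.Eventually.of_forall fun t => ?_)
    unfold h66k
    by_cases ht : t ∈ Set.Ioo s 0
    · simp only [Set.indicator_of_mem ht, if_pos (show s < t ∧ t < 0 from ht),
        if_neg (show ¬ (0 < t ∧ t < s) from fun h => by linarith [h.1, h.2])]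
      simp
    · simp only [Set.indicator_of_notMem ht, if_neg (show ¬ (s < t ∧ t < 0) from ht),
        if_neg (show ¬ (0 < t ∧ t < s) from fun h => by linarith [h.1, h.2])]
      simp

/-- the antiderivative `W t = ∫_t^∞ w` for `t > 0`, odd -/
theorem exists_W {w : ℝ → ℂ} {C c : ℝ} (hC : 0 < C) (hc : 0 < c) (mw : Measurable w)
    (hd : Decay C c w) (h1 : ft w 0 = 1) (hr : ∀ t, (starRingEnd ℂ) (w t) = w t)
    (he : ∀ t, w (-t) = w t) :
    ∃ (W : ℝ → ℂ) (C' : ℝ), 0 < C' ∧ Measurable W ∧ Decay C' (c / 2) W ∧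
      (∀ t, (starRingEnd ℂ) (W t) = W t) ∧ (∀ ξ : ℝ, (ξ : ℂ) * ft W ξ = I * (1 - ft w ξ)) ∧
      ft W 0 = 0 := by
  obtain ⟨C', hC', htail⟩ := Decay.tail hc
  have hint0 : Integrable fun t : ℝ => C * Real.exp (-c * Real.sqrt |t|) := by
    simpa using Decay.integrable_pow (C := C) hc 0
  have hint1 : Integrable fun t : ℝ => |t| * (C * Real.exp (-c * Real.sqrt |t|)) := by
    simpa using Decay.integrable_pow (C := C) hc 1
  have hw : Integrable w := hint0.mono' mw.aestronglyMeasurable (Filter.Eventually.of_forall hd)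
  have hm2 : Measurable fun p : ℝ × ℝ => w p.2 * (h66k p.1 p.2 : ℂ) :=
    (mw.comp measurable_snd).mul (Complex.measurable_ofReal.comp h66k_meas)
  have key : ∀ ξ : ℝ, ft (fun t => ∫ s, w s * (h66k t s : ℂ)) ξ =
      ∫ s, w s * ∫ t in (0 : ℝ)..s, exp ((t : ℂ) * I * (ξ : ℂ)) := fun ξ => by
    have hec : Continuous fun t : ℝ => exp ((t : ℂ) * I * (ξ : ℂ)) := by fun_prop
    have hen : ∀ t : ℝ, ‖exp ((t : ℂ) * I * (ξ : ℂ))‖ = 1 := fun t => by
      have : (t : ℂ) * I * (ξ : ℂ) = ((t * ξ : ℝ) : ℂ) * I := by push_cast; ring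
      rw [this, norm_exp_ofReal_mul_I]
    set F : ℝ → ℝ → ℂ := fun t s => w s * ((h66k t s : ℂ) * exp ((t : ℂ) * I * (ξ : ℂ))) with hF
    have hFm : Measurable (Function.uncurry F) :=
      (mw.comp measurable_snd).mul ((Complex.measurable_ofReal.comp h66k_meas).mul
        (hec.measurable.comp measurable_fst))
    have hbd : ∀ s t, ‖F t s‖ ≤ (Set.Icc (-|s|) |s|).indicator (fun _ => ‖w s‖) t := fun s t => by
      simp only [hF, norm_mul, hen, mul_one, Complex.norm_real, Real.norm_eq_abs]
      by_cases ht : t ∈ Set.Icc (-|s|) |s|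
      · rw [Set.indicator_of_mem ht]
        exact mul_le_of_le_one_right (norm_nonneg _) (h66k_le t s)
      · rw [Set.indicator_of_notMem ht, h66k_zero (fun h => ht (abs_le.1 h))]
        simp
    have hind : ∀ s, Integrable ((Set.Icc (-|s|) |s|).indicator fun _ : ℝ => ‖w s‖) := fun s =>
      (integrable_indicator_iff measurableSet_Icc).2 (integrableOn_const measure_Icc_lt_top.ne)
    have hFi : Integrable (Function.uncurry F) ((volume : Measure ℝ).prod volume) := by
      rw [integrable_prod_iff' hFm.aestronglyMeasurable]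
      refine ⟨Filter.Eventually.of_forall fun s => (hind s).mono'
        (hFm.comp (measurable_id.prodMk measurable_const)).aestronglyMeasurable
        (Filter.Eventually.of_forall (hbd s)), (hint1.const_mul 2).mono'
        hFm.norm.stronglyMeasurable.integral_prod_left'.aestronglyMeasurable
        (Filter.Eventually.of_forall fun s => ?_)⟩
      refine (norm_integral_le_of_norm_le (hind s) (Filter.Eventually.of_forall fun t => ?_)).trans ?_
      · rw [norm_norm]; exact hbd s t
      · rw [integral_indicator measurableSet_Icc, setIntegral_const, Real.volume_real_Icc_of_le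
          (by linarith [abs_nonneg s]), smul_eq_mul]
        have := mul_le_mul_of_nonneg_left (hd s) (abs_nonneg s)
        linarith
    calc ft (fun t => ∫ s, w s * (h66k t s : ℂ)) ξ = ∫ t, ∫ s, F t s := by
          unfold ft
          refine integral_congr_ae (Filter.Eventually.of_forall fun t => ?_)
          simp only [hF]
          rw [← integral_mul_const]
          simp only [mul_assoc]
      _ = ∫ s, ∫ t, F t s := integral_integral_swap hFi
      _ = _ := by
          refine integral_congr_ae (Filter.Eventually.of_forall fun s => ?_)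
          simp only [hF]
          rw [integral_const_mul, h66k_int]
  refine ⟨fun t => ∫ s, w s * (h66k t s : ℂ), C * C', by positivity,
    hm2.stronglyMeasurable.integral_prod_right'.measurable, fun t => ?_, fun t => ?_, fun ξ => ?_, ?_⟩
  · have hms : MeasurableSet {s : ℝ | |t| ≤ |s|} :=
      measurableSet_le measurable_const continuous_abs.measurable
    refine (norm_integral_le_of_norm_le (hint0.indicator hms)
      (Filter.Eventually.of_forall fun s => ?_)).trans ?_
    · rw [norm_mul, Complex.norm_real, Real.norm_eq_abs]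
      by_cases hs : s ∈ {s : ℝ | |t| ≤ |s|}
      · rw [Set.indicator_of_mem hs]
        exact (mul_le_of_le_one_right (norm_nonneg _) (h66k_le t s)).trans (hd s)
      · rw [Set.indicator_of_notMem hs, h66k_zero hs]
        simp
    · rw [integral_indicator hms, integral_const_mul, mul_assoc]
      exact mul_le_mul_of_nonneg_left (htail _ (abs_nonneg t)) hC.le
  · rw [← integral_conj]
    refine integral_congr_ae (Filter.Eventually.of_forall fun s => ?_)
    simp only [map_mul, hr, conj_ofReal]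
  · have hen : ∀ t : ℝ, ‖exp ((t : ℂ) * I * (ξ : ℂ))‖ = 1 := fun t => by
      have : (t : ℂ) * I * (ξ : ℂ) = ((t * ξ : ℝ) : ℂ) * I := by push_cast; ring
      rw [this, norm_exp_ofReal_mul_I]
    have hwe : Integrable fun s : ℝ => w s * exp ((s : ℂ) * I * (ξ : ℂ)) :=
      hw.mul_bdd (c := 1) (by fun_prop) (Filter.Eventually.of_forall fun s => (hen s).le)
    have h1' : ∫ s, w s = 1 := by simpa [ft] using h1
    have hprim : ∀ s : ℝ, (ξ : ℂ) * ∫ t in (0 : ℝ)..s, exp ((t : ℂ) * I * (ξ : ℂ))
        = I * (1 - exp ((s : ℂ) * I * (ξ : ℂ))) := fun s => by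
      by_cases hξ : ξ = 0
      · simp [hξ]
      have hξ' : (ξ : ℂ) ≠ 0 := by exact_mod_cast hξ
      have e1 : ∀ t : ℝ, (t : ℂ) * I * (ξ : ℂ) = (I * ξ) * t := fun t => by ring
      simp only [e1]
      rw [integral_exp_mul_complex (mul_ne_zero I_ne_zero hξ')]
      field_simp
      simp only [ofReal_zero, mul_zero, exp_zero, I_sq]
      ring
    rw [key, ← integral_const_mul, ← h1', ft, ← integral_sub hw hwe, ← integral_const_mul]
    refine integral_congr_ae (Filter.Eventually.of_forall fun s => ?_)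
    simp only
    rw [mul_left_comm, hprim]
    ring
  · rw [key]
    simp only [ofReal_zero, mul_zero, exp_zero, intervalIntegral.integral_const, sub_zero,
      real_smul, mul_one]
    have h2 := integral_neg_eq_self (fun s : ℝ => w s * (s : ℂ)) volume
    simp only [he, ofReal_neg, mul_neg, integral_neg] at h2
    exact (neg_eq_self.1 h2)

theorem h93_ft_scale (w : ℝ → ℂ) {γ : ℝ} (hγ : 0 < γ) (ξ : ℝ) :
    ft (fun t => w (γ * t)) ξ = (γ : ℂ)⁻¹ * ft w (ξ / γ) := by
  have h := Measure.integral_comp_mul_left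
    (fun y : ℝ => w y * exp ((y : ℂ) * I * ((ξ / γ : ℝ) : ℂ))) γ
  have hg : (γ : ℂ) ≠ 0 := by exact_mod_cast hγ.ne'
  rw [abs_of_pos (inv_pos.2 hγ), real_smul, ofReal_inv] at h
  rw [ft, ft, ← h]
  refine integral_congr_ae (Filter.Eventually.of_forall fun t => ?_)
  have : ((γ * t : ℝ) : ℂ) * I * ((ξ / γ : ℝ) : ℂ) = (t : ℂ) * I * (ξ : ℂ) := by
    push_cast
    field_simp
  simp only [this]

theorem h93_ft_scale' (w : ℝ → ℂ) {γ : ℝ} (hγ : 0 < γ) (ξ : ℝ) :
    ft (fun t => (γ : ℂ) * w (γ * t)) ξ = ft w (ξ / γ) := by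
  have hg : (γ : ℂ) ≠ 0 := by exact_mod_cast hγ.ne'
  have h : ft (fun t => (γ : ℂ) * w (γ * t)) ξ = (γ : ℂ) * ft (fun t => w (γ * t)) ξ := by
    rw [ft, ft, ← integral_const_mul]
    simp only [mul_assoc]
  rw [h, h93_ft_scale w hγ, mul_inv_cancel_left₀ hg]

/-- scaling -/
theorem IsFilt.scale {w W : ℝ → ℂ} (h : IsFilt 1 w W) {γ : ℝ} (hγ : 0 < γ) :
    IsFilt γ (fun t => (γ : ℂ) * w (γ * t)) fun t => W (γ * t) := by
  have hg : (γ : ℂ) ≠ 0 := by exact_mod_cast hγ.ne'
  refine ⟨hγ, (h.int_w.comp_mul_left' hγ.ne').const_mul _, h.int_W.comp_mul_left' hγ.ne',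
    fun t => ?_, fun t => h.real_W _, fun t => ?_, fun ξ hξ => ?_, fun ξ hξ => ?_, fun ξ => ?_, ?_⟩
  · rw [map_mul, h.real_w, conj_ofReal]
  · rw [mul_neg, h.even_w]
  · rw [h93_ft_scale' w hγ]
    refine h.one _ ?_
    rw [abs_div, abs_of_pos hγ, div_le_iff₀ hγ]
    linarith
  · rw [h93_ft_scale' w hγ]
    refine h.zero _ ?_
    rw [abs_div, abs_of_pos hγ, le_div_iff₀ hγ]
    linarith
  · rw [h93_ft_scale' w hγ, h93_ft_scale W hγ, ← h.inv (ξ / γ)]
    push_cast
    field_simp
  · rw [h93_ft_scale W hγ, zero_div, h.inv0, mul_zero]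

/-- filter pairs exist for every gap, with explicit dependence on the gap -/
theorem exists_filt : ∃ C c : ℝ, 0 < C ∧ 0 < c ∧ ∀ γ : ℝ, 0 < γ → ∃ w W : ℝ → ℂ,
    IsFilt γ w W ∧ Measurable w ∧ Measurable W ∧
      Decay (γ * C) (c * Real.sqrt γ) w ∧ Decay C (c * Real.sqrt γ) W := by
  obtain ⟨w, C, c, hC, hc, mw, hb, hr, he, hd⟩ := exists_w1
  obtain ⟨W, C', hC', mW, hD, hR, hinv, h0⟩ :=
    exists_W hC hc mw hd (hb.one 0 (by norm_num)) hr he
  have hc2 : 0 < c / 2 := by positivity
  have iW : Integrable W :=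
    ((h93_int hc2).const_mul C').mono' mW.aestronglyMeasurable (Filter.Eventually.of_forall hD)
  have hF : IsFilt 1 w W := ⟨one_pos, hb.int, iW, hr, hR, he, hb.one, hb.zero, hinv, h0⟩
  refine ⟨C + C', c / 2, by positivity, hc2, fun γ hγ => ⟨_, _, hF.scale hγ,
    (mw.comp (measurable_const_mul γ)).const_mul _, mW.comp (measurable_const_mul γ),
    fun t => ?_, fun t => ?_⟩⟩
  · have h1 := hd (γ * t)
    rw [abs_mul, abs_of_pos hγ, Real.sqrt_mul hγ.le] at h1
    have hs : 0 ≤ Real.sqrt γ * Real.sqrt |t| := by positivity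
    rw [norm_mul, norm_real, Real.norm_eq_abs, abs_of_pos hγ, mul_assoc]
    refine mul_le_mul_of_nonneg_left (h1.trans ?_) hγ.le
    refine mul_le_mul (by linarith) (Real.exp_le_exp.2 ?_) (Real.exp_pos _).le (by positivity)
    nlinarith
  · have h1 := hD (γ * t)
    rw [abs_mul, abs_of_pos hγ, Real.sqrt_mul hγ.le] at h1
    refine h1.trans ?_
    refine mul_le_mul (by linarith) (Real.exp_le_exp.2 ?_) (Real.exp_pos _).le (by positivity)
    exact le_of_eq (by ring)

end Crest.Agent.R340.Filt
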