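import Crest.Agent.R340.FiltEv

/-! # FILT: spectral form of the filters (finite dimension) -/

set_option autoImplicit false

namespace Crest.Agent.R340.Filt

open MeasureTheory Complex

variable {𝔄 : Type} [CStarAlgebra 𝔄] [FiniteDimensional ℂ 𝔄] {H K A B p q Pi : 𝔄} {w W : ℝ → ℂ}

/-! ### part A: eigenprojections and the master formula -/

theorem finite_spec (H : 𝔄) : (spectrum ℝ H).Finite := by
  rw [← spectrum.preimage_algebraMap ℂ]
  refine Set.Finite.preimage (FaithfulSMul.algebraMap_injective ℝ ℂ).injOn ?_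
  refine (Module.End.finite_spectrum (Algebra.lmul ℂ 𝔄 H)).subset fun z hz => ?_
  rw [spectrum.mem_iff] at hz ⊢
  rwa [← (Algebra.lmul ℂ 𝔄).commutes, ← map_sub, Algebra.lmul_isUnit_iff]

theorem h54_cont (H : 𝔄) (f : ℝ → ℝ) : ContinuousOn f (spectrum ℝ H) :=
  (finite_spec H).continuousOn f

/-- the real spectrum as a `Finset` -/
noncomputable def spec (H : 𝔄) : Finset ℝ := (finite_spec H).toFinset

theorem h54_mem_spec {lam : ℝ} : lam ∈ spec H ↔ lam ∈ spectrum ℝ H :=
  Set.Finite.mem_toFinset _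

theorem sp_proj (H : 𝔄) (lam : ℝ) : IsStarProjection (sp H lam) := by
  refine ⟨?_, cfc_predicate _ H⟩
  unfold IsIdempotentElem sp
  rw [← cfc_mul _ _ H (h54_cont H _) (h54_cont H _)]
  refine cfc_congr fun x _ => ?_
  by_cases hx : x = lam <;> simp [hx]

theorem sp_of_notMem {lam : ℝ} (h : lam ∉ spec H) : sp H lam = 0 := by
  unfold sp
  rw [← cfc_const_zero ℝ H]
  refine cfc_congr fun x hx => ?_
  have : x ≠ lam := fun e => h (h54_mem_spec.2 (e ▸ hx))
  simp [this]

theorem sp_mul_sp (H : 𝔄) {lam mu : ℝ} (h : lam ≠ mu) : sp H lam * sp H mu = 0 := by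
  unfold sp
  rw [← cfc_mul _ _ H (h54_cont H _) (h54_cont H _), ← cfc_const_zero ℝ H]
  refine cfc_congr fun x _ => ?_
  by_cases hx : x = lam
  · simp [hx, h]
  · simp [hx]

theorem sum_sp (hH : IsSelfAdjoint H) : ∑ lam ∈ spec H, sp H lam = 1 := by
  unfold sp
  rw [← cfc_sum _ H _ fun _ _ => h54_cont H _, ← cfc_const_one ℝ H]
  refine cfc_congr fun x hx => ?_
  simp [Finset.sum_apply, h54_mem_spec.2 hx]

theorem mul_sp (hH : IsSelfAdjoint H) (lam : ℝ) : H * sp H lam = (lam : ℂ) • sp H lam := by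
  have h1 : H * sp H lam = cfc (fun x : ℝ => x * if x = lam then (1 : ℝ) else 0) H := by
    rw [cfc_mul _ _ H (h54_cont H _) (h54_cont H _), cfc_id' ℝ H]
    rfl
  rw [h1, Complex.coe_smul]
  unfold sp
  rw [← cfc_const_mul lam _ H (h54_cont H _)]
  refine cfc_congr fun x _ => ?_
  by_cases hx : x = lam <;> simp [hx]

theorem sp_mul (hH : IsSelfAdjoint H) (lam : ℝ) : sp H lam * H = (lam : ℂ) • sp H lam := by
  rw [← mul_sp hH]
  exact ((Commute.refl H).cfc_real _).eq

theorem commute_sp (hH : IsSelfAdjoint H) (h : Commute B H) (lam : ℝ) : Commute B (sp H lam) := by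
  have _ := hH
  exact (h.symm.cfc_real _).symm

omit [FiniteDimensional ℂ 𝔄] in
theorem h54_ev_smul_one (z : ℂ) (t : ℝ) : ev (z • (1 : 𝔄)) t = exp ((t : ℂ) * I * z) • (1 : 𝔄) := by
  unfold ev
  rw [smul_smul, ← Algebra.algebraMap_eq_smul_one, ← NormedSpace.algebraMap_exp_comm,
    Algebra.algebraMap_eq_smul_one, Complex.exp_eq_exp_ℂ]

theorem ev_mul_sp (hH : IsSelfAdjoint H) (t lam : ℝ) :
    ev H t * sp H lam = exp ((t : ℂ) * I * lam) • sp H lam := by
  have h : sp H lam * ((lam : ℂ) • (1 : 𝔄)) = H * sp H lam := by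
    rw [mul_sp hH, mul_smul_comm, mul_one]
  rw [← ev_intertwine h, h54_ev_smul_one, mul_smul_comm, mul_one]

theorem sp_mul_ev (hH : IsSelfAdjoint H) (t lam : ℝ) :
    sp H lam * ev H t = exp ((t : ℂ) * I * lam) • sp H lam := by
  have h : sp H lam * H = ((lam : ℂ) • (1 : 𝔄)) * sp H lam := by
    rw [sp_mul hH, smul_mul_assoc, one_mul]
  rw [ev_intertwine h, h54_ev_smul_one, smul_mul_assoc, one_mul]

/-- two elements with the same blocks are equal -/
theorem ext_sp (hH : IsSelfAdjoint H) (hK : IsSelfAdjoint K)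
    (h : ∀ lam mu, sp H lam * A * sp K mu = sp H lam * B * sp K mu) : A = B := by
  have key : ∀ X : 𝔄, X = ∑ lam ∈ spec H, ∑ mu ∈ spec K, sp H lam * X * sp K mu := by
    intro X
    simp_rw [← Finset.mul_sum, sum_sp hK, mul_one, ← Finset.sum_mul, sum_sp hH, one_mul]
  rw [key A, key B]
  simp_rw [h]

theorem a2_comm (hH : IsSelfAdjoint H) (lam : ℝ) : sp H lam * H = H * sp H lam :=
  (sp_mul hH lam).trans (mul_sp hH lam).symm

theorem a2_ev_zero (t : ℝ) : ev (0 : 𝔄) t = 1 := by
  show NormedSpace.exp (((t : ℂ) * I) • (0 : 𝔄)) = 1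
  rw [smul_zero, NormedSpace.exp_zero]

theorem a2_block (hH : IsSelfAdjoint H) (hK : IsSelfAdjoint K) (A : 𝔄) (lam mu : ℝ) :
    sp H lam * (H * A - A * K) * sp K mu = ((lam - mu : ℝ) : ℂ) • (sp H lam * A * sp K mu) := by
  have e : sp H lam * (H * A - A * K) * sp K mu =
      (sp H lam * H) * A * sp K mu - sp H lam * A * (K * sp K mu) := by
    simp only [mul_sub, sub_mul, mul_assoc]
  rw [e, sp_mul hH, mul_sp hK, smul_mul_assoc, smul_mul_assoc, mul_smul_comm, ← sub_smul]
  push_cast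
  rfl

/-- MASTER FORMULA -/
theorem sp_filt2_sp (hw : Integrable w) (hH : IsSelfAdjoint H) (hK : IsSelfAdjoint K) (A : 𝔄)
    (lam mu : ℝ) :
    sp H lam * filt2 w H K A * sp K mu = ft w (lam - mu) • (sp H lam * A * sp K mu) := by
  rw [mul_filt2 hw hH hK (a2_comm hH lam), filt2_mul hw hH hK (a2_comm hK mu).symm]
  show ∫ t : ℝ, w t • (ev H t * (sp H lam * A * sp K mu) * ev K (-t)) =
    (∫ t : ℝ, w t * exp ((t : ℂ) * I * ((lam - mu : ℝ) : ℂ))) • (sp H lam * A * sp K mu)
  rw [← integral_smul_const]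
  refine integral_congr_ae (Filter.Eventually.of_forall fun t => ?_)
  have e : ev H t * (sp H lam * A * sp K mu) * ev K (-t) =
      (ev H t * sp H lam) * A * (sp K mu * ev K (-t)) := by simp only [mul_assoc]
  simp only
  rw [e, ev_mul_sp hH, sp_mul_ev hK, smul_mul_assoc, smul_mul_assoc, mul_smul_comm, smul_smul,
    smul_smul, mul_assoc (w t), ← Complex.exp_add]
  congr 3
  push_cast
  ring

theorem sp_fcal (hw : Integrable w) (hH : IsSelfAdjoint H) (lam : ℝ) :
    sp H lam * fcal w H = ft w lam • sp H lam := by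
  rw [fcal_eq_filt2, mul_filt2 hw hH (IsSelfAdjoint.zero 𝔄) (a2_comm hH lam)]
  show ∫ t : ℝ, w t • (ev H t * (sp H lam * 1) * ev 0 (-t)) =
    (∫ t : ℝ, w t * exp ((t : ℂ) * I * (lam : ℂ))) • sp H lam
  rw [← integral_smul_const]
  refine integral_congr_ae (Filter.Eventually.of_forall fun t => ?_)
  simp only
  rw [a2_ev_zero, mul_one, mul_one, ev_mul_sp hH, smul_smul]

theorem fcal_eq_sum (hw : Integrable w) (hH : IsSelfAdjoint H) :
    fcal w H = ∑ lam ∈ spec H, ft w lam • sp H lam := by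
  calc fcal w H = (∑ lam ∈ spec H, sp H lam) * fcal w H := by rw [sum_sp hH, one_mul]
    _ = ∑ lam ∈ spec H, ft w lam • sp H lam := by
      rw [Finset.sum_mul]
      exact Finset.sum_congr rfl fun lam _ => sp_fcal hw hH lam

theorem fcal_eq_cfc (hw : Integrable w) (hH : IsSelfAdjoint H) {f : ℝ → ℝ}
    (h : ∀ x ∈ spectrum ℝ H, ft w x = f x) : fcal w H = cfc f H := by
  have key : ∀ lam : ℝ, sp H lam * cfc f H = f lam • sp H lam := by
    intro lam
    show cfc (fun x : ℝ => if x = lam then (1 : ℝ) else 0) H * cfc f H =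
      f lam • cfc (fun x : ℝ => if x = lam then (1 : ℝ) else 0) H
    rw [← cfc_mul _ _ H ((finite_spec H).continuousOn _) ((finite_spec H).continuousOn _),
      ← cfc_smul (f lam) _ H ((finite_spec H).continuousOn _)]
    congr 1
    funext x
    by_cases hx : x = lam <;> simp [hx]
  rw [fcal_eq_sum hw hH]
  calc ∑ lam ∈ spec H, ft w lam • sp H lam = ∑ lam ∈ spec H, sp H lam * cfc f H := by
        refine Finset.sum_congr rfl fun lam hl => ?_
        rw [key, h lam ((finite_spec H).mem_toFinset.1 hl), Complex.coe_smul]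
    _ = cfc f H := by rw [← Finset.sum_mul, sum_sp hH, one_mul]

theorem a2_rhs {γ : ℝ} (h : IsFilt γ w W) (hH : IsSelfAdjoint H) (hK : IsSelfAdjoint K)
    (A : 𝔄) (lam mu : ℝ) : sp H lam * (I • (A - filt2 w H K A)) * sp K mu =
      (I * (1 - ft w (lam - mu))) • (sp H lam * A * sp K mu) := by
  rw [mul_smul_comm, smul_mul_assoc, mul_sub, sub_mul, sp_filt2_sp h.int_w hH hK, mul_smul,
    sub_smul, one_smul]

/-- Liouvillian inverse (no gap needed) -/
theorem comm_filt2 {γ : ℝ} (h : IsFilt γ w W) (hH : IsSelfAdjoint H) (hK : IsSelfAdjoint K)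
    (A : 𝔄) : H * filt2 W H K A - filt2 W H K A * K = I • (A - filt2 w H K A) := by
  refine ext_sp hH hK fun lam mu => ?_
  rw [a2_block hH hK, sp_filt2_sp h.int_W hH hK, smul_smul, h.inv, a2_rhs h hH hK]

theorem filt2_comm {γ : ℝ} (h : IsFilt γ w W) (hH : IsSelfAdjoint H) (hK : IsSelfAdjoint K)
    (A : 𝔄) : filt2 W H K (H * A - A * K) = I • (A - filt2 w H K A) := by
  refine ext_sp hH hK fun lam mu => ?_
  rw [sp_filt2_sp h.int_W hH hK, a2_block hH hK, smul_smul, mul_comm, h.inv, a2_rhs h hH hK]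

theorem mul_fcal_inv {γ : ℝ} (h : IsFilt γ w W) (hH : IsSelfAdjoint H) :
    H * fcal W H = I • (1 - fcal w H) := by
  have := comm_filt2 h hH (IsSelfAdjoint.zero 𝔄) 1
  rw [mul_zero, sub_zero] at this
  rw [fcal_eq_filt2, fcal_eq_filt2]
  exact this

/-- separated spectral supports: the filter only sees the values of `ft w` on `S - T` -/
theorem filt2_supp (hw : Integrable w) (hH : IsSelfAdjoint H) (hK : IsSelfAdjoint K) {S T : Set ℝ}
    (hp : SuppIn H (star p) S) (hq : SuppIn K q T) {z : ℂ}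
    (h : ∀ x ∈ S, ∀ y ∈ T, ft w (x - y) = z) (A : 𝔄) :
    p * filt2 w H K A * q = z • (p * A * q) := by
  have e : p * (filt2 w H K A - z • A) * q = 0 := by
    calc p * (filt2 w H K A - z • A) * q
        = p * ((∑ lam ∈ spec H, sp H lam) * (filt2 w H K A - z • A) *
            (∑ mu ∈ spec K, sp K mu)) * q := by
          rw [sum_sp hH, sum_sp hK, one_mul, mul_one]
      _ = ∑ lam ∈ spec H, ∑ mu ∈ spec K,
            p * (sp H lam * (filt2 w H K A - z • A) * sp K mu) * q := by
          simp only [Finset.sum_mul, Finset.mul_sum]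
          rw [Finset.sum_comm]
      _ = 0 := by
          refine Finset.sum_eq_zero fun lam _ => Finset.sum_eq_zero fun mu _ => ?_
          by_cases h1 : lam ∈ S
          · by_cases h2 : mu ∈ T
            · rw [mul_sub, sub_mul, sp_filt2_sp hw hH hK, h lam h1 mu h2, mul_smul_comm,
                smul_mul_assoc, sub_self, mul_zero, zero_mul]
            · have k := hq mu h2
              rw [mul_assoc, mul_assoc, k, mul_zero, mul_zero]
          · have k := congrArg star (hp lam h1)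
            rw [star_mul, star_star, (sp_proj H lam).isSelfAdjoint.star_eq, star_zero] at k
            rw [← mul_assoc, ← mul_assoc, k, zero_mul, zero_mul, zero_mul]
  rw [mul_sub, sub_mul, sub_eq_zero, mul_smul_comm, smul_mul_assoc] at e
  exact e

/-! ### part B: gaps -/

variable [PartialOrder 𝔄] [StarOrderedRing 𝔄] {a b γ E : ℝ}

theorem b1_nonneg (hH : IsSelfAdjoint H) (hp : IsStarProjection p) (hc : Commute p H) (lam : ℝ) :
    0 ≤ sp H lam * p :=
  ((sp_proj H lam).mul hp (commute_sp hH hc lam).symm).nonneg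

omit [PartialOrder 𝔄] [StarOrderedRing 𝔄] in
theorem b1_conj (hH : IsSelfAdjoint H) (hc : Commute p H) (lam : ℝ) :
    sp H lam * p * sp H lam = sp H lam * p := by
  rw [mul_assoc, (commute_sp hH hc lam).eq, ← mul_assoc, (sp_proj H lam).isIdempotentElem.eq]

omit [PartialOrder 𝔄] [StarOrderedRing 𝔄] [FiniteDimensional ℂ 𝔄] in
theorem b1_php (hp : IsStarProjection p) (hc : Commute p H) : p * H * p = H * p := by
  rw [hc.eq, mul_assoc, hp.isIdempotentElem.eq]

omit [PartialOrder 𝔄] [StarOrderedRing 𝔄] in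
theorem b1_conjH (hH : IsSelfAdjoint H) (hp : IsStarProjection p) (hc : Commute p H) (lam : ℝ) :
    sp H lam * (p * H * p) * sp H lam = lam • (sp H lam * p) := by
  rw [b1_php hp hc, ← mul_assoc, sp_mul hH, smul_mul_assoc, smul_mul_assoc, b1_conj hH hc,
    Complex.coe_smul]

omit [PartialOrder 𝔄] [StarOrderedRing 𝔄] in
theorem b1_conjS (hH : IsSelfAdjoint H) (hc : Commute p H) (lam a : ℝ) :
    sp H lam * (a • p) * sp H lam = a • (sp H lam * p) := by
  rw [mul_smul_comm, smul_mul_assoc, b1_conj hH hc]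

omit [FiniteDimensional ℂ 𝔄] in
theorem b1_zero {r : 𝔄} (hr : 0 ≤ r) (hab : a < b) (h : b • r ≤ a • r) : r = 0 := by
  have h1 : (b - a) • r ≤ 0 := by rw [sub_smul]; exact sub_nonpos.2 h
  have h2 : (b - a)⁻¹ • ((b - a) • r) ≤ (b - a)⁻¹ • (0 : 𝔄) :=
    smul_le_smul_of_nonneg_left h1 (inv_nonneg.2 (sub_pos.2 hab).le)
  rw [smul_smul, inv_mul_cancel₀ (sub_pos.2 hab).ne', one_smul, smul_zero] at h2
  exact le_antisymm h2 hr

omit [PartialOrder 𝔄] [StarOrderedRing 𝔄] in
theorem b1_sumH (hH : IsSelfAdjoint H) (hp : IsStarProjection p) (hc : Commute p H) :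
    p * H * p = ∑ lam ∈ spec H, lam • (sp H lam * p) := by
  rw [b1_php hp hc]
  calc H * p = H * (∑ lam ∈ spec H, sp H lam) * p := by rw [sum_sp hH, mul_one]
    _ = _ := by
      rw [Finset.mul_sum, Finset.sum_mul]
      refine Finset.sum_congr rfl fun lam _ => ?_
      rw [mul_sp hH, smul_mul_assoc, Complex.coe_smul]

omit [PartialOrder 𝔄] [StarOrderedRing 𝔄] in
theorem b1_sumS (hH : IsSelfAdjoint H) (p : 𝔄) (a : ℝ) :
    a • p = ∑ lam ∈ spec H, a • (sp H lam * p) := by
  rw [← Finset.smul_sum, ← Finset.sum_mul, sum_sp hH, one_mul]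

theorem suppIn_Iic (hH : IsSelfAdjoint H) (hp : IsStarProjection p) (hc : Commute p H)
    (h : p * H * p ≤ a • p) : SuppIn H p (Set.Iic a) := by
  intro lam hl
  have h1 := (sp_proj H lam).isSelfAdjoint.conjugate_le_conjugate h
  rw [b1_conjH hH hp hc, b1_conjS hH hc] at h1
  exact b1_zero (b1_nonneg hH hp hc lam) (not_le.1 hl) h1

theorem suppIn_Ici (hH : IsSelfAdjoint H) (hp : IsStarProjection p) (hc : Commute p H)
    (h : b • p ≤ p * H * p) : SuppIn H p (Set.Ici b) := by
  intro lam hl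
  have h1 := (sp_proj H lam).isSelfAdjoint.conjugate_le_conjugate h
  rw [b1_conjH hH hp hc, b1_conjS hH hc] at h1
  exact b1_zero (b1_nonneg hH hp hc lam) (not_le.1 hl) h1

theorem le_of_suppIn_Iic (hH : IsSelfAdjoint H) (hp : IsStarProjection p) (hc : Commute p H)
    (h : SuppIn H p (Set.Iic a)) : p * H * p ≤ a • p := by
  rw [b1_sumH hH hp hc, b1_sumS hH p a]
  refine Finset.sum_le_sum fun lam _ => ?_
  by_cases hl : lam ≤ a
  · exact smul_le_smul_of_nonneg_right hl (b1_nonneg hH hp hc lam)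
  · rw [h lam hl, smul_zero, smul_zero]

theorem ge_of_suppIn_Ici (hH : IsSelfAdjoint H) (hp : IsStarProjection p) (hc : Commute p H)
    (h : SuppIn H p (Set.Ici b)) : b • p ≤ p * H * p := by
  rw [b1_sumH hH hp hc, b1_sumS hH p b]
  refine Finset.sum_le_sum fun lam _ => ?_
  by_cases hl : b ≤ lam
  · exact smul_le_smul_of_nonneg_right hl (b1_nonneg hH hp hc lam)
  · rw [h lam hl, smul_zero, smul_zero]

theorem suppIn_eig (hH : IsSelfAdjoint H) (h : H * p = (E : ℂ) • p) : SuppIn H p {E} := by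
  intro lam hl
  have h1 : sp H lam * (H * p) = (lam : ℂ) • (sp H lam * p) := by
    rw [← mul_assoc, sp_mul hH, smul_mul_assoc]
  rw [h, mul_smul_comm, ← sub_eq_zero, ← sub_smul, smul_eq_zero] at h1
  refine h1.resolve_left fun h2 => hl ?_
  exact (Complex.ofReal_injective (sub_eq_zero.1 h2)).symm

theorem Gap.proj_compl (h : Gap Pi H p a b) : IsStarProjection (Pi - p) := by
  exact h.proj.sub_of_mul_eq_right h.projPi h.le

theorem Gap.mono (h : Gap Pi H p a b) {a' b' : ℝ} (ha : a ≤ a') (hb : b' ≤ b) :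
    Gap Pi H p a' b' := by
  exact { h with
    low := h.low.trans (smul_le_smul_of_nonneg_right ha h.proj.nonneg)
    high := (smul_le_smul_of_nonneg_right hb h.proj_compl.nonneg).trans h.high }

theorem Gap.conj (h : Gap Pi H p a b) {U : 𝔄} (hU : U ∈ unitary 𝔄) (hc : Commute Pi U) :
    Gap Pi (star U * H * U) (star U * p * U) a b := by
  have h1 : star U * U = 1 := hU.1
  have h2 : U * star U = 1 := hU.2
  have hm : ∀ x y : 𝔄, star U * x * U * (star U * y * U) = star U * (x * y) * U := fun x y => by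
    calc star U * x * U * (star U * y * U) = star U * x * (U * star U) * y * U := by
          simp only [mul_assoc]
      _ = _ := by rw [h2, mul_one]; simp only [mul_assoc]
  have hPi : star U * Pi * U = Pi := by rw [mul_assoc, hc.eq, ← mul_assoc, h1, one_mul]
  have hs : Pi - star U * p * U = star U * (Pi - p) * U := by rw [mul_sub, sub_mul, hPi]
  refine ⟨h.sa.conjugate' U, h.projPi, ⟨?_, h.proj.isSelfAdjoint.conjugate' U⟩, ?_, ?_, ?_, ?_, ?_⟩
  · show _ * _ = _
    rw [hm, h.proj.isIdempotentElem.eq]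
  · conv_lhs => rw [← hPi]
    rw [hm, h.le]
  · show _ * _ = _ * _
    calc Pi * (star U * H * U) = star U * Pi * U * (star U * H * U) := by rw [hPi]
      _ = star U * H * U * (star U * Pi * U) := by rw [hm, hm, h.cPi.eq]
      _ = _ := by rw [hPi]
  · show _ * _ = _ * _
    rw [hm, hm, h.cp.eq]
  · have := star_left_conjugate_le_conjugate h.low U
    rwa [mul_smul_comm, smul_mul_assoc, ← hm, ← hm] at this
  · have := star_left_conjugate_le_conjugate h.high U
    rwa [mul_smul_comm, smul_mul_assoc, ← hm, ← hm, ← hs] at this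

theorem b1_half {a' b' : ℝ} (h : Gap Pi H p a b) (h' : Gap Pi H q a' b') (h1 : a < b') :
    p * q = p := by
  have s1 := suppIn_Iic h.sa h.proj h.cp h.low
  have s2 := suppIn_Ici h.sa h'.proj_compl (h'.cPi.sub_left h'.cp) h'.high
  have e : p * (Pi - q) = 0 := by
    calc p * (Pi - q) = p * (∑ lam ∈ spec H, sp H lam) * (Pi - q) := by rw [sum_sp h.sa, mul_one]
      _ = 0 := by
        rw [Finset.mul_sum, Finset.sum_mul]
        refine Finset.sum_eq_zero fun lam _ => ?_
        by_cases hl : lam ≤ a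
        · rw [mul_assoc, s2 lam (not_le.2 (hl.trans_lt h1)), mul_zero]
        · rw [(commute_sp h.sa h.cp lam).eq, s1 lam hl, zero_mul]
  have e2 : p * Pi = p := by
    have := congrArg star h.le
    rwa [star_mul, h.proj.isSelfAdjoint.star_eq, h.projPi.isSelfAdjoint.star_eq] at this
  rw [mul_sub, e2, sub_eq_zero] at e
  exact e.symm

/-- the projection below a gap is unique -/
theorem Gap.unique (h : Gap Pi H p a b) {a' b' : ℝ} (h' : Gap Pi H q a' b') (h1 : a < b')
    (h2 : a' < b) : p = q := by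
  have e1 := congrArg star (b1_half h h' h1)
  rw [star_mul, h.proj.isSelfAdjoint.star_eq, h'.proj.isSelfAdjoint.star_eq] at e1
  rw [← e1, b1_half h' h h2]

theorem Gap.filt2_high_low {a' b' : ℝ} (hf : IsFilt γ w W) (h : Gap Pi H p a b)
    (h' : Gap Pi K q a' b') (hγ : a' + γ ≤ b) (A : 𝔄) :
    (Pi - p) * filt2 w H K A * q = 0 := by
  have hp : SuppIn H (star (Pi - p)) (Set.Ici b) := by
    rw [h.proj_compl.isSelfAdjoint.star_eq]
    exact suppIn_Ici h.sa h.proj_compl (h.cPi.sub_left h.cp) h.high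
  have hq := suppIn_Iic h'.sa h'.proj h'.cp h'.low
  rw [filt2_supp hf.int_w h.sa h'.sa hp hq (z := 0) (fun x hx y hy => hf.zero _ (by
    have h1 : b ≤ x := hx
    have h2 : y ≤ a' := hy
    exact le_trans (by linarith) (le_abs_self _))) A, zero_smul]

theorem Gap.filt2_low_high {a' b' : ℝ} (hf : IsFilt γ w W) (h : Gap Pi H p a b)
    (h' : Gap Pi K q a' b') (hγ : a + γ ≤ b') (A : 𝔄) :
    p * filt2 w H K A * (Pi - q) = 0 := by
  have hp : SuppIn H (star p) (Set.Iic a) := by
    rw [h.proj.isSelfAdjoint.star_eq]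
    exact suppIn_Iic h.sa h.proj h.cp h.low
  have hq := suppIn_Ici h'.sa h'.proj_compl (h'.cPi.sub_left h'.cp) h'.high
  rw [filt2_supp hf.int_w h.sa h'.sa hp hq (z := 0) (fun x hx y hy => hf.zero _ (by
    have h1 : x ≤ a := hx
    have h2 : b' ≤ y := hy
    exact le_trans (by linarith) (neg_le_abs _))) A, zero_smul]

/-- the filtered operator commutes with the projection below the gap -/
theorem Gap.commute_filt (hf : IsFilt γ w W) (h : Gap Pi H p a b) (hγ : a + γ ≤ b)
    (hA : Commute Pi A) : Commute p (filt w H A) := by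
  have c := Filt.commute_filt hf.int_w h.sa h.cPi hA
  have e1 := h.filt2_high_low hf h hγ A
  have e2 := h.filt2_low_high hf h hγ A
  rw [← filt_eq_filt2] at e1 e2
  have l1 : p * Pi = p := by
    have := congrArg star h.le
    rwa [star_mul, h.proj.isSelfAdjoint.star_eq, h.projPi.isSelfAdjoint.star_eq] at this
  have f1 : Pi * filt w H A * p = filt w H A * p := by rw [c.eq, mul_assoc, h.le]
  have f2 : p * filt w H A * Pi = p * filt w H A := by rw [mul_assoc, ← c.eq, ← mul_assoc, l1]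
  rw [sub_mul, sub_mul, f1, sub_eq_zero] at e1
  rw [mul_sub, f2, sub_eq_zero] at e2
  exact e2.trans e1.symm

theorem filt_eig (hw : Integrable w) (hH : IsSelfAdjoint H) (hp : IsSelfAdjoint p)
    (h : H * p = (E : ℂ) • p) (A : 𝔄) : p * filt w H A * p = ft w 0 • (p * A * p) := by
  have hs := suppIn_eig hH h
  rw [filt_eq_filt2]
  refine filt2_supp hw hH hH (S := {E}) (T := {E}) (by rwa [hp.star_eq]) hs ?_ A
  rintro x rfl y rfl
  rw [sub_self]

/-- an isolated lowest eigenprojection as an integral -/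
theorem Gap.eq_fcal (hf : IsFilt γ w W) (h : Gap Pi H p E b) (he : H * p = (E : ℂ) • p)
    (hγ : E + γ ≤ b) : fcal w (H - E • (1 : 𝔄)) * Pi = p := by
  have hw' : Integrable fun t : ℝ => w t * exp (-((t : ℂ) * I * E)) := by
    refine hf.int_w.mul_bdd (c := 1) (by fun_prop) (Filter.Eventually.of_forall fun t => ?_)
    rw [show -((t : ℂ) * I * E) = ((-(t * E) : ℝ) : ℂ) * I by push_cast; ring, norm_exp_ofReal_mul_I]
  have e1 : fcal w (H - E • (1 : 𝔄)) = fcal (fun t : ℝ => w t * exp (-((t : ℂ) * I * E))) H := by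
    unfold fcal
    simp only [ev_sub_smul, smul_smul]
  have e2 : ∀ lam : ℝ, ft (fun t : ℝ => w t * exp (-((t : ℂ) * I * E))) lam = ft w (lam - E) := by
    intro lam
    unfold ft
    congr 1
    funext t
    rw [mul_assoc, ← Complex.exp_add]
    congr 2
    push_cast; ring
  have s1 := suppIn_eig h.sa he
  have s2 := suppIn_Ici h.sa h.proj_compl (h.cPi.sub_left h.cp) h.high
  rw [e1, fcal_eq_sum hw' h.sa, Finset.sum_mul]
  conv_rhs => rw [← one_mul p, ← sum_sp h.sa, Finset.sum_mul]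
  refine Finset.sum_congr rfl fun lam _ => ?_
  have e3 : sp H lam * Pi = sp H lam * p + sp H lam * (Pi - p) := by
    rw [← mul_add, add_sub_cancel]
  rw [e2, smul_mul_assoc, e3, smul_add]
  have t1 : ft w (lam - E) • (sp H lam * p) = sp H lam * p := by
    by_cases hl : lam = E
    · rw [hl, sub_self, hf.one 0 (by rw [abs_zero]; linarith [hf.pos]), one_smul]
    · rw [s1 lam hl, smul_zero]
  have t2 : ft w (lam - E) • (sp H lam * (Pi - p)) = 0 := by
    by_cases hl : b ≤ lam
    · rw [hf.zero _ (le_trans (by linarith) (le_abs_self _)), zero_smul]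
    · rw [s2 lam hl, smul_zero]
  rw [t1, t2, add_zero]

/-- `H² ≥ γ H`, `H ≥ 0`: the kernel projection is `fcal w H` and it lies below a gap -/
theorem gap_of_sq (hf : IsFilt γ w W) (h0 : 0 ≤ H) (h : γ • H ≤ H * H) :
    Gap 1 H (fcal w H) 0 γ ∧ H * fcal w H = 0 := by
  have hH : IsSelfAdjoint H := IsSelfAdjoint.of_nonneg h0
  have pos : ∀ (r : ℝ) (P : 𝔄), IsStarProjection P → 0 ≤ r • P → r < 0 → P = 0 := by
    intro r P hP h1 h2
    have h3 : 0 ≤ (-r)⁻¹ • (r • P) := smul_nonneg (inv_nonneg.2 (by linarith)) h1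
    rw [smul_smul, show (-r)⁻¹ * r = -1 by field_simp [h2.ne], neg_smul, one_smul] at h3
    exact le_antisymm (neg_nonneg.1 h3) hP.nonneg
  have c1 : ∀ lam : ℝ, sp H lam * H * sp H lam = lam • sp H lam := fun lam => by
    rw [sp_mul hH, smul_mul_assoc, (sp_proj H lam).isIdempotentElem.eq, Complex.coe_smul]
  have c2 : ∀ lam : ℝ, sp H lam * (H * H) * sp H lam = (lam * lam) • sp H lam := fun lam => by
    rw [← mul_assoc, mul_assoc (sp H lam * H), sp_mul hH, mul_sp hH, smul_mul_smul_comm,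
      (sp_proj H lam).isIdempotentElem.eq, ← Complex.ofReal_mul, Complex.coe_smul]
  have key : ∀ lam : ℝ, lam ≠ 0 → lam < γ → sp H lam = 0 := by
    intro lam hl hγ
    have sa := (sp_proj H lam).isSelfAdjoint
    rcases lt_or_gt_of_ne hl with hneg | hpos
    · refine pos lam _ (sp_proj H lam) ?_ hneg
      have := sa.conjugate_le_conjugate h0
      rwa [mul_zero, zero_mul, c1] at this
    · refine pos (lam * lam - γ * lam) _ (sp_proj H lam) ?_ (by nlinarith)
      have := sa.conjugate_le_conjugate h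
      rw [c2, mul_smul_comm, smul_mul_assoc, c1, smul_smul] at this
      rw [sub_smul]
      exact sub_nonneg.2 this
  have e : fcal w H = sp H 0 := by
    rw [fcal_eq_sum hf.int_w hH, Finset.sum_eq_single 0]
    · rw [hf.one 0 (by rw [abs_zero]; linarith [hf.pos]), one_smul]
    · intro lam _ hl
      by_cases hγ : lam < γ
      · rw [key lam hl hγ, smul_zero]
      · rw [hf.zero _ (le_trans (not_lt.1 hγ) (le_abs_self _)), zero_smul]
    · intro h0'
      rw [sp_of_notMem h0', smul_zero]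
  have m0 : H * sp H 0 = 0 := by rw [mul_sp hH]; simp
  have cp : Commute (sp H 0) H := (commute_sp hH (Commute.refl H) 0).symm
  rw [e]
  refine ⟨⟨hH, IsStarProjection.one _, sp_proj H 0, one_mul _, Commute.one_left _, cp,
    (c1 0).le, ?_⟩, m0⟩
  refine ge_of_suppIn_Ici hH (sp_proj H 0).one_sub ((Commute.one_left H).sub_left cp) ?_
  intro lam hl
  by_cases h1 : lam = 0
  · rw [h1, mul_sub, mul_one, (sp_proj H 0).isIdempotentElem.eq, sub_self]
  · rw [key lam h1 (not_le.1 hl), zero_mul]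

theorem sq_of_gap (h : Gap 1 H p 0 γ) (h0 : H * p = 0) (hγ : 0 ≤ γ) : 0 ≤ H ∧ γ • H ≤ H * H := by
  have h1 : p * H = 0 := h.cp.eq.trans h0
  have e1 : H * (1 - p) = H := by rw [mul_sub, mul_one, h0, sub_zero]
  have e2 : (1 - p) * H * (1 - p) = H := by rw [sub_mul, one_mul, h1, sub_zero, e1]
  have hi := h.high
  rw [e2] at hi
  have n0 : 0 ≤ H := (smul_nonneg hγ h.proj.one_sub.nonneg).trans hi
  refine ⟨n0, ?_⟩
  have c : Commute H (H - γ • (1 - p)) :=
    (Commute.refl H).sub_right (((Commute.one_right H).sub_right h.cp.symm).smul_right γ)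
  have := Commute.mul_nonneg n0 (sub_nonneg.2 hi) c
  rwa [mul_sub, mul_smul_comm, e1, sub_nonneg] at this

omit [FiniteDimensional ℂ 𝔄] [StarOrderedRing 𝔄] in
theorem Gap.h3_le' (h : Gap Pi H p a b) : p * Pi = p := by
  have := congrArg star h.le
  rwa [star_mul, h.proj.isSelfAdjoint.star_eq, h.projPi.isSelfAdjoint.star_eq] at this

omit [PartialOrder 𝔄] [StarOrderedRing 𝔄] in
theorem h3_norm_mul_le (hf : IsFilt γ w W) (hH : IsSelfAdjoint H) (hK : IsSelfAdjoint K)
    (hp : IsStarProjection p) (hq : IsStarProjection q) (cp : Commute p H) (cq : Commute q K)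
    (h0 : p * filt2 w H K 1 * q = 0) : ‖p * q‖ ≤ (∫ t, ‖W t‖) * ‖K - H‖ := by
  have h1 : filt2 w H K (p * q) = 0 := by
    rw [mul_filt2 hf.int_w hH hK cp.eq, filt2_mul hf.int_w hH hK cq.symm.eq, mul_one] at h0
    exact h0
  have h2 := filt2_comm hf hH hK (p * q)
  rw [h1, sub_zero] at h2
  have h3 : H * (p * q) - p * q * K = -(p * (K - H) * q) := by
    rw [← mul_assoc, ← cp.eq, mul_assoc p q K, cq.eq]
    noncomm_ring
  have h4 : ‖p * q‖ = ‖filt2 W H K (H * (p * q) - p * q * K)‖ := by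
    rw [h2, norm_smul, Complex.norm_I, one_mul]
  rw [h4]
  refine (norm_filt2_le hf.int_W hH hK _).trans
    (mul_le_mul_of_nonneg_left ?_ (integral_nonneg fun t => norm_nonneg _))
  rw [h3, norm_neg]
  calc ‖p * (K - H) * q‖ ≤ ‖p‖ * ‖K - H‖ * ‖q‖ := norm_mul₃_le
    _ ≤ 1 * ‖K - H‖ * 1 := by
      gcongr
      · exact hp.norm_le _
      · exact hq.norm_le _
    _ = ‖K - H‖ := by ring

/-- perturbation of a gap: the projections are close -/
theorem Gap.norm_sub_le {a' b' : ℝ} (hf : IsFilt γ w W) (h : Gap Pi H p a b)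
    (h' : Gap Pi K q a' b') (h1 : a' + γ ≤ b) (h2 : a + γ ≤ b') :
    ‖q - p‖ ≤ 2 * (∫ t, ‖W t‖) * ‖K - H‖ := by
  have e : q - p = (Pi - p) * q - p * (Pi - q) := by
    rw [sub_mul, mul_sub, h'.le, h.h3_le']
    abel
  have a1 := h3_norm_mul_le hf h.sa h'.sa h.proj_compl h'.proj (h.cPi.sub_left h.cp) h'.cp
    (Gap.filt2_high_low hf h h' h1 1)
  have a2 := h3_norm_mul_le hf h.sa h'.sa h.proj h'.proj_compl h.cp (h'.cPi.sub_left h'.cp)
    (Gap.filt2_low_high hf h h' h2 1)
  rw [e]
  have := _root_.norm_sub_le ((Pi - p) * q) (p * (Pi - q))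
  linarith

theorem Gap.h3_eig_zero (h : Gap Pi H p a b) {r : 𝔄} (hr : IsStarProjection r) (hP : Pi * r = r)
    {lam η : ℝ} (he : K * r = (lam : ℂ) • r) (hη : ‖K - H‖ ≤ η) (h1 : a + η < lam)
    (h2 : lam < b - η) : r = 0 := by
  have hc := h.proj_compl
  set δ := min (lam - a) (b - lam) with hδ
  have hηδ : η < δ := lt_min (by linarith) (by linarith)
  have hη0 : 0 ≤ η := (norm_nonneg _).trans hη
  have cP : Commute (Pi - p) H := h.cPi.sub_left h.cp
  have e1 : (Pi - p) * H * (Pi - p) = (Pi - p) * H := by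
    rw [mul_assoc, ← cP.eq, ← mul_assoc, hc.isIdempotentElem.eq]
  have e2 : p * H * p = p * H := by
    rw [mul_assoc, ← h.cp.eq, ← mul_assoc, h.proj.isIdempotentElem.eq]
  have i1 : δ • Pi ≤ (Pi - p - p) * H - lam • (Pi - p - p) := by
    have a1 := h.high
    have a2 := h.low
    rw [e1] at a1
    rw [e2] at a2
    have a3 : 0 ≤ (b - lam - δ) • (Pi - p) :=
      smul_nonneg (by have := min_le_right (lam - a) (b - lam); linarith) hc.nonneg
    have a4 : 0 ≤ (lam - a - δ) • p :=
      smul_nonneg (by have := min_le_left (lam - a) (b - lam); linarith) h.proj.nonneg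
    rw [← sub_nonneg] at a1 a2 ⊢
    have := add_nonneg (add_nonneg a1 a2) (add_nonneg a3 a4)
    convert this using 1
    rw [sub_mul (Pi - p) p H]
    module
  have i2 := star_left_conjugate_le_conjugate i1 r
  have e3 : star r * (δ • Pi) * r = δ • r := by
    rw [hr.isSelfAdjoint.star_eq, mul_smul_comm, smul_mul_assoc, mul_assoc, hP,
      hr.isIdempotentElem.eq]
  have e4 : star r * ((Pi - p - p) * H - lam • (Pi - p - p)) * r =
      -(r * (Pi - p - p) * (K - H) * r) := by
    rw [hr.isSelfAdjoint.star_eq, mul_assoc (r * (Pi - p - p)) (K - H) r, sub_mul K H r, he,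
      Complex.coe_smul]
    simp only [mul_sub (r * (Pi - p - p)), mul_smul_comm, neg_sub, mul_sub r ((Pi - p - p) * H),
      sub_mul (r * ((Pi - p - p) * H)), smul_mul_assoc, mul_assoc]
  rw [e3, e4] at i2
  have hδ0 : 0 ≤ δ := by linarith
  have i3 := CStarAlgebra.norm_le_norm_of_nonneg_of_le (smul_nonneg hδ0 hr.nonneg) i2
  have hs : ‖Pi - p - p‖ ≤ 1 := by
    have e5 : star (Pi - p - p) * (Pi - p - p) = Pi := by
      rw [star_sub, hc.isSelfAdjoint.star_eq, h.proj.isSelfAdjoint.star_eq]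
      simp only [mul_sub, sub_mul, h.le, h.h3_le', h.projPi.isIdempotentElem.eq,
        h.proj.isIdempotentElem.eq]
      abel
    have e6 := CStarRing.norm_star_mul_self (x := Pi - p - p)
    rw [e5] at e6
    have e7 := h.projPi.norm_le _
    nlinarith [norm_nonneg (Pi - p - p)]
  have i4 : ‖r * (Pi - p - p) * (K - H) * r‖ ≤ η * ‖r‖ := by
    calc ‖r * (Pi - p - p) * (K - H) * r‖ ≤ ‖r * (Pi - p - p) * (K - H)‖ * ‖r‖ := norm_mul_le _ _
      _ ≤ (‖r‖ * ‖Pi - p - p‖ * ‖K - H‖) * ‖r‖ := by gcongr; exact norm_mul₃_le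
      _ ≤ (1 * 1 * η) * ‖r‖ := by
        gcongr
        exact hr.norm_le _
      _ = η * ‖r‖ := by ring
  rw [norm_neg, norm_smul, Real.norm_of_nonneg hδ0] at i3
  have : ‖r‖ ≤ 0 := by nlinarith [norm_nonneg r]
  exact norm_le_zero_iff.1 this

/-- perturbation of a gap: existence -/
theorem Gap.perturb (h : Gap Pi H p a b) (hK : IsSelfAdjoint K) (hc : Commute Pi K) {η : ℝ}
    (hη : ‖K - H‖ ≤ η) (hab : a + η < b - η) : ∃ q, Gap Pi K q (a + η) (b - η) := by
  classical
  set S : 𝔄 := ∑ lam ∈ (spec K).filter (· ≤ a + η), sp K lam with hS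
  have s1 : ∀ lam, lam ≤ a + η → sp K lam * S = sp K lam := by
    intro lam hl
    by_cases hm : lam ∈ spec K
    · rw [hS, Finset.mul_sum, Finset.sum_eq_single lam (fun mu _ hne => sp_mul_sp K hne.symm)
        (fun hn => absurd (Finset.mem_filter.2 ⟨hm, hl⟩) hn)]
      exact (sp_proj K lam).isIdempotentElem.eq
    · rw [sp_of_notMem hm, zero_mul]
  have s2 : ∀ lam, a + η < lam → sp K lam * S = 0 := by
    intro lam hl
    rw [hS, Finset.mul_sum]
    refine Finset.sum_eq_zero fun mu hmu => sp_mul_sp K ?_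
    rintro rfl
    exact absurd (Finset.mem_filter.1 hmu).2 (not_le.2 hl)
  have pS : IsStarProjection S := by
    refine ⟨?_, ?_⟩
    · show S * S = S
      conv_lhs => arg 1; rw [hS]
      rw [Finset.sum_mul]
      exact Finset.sum_congr rfl fun mu hmu => s1 mu (Finset.mem_filter.1 hmu).2
    · exact isSelfAdjoint_sum _ fun mu _ => (sp_proj K mu).isSelfAdjoint
  have cPS : Commute Pi S := Commute.sum_right _ _ _ fun mu _ => commute_sp hK hc mu
  have cSK : Commute S K := (Commute.sum_right _ _ _ fun mu _ => commute_sp hK (Commute.refl K) mu).symm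
  have pq : IsStarProjection (Pi * S) := h.projPi.mul pS cPS
  have hle : Pi * (Pi * S) = Pi * S := by rw [← mul_assoc, h.projPi.isIdempotentElem.eq]
  have cq : Commute (Pi * S) K := hc.mul_left cSK
  have hle' : Pi * S * Pi = Pi * S := by rw [mul_assoc, ← cPS.eq, hle]
  refine ⟨Pi * S, hK, h.projPi, pq, hle, hc, cq, le_of_suppIn_Iic hK pq cq ?_,
    ge_of_suppIn_Ici hK (pq.sub_of_mul_eq_left h.projPi hle') (hc.sub_left cq) ?_⟩
  · intro lam hl
    rw [← mul_assoc, ← (commute_sp hK hc lam).eq, mul_assoc, s2 lam (not_le.1 hl), mul_zero]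
  · intro lam hl
    rw [mul_sub, ← mul_assoc, ← (commute_sp hK hc lam).eq]
    by_cases h1 : lam ≤ a + η
    · rw [mul_assoc, s1 lam h1, sub_self]
    · have h0 : Pi * sp K lam = 0 := by
        refine h.h3_eig_zero (h.projPi.mul (sp_proj K lam) (commute_sp hK hc lam)) ?_ ?_ hη
          (not_le.1 h1) (not_le.1 hl)
        · rw [← mul_assoc, h.projPi.isIdempotentElem.eq]
        · rw [← mul_assoc, ← hc.eq, mul_assoc, mul_sp hK, mul_smul_comm]
      rw [h0, zero_mul, sub_self]

end Crest.Agent.R340.Filt
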