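import Crest.Agent.R340.FgData

/-! Row 340: kernel checks of the certificate (four-body coefficients). -/

set_option autoImplicit false
set_option maxRecDepth 100000

namespace Crest.Agent.R340

theorem ck_deg4 : oscDeg 60 (E4 ++ negCL (toCL SCq c4I)) = true := by
  decide +kernel

theorem ck_osc4_0 : ((List.range' 0 4).all fun x => oscAcc 2 2 x (E4 ++ negCL (toCL SCq c4I)) 0) = true := by
  decide +kernel

theorem ck_osc4_4 : ((List.range' 4 4).all fun x => oscAcc 2 2 x (E4 ++ negCL (toCL SCq c4I)) 0) = true := by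
  decide +kernel

theorem ck_osc4_8 : ((List.range' 8 4).all fun x => oscAcc 2 2 x (E4 ++ negCL (toCL SCq c4I)) 0) = true := by
  decide +kernel

theorem ck_osc4_12 : ((List.range' 12 4).all fun x => oscAcc 2 2 x (E4 ++ negCL (toCL SCq c4I)) 0) = true := by
  decide +kernel

theorem ck_osc4_16 : ((List.range' 16 4).all fun x => oscAcc 2 2 x (E4 ++ negCL (toCL SCq c4I)) 0) = true := by
  decide +kernel

theorem ck_osc4_20 : ((List.range' 20 4).all fun x => oscAcc 2 2 x (E4 ++ negCL (toCL SCq c4I)) 0) = true := by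
  decide +kernel

theorem ck_osc4_24 : ((List.range' 24 4).all fun x => oscAcc 2 2 x (E4 ++ negCL (toCL SCq c4I)) 0) = true := by
  decide +kernel

theorem ck_osc4_28 : ((List.range' 28 4).all fun x => oscAcc 2 2 x (E4 ++ negCL (toCL SCq c4I)) 0) = true := by
  decide +kernel

theorem ck_osc4_32 : ((List.range' 32 4).all fun x => oscAcc 2 2 x (E4 ++ negCL (toCL SCq c4I)) 0) = true := by
  decide +kernel

theorem ck_osc4_36 : ((List.range' 36 4).all fun x => oscAcc 2 2 x (E4 ++ negCL (toCL SCq c4I)) 0) = true := by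
  decide +kernel

theorem ck_osc4_40 : ((List.range' 40 4).all fun x => oscAcc 2 2 x (E4 ++ negCL (toCL SCq c4I)) 0) = true := by
  decide +kernel

theorem ck_osc4_44 : ((List.range' 44 4).all fun x => oscAcc 2 2 x (E4 ++ negCL (toCL SCq c4I)) 0) = true := by
  decide +kernel

theorem ck_osc4_48 : ((List.range' 48 4).all fun x => oscAcc 2 2 x (E4 ++ negCL (toCL SCq c4I)) 0) = true := by
  decide +kernel

theorem ck_osc4_52 : ((List.range' 52 4).all fun x => oscAcc 2 2 x (E4 ++ negCL (toCL SCq c4I)) 0) = true := by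
  decide +kernel

theorem ck_osc4_56 : ((List.range' 56 4).all fun x => oscAcc 2 2 x (E4 ++ negCL (toCL SCq c4I)) 0) = true := by
  decide +kernel

theorem ck_osc4_60 : ((List.range' 60 1).all fun x => oscAcc 2 2 x (E4 ++ negCL (toCL SCq c4I)) 0) = true := by
  decide +kernel

theorem ck_osc4 : ∀ x < 61, oscAcc 2 2 x (E4 ++ negCL (toCL SCq c4I)) 0 = true := by
  intro x hx
  by_cases h0 : x < 4
  · exact List.all_eq_true.1 ck_osc4_0 x (List.mem_range'_1.2 ⟨by omega, by omega⟩)
  by_cases h4 : x < 8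
  · exact List.all_eq_true.1 ck_osc4_4 x (List.mem_range'_1.2 ⟨by omega, by omega⟩)
  by_cases h8 : x < 12
  · exact List.all_eq_true.1 ck_osc4_8 x (List.mem_range'_1.2 ⟨by omega, by omega⟩)
  by_cases h12 : x < 16
  · exact List.all_eq_true.1 ck_osc4_12 x (List.mem_range'_1.2 ⟨by omega, by omega⟩)
  by_cases h16 : x < 20
  · exact List.all_eq_true.1 ck_osc4_16 x (List.mem_range'_1.2 ⟨by omega, by omega⟩)
  by_cases h20 : x < 24
  · exact List.all_eq_true.1 ck_osc4_20 x (List.mem_range'_1.2 ⟨by omega, by omega⟩)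
  by_cases h24 : x < 28
  · exact List.all_eq_true.1 ck_osc4_24 x (List.mem_range'_1.2 ⟨by omega, by omega⟩)
  by_cases h28 : x < 32
  · exact List.all_eq_true.1 ck_osc4_28 x (List.mem_range'_1.2 ⟨by omega, by omega⟩)
  by_cases h32 : x < 36
  · exact List.all_eq_true.1 ck_osc4_32 x (List.mem_range'_1.2 ⟨by omega, by omega⟩)
  by_cases h36 : x < 40
  · exact List.all_eq_true.1 ck_osc4_36 x (List.mem_range'_1.2 ⟨by omega, by omega⟩)
  by_cases h40 : x < 44
  · exact List.all_eq_true.1 ck_osc4_40 x (List.mem_range'_1.2 ⟨by omega, by omega⟩)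
  by_cases h44 : x < 48
  · exact List.all_eq_true.1 ck_osc4_44 x (List.mem_range'_1.2 ⟨by omega, by omega⟩)
  by_cases h48 : x < 52
  · exact List.all_eq_true.1 ck_osc4_48 x (List.mem_range'_1.2 ⟨by omega, by omega⟩)
  by_cases h52 : x < 56
  · exact List.all_eq_true.1 ck_osc4_52 x (List.mem_range'_1.2 ⟨by omega, by omega⟩)
  by_cases h56 : x < 60
  · exact List.all_eq_true.1 ck_osc4_56 x (List.mem_range'_1.2 ⟨by omega, by omega⟩)
  exact List.all_eq_true.1 ck_osc4_60 x (List.mem_range'_1.2 ⟨by omega, by omega⟩)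


end Crest.Agent.R340
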