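import Crest.Agent.R340.FgData

/-! Row 340: kernel checks of the certificate (blocks). -/

set_option autoImplicit false
set_option maxRecDepth 100000

namespace Crest.Agent.R340

theorem ck_blk0_0 : ((List.range' 0 46).all fun x => bchk KI 362880 10 0 x) = true := by
  decide +kernel

theorem ck_blk0 : ∀ x < 46, bchk KI 362880 10 0 x = true := by
  intro x hx
  exact List.all_eq_true.1 ck_blk0_0 x (List.mem_range'_1.2 ⟨by omega, by omega⟩)

theorem ck_blk1_0 : ((List.range' 0 46).all fun x => bchk KI 362880 10 1 x) = true := by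
  decide +kernel

theorem ck_blk1 : ∀ x < 46, bchk KI 362880 10 1 x = true := by
  intro x hx
  exact List.all_eq_true.1 ck_blk1_0 x (List.mem_range'_1.2 ⟨by omega, by omega⟩)

theorem ck_blk2_0 : ((List.range' 0 46).all fun x => bchk KI 362880 10 2 x) = true := by
  decide +kernel

theorem ck_blk2 : ∀ x < 46, bchk KI 362880 10 2 x = true := by
  intro x hx
  exact List.all_eq_true.1 ck_blk2_0 x (List.mem_range'_1.2 ⟨by omega, by omega⟩)

theorem ck_blk3_0 : ((List.range' 0 46).all fun x => bchk KI 362880 10 3 x) = true := by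
  decide +kernel

theorem ck_blk3 : ∀ x < 46, bchk KI 362880 10 3 x = true := by
  intro x hx
  exact List.all_eq_true.1 ck_blk3_0 x (List.mem_range'_1.2 ⟨by omega, by omega⟩)

theorem ck_blk4_0 : ((List.range' 0 5).all fun x => bchk KI 362880 10 4 x) = true := by
  decide +kernel

theorem ck_blk4_5 : ((List.range' 5 5).all fun x => bchk KI 362880 10 4 x) = true := by
  decide +kernel

theorem ck_blk4_10 : ((List.range' 10 5).all fun x => bchk KI 362880 10 4 x) = true := by
  decide +kernel

theorem ck_blk4_15 : ((List.range' 15 5).all fun x => bchk KI 362880 10 4 x) = true := by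
  decide +kernel

theorem ck_blk4_20 : ((List.range' 20 5).all fun x => bchk KI 362880 10 4 x) = true := by
  decide +kernel

theorem ck_blk4_25 : ((List.range' 25 5).all fun x => bchk KI 362880 10 4 x) = true := by
  decide +kernel

theorem ck_blk4_30 : ((List.range' 30 5).all fun x => bchk KI 362880 10 4 x) = true := by
  decide +kernel

theorem ck_blk4_35 : ((List.range' 35 5).all fun x => bchk KI 362880 10 4 x) = true := by
  decide +kernel

theorem ck_blk4_40 : ((List.range' 40 5).all fun x => bchk KI 362880 10 4 x) = true := by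
  decide +kernel

theorem ck_blk4_45 : ((List.range' 45 1).all fun x => bchk KI 362880 10 4 x) = true := by
  decide +kernel

theorem ck_blk4 : ∀ x < 46, bchk KI 362880 10 4 x = true := by
  intro x hx
  by_cases h0 : x < 5
  · exact List.all_eq_true.1 ck_blk4_0 x (List.mem_range'_1.2 ⟨by omega, by omega⟩)
  by_cases h5 : x < 10
  · exact List.all_eq_true.1 ck_blk4_5 x (List.mem_range'_1.2 ⟨by omega, by omega⟩)
  by_cases h10 : x < 15
  · exact List.all_eq_true.1 ck_blk4_10 x (List.mem_range'_1.2 ⟨by omega, by omega⟩)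
  by_cases h15 : x < 20
  · exact List.all_eq_true.1 ck_blk4_15 x (List.mem_range'_1.2 ⟨by omega, by omega⟩)
  by_cases h20 : x < 25
  · exact List.all_eq_true.1 ck_blk4_20 x (List.mem_range'_1.2 ⟨by omega, by omega⟩)
  by_cases h25 : x < 30
  · exact List.all_eq_true.1 ck_blk4_25 x (List.mem_range'_1.2 ⟨by omega, by omega⟩)
  by_cases h30 : x < 35
  · exact List.all_eq_true.1 ck_blk4_30 x (List.mem_range'_1.2 ⟨by omega, by omega⟩)
  by_cases h35 : x < 40
  · exact List.all_eq_true.1 ck_blk4_35 x (List.mem_range'_1.2 ⟨by omega, by omega⟩)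
  by_cases h40 : x < 45
  · exact List.all_eq_true.1 ck_blk4_40 x (List.mem_range'_1.2 ⟨by omega, by omega⟩)
  exact List.all_eq_true.1 ck_blk4_45 x (List.mem_range'_1.2 ⟨by omega, by omega⟩)


end Crest.Agent.R340
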