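import Crest.Agent.R340.FgData

/-! Row 340: kernel checks of the certificate (blocks). -/

set_option autoImplicit false
set_option maxRecDepth 100000

namespace Crest.Agent.R340

theorem ck_blk7_0 : ((List.range' 0 5).all fun x => bchk KI 362880 10 7 x) = true := by
  decide +kernel

theorem ck_blk7_5 : ((List.range' 5 5).all fun x => bchk KI 362880 10 7 x) = true := by
  decide +kernel

theorem ck_blk7_10 : ((List.range' 10 5).all fun x => bchk KI 362880 10 7 x) = true := by
  decide +kernel

theorem ck_blk7_15 : ((List.range' 15 5).all fun x => bchk KI 362880 10 7 x) = true := by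
  decide +kernel

theorem ck_blk7_20 : ((List.range' 20 5).all fun x => bchk KI 362880 10 7 x) = true := by
  decide +kernel

theorem ck_blk7_25 : ((List.range' 25 5).all fun x => bchk KI 362880 10 7 x) = true := by
  decide +kernel

theorem ck_blk7_30 : ((List.range' 30 5).all fun x => bchk KI 362880 10 7 x) = true := by
  decide +kernel

theorem ck_blk7_35 : ((List.range' 35 5).all fun x => bchk KI 362880 10 7 x) = true := by
  decide +kernel

theorem ck_blk7_40 : ((List.range' 40 5).all fun x => bchk KI 362880 10 7 x) = true := by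
  decide +kernel

theorem ck_blk7_45 : ((List.range' 45 1).all fun x => bchk KI 362880 10 7 x) = true := by
  decide +kernel

theorem ck_blk7 : ∀ x < 46, bchk KI 362880 10 7 x = true := by
  intro x hx
  by_cases h0 : x < 5
  · exact List.all_eq_true.1 ck_blk7_0 x (List.mem_range'_1.2 ⟨by omega, by omega⟩)
  by_cases h5 : x < 10
  · exact List.all_eq_true.1 ck_blk7_5 x (List.mem_range'_1.2 ⟨by omega, by omega⟩)
  by_cases h10 : x < 15
  · exact List.all_eq_true.1 ck_blk7_10 x (List.mem_range'_1.2 ⟨by omega, by omega⟩)
  by_cases h15 : x < 20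
  · exact List.all_eq_true.1 ck_blk7_15 x (List.mem_range'_1.2 ⟨by omega, by omega⟩)
  by_cases h20 : x < 25
  · exact List.all_eq_true.1 ck_blk7_20 x (List.mem_range'_1.2 ⟨by omega, by omega⟩)
  by_cases h25 : x < 30
  · exact List.all_eq_true.1 ck_blk7_25 x (List.mem_range'_1.2 ⟨by omega, by omega⟩)
  by_cases h30 : x < 35
  · exact List.all_eq_true.1 ck_blk7_30 x (List.mem_range'_1.2 ⟨by omega, by omega⟩)
  by_cases h35 : x < 40
  · exact List.all_eq_true.1 ck_blk7_35 x (List.mem_range'_1.2 ⟨by omega, by omega⟩)
  by_cases h40 : x < 45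
  · exact List.all_eq_true.1 ck_blk7_40 x (List.mem_range'_1.2 ⟨by omega, by omega⟩)
  exact List.all_eq_true.1 ck_blk7_45 x (List.mem_range'_1.2 ⟨by omega, by omega⟩)

theorem ck_blk8_0 : ((List.range' 0 46).all fun x => bchk KI 362880 10 8 x) = true := by
  decide +kernel

theorem ck_blk8 : ∀ x < 46, bchk KI 362880 10 8 x = true := by
  intro x hx
  exact List.all_eq_true.1 ck_blk8_0 x (List.mem_range'_1.2 ⟨by omega, by omega⟩)

theorem ck_blk9_0 : ((List.range' 0 46).all fun x => bchk KI 362880 10 9 x) = true := by
  decide +kernel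

theorem ck_blk9 : ∀ x < 46, bchk KI 362880 10 9 x = true := by
  intro x hx
  exact List.all_eq_true.1 ck_blk9_0 x (List.mem_range'_1.2 ⟨by omega, by omega⟩)

theorem ck_blk10_0 : ((List.range' 0 46).all fun x => bchk KI 362880 10 10 x) = true := by
  decide +kernel

theorem ck_blk10 : ∀ x < 46, bchk KI 362880 10 10 x = true := by
  intro x hx
  exact List.all_eq_true.1 ck_blk10_0 x (List.mem_range'_1.2 ⟨by omega, by omega⟩)


end Crest.Agent.R340
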