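import Crest.Agent.R340.FgCkDefs

/-! Row 340: soundness of the elimination checker. -/

set_option autoImplicit false

namespace Crest.Agent.R340

open Finset

/-- pairing of an integer row with a real vector -/
noncomputable def fpD : List ℤ → List ℝ → ℝ
  | c :: b, y :: xs => (c : ℝ) * y + fpD b xs
  | _, _ => 0

/-- the quadratic form of upper triangular rows -/
noncomputable def fpQ : List (List ℤ) → List ℝ → ℝ
  | (a :: b) :: rs, x :: xs => (a : ℝ) * x * x + 2 * x * fpD b xs + fpQ rs xs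
  | _, _ => 0

lemma fpD_nil (xs : List ℝ) : fpD [] xs = 0 := by simp [fpD]

lemma fpD_nil' (b : List ℤ) : fpD b [] = 0 := by cases b <;> simp [fpD]

lemma fpQ_nil (xs : List ℝ) : fpQ [] xs = 0 := by simp [fpQ]

lemma fpQ_nil' (M : List (List ℤ)) : fpQ M [] = 0 := by
  rcases M with _ | ⟨_ | _, _⟩ <;> simp [fpQ]

lemma fpQ_nil'' (M : List (List ℤ)) (xs : List ℝ) : fpQ ([] :: M) xs = 0 := by simp [fpQ]

lemma fpD_zip (a c : ℤ) : ∀ (r v : List ℤ) (xs : List ℝ), r.length = v.length →
    fpD (List.zipWith (fun x w => a * x - c * w) r v) xs = a * fpD r xs - c * fpD v xs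
  | [], [], xs, _ => by simp [fpD_nil]
  | [], _ :: _, _, h => by simp at h
  | _ :: _, [], _, h => by simp at h
  | _ :: _, _ :: _, [], _ => by simp [fpD_nil']
  | x :: r, w :: v, y :: xs, h => by
      rw [List.zipWith_cons_cons, fpD, fpD, fpD, fpD_zip a c r v xs (by simpa using h)]
      push_cast; ring

lemma fpQ_raw (a : ℤ) : ∀ (rows : List (List ℤ)) (v : List ℤ) (xs : List ℝ),
    shapeOK rows v = true → fpQ (rawRows a rows v) xs = a * fpQ rows xs - fpD v xs ^ 2
  | [], [], xs, _ => by simp [rawRows, fpQ_nil, fpD_nil]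
  | [], _ :: _, _, h => by simp [shapeOK] at h
  | _ :: _, [], _, h => by simp [shapeOK] at h
  | _ :: _, _ :: _, [], _ => by simp [fpQ_nil', fpD_nil']
  | [] :: _, _ :: _, _ :: _, h => by simp [shapeOK] at h
  | (r0 :: r) :: rows, vi :: vs, x :: xs, h => by
      simp only [shapeOK, Bool.and_eq_true, beq_iff_eq, List.length_cons, add_left_inj] at h
      rw [rawRows, List.zipWith_cons_cons, fpQ, fpQ, fpD, fpQ_raw a rows vs xs h.2,
        fpD_zip a vi r vs xs h.1]
      push_cast; ring

lemma fpD_div (p : ℤ) (g : ℤ → ℤ) : ∀ (b : List ℤ) (xs : List ℝ), (∀ x ∈ b, g x * p = x) →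
    fpD b xs = p * fpD (b.map g) xs
  | [], xs, _ => by simp [fpD_nil]
  | _ :: _, [], _ => by simp [fpD_nil']
  | c :: b, y :: xs, h => by
      have hc : ((g c : ℤ) : ℝ) * p = c := by exact_mod_cast h c (by simp)
      rw [List.map_cons, fpD, fpD, fpD_div p g b xs fun x hx => h x (by simp [hx]), ← hc]
      ring

lemma fpQ_div (p : ℤ) (g : ℤ → ℤ) : ∀ (M : List (List ℤ)) (xs : List ℝ),
    (∀ r ∈ M, ∀ x ∈ r, g x * p = x) → fpQ M xs = p * fpQ (M.map fun r => r.map g) xs
  | [], xs, _ => by simp [fpQ_nil]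
  | [] :: M, xs, _ => by simp [fpQ_nil'']
  | (_ :: _) :: _, [], _ => by simp [fpQ_nil']
  | (a :: b) :: M, y :: xs, h => by
      have hc : ((g a : ℤ) : ℝ) * p = a := by exact_mod_cast h (a :: b) (by simp) a (by simp)
      rw [List.map_cons, List.map_cons, fpQ, fpQ,
        fpQ_div p g M xs fun r hr => h r (by simp [hr]),
        fpD_div p g b xs fun x hx => h (a :: b) (by simp) x (by simp [hx]), ← hc]
      ring

lemma fp_gcdL (l : List ℤ) (g : ℕ) : gcdL l g ∣ g ∧ ∀ x ∈ l, gcdL l g ∣ x.natAbs := by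
  induction l generalizing g with
  | nil => exact ⟨dvd_rfl, by simp⟩
  | cons x l ih =>
    rw [gcdL, fN_eq]
    obtain ⟨h1, h2⟩ := ih (Nat.gcd g x.natAbs)
    refine ⟨h1.trans (Nat.gcd_dvd_left _ _), fun y hy => ?_⟩
    rcases List.mem_cons.1 hy with rfl | hy
    · exact h1.trans (Nat.gcd_dvd_right _ _)
    · exact h2 y hy

lemma fp_gcdLL (X : List (List ℤ)) (g : ℕ) :
    gcdLL X g ∣ g ∧ ∀ r ∈ X, ∀ x ∈ r, gcdLL X g ∣ x.natAbs := by
  induction X generalizing g with
  | nil => exact ⟨dvd_rfl, by simp⟩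
  | cons r X ih =>
    rw [gcdLL, fN_eq]
    obtain ⟨h1, h2⟩ := ih (gcdL r g)
    refine ⟨h1.trans (fp_gcdL r g).1, fun y hy => ?_⟩
    rcases List.mem_cons.1 hy with rfl | hy
    · exact fun x hx => h1.trans ((fp_gcdL y g).2 x hx)
    · exact h2 y hy

lemma fp_prim {X : List (List ℤ)} {k : List (List ℤ) → Bool} (h : prim X k = true) {xs : List ℝ}
    (hk : ∀ Y, k Y = true → 0 ≤ fpQ Y xs) : 0 ≤ fpQ X xs := by
  simp only [prim, fLL_eq, fN_eq] at h
  rw [fpQ_div (gcdLL X 0 : ℕ) (· / ((gcdLL X 0 : ℕ) : ℤ)) X xs fun r hr x hx =>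
    Int.ediv_mul_cancel (Int.natCast_dvd.2 ((fp_gcdLL X 0).2 r hr x hx))]
  exact mul_nonneg (by positivity) (hk _ h)

lemma fpD_zero : ∀ (b : List ℤ) (xs : List ℝ), (∀ x ∈ b, x = 0) → fpD b xs = 0
  | [], xs, _ => fpD_nil xs
  | _ :: _, [], _ => fpD_nil' _
  | c :: b, y :: xs, h => by
      rw [fpD, fpD_zero b xs fun x hx => h x (by simp [hx]), h c (by simp)]
      simp

lemma fp_psdB (n : ℕ) (M : List (List ℤ)) (h : psdB n M = true) (xs : List ℝ) :
    0 ≤ fpQ M xs := by
  induction n generalizing M xs with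
  | zero =>
    cases M with
    | nil => exact (fpQ_nil xs).ge
    | cons r rs => simp [psdB] at h
  | succ n ih =>
    match M, xs, h with
    | [], xs, _ => exact (fpQ_nil xs).ge
    | [] :: _, _, _ => exact (fpQ_nil'' _ _).ge
    | (_ :: _) :: _, [], _ => exact (fpQ_nil' _).ge
    | (a :: v) :: rows, x :: xs, h =>
      rw [psdB] at h
      rw [fpQ]
      split_ifs at h with ha
      · rw [Bool.and_eq_true] at h
        have k := fp_prim h.2 fun Y hY => ih Y hY xs
        rw [fpQ_raw a rows v xs h.1] at k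
        have ha' : (0 : ℝ) < a := by exact_mod_cast ha
        refine le_of_mul_le_mul_left ?_ ha'
        nlinarith [sq_nonneg ((a : ℝ) * x + fpD v xs)]
      · simp only [Bool.and_eq_true, beq_iff_eq, List.all_eq_true] at h
        rw [fpD_zero v xs h.1.2, h.1.1]
        simpa using ih rows h.2 xs

lemma fpD_map {α : Type} (g : α → ℤ) (ψ : α → ℝ) (L : List α) :
    fpD (L.map g) (L.map ψ) = (L.map fun b => (g b : ℝ) * ψ b).sum := by
  induction L with
  | nil => simp [fpD_nil]
  | cons a L ih => rw [List.map_cons, List.map_cons, fpD, ih, List.map_cons, List.sum_cons]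

lemma fpQ_tri {α : Type} (X : α → α → ℤ) (ψ : α → ℝ) (L : List α)
    (hX : ∀ a ∈ L, ∀ b ∈ L, X a b = X b a) :
    fpQ (triRows X L) (L.map ψ) =
      (L.map fun a => (L.map fun b => (X a b : ℝ) * ψ a * ψ b).sum).sum := by
  induction L with
  | nil => simp [triRows, fpQ_nil]
  | cons a L ih =>
    have e : triRows X (a :: L) = (X a a :: L.map (X a)) :: triRows X L := rfl
    have e1 : (L.map fun b => (X b a : ℝ) * ψ b * ψ a).sum =
        ψ a * (L.map fun b => (X a b : ℝ) * ψ b).sum := by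
      rw [← List.sum_map_mul_left]
      refine congrArg List.sum (List.map_congr_left fun b hb => ?_)
      rw [hX b (by simp [hb]) a (by simp)]; ring
    have e2 : (L.map fun b => (X a b : ℝ) * ψ a * ψ b).sum =
        ψ a * (L.map fun b => (X a b : ℝ) * ψ b).sum := by
      rw [← List.sum_map_mul_left]
      refine congrArg List.sum (List.map_congr_left fun b _ => ?_)
      ring
    rw [e, List.map_cons, fpQ, fpD_map,
      ih fun c hc d hd => hX c (by simp [hc]) d (by simp [hd])]
    simp only [List.map_cons, List.sum_cons, List.sum_map_add]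
    rw [e1, e2]
    ring

/-- If the check succeeds on the upper triangular rows of a symmetric integer matrix on the index
list `L`, the quadratic form is nonnegative. -/
theorem psd_of_check {ι : Type} (M : ι → ι → ℤ) (L : List ι)
    (hs : ∀ a ∈ L, ∀ b ∈ L, M a b = M b a) (n : ℕ)
    (h : prim (triRows M L) (fun rows => psdB n rows) = true) (x : ι → ℝ) :
    0 ≤ (L.map fun a => (L.map fun b => (M a b : ℝ) * x a * x b).sum).sum := by
  rw [← fpQ_tri M x L hs]
  exact fp_prim h fun Y hY => fp_psdB n Y hY _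

end Crest.Agent.R340
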