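import Crest.Agent.R340.FgMI
import Crest.Agent.R340.FgPsd

/-! Row 340: positivity of the local form from the block checks. -/

set_option autoImplicit false

namespace Crest.Agent.R340

open Finset

lemma fgf_symm {K : Finset ℕ → Finset ℕ → ℤ} (hsym : ∀ R R', K R R' = K R' R)
    (S S' : Finset ℕ) : MF K S S' = MF K S' S := by
  rw [MF, MF, inter_comm]
  refine sum_congr rfl fun T _ => ?_
  rw [hsym (S \ T), mul_comm (epsF T (S \ T))]

lemma fgf_supp {K : Finset ℕ → Finset ℕ → ℤ} (hK : KSupp K) {S S' : Finset ℕ}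
    (h : MF K S S' ≠ 0) : S.card = S'.card ∧ ∑ i ∈ S, i = ∑ i ∈ S', i := by
  obtain ⟨T, hT, h0⟩ := exists_ne_zero_of_sum_ne_zero h
  have hT' := mem_powerset.mp hT
  have h1 : T ⊆ S := hT'.trans inter_subset_left
  have h2 : T ⊆ S' := hT'.trans inter_subset_right
  have hk : K (S \ T) (S' \ T) ≠ 0 := fun e => h0 (by rw [e]; simp)
  obtain ⟨e1, -, e2⟩ := hK _ _ hk
  refine ⟨?_, ?_⟩
  · rw [← card_sdiff_add_card_eq_card h1, ← card_sdiff_add_card_eq_card h2, e1]
  · rw [← sum_sdiff h1, ← sum_sdiff h2, e2]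

lemma fgf_block {KI : ℕ → ℕ → ℤ} {n W : ℕ} {K : Finset ℕ → Finset ℕ → ℤ}
    (hK : KSupp K) (hsym : ∀ R R', K R R' = K R' R) (hT : TableOK KI n K) (hW0 : 0 < W)
    (hW : ∀ t < n, t.factorial ∣ W) {N d : ℕ} (h : bchk KI W n N d = true)
    (φ : Finset ℕ → ℝ) :
    0 ≤ ∑ S ∈ (range n).powerset.filter (fun S => S.card = N ∧ ∑ i ∈ S, i = d),
      ∑ S' ∈ (range n).powerset.filter (fun S => S.card = N ∧ ∑ i ∈ S, i = d),
        MF K S S' * φ S * φ S' := by
  have hm : ∀ a ∈ blk n N d, ∀ b ∈ blk n N d,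
      (mI KI W a b : ℝ) = (W : ℝ) ^ N * MF K a.toFinset b.toFinset := fun a ha b hb => by
    obtain ⟨a1, a2, a3, a4⟩ := blk_spec ha
    obtain ⟨b1, b2, b3, b4⟩ := blk_spec hb
    rw [mI_eq hK hT hW a1 b1 a2 b2 (a3.trans b3.symm) (a4.trans b4.symm), a3]
  rw [bchk, fMM_eq] at h
  have hp := psd_of_check (mI KI W) (blk n N d) (fun a ha b hb => by
    have e : (mI KI W a b : ℝ) = mI KI W b a := by
      rw [hm a ha b hb, hm b hb a ha, fgf_symm hsym]
    exact_mod_cast e) _ h fun l => φ l.toFinset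
  have hW' : (0 : ℝ) < (W : ℝ) ^ N := by positivity
  refine nonneg_of_mul_nonneg_right (a := (W : ℝ) ^ N) ?_ hW'
  rw [sum_blk, ← List.sum_map_mul_left]
  refine hp.trans_eq (congrArg List.sum (List.map_congr_left fun a ha => ?_))
  rw [sum_blk, ← List.sum_map_mul_left]
  refine congrArg List.sum (List.map_congr_left fun b hb => ?_)
  rw [hm a ha b hb]
  ring

theorem form_nonneg_of_check {KI : ℕ → ℕ → ℤ} {n W D : ℕ} {K : Finset ℕ → Finset ℕ → ℤ}
    (hK : KSupp K) (hsym : ∀ R R', K R R' = K R' R) (hT : TableOK KI n K) (hW0 : 0 < W)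
    (hW : ∀ t < n, t.factorial ∣ W) (hD : ∑ i ∈ range n, i ≤ D)
    (h : ∀ N ≤ n, ∀ d ≤ D, bchk KI W n N d = true) (φ : Finset ℕ → ℝ) :
    0 ≤ ∑ S ∈ (range n).powerset, ∑ S' ∈ (range n).powerset, MF K S S' * φ S * φ S' := by
  have hmap : ∀ S ∈ (range n).powerset,
      (S.card, ∑ i ∈ S, i) ∈ range (n + 1) ×ˢ range (D + 1) := fun S hS => by
    have hS' := mem_powerset.mp hS
    have h1 := card_le_card hS'
    have h2 : ∑ i ∈ S, i ≤ ∑ i ∈ range n, i := sum_le_sum_of_subset hS'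
    rw [card_range] at h1
    rw [mem_product, mem_range, mem_range]
    constructor <;> dsimp only <;> omega
  rw [← sum_fiberwise_of_maps_to hmap]
  refine sum_nonneg fun p hp => ?_
  rw [mem_product, mem_range, mem_range] at hp
  refine (fgf_block hK hsym hT hW0 hW (h p.1 (by omega) p.2 (by omega)) φ).trans_eq ?_
  have e : ∀ S : Finset ℕ, (S.card, ∑ i ∈ S, i) = p ↔ S.card = p.1 ∧ ∑ i ∈ S, i = p.2 :=
    fun S => Prod.ext_iff
  simp only [e]
  refine sum_congr rfl fun S hS => sum_subset (filter_subset _ _) fun S' hS' hn => ?_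
  have h0 : MF K S S' = 0 := by
    by_contra h0
    obtain ⟨e1, e2⟩ := fgf_supp hK h0
    obtain ⟨-, e3, e4⟩ := mem_filter.mp hS
    exact hn (mem_filter.mpr ⟨hS', e1 ▸ e3, e2 ▸ e4⟩)
  rw [h0, zero_mul, zero_mul]

end Crest.Agent.R340
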