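import Crest.Agent.R340.FgLimit

/-! Row 340: a certificate gives the Fock-space gap. -/

set_option autoImplicit false

namespace Crest.Agent.R340

open Matrix Finset Filter Topology

theorem fockGap_of_cert {J : ℕ} {c2 : List (ℕ × ℚ)} {c3 c4 : CL} {cost γ : ℝ}
    (hi : LocalIdx J c2 c3 c4) (hl : LocalPSD J c2 c3 c4) (hp : PlanarBound c2 c3 c4 cost)
    (hγ : γ < 99 / 100 - cost) : ∃ Q₀ : ℕ, ∀ Q : ℕ, Q₀ ≤ Q → FockGap Q γ := by
  obtain ⟨Q₀, hQ₀⟩ := limit_bound hi hl hp hγ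
  refine ⟨max Q₀ 1, fun Q hQ Φ => ?_⟩
  have hQ1 : 1 ≤ Q := le_trans (le_max_right _ _) hQ
  have hQ0 : Q₀ ≤ Q := le_trans (le_max_left _ _) hQ
  have key := psd_of_invState Q (Hf Q * Hf Q - γ • Hf Q)
    (by rw [transpose_sub, transpose_mul, transpose_smul, Hf_transpose])
    (by
      rw [Matrix.sub_mul, Matrix.mul_sub, Matrix.smul_mul, Matrix.mul_smul, Hf_Fh hQ1,
        Matrix.mul_assoc, Hf_Fh hQ1, ← Matrix.mul_assoc, Hf_Fh hQ1, Matrix.mul_assoc])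
    (fun ω hω => by
      rw [map_sub, map_smul, omega_HH hQ1 hω, omega_H hQ1 hω, smul_eq_mul]
      have h1 := hQ₀ Q hQ0 ω hω
      have h2 : (1 : ℝ) ≤ Q := by exact_mod_cast hQ1
      nlinarith [mul_le_mul_of_nonneg_left h1 (show (0 : ℝ) ≤ 2 * (Q : ℝ) - 1 by linarith)])
    Φ
  rw [Matrix.sub_mulVec, dotProduct_sub, Matrix.smul_mulVec, dotProduct_smul, smul_eq_mul,
    ← Matrix.mulVec_mulVec] at key
  have h3 : Φ ⬝ᵥ (Hf Q *ᵥ (Hf Q *ᵥ Φ)) = (Hf Q *ᵥ Φ) ⬝ᵥ (Hf Q *ᵥ Φ) := by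
    rw [← dot_annT, Hf_transpose]
  linarith

end Crest.Agent.R340
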