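import Crest.Agent.R340.FgCkDefs

/-! Row 340: the fast form of the oscillator check. -/

set_option autoImplicit false

namespace Crest.Agent.R340

open Finset

lemma oscF_fQ {β : Type} (q : ℚ) (k : ℚ → β) : fQ q k = k q := by
  simp only [fQ, fI_eq, fN_eq, Rat.mkRat_self]

lemma oscF_list (n : ℕ) (f : ℕ → ℤ) : ((List.range n).map f).sum = ∑ i ∈ range n, f i := by
  induction n with
  | zero => rfl
  | succ n ih => rw [List.range_succ, List.map_append, List.sum_append, ih, sum_range_succ]; simp

lemma oscF_T (α β m k l : ℕ) : oscTf α β m k l = oscT α β m k l := by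
  have h : (range (l + 1)).filter (fun s => s ≤ m ∧ l - s ≤ k) = Ico (l - k) (min m l + 1) := by
    ext s
    simp only [mem_filter, mem_range, mem_Ico]
    omega
  rw [oscTf, oscT, List.range'_eq_map_range, List.map_map, oscF_list, oscF_list, ← sum_filter, h,
    sum_Ico_eq_sum_range]
  refine sum_congr rfl fun s _ => ?_
  simp only [Function.comp_apply, neg_one_pow_eq_ite, Nat.even_iff]
  push_cast
  ring

lemma oscF_acc (α β l : ℕ) (c : CL) (acc : ℚ) :
    oscAcc α β l c acc = decide (0 ≤ acc + oscCoef α β c l) := by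
  induction c generalizing acc with
  | nil => simp [oscAcc, oscCoef]
  | cons e c ih =>
    simp only [oscAcc, fI_eq, fN_eq, oscF_fQ, ih, oscF_T, Rat.mkRat_eq_div, oscCoef, List.map_cons,
      List.sum_cons]
    split_ifs <;> refine decide_eq_decide.2 ?_
    · rw [add_assoc, Int.cast_mul, Int.cast_natCast, Nat.cast_pow]
    · rw [zero_add]

theorem oscOK_of_fast (α β D : ℕ) (hαβ : 0 < α + β) (c : CL) (hd : oscDeg D c = true)
    (h : ∀ l ≤ D, oscAcc α β l c 0 = true) : oscOK α β D c = true := by
  rw [oscOK, Bool.and_eq_true]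
  refine ⟨hd, List.all_eq_true.2 fun l hl => ?_⟩
  have h1 := h l (Nat.lt_succ_iff.1 (List.mem_range.1 hl))
  rwa [oscF_acc, zero_add] at h1

end Crest.Agent.R340
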