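import Crest.Agent.R340.FgCkDefs

/-! Row 340: the matrix of the local form. -/

set_option autoImplicit false

namespace Crest.Agent.R340

open Finset

/-- the sign of a pair `T ⊆ S` -/
noncomputable def repE (T S : Finset ℕ) : ℝ := if T ⊆ S then (epsF T (S \ T) : ℝ) else 0

/-- the operator with coefficients `α` -/
noncomputable def repOp (J : ℕ) (φ : Finset ℕ → ℝ) (α : Finset ℕ → ℤ) (T : Finset ℕ) : ℝ :=
  ∑ S ∈ (range (J + 1)).powerset, repE T S * (α (S \ T) : ℝ) * φ S

/-- the quadratic form with kernel `K` -/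
noncomputable def repQ (J : ℕ) (φ : Finset ℕ → ℝ) (K : Finset ℕ → Finset ℕ → ℤ) (T : Finset ℕ) : ℝ :=
  ∑ S ∈ (range (J + 1)).powerset, ∑ S' ∈ (range (J + 1)).powerset,
    repE T S * repE T S' * (K (S \ T) (S' \ T) : ℝ) * φ S * φ S'

def RepIs (J : ℕ) (φ A : Finset ℕ → ℝ) (α : Finset ℕ → ℤ) : Prop :=
  ∀ T ∈ (range (J + 1)).powerset, A T = repOp J φ α T

lemma rep_id (J : ℕ) (φ : Finset ℕ → ℝ) : RepIs J φ φ aIdF := by
  intro T hT
  unfold repOp
  rw [sum_eq_single_of_mem T hT]
  · simp [repE, aIdF, epsF]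
  · intro S _ hne
    by_cases h : T ⊆ S
    · have : S \ T ≠ ∅ := fun e => hne (Subset.antisymm (sdiff_eq_empty_iff_subset.1 e) h)
      simp [aIdF, this]
    · simp [repE, h]

lemma rep_eps_insert {j : ℕ} {T : Finset ℕ} (hj : j ∉ T) (R : Finset ℕ) :
    epsF (insert j T) R = (-1) ^ (R.filter (j < ·)).card * epsF T R := by
  unfold epsF
  rw [← prod_const, prod_filter, ← prod_mul_distrib]
  refine prod_congr rfl fun r _ => ?_
  rw [filter_insert]
  split_ifs with h
  · rw [card_insert_of_notMem (fun e => hj (mem_filter.1 e).1), pow_succ]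
    ring
  · simp

lemma rep_annS (J : ℕ) (φ : Finset ℕ → ℝ) (α : Finset ℕ → ℤ) (j : ℕ) (T : Finset ℕ) :
    annS j (repOp J φ α) T = repOp J φ (aAnnF j α) T := by
  unfold annS repOp
  split_ifs with hj
  · refine (sum_eq_zero fun S _ => ?_).symm
    simp [aAnnF, hj]
  · rw [mul_sum]
    refine sum_congr rfl fun S _ => ?_
    by_cases h1 : T ⊆ S
    · by_cases h2 : j ∈ S
      · have h3 : j ∈ S \ T := mem_sdiff.2 ⟨h2, hj⟩
        have h4 : ((S \ T).erase j).filter (j < ·) = (S \ T).filter (j < ·) := by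
          ext r
          simp only [mem_filter, mem_erase]
          exact ⟨fun a => ⟨a.1.2, a.2⟩, fun a => ⟨⟨a.2.ne', a.1⟩, a.2⟩⟩
        have h5 : epsF T (S \ T) = (-1) ^ (T.filter (· < j)).card * epsF T ((S \ T).erase j) :=
          (mul_prod_erase _ (fun r => (-1 : ℤ) ^ (T.filter (· < r)).card) h3).symm
        simp only [repE, aAnnF, if_pos h1, if_pos h3, if_pos (insert_subset h2 h1), sdiff_insert,
          rep_eps_insert hj, h4, h5]
        push_cast
        ring
      · have h3 : ¬ insert j T ⊆ S := fun e => h2 (e (mem_insert_self _ _))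
        simp [repE, aAnnF, h2, h3]
    · have h3 : ¬ insert j T ⊆ S := fun e => h1 ((subset_insert _ _).trans e)
      simp [repE, h1, h3]

variable {J : ℕ} {φ A B : Finset ℕ → ℝ} {α β : Finset ℕ → ℤ}

lemma RepIs.ann (h : RepIs J φ A α) {j : ℕ} (hj : j ≤ J) : RepIs J φ (annS j A) (aAnnF j α) := by
  intro T hT
  rw [← rep_annS]
  unfold annS
  rw [h (insert j T) (mem_powerset.2 (insert_subset (mem_range.2 (by omega)) (mem_powerset.1 hT)))]

lemma RepIs.bs (h : RepIs J φ A α) {m : ℕ} (hm : m < J) : RepIs J φ (BS m A) (aBF m α) := by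
  intro T hT
  unfold BS
  rw [sum_congr rfl fun i hi => by
    rw [(h.ann (j := i) (by have := mem_range.1 hi; omega)).ann (j := m + 1 - i) (by omega) T hT]]
  simp only [repOp, aBF, mul_sum, sum_mul, Int.cast_sum, Int.cast_mul, Int.cast_natCast]
  rw [sum_comm]
  exact sum_congr rfl fun S _ => sum_congr rfl fun i _ => by ring

lemma repQ_add (K K' : Finset ℕ → Finset ℕ → ℤ) (T : Finset ℕ) :
    repQ J φ (fun R R' => K R R' + K' R R') T = repQ J φ K T + repQ J φ K' T := by
  simp only [repQ, ← sum_add_distrib, Int.cast_add]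
  exact sum_congr rfl fun S _ => sum_congr rfl fun S' _ => by ring

lemma repQ_swap (K : Finset ℕ → Finset ℕ → ℤ) (T : Finset ℕ) :
    repQ J φ (fun R R' => K R' R) T = repQ J φ K T := by
  unfold repQ
  rw [sum_comm]
  exact sum_congr rfl fun S _ => sum_congr rfl fun S' _ => by ring

lemma repQ_mul (κ : ℤ) (T : Finset ℕ) :
    repQ J φ (fun R R' => κ * α R * β R') T = κ * (repOp J φ α T * repOp J φ β T) := by
  unfold repQ repOp
  rw [sum_mul_sum]
  simp only [mul_sum, Int.cast_mul]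
  exact sum_congr rfl fun S _ => sum_congr rfl fun S' _ => by ring

lemma rep_list {ι : Type} (l : List ι) (κ : ι → ℤ) (A B : ι → Finset ℕ → ℝ)
    (α β : ι → Finset ℕ → ℤ) (s : ℚ) (h : ∀ e ∈ l, RepIs J φ (A e) (α e) ∧ RepIs J φ (B e) (β e))
    {T : Finset ℕ} (hT : T ∈ (range (J + 1)).powerset) :
    (l.map fun e => (((κ e : ℚ) / s : ℚ) : ℝ) * (A e T * B e T)).sum =
      (s : ℝ)⁻¹ * repQ J φ (fun R R' => (l.map fun e => κ e * α e R * β e R').sum) T := by
  induction l with
  | nil => simp [repQ]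
  | cons e l ih =>
    simp only [List.map_cons, List.sum_cons]
    rw [ih fun e he => h e (List.mem_cons_of_mem _ he), repQ_add, repQ_mul,
      ← (h e List.mem_cons_self).1 T hT, ← (h e List.mem_cons_self).2 T hT]
    push_cast
    ring

lemma rep_MF (K : Finset ℕ → Finset ℕ → ℤ) :
    ∑ T ∈ (range (J + 1)).powerset, (∏ k ∈ T, ((k.factorial : ℝ))⁻¹) * repQ J φ K T =
      ∑ S ∈ (range (J + 1)).powerset, ∑ S' ∈ (range (J + 1)).powerset, MF K S S' * φ S * φ S' := by
  simp only [repQ, mul_sum]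
  rw [sum_comm]
  refine sum_congr rfl fun S hS => ?_
  rw [sum_comm]
  refine sum_congr rfl fun S' _ => ?_
  unfold MF
  rw [sum_mul, sum_mul]
  refine (sum_subset_zero_on_sdiff
    (powerset_mono.2 (inter_subset_left.trans (mem_powerset.1 hS))) (fun T hT => ?_)
    fun T hT => ?_).symm
  · have := (mem_sdiff.1 hT).2
    rw [mem_powerset, subset_inter_iff, not_and_or] at this
    rcases this with h | h <;> simp [repE, h]
  · rw [mem_powerset, subset_inter_iff] at hT
    simp only [repE, if_pos hT.1, if_pos hT.2]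
    push_cast
    ring

theorem localPSD_of_MF (J : ℕ) (c2 : List (ℕ × ℤ)) (c3 c4 : CI) (s : ℚ) (hs : 0 < s)
    (hi : LocalIdx J (toC2 s c2) (toCL s c3) (toCL s c4))
    (h : ∀ φ : Finset ℕ → ℝ, 0 ≤ ∑ S ∈ (range (J + 1)).powerset, ∑ S' ∈ (range (J + 1)).powerset,
      MF (KF c2 c3 c4) S S' * φ S * φ S') :
    LocalPSD J (toC2 s c2) (toCL s c3) (toCL s c4) := by
  intro φ
  have hs' : (0 : ℝ) < s := by exact_mod_cast hs
  have h0 := rep_id J φ
  have key : ∀ T ∈ (range (J + 1)).powerset, locForm (toC2 s c2) (toCL s c3) (toCL s c4) φ T =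
      (2 * (s : ℝ))⁻¹ * repQ J φ (KF c2 c3 c4) T := by
    intro T hT
    have e2 := rep_list c2 (fun e => e.2) (fun e => BS e.1 φ) (fun e => BS e.1 φ)
      (fun e => aBF e.1 aIdF) (fun e => aBF e.1 aIdF) s (fun e he => by
        have := hi.1 _ (List.mem_map_of_mem he)
        exact ⟨h0.bs this, h0.bs this⟩) hT
    have e3 := rep_list c3 (fun e => e.2.2.2.2) (fun e => annS e.2.1 (BS e.1 φ))
      (fun e => annS e.2.2.2.1 (BS e.2.2.1 φ)) (fun e => aAnnF e.2.1 (aBF e.1 aIdF))
      (fun e => aAnnF e.2.2.2.1 (aBF e.2.2.1 aIdF)) s (fun e he => by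
        have := hi.2.1 _ (List.mem_map_of_mem he)
        exact ⟨(h0.bs this.1).ann this.2.1, (h0.bs this.2.2.1).ann this.2.2.2⟩) hT
    have e4 := rep_list c4 (fun e => e.2.2.2.2) (fun e => BS e.2.1 (BS e.1 φ))
      (fun e => BS e.2.2.2.1 (BS e.2.2.1 φ)) (fun e => aBF e.2.1 (aBF e.1 aIdF))
      (fun e => aBF e.2.2.2.1 (aBF e.2.2.1 aIdF)) s (fun e he => by
        have := hi.2.2 _ (List.mem_map_of_mem he)
        exact ⟨(h0.bs this.1).bs this.2.1, (h0.bs this.2.2.1).bs this.2.2.2⟩) hT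
    have e5 : repQ J φ (KF c2 c3 c4) T = 2 * repQ J φ (K0F c2 c3 c4) T := by
      unfold KF
      rw [repQ_add, repQ_swap (K0F c2 c3 c4)]
      ring
    unfold locForm lin toC2 toCL
    simp only [List.map_map, Function.comp_def]
    rw [e2, e3, e4, e5]
    unfold K0F
    rw [repQ_add, repQ_add]
    field_simp
  rw [sum_congr rfl fun T hT => by rw [key T hT, mul_left_comm], ← mul_sum, rep_MF]
  exact mul_nonneg (by positivity) (h φ)

end Crest.Agent.R340
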