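import Crest.Agent.R340.FgBlk

/-! Row 340: soundness of the table check. -/

set_option autoImplicit false

namespace Crest.Agent.R340

open Finset

/-- list and finite set versions agree -/
def TabAgr (αL : List ℕ → ℤ) (αF : Finset ℕ → ℤ) : Prop :=
  ∀ l : List ℕ, l.Nodup → αL l = αF l.toFinset

lemma tab_sg (j : ℕ) {l : List ℕ} (hl : l.Nodup) :
    sgGt j l = (-1) ^ (l.toFinset.filter (j < ·)).card := by
  induction l with
  | nil => simp [sgGt]
  | cons a t ih =>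
    have ha : a ∉ t := (List.nodup_cons.1 hl).1
    have ih := ih (List.nodup_cons.1 hl).2
    have e : sgGt j (a :: t) = if j < a then -sgGt j t else sgGt j t := rfl
    rw [e, List.toFinset_cons, filter_insert, ih]
    split_ifs with h
    · rw [card_insert_of_notMem (by simp [ha]), pow_succ]
      ring
    · rfl

lemma tab_erase (j : ℕ) {l : List ℕ} (hl : l.Nodup) :
    (l.erase j).toFinset = l.toFinset.erase j := by
  ext x
  simp [hl.mem_erase_iff]

lemma tab_id : TabAgr aId aIdF := by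
  intro l _
  cases l with
  | nil => simp [aId, aIdF]
  | cons a t => simp [aId, aIdF]

lemma tab_ann {αL : List ℕ → ℤ} {αF : Finset ℕ → ℤ} (h : TabAgr αL αF) (j : ℕ) :
    TabAgr (aAnn j αL) (aAnnF j αF) := by
  intro l hl
  unfold aAnn aAnnF
  simp only [List.mem_toFinset]
  split_ifs with hj
  · rw [tab_sg j hl, h _ (hl.erase j), tab_erase j hl]
  · rfl

lemma tab_B {αL : List ℕ → ℤ} {αF : Finset ℕ → ℤ} (h : TabAgr αL αF) (m : ℕ) :
    TabAgr (aB m αL) (aBF m αF) := by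
  intro l hl
  unfold aB aBF
  rw [← List.sum_toFinset _ hl]
  have e : ∀ i ∈ l.toFinset, (if i ≤ m ∧ m + 1 - i ∈ l then
      (chF m i : ℤ) * aAnn (m + 1 - i) (aAnn i αL) l else 0) =
      if i ∈ range (m + 1) then
        (m.choose i : ℤ) * aAnnF (m + 1 - i) (aAnnF i αF) l.toFinset else 0 := by
    intro i _
    rw [chF_eq, tab_ann (tab_ann h i) _ l hl]
    by_cases h1 : i ≤ m
    · rw [if_pos (mem_range.2 (Nat.lt_succ_of_le h1))]
      by_cases h2 : m + 1 - i ∈ l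
      · rw [if_pos ⟨h1, h2⟩]
      · rw [if_neg fun h => h2 h.2]
        simp [aAnnF, h2]
    · rw [if_neg fun h => h1 h.1, if_neg fun h => h1 (Nat.le_of_lt_succ (mem_range.1 h))]
  rw [sum_congr rfl e, sum_ite_mem]
  refine sum_subset inter_subset_right fun i hi hi' => ?_
  have : i ∉ l := fun h => hi' (mem_inter.2 ⟨List.mem_toFinset.2 h, hi⟩)
  simp [aAnnF, this]

lemma tab_key {l : List ℕ} (hl : l.Nodup) : keyL l = keyF l.toFinset :=
  (List.sum_toFinset _ hl).symm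

lemma tab_kchk {KI : ℕ → ℕ → ℤ} {L : List (List ℕ)} {av bv : List ℕ → List ℤ}
    (h : kchk KI L av bv = true) {l l' : List ℕ} (hl : l ∈ L) (hl' : l' ∈ L) :
    KI (keyL l) (keyL l') = dotI (av l) (bv l') + dotI (av l') (bv l) := by
  simp only [kchk, fMM_eq, fM_eq, fLL_eq, List.zip_map', List.all_eq_true, List.mem_map,
    beq_iff_eq] at h
  exact h _ ⟨l, hl, rfl⟩ _ ⟨l', hl', rfl⟩

lemma tab_dot {ι : Type} (c : List ι) (f g : ι → ℤ) :
    dotI (c.map f) (c.map g) = (c.map fun e => f e * g e).sum := by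
  induction c with
  | nil => rfl
  | cons a t ih => simp [dotI, ih]

lemma tab_filter {ι : Type} (c : List ι) (p : ι → Bool) (f : ι → ℤ)
    (h : ∀ e, f e ≠ 0 → p e = true) : ((c.filter p).map f).sum = (c.map f).sum := by
  induction c with
  | nil => rfl
  | cons a t ih =>
    by_cases ha : p a = true
    · simp [List.filter_cons_of_pos ha, ih]
    · have : f a = 0 := by
        by_contra h'
        exact ha (h a h')
      simp [List.filter_cons_of_neg ha, ih, this]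

lemma tab_zero {ι : Type} (c : List ι) (f : ι → ℤ) (h : ∀ e, f e = 0) : (c.map f).sum = 0 :=
  List.sum_eq_zero fun x hx => by
    obtain ⟨e, -, rfl⟩ := List.mem_map.1 hx
    exact h e

lemma tab_s0 (R : Finset ℕ) (h : aIdF R ≠ 0) : R.card = 0 ∧ ∑ i ∈ R, i = 0 := by
  have : R = ∅ := by
    by_contra h'
    exact h (if_neg h')
  simp [this]

lemma tab_s2 (m : ℕ) (R : Finset ℕ) (h : aBF m aIdF R ≠ 0) : R.card = 2 ∧ ∑ i ∈ R, i = m + 1 := by
  simpa using aBF_supp tab_s0 R h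

lemma tab_s3 (k m : ℕ) (R : Finset ℕ) (h : aAnnF k (aBF m aIdF) R ≠ 0) :
    R.card = 3 ∧ ∑ i ∈ R, i = m + 1 + k :=
  aAnnF_supp (tab_s2 m) R h

lemma tab_s4 (p m : ℕ) (R : Finset ℕ) (h : aBF p (aBF m aIdF) R ≠ 0) :
    R.card = 4 ∧ ∑ i ∈ R, i = m + 1 + p + 1 :=
  aBF_supp (tab_s2 m) R h

lemma tab_p2 (c2 : List (ℕ × ℤ)) {R : Finset ℕ} (h : R.card ≠ 2) (R' : Finset ℕ) :
    (c2.map fun e => e.2 * aBF e.1 aIdF R * aBF e.1 aIdF R').sum = 0 :=
  tab_zero _ _ fun e => by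
    have : aBF e.1 aIdF R = 0 := by
      by_contra h'
      exact h (tab_s2 _ _ h').1
    rw [this, mul_zero, zero_mul]

lemma tab_p3 (c3 : CI) {R : Finset ℕ} (h : R.card ≠ 3) (R' : Finset ℕ) :
    (c3.map fun e => e.2.2.2.2 * aAnnF e.2.1 (aBF e.1 aIdF) R *
      aAnnF e.2.2.2.1 (aBF e.2.2.1 aIdF) R').sum = 0 :=
  tab_zero _ _ fun e => by
    have : aAnnF e.2.1 (aBF e.1 aIdF) R = 0 := by
      by_contra h'
      exact h (tab_s3 _ _ _ h').1
    rw [this, mul_zero, zero_mul]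

lemma tab_p4 (c4 : CI) {R : Finset ℕ} (h : R.card ≠ 4) (R' : Finset ℕ) :
    (c4.map fun e => e.2.2.2.2 * aBF e.2.1 (aBF e.1 aIdF) R *
      aBF e.2.2.2.1 (aBF e.2.2.1 aIdF) R').sum = 0 :=
  tab_zero _ _ fun e => by
    have : aBF e.2.1 (aBF e.1 aIdF) R = 0 := by
      by_contra h'
      exact h (tab_s4 _ _ _ h').1
    rw [this, mul_zero, zero_mul]

lemma tab_q2 (c2 : List (ℕ × ℤ)) (c3 c4 : CI) {l l' : List ℕ} (hl : l.Nodup) (hl' : l'.Nodup)
    (hc : l.toFinset.card = 2) {d : ℕ} (hd : ∑ i ∈ l.toFinset, i = d) :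
    dotI ((c2.filter fun e => e.1 + 1 = d).map fun e => e.2 * aB e.1 aId l)
      ((c2.filter fun e => e.1 + 1 = d).map fun e => aB e.1 aId l') =
      K0F c2 c3 c4 l.toFinset l'.toFinset := by
  rw [K0F, tab_p3 c3 (by omega), tab_p4 c4 (by omega), add_zero, add_zero, tab_dot]
  simp only [tab_B tab_id _ l hl, tab_B tab_id _ l' hl']
  refine tab_filter _ _ _ fun e he => ?_
  have := (tab_s2 _ _ (right_ne_zero_of_mul (left_ne_zero_of_mul he))).2
  simp only [decide_eq_true_eq]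
  omega

lemma tab_q3 (c2 : List (ℕ × ℤ)) (c3 c4 : CI) {l l' : List ℕ} (hl : l.Nodup) (hl' : l'.Nodup)
    (hc : l.toFinset.card = 3) {d : ℕ} (hd : ∑ i ∈ l.toFinset, i = d) :
    dotI ((c3.filter fun e => e.1 + e.2.1 + 1 = d).map fun e =>
        e.2.2.2.2 * aAnn e.2.1 (aB e.1 aId) l)
      ((c3.filter fun e => e.1 + e.2.1 + 1 = d).map fun e => aAnn e.2.2.2.1 (aB e.2.2.1 aId) l') =
      K0F c2 c3 c4 l.toFinset l'.toFinset := by
  rw [K0F, tab_p2 c2 (by omega), tab_p4 c4 (by omega), add_zero, zero_add, tab_dot]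
  simp only [tab_ann (tab_B tab_id _) _ l hl, tab_ann (tab_B tab_id _) _ l' hl']
  refine tab_filter _ _ _ fun e he => ?_
  have := (tab_s3 _ _ _ (right_ne_zero_of_mul (left_ne_zero_of_mul he))).2
  simp only [decide_eq_true_eq]
  omega

lemma tab_q4 (c2 : List (ℕ × ℤ)) (c3 c4 : CI) {l l' : List ℕ} (hl : l.Nodup) (hl' : l'.Nodup)
    (hc : l.toFinset.card = 4) {d : ℕ} (hd : ∑ i ∈ l.toFinset, i = d) :
    dotI ((c4.filter fun e => e.1 + e.2.1 + 2 = d).map fun e =>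
        e.2.2.2.2 * aB e.2.1 (aB e.1 aId) l)
      ((c4.filter fun e => e.1 + e.2.1 + 2 = d).map fun e => aB e.2.2.2.1 (aB e.2.2.1 aId) l') =
      K0F c2 c3 c4 l.toFinset l'.toFinset := by
  rw [K0F, tab_p2 c2 (by omega), tab_p3 c3 (by omega), add_zero, zero_add, tab_dot]
  simp only [tab_B (tab_B tab_id _) _ l hl, tab_B (tab_B tab_id _) _ l' hl']
  refine tab_filter _ _ _ fun e he => ?_
  have := (tab_s4 _ _ _ (right_ne_zero_of_mul (left_ne_zero_of_mul he))).2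
  simp only [decide_eq_true_eq]
  omega

lemma tab_sum_lt {n : ℕ} {R : Finset ℕ} (h : R ⊆ range n) (h4 : R.card ≤ 4) :
    ∑ i ∈ R, i < 4 * n + 1 := by
  have h1 : ∑ i ∈ R, i ≤ R.card • n :=
    sum_le_card_nsmul _ _ _ fun i hi => (mem_range.1 (h hi)).le
  have h2 : R.card * n ≤ 4 * n := Nat.mul_le_mul_right n h4
  rw [smul_eq_mul] at h1
  omega

theorem tableOK_of_check (KI : ℕ → ℕ → ℤ) (n : ℕ) (c2 : List (ℕ × ℤ)) {c3 c4 : CI}
    (h3 : DegOK c3) (h4 : DegOK c4) (h : ∀ d < 4 * n + 1, tableChk KI n c2 c3 c4 d = true) :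
    TableOK KI n (KF c2 c3 c4) := by
  intro R R' hR hR' hc h4' hs
  obtain ⟨l, hl, rfl⟩ : ∃ l ∈ blk n R.card (∑ i ∈ R, i), l.toFinset = R := exists_blk hR
  obtain ⟨l', hl', rfl⟩ : ∃ l' ∈ blk n R'.card (∑ i ∈ R', i), l'.toFinset = R' := exists_blk hR'
  have nl := (blk_spec hl).1
  have nl' := (blk_spec hl').1
  rw [← hc, ← hs] at hl'
  have hd := h _ (tab_sum_lt hR h4')
  simp only [tableChk, Bool.and_eq_true] at hd
  obtain ⟨⟨⟨⟨k0, k1⟩, k2⟩, k3⟩, k4⟩ := hd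
  rw [← tab_key nl, ← tab_key nl', KF]
  have z : l.toFinset.card ≤ 1 →
      K0F c2 c3 c4 l.toFinset l'.toFinset + K0F c2 c3 c4 l'.toFinset l.toFinset = 0 := fun h1 => by
    rw [K0F, K0F, tab_p2 c2 (by omega), tab_p3 c3 (by omega), tab_p4 c4 (by omega),
      tab_p2 c2 (by omega), tab_p3 c3 (by omega), tab_p4 c4 (by omega)]
    rfl
  obtain e | e | e | e | e : l.toFinset.card = 0 ∨ l.toFinset.card = 1 ∨ l.toFinset.card = 2 ∨
      l.toFinset.card = 3 ∨ l.toFinset.card = 4 := by omega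
  · rw [e] at hl hl'
    rw [tab_kchk k0 hl hl', z (by omega)]
    rfl
  · rw [e] at hl hl'
    rw [tab_kchk k1 hl hl', z (by omega)]
    rfl
  · rw [e] at hl hl'
    rw [tab_kchk k2 hl hl', tab_q2 c2 c3 c4 nl nl' e rfl, tab_q2 c2 c3 c4 nl' nl (hc ▸ e) hs.symm]
  · rw [e] at hl hl'
    rw [tab_kchk k3 hl hl', tab_q3 c2 c3 c4 nl nl' e rfl, tab_q3 c2 c3 c4 nl' nl (hc ▸ e) hs.symm]
  · rw [e] at hl hl'
    rw [tab_kchk k4 hl hl', tab_q4 c2 c3 c4 nl nl' e rfl, tab_q4 c2 c3 c4 nl' nl (hc ▸ e) hs.symm]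

end Crest.Agent.R340
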