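import Crest.Agent.R340.FgCk1
import Crest.Agent.R340.FgCk2
import Crest.Agent.R340.FgCk3
import Crest.Agent.R340.FgCk4
import Crest.Agent.R340.FgCk5
import Crest.Agent.R340.FgCk6
import Crest.Agent.R340.FgCk7
import Crest.Agent.R340.FgForm
import Crest.Agent.R340.FgTab
import Crest.Agent.R340.FgRep
import Crest.Agent.R340.FgOscF
import Crest.Agent.R340.FgGap

/-! Row 340: the certificate and the Fock-space gap `H² ≥ 0.07 H`. -/

set_option autoImplicit false
set_option maxRecDepth 100000

namespace Crest.Agent.R340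

open Finset

theorem cert_idx : LocalIdx 9 (toC2 SCq c2I) (toCL SCq c3I) (toCL SCq c4I) := by
  unfold LocalIdx
  decide +kernel

theorem cert_deg3 : DegOK c3I := by
  unfold DegOK
  decide +kernel

theorem cert_deg4 : DegOK c4I := by
  unfold DegOK
  decide +kernel

theorem cert_blocks : ∀ N ≤ 10, ∀ d ≤ 45, bchk KI 362880 10 N d = true := by
  intro N hN d hd
  have hd' : d < 46 := by omega
  interval_cases N
  exacts [ck_blk0 d hd', ck_blk1 d hd', ck_blk2 d hd', ck_blk3 d hd', ck_blk4 d hd',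
    ck_blk5 d hd', ck_blk6 d hd', ck_blk7 d hd', ck_blk8 d hd', ck_blk9 d hd', ck_blk10 d hd']

theorem cert_local : LocalPSD 9 (toC2 SCq c2I) (toCL SCq c3I) (toCL SCq c4I) := by
  refine localPSD_of_MF 9 c2I c3I c4I SCq (by unfold SCq; norm_num) cert_idx fun φ => ?_
  refine form_nonneg_of_check (KI := KI) (W := 362880) (D := 45)
    (KF_supp c2I cert_deg3 cert_deg4) (KF_symm c2I c3I c4I)
    (tableOK_of_check KI 10 c2I cert_deg3 cert_deg4 ck_tab) (by norm_num) ?_ (by decide)
    cert_blocks φ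
  intro t ht
  exact Nat.factorial_dvd_factorial (n := 9) (by omega)

theorem cert_planar : PlanarBound (toC2 SCq c2I) (toCL SCq c3I) (toCL SCq c4I)
    (certCost (toC2 SCq c2I) aQ : ℝ) :=
  planar_of_checks _ aQ _ _ 50 60 (by decide +kernel)
    (oscOK_of_fast 2 1 50 (by norm_num) _ ck_deg3 fun l hl => ck_osc3 l (by omega))
    (oscOK_of_fast 2 2 60 (by norm_num) _ ck_deg4 fun l hl => ck_osc4 l (by omega))

theorem cert_cost : certCost (toC2 SCq c2I) aQ < 92 / 100 := by
  decide +kernel

/-- `H² ≥ 0.07 H` on the whole Fock space for large flux. -/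
theorem fockGap_cert : ∃ Q₀ : ℕ, ∀ Q : ℕ, Q₀ ≤ Q → FockGap Q (7 / 100) := by
  refine fockGap_of_cert cert_idx cert_local cert_planar ?_
  have h : ((certCost (toC2 SCq c2I) aQ : ℚ) : ℝ) < ((92 / 100 : ℚ) : ℝ) := by
    exact_mod_cast cert_cost
  push_cast at h
  linarith

end Crest.Agent.R340
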