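import Crest.Agent.R340.Bridge
import Crest.Agent.R340.FgCert

/-! Row 340: the Fock-space inequality `H² ≥ γ H` for large flux (certificate + averaging). -/

set_option autoImplicit false

namespace Crest.Agent.R340

open Matrix

lemma FockGap.mono {Q : ℕ} {γ γ' : ℝ} (h : FockGap Q γ) (hle : γ' ≤ γ) : FockGap Q γ' := by
  intro Φ
  have h0 : 0 ≤ Φ ⬝ᵥ (Hf Q *ᵥ Φ) := by
    rw [dot_Hf]
    exact Finset.sum_nonneg fun p _ => Finset.sum_nonneg fun i _ => mul_self_nonneg _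
  exact (mul_le_mul_of_nonneg_right hle h0).trans (h Φ)

theorem fockGap_main :
    ∃ Q₀ : ℕ, ∀ Q : ℕ, Q₀ ≤ Q → FockGap Q (4616733319001 / 10 ^ 14) := by
  obtain ⟨Q₀, h⟩ := fockGap_cert
  exact ⟨Q₀, fun Q hQ => (h Q hQ).mono (by norm_num)⟩

/-- The `T4`-free inequality `H² ≥ γ H + Σ_p B_p^T H B_p`. -/
def FockGap0 (Q : ℕ) (γ : ℝ) : Prop :=
  ∀ Φ : Finset (Fin (Q + 1)) → ℝ,
    γ * (Φ ⬝ᵥ (Hf Q *ᵥ Φ)) + ∑ p, (Bop Q p *ᵥ Φ) ⬝ᵥ (Hf Q *ᵥ (Bop Q p *ᵥ Φ)) ≤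
      (Hf Q *ᵥ Φ) ⬝ᵥ (Hf Q *ᵥ Φ)

end Crest.Agent.R340
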