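import Crest.Agent.R340.FwMain
import Crest.Agent.R340.CBridge
import Crest.Agent.R340.Main

/-! # FLOW: the statement S0532 from the outputs of LOC and SELF + (Q) -/

set_option autoImplicit false

namespace Crest.Agent.R340.Fw

open MeasureTheory Matrix Crest.Agent.R340.Filt Crest.MathPhysics.Laughlin
open scoped Matrix.Norms.L2Operator MatrixOrder ComplexOrder

/-- output of LOC -/
def LocOut (mu : ℕ → Measure S2) (dq : ℕ → S2 → S2 → ℝ) (coh hd : (Q : ℕ) → S2 → Fk (Q + 1)) :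
    Prop :=
  ∃ (cv cr : ℝ → ℝ) (K0 v : ℝ) (Q₀ : ℕ), 1 ≤ v ∧ (∀ a, 0 ≤ cr a) ∧ ∀ Q, Q₀ ≤ Q →
    Frame cv cr K0 (mu Q) (dq Q) (coh Q) (numC (Q + 1)) ∧
    Ham K0 (mu Q) (dq Q) (coh Q) (numC (Q + 1)) (hd Q) (HC Q) ∧
    (∀ ψ, HC Q *ᵥ ψ = 0 → ∀ x, hd Q x *ᵥ ψ = 0) ∧
    ∀ φ : S2 → ℝ, Measurable φ → (∀ x, |φ x| ≤ 1) →
      dG (toeplitz Q φ) = pot (mu Q) (coh Q) φ ∧
        LR (coh Q) (dq Q) (numC (Q + 1)) (HC Q + pot (mu Q) (coh Q) φ) v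

/-- output of SELF + (Q) -/
def RelOut (mu : ℕ → Measure S2) (dq : ℕ → S2 → S2 → ℝ) (coh : (Q : ℕ) → S2 → Fk (Q + 1)) :
    Prop :=
  ∀ a : ℝ, 0 < a → a ≤ 1 → ∃ (R : ℝ) (N₀ : ℕ), ∀ N, N₀ ≤ N →
    ∀ ψ, secP (3 * (N - 1) + 1) N *ᵥ ψ = ψ → star ψ ⬝ᵥ ψ = 1 → HC (3 * (N - 1)) *ᵥ ψ = 0 →
      Rel (mu (3 * (N - 1))) (dq (3 * (N - 1))) (coh (3 * (N - 1))) (numC (3 * (N - 1) + 1))
        (secP (3 * (N - 1) + 1) N) (HC (3 * (N - 1))) ψ a R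

theorem s0532_of {mu : ℕ → Measure S2} {dq : ℕ → S2 → S2 → ℝ}
    {coh hd : (Q : ℕ) → S2 → Fk (Q + 1)} (hL : LocOut mu dq coh hd) (hR : RelOut mu dq coh) :
    ∃ c₀ Δ : ℝ, 0 < c₀ ∧ 0 < Δ ∧ ∃ N₀ : ℕ, ∀ N : ℕ, N₀ ≤ N →
      ∀ φ : S2 → ℝ, Measurable φ → (∀ x, |φ x| ≤ 1) → ∀ c : ℝ, |c| ≤ c₀ →
        HasFermionicGap
          (interaction (3 * (N - 1)) N +
            (c : ℂ) • oneBody N (toeplitz (3 * (N - 1)) φ)) Δ := by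
  obtain ⟨cv, cr, K0, v, Q₀, hv, hcr, hL⟩ := hL
  obtain ⟨Q₁, hQ₁⟩ := fockGap_main
  obtain ⟨a, ha, ha1, hmain⟩ := flow_main cv cr K0 v (4616733319001 / 10 ^ 14) (by norm_num) hv hcr
  obtain ⟨R, N₀, hR⟩ := hR a ha ha1
  obtain ⟨η, hη0, hη1, hmain⟩ := hmain R
  refine ⟨η, 4616733319001 / 10 ^ 14 / 2, hη0, by norm_num, N₀ + Q₀ + Q₁ + 2, ?_⟩
  intro N hN φ hφ hφ1 c hc
  have hN2 : 2 ≤ N := by omega
  obtain ⟨F, hH, hz, hP⟩ := hL (3 * (N - 1)) (by omega)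
  obtain ⟨ψ, -, h0⟩ := exists_GS0 N hN2 (by norm_num) (hQ₁ (3 * (N - 1)) (by omega))
  have hH0 : HC (3 * (N - 1)) *ᵥ ψ = 0 := by simpa using h0.eig
  have hb : ∀ x, |c * φ x| ≤ η := fun x => by
    rw [abs_mul]
    calc |c| * |φ x| ≤ η * 1 := mul_le_mul hc (hφ1 x) (abs_nonneg _) hη0.le
      _ = η := mul_one _
  obtain ⟨ψ', E, hG⟩ := hmain (mu _) (dq _) (coh _) (hd _) _ _ _ ψ (fun x => c * φ x) F hH
    (secP_proj _ N) (fun A hA => commute_secP hA N) h0 (hz ψ hH0)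
    (hR N (by omega) ψ h0.sec h0.norm hH0) (hφ.const_mul c) hb (fun r hr => by
      rw [← pot_mul]
      refine (hP _ ((hφ.const_mul c).const_mul r) fun x => ?_).2
      rw [abs_mul, abs_of_nonneg hr.1]
      calc r * |c * φ x| ≤ 1 * 1 :=
            mul_le_mul hr.2 ((hb x).trans hη1) (abs_nonneg _) zero_le_one
        _ = 1 := mul_one _)
  rw [pot_mul, ← (hP φ hφ hφ1).1] at hG
  exact hasGap_of_GS hN2 _ c hG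

end Crest.Agent.R340.Fw
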