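import Mathlib

/-! # FILT: linear ODE in a Banach space (copied from `R202/AOde.lean`) -/

set_option autoImplicit false

open Set

namespace Crest.Agent.R340.Filt

variable {E : Type} [NormedAddCommGroup E] [NormedSpace ℝ E]

/-- two-sided Gronwall inequality -/
theorem gron2 {f f' : ℝ → E} {a b s δ M ε : ℝ} (hδ : 0 ≤ δ) (hM : 0 ≤ M) (hε : 0 ≤ ε)
    (hf : ∀ t ∈ Icc a b, HasDerivWithinAt f (f' t) (Icc a b) t) (hs : s ∈ Icc a b)
    (h0 : ‖f s‖ ≤ δ) (hb : ∀ t ∈ Icc a b, ‖f' t‖ ≤ M * ‖f t‖ + ε) :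
    ∀ t ∈ Icc a b, ‖f t‖ ≤ gronwallBound δ M ε (b - a) := by
  have hc : ContinuousOn f (Icc a b) := fun t ht => (hf t ht).continuousWithinAt
  intro t ht
  rcases le_total s t with h | h
  · have h1 := norm_le_gronwallBound_of_norm_deriv_right_le (f := f) (f' := f') (a := s) (b := b)
      (K := M) (ε := ε) (δ := δ) (hc.mono (Icc_subset_Icc_left hs.1))
      (fun x hx => (hf x ⟨hs.1.trans hx.1, hx.2.le⟩).mono_of_mem_nhdsWithin
        (Filter.mem_of_superset (Icc_mem_nhdsGE hx.2) (Icc_subset_Icc_left (hs.1.trans hx.1))))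
      h0 (fun x hx => hb x ⟨hs.1.trans hx.1, hx.2.le⟩) t ⟨h, ht.2⟩
    exact h1.trans (gronwallBound_mono hδ hε hM (by linarith [ht.2, hs.1]))
  · have hm : MapsTo (fun x : ℝ => -x) (Icc (-s) (-a)) (Icc a b) := fun x hx =>
      ⟨by linarith [hx.2], by linarith [hx.1, hs.2]⟩
    have h1 := norm_le_gronwallBound_of_norm_deriv_right_le (f := fun x => f (-x))
      (f' := fun x => -f' (-x)) (a := -s) (b := -a) (K := M) (ε := ε) (δ := δ)
      (hc.comp continuousOn_neg hm)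
      (fun x hx => by
        have h2 : HasDerivWithinAt (fun x => f (-x)) ((-1 : ℝ) • f' (-x)) (Icc (-s) (-a)) x :=
          (hf (-x) (hm (Ico_subset_Icc_self hx))).scomp x (hasDerivAt_neg x).hasDerivWithinAt hm
        rw [neg_one_smul] at h2
        exact h2.mono_of_mem_nhdsWithin
          (Filter.mem_of_superset (Icc_mem_nhdsGE hx.2) (Icc_subset_Icc_left hx.1)))
      (by simpa using h0)
      (fun x hx => by simpa using hb (-x) (hm (Ico_subset_Icc_self hx))) (-t)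
      ⟨by linarith, by linarith [ht.1]⟩
    rw [neg_neg] at h1
    exact h1.trans (gronwallBound_mono hδ hε hM (by linarith [ht.1, hs.2]))

theorem lin_unique' {A : ℝ → E →L[ℝ] E} {a b : ℝ} (hA : ContinuousOn A (Icc a b)) {x y : ℝ → E}
    (hx : ∀ t ∈ Icc a b, HasDerivWithinAt x (A t (x t)) (Icc a b) t)
    (hy : ∀ t ∈ Icc a b, HasDerivWithinAt y (A t (y t)) (Icc a b) t)
    {s : ℝ} (hs : s ∈ Icc a b) (h : x s = y s) : ∀ t ∈ Icc a b, x t = y t := by
  obtain ⟨M, hM⟩ := isCompact_Icc.exists_bound_of_continuousOn hA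
  have hM0 : 0 ≤ M := (norm_nonneg _).trans (hM s hs)
  intro t ht
  have h1 := gron2 (f := fun t => x t - y t) (f' := fun t => A t (x t) - A t (y t)) (δ := 0)
    (ε := 0) le_rfl hM0 le_rfl (fun t ht => (hx t ht).sub (hy t ht)) hs (by simp [h])
    (fun t ht => by
      rw [← map_sub, add_zero]
      exact ((A t).le_opNorm _).trans (mul_le_mul_of_nonneg_right (hM t ht) (norm_nonneg _))) t ht
  rw [gronwallBound_ε0_δ0, norm_le_zero_iff, sub_eq_zero] at h1
  exact h1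

theorem exists_Icc [CompleteSpace E] {A : ℝ → E →L[ℝ] E} {a b : ℝ}
    (hA : ContinuousOn A (Icc a b)) {s : ℝ} (hs : s ∈ Icc a b) (x₀ : E) :
    ∃ x : ℝ → E, x s = x₀ ∧ ∀ t ∈ Icc a b, HasDerivWithinAt x (A t (x t)) (Icc a b) t := by
  obtain ⟨M, hM⟩ := isCompact_Icc.exists_bound_of_continuousOn hA
  have hM0 : 0 ≤ M := (norm_nonneg _).trans (hM s hs)
  have hab : 0 ≤ b - a := by linarith [hs.1, hs.2]
  set R : ℝ := gronwallBound ‖x₀‖ M 0 (b - a) with hR
  have hR0 : 0 ≤ R := by rw [hR, gronwallBound_ε0]; positivity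
  let c : E → ℝ := fun x => max 0 (min 1 (R + 1 - ‖x‖))
  have c0 : ∀ x, 0 ≤ c x := fun x => le_max_left _ _
  have c1 : ∀ x, c x ≤ 1 := fun x => max_le zero_le_one (min_le_left _ _)
  have cl : ∀ x y, |c x - c y| ≤ ‖x - y‖ := fun x y => by
    refine (abs_max_sub_max_le_max _ _ _ _).trans (max_le (by simp) ?_)
    refine (abs_min_sub_min_le_max _ _ _ _).trans (max_le (by simp) ?_)
    have := abs_norm_sub_norm_le y x
    rw [norm_sub_rev] at this
    rwa [show R + 1 - ‖x‖ - (R + 1 - ‖y‖) = ‖y‖ - ‖x‖ by ring]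
  have cb : ∀ x, c x * ‖x‖ ≤ R + 1 := fun x => by
    rcases le_total ‖x‖ (R + 1) with h | h
    · nlinarith [c0 x, c1 x, norm_nonneg x]
    · have : c x = 0 := max_eq_left ((min_le_right _ _).trans (by linarith))
      rw [this]; linarith
  have hAx : ∀ t ∈ Icc a b, ∀ x, ‖A t x‖ ≤ M * ‖x‖ := fun t ht x =>
    ((A t).le_opNorm _).trans (mul_le_mul_of_nonneg_right (hM t ht) (norm_nonneg _))
  have hL0 : 0 ≤ M * (R + 1) := by positivity
  have ha0 : 0 ≤ M * (R + 1) * (b - a) := by positivity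
  have hK0 : 0 ≤ M * (‖x₀‖ + M * (R + 1) * (b - a)) + M := by positivity
  have hpl : IsPicardLindelof (fun t x => c x • A t x) (⟨s, hs⟩ : Icc a b) x₀
      ⟨_, ha0⟩ 0 ⟨_, hL0⟩ ⟨_, hK0⟩ := by
    refine ⟨fun t ht => LipschitzOnWith.of_dist_le_mul fun x hx y _ => ?_, fun x _ => ?_,
      fun t ht x _ => ?_, ?_⟩
    · rw [dist_eq_norm, dist_eq_norm]
      have hx' : ‖x‖ ≤ ‖x₀‖ + M * (R + 1) * (b - a) := by
        have h1 : ‖x - x₀‖ ≤ M * (R + 1) * (b - a) := mem_closedBall_iff_norm.1 hx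
        linarith [norm_le_insert' x x₀]
      have e : c x • A t x - c y • A t y = (c x - c y) • A t x + c y • A t (x - y) := by
        rw [map_sub, sub_smul, smul_sub]; abel
      rw [e]
      refine (norm_add_le _ _).trans ?_
      rw [norm_smul, norm_smul, Real.norm_eq_abs, Real.norm_eq_abs, abs_of_nonneg (c0 y)]
      have h1 : |c x - c y| * ‖A t x‖ ≤ ‖x - y‖ * (M * (‖x₀‖ + M * (R + 1) * (b - a))) :=
        mul_le_mul (cl x y) ((hAx t ht x).trans (mul_le_mul_of_nonneg_left hx' hM0))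
          (norm_nonneg _) (norm_nonneg _)
      have h2 : c y * ‖A t (x - y)‖ ≤ 1 * (M * ‖x - y‖) :=
        mul_le_mul (c1 y) (hAx t ht _) (norm_nonneg _) zero_le_one
      change _ ≤ (M * (‖x₀‖ + M * (R + 1) * (b - a)) + M) * ‖x - y‖
      linarith
    · exact (hA.clm_apply continuousOn_const).const_smul (c x)
    · rw [norm_smul, Real.norm_eq_abs, abs_of_nonneg (c0 x)]
      change _ ≤ M * (R + 1)
      calc c x * ‖A t x‖ ≤ c x * (M * ‖x‖) := mul_le_mul_of_nonneg_left (hAx t ht x) (c0 x)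
        _ = M * (c x * ‖x‖) := by ring
        _ ≤ M * (R + 1) := mul_le_mul_of_nonneg_left (cb x) hM0
    · change M * (R + 1) * max (b - s) (s - a) ≤ M * (R + 1) * (b - a) - 0
      rw [sub_zero]
      exact mul_le_mul_of_nonneg_left (max_le (by linarith [hs.1]) (by linarith [hs.2])) hL0
  obtain ⟨x, hx0, hx⟩ := hpl.exists_eq_forall_mem_Icc_hasDerivWithinAt₀
  have hb := gron2 (δ := ‖x₀‖) (ε := 0) (norm_nonneg _) hM0 le_rfl hx hs (by
    have : x s = x₀ := hx0
    rw [this]) (fun t ht => by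
      rw [norm_smul, Real.norm_eq_abs, abs_of_nonneg (c0 _), add_zero]
      calc c (x t) * ‖A t (x t)‖ ≤ 1 * (M * ‖x t‖) :=
            mul_le_mul (c1 _) (hAx t ht _) (norm_nonneg _) zero_le_one
        _ = _ := one_mul _)
  refine ⟨x, hx0, fun t ht => ?_⟩
  have h1 : c (x t) = 1 := by
    have h2 : min 1 (R + 1 - ‖x t‖) = 1 := min_eq_left (by linarith [hb t ht])
    simp only [c, h2]; exact max_eq_right zero_le_one
  simpa [h1] using hx t ht

theorem exists_lin [CompleteSpace E] {A : ℝ → E →L[ℝ] E} (hA : Continuous A) (s : ℝ) (x₀ : E) :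
    ∃ x : ℝ → E, x s = x₀ ∧ ∀ t, HasDerivAt x (A t (x t)) t := by
  have hs : ∀ n : ℕ, s ∈ Icc (s - n) (s + n) := fun n =>
    ⟨by linarith [Nat.cast_nonneg (α := ℝ) n], by linarith [Nat.cast_nonneg (α := ℝ) n]⟩
  choose α h0 hα using fun n : ℕ => exists_Icc (a := s - n) (b := s + n) hA.continuousOn (hs n) x₀
  have hu : ∀ n m : ℕ, n ≤ m → ∀ t ∈ Icc (s - n) (s + n), α n t = α m t := fun n m h => by
    have h' : (n : ℝ) ≤ m := Nat.cast_le.2 h
    have hsub : Icc (s - n) (s + n) ⊆ Icc (s - m) (s + m) :=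
      Icc_subset_Icc (by linarith) (by linarith)
    exact lin_unique' hA.continuousOn (hα n) (fun t ht => (hα m t (hsub ht)).mono hsub) (hs n)
      (by rw [h0, h0])
  refine ⟨fun t => α ⌈|t - s|⌉₊ t, h0 _, fun t => ?_⟩
  set N : ℕ := ⌈|t - s|⌉₊ + 1 with hN
  have hN' : |t - s| + 1 ≤ N := by
    rw [hN]; push_cast; linarith [Nat.le_ceil |t - s|]
  have he : ∀ t' ∈ Ioo (t - 1) (t + 1), α ⌈|t' - s|⌉₊ t' = α N t' := fun t' ht' => by
    have h1 := Nat.le_ceil |t' - s|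
    refine hu _ _ (Nat.ceil_le.2 (abs_le.2 ⟨?_, ?_⟩)) t' ⟨?_, ?_⟩
    · linarith [ht'.1, neg_abs_le (t - s)]
    · linarith [ht'.2, le_abs_self (t - s)]
    · linarith [neg_abs_le (t' - s)]
    · linarith [le_abs_self (t' - s)]
  have ht : t ∈ Ioo (t - 1) (t + 1) := ⟨by linarith, by linarith⟩
  have h1 : s - N < t := by linarith [neg_abs_le (t - s)]
  have h2 : t < s + N := by linarith [le_abs_self (t - s)]
  have h3 := (hα N t ⟨h1.le, h2.le⟩).hasDerivAt (Icc_mem_nhds h1 h2)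
  rw [← he t ht] at h3
  exact h3.congr_of_eventuallyEq
    (Filter.eventually_of_mem (Ioo_mem_nhds ht.1 ht.2) fun t' ht' => he t' ht')

theorem lin_unique_univ {A : ℝ → E →L[ℝ] E} (hA : Continuous A) {x y : ℝ → E}
    (hx : ∀ t, HasDerivAt x (A t (x t)) t) (hy : ∀ t, HasDerivAt y (A t (y t)) t)
    (h : x 0 = y 0) (t : ℝ) : x t = y t :=
  lin_unique' (a := min 0 t) (b := max 0 t) hA.continuousOn
    (fun t _ => (hx t).hasDerivWithinAt) (fun t _ => (hy t).hasDerivWithinAt)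
    ⟨min_le_left _ _, le_max_left _ _⟩ h t ⟨min_le_right _ _, le_max_right _ _⟩

end Crest.Agent.R340.Filt
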