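import Crest.Agent.R340.FiltDefs
import Crest.Agent.R340.FiltOde

/-! # FILT: time dependent unitary flows -/

set_option autoImplicit false

namespace Crest.Agent.R340.Filt

open MeasureTheory Complex

variable {𝔄 : Type} [CStarAlgebra 𝔄] {D E U V : ℝ → 𝔄} {A B : 𝔄}

/-- `X ↦ i A X` -/
noncomputable def fa_L (A : 𝔄) : 𝔄 →L[ℝ] 𝔄 := ContinuousLinearMap.mul ℝ 𝔄 (I • A)

/-- `X ↦ i X A` -/
noncomputable def fa_R (A : 𝔄) : 𝔄 →L[ℝ] 𝔄 := (ContinuousLinearMap.mul ℝ 𝔄).flip (I • A)

theorem fa_L_apply (A X : 𝔄) : fa_L A X = I • (A * X) := by simp [fa_L]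

theorem fa_R_apply (A X : 𝔄) : fa_R A X = I • (X * A) := by simp [fa_R]

theorem fa_contL (hD : Continuous D) : Continuous fun s => fa_L (D s) :=
  (ContinuousLinearMap.mul ℝ 𝔄).continuous.comp (hD.const_smul I)

theorem fa_contR (hD : Continuous D) : Continuous fun s => fa_R (D s) :=
  (ContinuousLinearMap.mul ℝ 𝔄).flip.continuous.comp (hD.const_smul I)

theorem exists_flow (hD : Continuous D) : ∃ U : ℝ → 𝔄, IsFlow D U := by
  obtain ⟨U, h0, hU⟩ := exists_lin (fa_contL hD) 0 (1 : 𝔄)
  exact ⟨U, h0, fun s => by simpa [fa_L_apply] using hU s⟩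

theorem IsFlow.continuous (h : IsFlow D U) : Continuous U := by
  exact continuous_iff_continuousAt.2 fun s => (h.deriv s).continuousAt

theorem IsFlow.unique (hD : Continuous D) (h : IsFlow D U) (h' : IsFlow D V) : U = V := by
  funext t
  exact lin_unique_univ (fa_contL hD) (fun s => by simpa [fa_L_apply] using h.deriv s)
    (fun s => by simpa [fa_L_apply] using h'.deriv s) (h.zero.trans h'.zero.symm) t

theorem IsFlow.deriv_star (h : IsFlow D U) (hs : ∀ s, IsSelfAdjoint (D s)) (s : ℝ) :
    HasDerivAt (fun s => star (U s)) (-(I • (star (U s) * D s))) s := by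
  have h1 := (h.deriv s).star
  rwa [star_smul, star_mul, (hs s).star_eq, Complex.star_def, Complex.conj_I, neg_smul] at h1

theorem IsFlow.unitary (hD : Continuous D) (hs : ∀ s, IsSelfAdjoint (D s)) (h : IsFlow D U)
    (s : ℝ) : U s ∈ unitary 𝔄 := by
  refine Unitary.mem_iff.2 ⟨?_, ?_⟩
  · have h1 : ∀ t, HasDerivAt (fun t => star (U t) * U t) 0 t := fun t => by
      refine ((h.deriv_star hs t).mul (h.deriv t)).congr_deriv ?_
      simp [mul_assoc]
    have := is_const_of_deriv_eq_zero (fun t => (h1 t).differentiableAt)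
      (fun t => (h1 t).deriv) s 0
    simpa [h.zero] using this
  · refine lin_unique_univ ((fa_contL hD).sub (fa_contR hD)) (x := fun t => U t * star (U t))
      (y := fun _ => 1) (fun t => ?_) (fun t => ?_) (by simp [h.zero]) s
    · refine ((h.deriv t).mul (h.deriv_star hs t)).congr_deriv ?_
      simp [fa_L_apply, fa_R_apply, mul_assoc, sub_eq_add_neg]
    · refine (hasDerivAt_const t (1 : 𝔄)).congr_deriv ?_
      simp [fa_L_apply, fa_R_apply]

theorem IsFlow.commute (hD : Continuous D) (h : IsFlow D U) (hc : ∀ s, Commute B (D s)) (s : ℝ) :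
    Commute B (U s) := by
  refine lin_unique_univ (fa_contL hD) (x := fun t => B * U t) (y := fun t => U t * B)
    (fun t => ?_) (fun t => ?_) (by simp [h.zero]) s
  · refine ((h.deriv t).const_mul B).congr_deriv ?_
    rw [fa_L_apply, mul_smul_comm, ← mul_assoc, ← mul_assoc, (hc t).eq]
  · refine ((h.deriv t).mul_const B).congr_deriv ?_
    rw [fa_L_apply, smul_mul_assoc, mul_assoc]

theorem IsFlow.deriv_conj (h : IsFlow D U) (hs : ∀ s, IsSelfAdjoint (D s)) {X : ℝ → 𝔄} {X' : 𝔄}
    {S : Set ℝ} {s : ℝ} (hX : HasDerivWithinAt X X' S s) :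
    HasDerivWithinAt (fun s => star (U s) * X s * U s)
      (star (U s) * (X' - I • (D s * X s - X s * D s)) * U s) S s := by
  refine (((h.deriv_star hs s).hasDerivWithinAt.mul hX).mul
    (h.deriv s).hasDerivWithinAt).congr_deriv ?_
  simp only [Pi.mul_apply, mul_sub, sub_mul, add_mul, neg_mul, smul_sub, mul_smul_comm,
    smul_mul_assoc, mul_assoc]
  abel

theorem flowB_ftc {g g' : ℝ → 𝔄} {m : ℝ → ℝ} (hg : ∀ s, HasDerivAt g (g' s) s)
    (hc : Continuous g') (hm : ∀ s, ‖g' s‖ = m s) (r t : ℝ) :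
    ‖g t - g r‖ ≤ |∫ s in r..t, m s| := by
  rw [← intervalIntegral.integral_eq_sub_of_hasDerivAt (fun s _ => hg s) (hc.intervalIntegrable r t)]
  simpa only [hm] using intervalIntegral.norm_integral_le_abs_integral_norm (f := g') (a := r)
    (b := t) (μ := volume)

theorem flowB_norm {u v : 𝔄} (hu : u ∈ unitary 𝔄) (hv : v ∈ unitary 𝔄) (A : 𝔄) :
    ‖star u * A * v‖ = ‖A‖ := by
  rw [CStarRing.norm_mul_mem_unitary _ hv, CStarRing.norm_mem_unitary_mul _ (Unitary.star_mem hu)]

theorem IsFlow.flowB_conj (h : IsFlow D U) (hs : ∀ s, IsSelfAdjoint (D s)) {X : ℝ → 𝔄} {X' : 𝔄}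
    {s : ℝ} (hX : HasDerivAt X X' s) :
    HasDerivAt (fun s => star (U s) * X s * U s)
      (star (U s) * (X' - I • (D s * X s - X s * D s)) * U s) s :=
  hasDerivWithinAt_univ.1 (h.deriv_conj hs (hasDerivWithinAt_univ.2 hX))

/-- the norm preserving equation `f' = i [X, f] + b` -/
theorem norm_le_of_comm_ode {X f b : ℝ → 𝔄} (hX : Continuous X) (hs : ∀ s, IsSelfAdjoint (X s))
    (hb : Continuous b) (hf : ∀ s, HasDerivAt f (I • (X s * f s - f s * X s) + b s) s) (r t : ℝ) :
    ‖f t‖ ≤ ‖f r‖ + |∫ s in r..t, ‖b s‖| := by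
  obtain ⟨U, hU⟩ := exists_flow hX
  have hu := hU.unitary hX hs
  have hc := hU.continuous
  have h1 := flowB_ftc (g := fun s => star (U s) * f s * U s) (g' := fun s => star (U s) * b s * U s)
    (fun s => by simpa only [add_sub_cancel_left] using hU.flowB_conj hs (hf s))
    ((hc.star.mul hb).mul hc) (fun s => flowB_norm (hu s) (hu s) _) r t
  have h2 := norm_sub_norm_le (star (U t) * f t * U t) (star (U r) * f r * U r)
  rw [flowB_norm (hu t) (hu t), flowB_norm (hu r) (hu r)] at h2
  linarith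

theorem IsFlow.conj_sub_eq (hD : Continuous D) (hs : ∀ s, IsSelfAdjoint (D s)) (h : IsFlow D U)
    (A : 𝔄) (s : ℝ) : star (U s) * A * U s - A =
      ∫ r in (0 : ℝ)..s, star (U r) * (-(I • (D r * A - A * D r))) * U r := by
  have hc := h.continuous
  rw [intervalIntegral.integral_eq_sub_of_hasDerivAt (f := fun r => star (U r) * A * U r)
    (fun r _ => by simpa only [zero_sub] using h.flowB_conj hs (hasDerivAt_const r A))
    (Continuous.intervalIntegrable (by fun_prop) _ _)]
  simp [h.zero]

theorem IsFlow.norm_conj_sub (hD : Continuous D) (hs : ∀ s, IsSelfAdjoint (D s)) (h : IsFlow D U)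
    (A : 𝔄) (s : ℝ) : ‖star (U s) * A * U s - A‖ ≤ |∫ r in (0 : ℝ)..s, ‖D r * A - A * D r‖| := by
  have hu := h.unitary hD hs
  rw [h.conj_sub_eq hD hs]
  refine intervalIntegral.norm_integral_le_abs_integral_norm.trans (le_of_eq ?_)
  congr 2
  funext r
  rw [flowB_norm (hu r) (hu r), norm_neg, norm_smul, norm_I, one_mul]

/-- Duhamel for two flows -/
theorem IsFlow.norm_conj_sub_conj (hD : Continuous D) (hs : ∀ s, IsSelfAdjoint (D s))
    (hE : Continuous E) (hs' : ∀ s, IsSelfAdjoint (E s)) (h : IsFlow D U) (h' : IsFlow E V)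
    (A : 𝔄) (s : ℝ) : ‖star (U s) * A * U s - star (V s) * A * V s‖ ≤
      |∫ r in (0 : ℝ)..s, ‖(D r - E r) * (V r * (star (V s) * A * V s) * star (V r)) -
        (V r * (star (V s) * A * V s) * star (V r)) * (D r - E r)‖| := by
  have hu := h.unitary hD hs
  have hv := h'.unitary hE hs'
  have hc := h.continuous
  have hc' := h'.continuous
  set Y := star (V s) * A * V s with hY
  have hX : ∀ r, HasDerivAt (fun r => V r * Y * star (V r))
      (I • (E r * (V r * Y * star (V r)) - V r * Y * star (V r) * E r)) r := fun r => by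
    refine (((h'.deriv r).mul_const Y).mul (h'.deriv_star hs' r)).congr_deriv ?_
    simp only [smul_add, smul_neg, smul_mul_assoc, mul_neg, mul_smul_comm, mul_assoc,
      sub_eq_add_neg]
  have h1 := flowB_ftc (g := fun r => star (U r) * (V r * Y * star (V r)) * U r)
    (g' := fun r => star (U r) * (-(I • ((D r - E r) * (V r * Y * star (V r)) -
      V r * Y * star (V r) * (D r - E r)))) * U r)
    (m := fun r => ‖(D r - E r) * (V r * Y * star (V r)) - V r * Y * star (V r) * (D r - E r)‖)
    (fun r => by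
      have h2 := h.flowB_conj hs (hX r)
      convert h2 using 3
      rw [← smul_sub, ← smul_neg]
      congr 1
      noncomm_ring)
    (by fun_prop)
    (fun r => by rw [flowB_norm (hu r) (hu r), norm_neg, norm_smul, norm_I, one_mul]) 0 s
  have e : V s * Y * star (V s) = A := by
    have h3 := Unitary.mul_star_self_of_mem (hv s)
    calc V s * Y * star (V s) = (V s * star (V s)) * A * (V s * star (V s)) := by
          rw [hY]; noncomm_ring
      _ = A := by rw [h3, one_mul, mul_one]
  simpa only [e, h.zero, h'.zero, star_one, one_mul, mul_one] using h1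

theorem IsFlow.norm_sub (hD : Continuous D) (hs : ∀ s, IsSelfAdjoint (D s))
    (hE : Continuous E) (hs' : ∀ s, IsSelfAdjoint (E s)) (h : IsFlow D U) (h' : IsFlow E V)
    (s : ℝ) : ‖U s - V s‖ ≤ |∫ r in (0 : ℝ)..s, ‖D r - E r‖| := by
  have hu := h.unitary hD hs
  have hv := h'.unitary hE hs'
  have hc := h.continuous
  have hc' := h'.continuous
  have h1 := flowB_ftc (g := fun r => star (U r) * V r)
    (g' := fun r => star (U r) * (-(I • (D r - E r))) * V r) (m := fun r => ‖D r - E r‖)
    (fun r => by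
      refine ((h.deriv_star hs r).mul (h'.deriv r)).congr_deriv ?_
      simp only [smul_sub, smul_mul_assoc, mul_neg, neg_mul, mul_smul_comm, mul_assoc, mul_sub,
        sub_mul, neg_sub]
      abel)
    (by fun_prop)
    (fun r => by rw [flowB_norm (hu r) (hv r), norm_neg, norm_smul, norm_I, one_mul]) 0 s
  simp only [h.zero, h'.zero, star_one, mul_one] at h1
  have e : star (U s) * V s - 1 = star (U s) * (V s - U s) := by
    rw [mul_sub, Unitary.star_mul_self_of_mem (hu s)]
  rwa [e, CStarRing.norm_mem_unitary_mul _ (Unitary.star_mem (hu s)), norm_sub_rev] at h1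

end Crest.Agent.R340.Filt
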