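import Crest.Agent.R340.FwBasic
import Crest.Agent.R340.FiltFlow

/-! # Generic Lieb-Robinson bound for an arbitrary weight -/

set_option autoImplicit false

namespace Crest.Agent.R340.Fw

open MeasureTheory Complex Crest.Agent.R340.Filt

variable {𝔄 : Type} [CStarAlgebra 𝔄] {X : Type} {c : X → 𝔄}

/-- double commutators with `K` -/
noncomputable def dcom (c : X → 𝔄) (K A : 𝔄) (y : X) : ℝ :=
  ‖A * (K * c y - c y * K) - (K * c y - c y * K) * A‖ +
    ‖A * (K * star (c y) - star (c y) * K) - (K * star (c y) - star (c y) * K) * A‖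

theorem abs_int_exp {v : ℝ} (hv : 0 < v) (s t : ℝ) :
    |∫ r in s..t, Real.exp (2 * v * |r - s|)| ≤ Real.exp (2 * v * |t - s|) / (2 * v) := by
  have key : ∀ t : ℝ, 0 ≤ t → ∫ r in (0 : ℝ)..t, Real.exp (2 * v * |r|) ≤
      Real.exp (2 * v * t) / (2 * v) := by
    intro t ht
    have e1 : ∫ r in (0 : ℝ)..t, Real.exp (2 * v * |r|) = ∫ r in (0 : ℝ)..t, Real.exp (2 * v * r) :=
      intervalIntegral.integral_congr fun r hr => by
        rw [Set.uIcc_of_le ht] at hr
        simp only [abs_of_nonneg hr.1]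
    rw [e1, intervalIntegral.integral_comp_mul_left (fun x => Real.exp x) (by positivity),
      integral_exp, smul_eq_mul, mul_zero, Real.exp_zero, inv_mul_eq_div]
    gcongr
    linarith
  rw [intervalIntegral.integral_comp_sub_right (fun r => Real.exp (2 * v * |r|)), sub_self]
  generalize t - s = u
  rcases le_total 0 u with hu | hu
  · rw [abs_of_nonneg (intervalIntegral.integral_nonneg hu fun _ _ => (Real.exp_pos _).le),
      abs_of_nonneg hu]
    exact key u hu
  · have e : ∫ r in (0 : ℝ)..u, Real.exp (2 * v * |r|) =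
        -∫ r in (0 : ℝ)..(-u), Real.exp (2 * v * |r|) := by
      have := intervalIntegral.integral_comp_neg (a := 0) (b := u)
        (fun r => Real.exp (2 * v * |r|))
      simp only [abs_neg, neg_zero] at this
      rw [this, intervalIntegral.integral_symm]
    rw [e, abs_neg, abs_of_nonneg (intervalIntegral.integral_nonneg (neg_nonneg.2 hu)
      fun _ _ => (Real.exp_pos _).le), abs_of_nonpos hu]
    exact key _ (neg_nonneg.2 hu)

theorem loc_ode {D T : ℝ → 𝔄} (hD : Continuous D) (hs : ∀ r, IsSelfAdjoint (D r))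
    (hT : ∀ r, HasDerivAt T (I • (D r * T r - T r * D r)) r) (s t : ℝ) (y : X) :
    loc c (T t) y ≤ loc c (T s) y + |∫ r in s..t, dcom c (D r) (T r) y| := by
  have cT : Continuous T := continuous_iff_continuousAt.2 fun r => (hT r).continuousAt
  have one : ∀ z : 𝔄, ‖T t * z - z * T t‖ ≤ ‖T s * z - z * T s‖ +
      |∫ r in s..t, ‖T r * (D r * z - z * D r) - (D r * z - z * D r) * T r‖| := by
    intro z
    have h := norm_le_of_comm_ode (X := D) (f := fun r => T r * z - z * T r)
      (b := fun r => -(I • (T r * (D r * z - z * D r) - (D r * z - z * D r) * T r))) hD hs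
      (by fun_prop) (fun r => by
        have e : I • (D r * (T r * z - z * T r) - (T r * z - z * T r) * D r) +
            -(I • (T r * (D r * z - z * D r) - (D r * z - z * D r) * T r)) =
            I • (D r * T r - T r * D r) * z - z * I • (D r * T r - T r * D r) := by
          simp only [smul_mul_assoc, mul_smul_comm, ← smul_sub, ← smul_neg, ← smul_add]
          congr 1
          noncomm_ring
        rw [e]
        exact ((hT r).mul_const z).sub ((hT r).const_mul z)) s t
    simpa only [norm_neg, norm_smul, norm_I, one_mul] using h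
  have h1 := one (c y)
  have h2 := one (star (c y))
  have c1 : ∀ z : 𝔄, Continuous fun r =>
      ‖T r * (D r * z - z * D r) - (D r * z - z * D r) * T r‖ := fun z => by fun_prop
  have add : ∀ f g : ℝ → ℝ, Continuous f → Continuous g → (∀ r, 0 ≤ f r) → (∀ r, 0 ≤ g r) →
      |∫ r in s..t, f r| + |∫ r in s..t, g r| = |∫ r in s..t, (f r + g r)| := by
    intro f g hf hg f0 g0
    rw [intervalIntegral.integral_add (hf.intervalIntegrable _ _) (hg.intervalIntegrable _ _)]
    rcases le_total s t with h | h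
    · have a1 := intervalIntegral.integral_nonneg (μ := volume) h fun r _ => f0 r
      have a2 := intervalIntegral.integral_nonneg (μ := volume) h fun r _ => g0 r
      rw [abs_of_nonneg a1, abs_of_nonneg a2, abs_of_nonneg (add_nonneg a1 a2)]
    · have a1 := intervalIntegral.integral_nonneg (μ := volume) h fun r _ => f0 r
      have a2 := intervalIntegral.integral_nonneg (μ := volume) h fun r _ => g0 r
      rw [intervalIntegral.integral_symm t s, intervalIntegral.integral_symm t s (f := g), abs_neg,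
        abs_neg, ← neg_add, abs_neg, abs_of_nonneg a1, abs_of_nonneg a2,
        abs_of_nonneg (add_nonneg a1 a2)]
  have h3 := add _ _ (c1 (c y)) (c1 (star (c y))) (fun _ => norm_nonneg _) (fun _ => norm_nonneg _)
  unfold loc dcom
  linarith

/-- LIEB-ROBINSON for `T' = i [D, T]`, arbitrary weight `F` bounded below, on a time set `J`
that is an interval containing `s`. -/
theorem lr_ode {D T : ℝ → 𝔄} (hD : Continuous D) (hs : ∀ r, IsSelfAdjoint (D r))
    (hT : ∀ r, HasDerivAt T (I • (D r * T r - T r * D r)) r) (hc : ∀ x, ‖c x‖ ≤ 1)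
    {F : X → ℝ} {m v κ s B : ℝ} (hm : 0 < m) (hF : ∀ y, m ≤ F y) (hv : 0 < v) {J : Set ℝ}
    (hJ : ∀ t ∈ J, Set.uIcc s t ⊆ J) (hB : ∀ r ∈ J, ‖T r‖ ≤ B)
    (ker : ∀ r ∈ J, ∀ S : ℝ, 0 ≤ S → (∀ u, loc c (T r) u ≤ S * F u) →
      ∀ y, dcom c (D r) (T r) y ≤ v * S * F y)
    (h0 : ∀ y, loc c (T s) y ≤ κ * F y) :
    ∀ t ∈ J, ∀ y, loc c (T t) y ≤ 2 * κ * Real.exp (2 * v * |t - s|) * F y := by
  have F0 : ∀ y, 0 < F y := fun y => hm.trans_le (hF y)
  have cT : Continuous T := continuous_iff_continuousAt.2 fun r => (hT r).continuousAt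
  intro t₀ ht₀ y₀
  have hκ : 0 ≤ κ := nonneg_of_mul_nonneg_left ((loc_nonneg c _ y₀).trans (h0 y₀)) (F0 y₀)
  set g : J × X → ℝ := fun p => loc c (T p.1) p.2 / (Real.exp (2 * v * |p.1 - s|) * F p.2) with hg
  have hne : Nonempty (J × X) := ⟨(⟨t₀, ht₀⟩, y₀)⟩
  have e1 : ∀ t : ℝ, 1 ≤ Real.exp (2 * v * |t - s|) := fun t => Real.one_le_exp (by positivity)
  have bdd : BddAbove (Set.range g) := by
    refine ⟨4 * B / m, ?_⟩
    rintro _ ⟨p, rfl⟩
    have h1 : loc c (T p.1) p.2 ≤ 4 * B := (loc_le hc _ _).trans (by have := hB _ p.1.2; linarith)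
    refine div_le_div₀ ((loc_nonneg c _ _).trans h1) h1 hm ?_
    nlinarith [e1 p.1, hF p.2, F0 p.2]
  set S := iSup g with hS
  have hle : ∀ t ∈ J, ∀ y, loc c (T t) y ≤ S * Real.exp (2 * v * |t - s|) * F y := by
    intro t ht y
    have h1 : g (⟨t, ht⟩, y) ≤ S := le_ciSup bdd (⟨t, ht⟩, y)
    rw [mul_assoc]
    exact (div_le_iff₀ (mul_pos (Real.exp_pos _) (F0 y))).1 h1
  have S0 : 0 ≤ S := Real.iSup_nonneg fun p =>
    div_nonneg (loc_nonneg c _ _) (mul_pos (Real.exp_pos _) (F0 p.2)).le
  have hS2 : S ≤ κ + S / 2 := by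
    refine ciSup_le fun p => ?_
    obtain ⟨⟨t, ht⟩, y⟩ := p
    rw [hg, div_le_iff₀ (mul_pos (Real.exp_pos _) (F0 y))]
    have h1 := loc_ode (c := c) hD hs hT s t y
    have h2 : |∫ r in s..t, dcom c (D r) (T r) y| ≤
        |∫ r in s..t, v * S * F y * Real.exp (2 * v * |r - s|)| := by
      rw [← Real.norm_eq_abs]
      refine intervalIntegral.norm_integral_le_abs_of_norm_le ?_
        (Continuous.intervalIntegrable (by fun_prop) _ _)
      refine (ae_restrict_iff' measurableSet_uIoc).2 (Filter.Eventually.of_forall fun r hr => ?_)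
      have hr' := hJ t ht (Set.uIoc_subset_uIcc hr)
      have h3 := ker r hr' _ (mul_nonneg S0 (Real.exp_pos _).le) (hle r hr') y
      rw [Real.norm_of_nonneg (show 0 ≤ dcom c (D r) (T r) y from
        add_nonneg (norm_nonneg _) (norm_nonneg _))]
      refine h3.trans_eq (by ring)
    rw [intervalIntegral.integral_const_mul, abs_mul,
      abs_of_nonneg (mul_nonneg (mul_nonneg hv.le S0) (F0 y).le)] at h2
    have h4 := mul_le_mul_of_nonneg_left (abs_int_exp hv s t)
      (mul_nonneg (mul_nonneg hv.le S0) (F0 y).le)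
    have e2 : v * S * F y * (Real.exp (2 * v * |t - s|) / (2 * v)) =
        S / 2 * (Real.exp (2 * v * |t - s|) * F y) := by field_simp
    have h5 : κ * F y ≤ κ * (Real.exp (2 * v * |t - s|) * F y) :=
      mul_le_mul_of_nonneg_left (le_mul_of_one_le_left (F0 y).le (e1 t)) hκ
    have h6 := h0 y
    simp only
    linarith
  refine (hle t₀ ht₀ y₀).trans ?_
  have := F0 y₀
  gcongr
  linarith

/-- time independent case -/
theorem lr_tau {K A : 𝔄} (hK : IsSelfAdjoint K) (hc : ∀ x, ‖c x‖ ≤ 1)
    {F : X → ℝ} {m v κ : ℝ} (hm : 0 < m) (hF : ∀ y, m ≤ F y) (hv : 0 < v)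
    (ker : ∀ r S : ℝ, 0 ≤ S → (∀ u, loc c (tau K r A) u ≤ S * F u) →
      ∀ y, dcom c K (tau K r A) y ≤ v * S * F y)
    (h0 : ∀ y, loc c A y ≤ κ * F y) (t : ℝ) (y : X) :
    loc c (tau K t A) y ≤ 2 * κ * Real.exp (2 * v * |t|) * F y := by
  have := lr_ode (c := c) (D := fun _ => K) (T := fun t => tau K t A) continuous_const
    (fun _ => hK) (fun r => by rw [← evA_tau_comm]; exact hasDerivAt_tau K A r) hc (s := 0)
    (κ := κ) (B := ‖A‖) hm hF hv (J := Set.univ) (fun _ _ => Set.subset_univ _)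
    (fun r _ => (norm_tau hK r A).le) (fun r _ => ker r) (by simpa only [tau_zero] using h0) t
    (Set.mem_univ _) y
  simpa only [sub_zero] using this

/-- `Fw.LR` from an exponential kernel bound -/
theorem lr_of_kernel [MeasurableSpace X] {μ : Measure X} [IsFiniteMeasure μ] {d : X → X → ℝ}
    {Nn K : 𝔄} {C V v : ℝ} (hK : IsSelfAdjoint K) (hc : ∀ x, ‖c x‖ ≤ 1)
    (d0 : ∀ x y, 0 ≤ d x y) (ds : ∀ x y, d x y = d y x) (dt : ∀ x y z, d x z ≤ d x y + d y z)
    (db : ∃ R, ∀ x y, d x y ≤ R) (md : ∀ x, Measurable (d x)) (hC : 0 < C) (hV : 0 < V)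
    (vol : ∀ x, ∫ y, Real.exp (-d x y) ∂μ ≤ V)
    (ker : ∀ A y, dcom c K A y ≤ C * ∫ u, Real.exp (-2 * d y u) * loc c A u ∂μ)
    (h2 : 2 ≤ v) (hv : 2 * (C * V) ≤ v) : LR c d Nn K v := by
  intro A x κ _ h0 t y
  obtain ⟨R, hR⟩ := db
  have hκ : 0 ≤ κ := nonneg_of_mul_nonneg_left ((loc_nonneg c _ y).trans (h0 y)) (Real.exp_pos _)
  have h := lr_tau (c := c) (A := A) (F := fun y => Real.exp (-d x y)) (v := C * V) (κ := κ) hK hc
    (Real.exp_pos (-R)) (fun y => Real.exp_le_exp.2 (neg_le_neg (hR x y))) (mul_pos hC hV)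
    (fun r S hS h1 y => by
      refine (ker _ y).trans ?_
      have i1 : Integrable (fun u => Real.exp (-d y u)) μ :=
        Integrable.of_bound (Real.measurable_exp.comp (md y).neg).aestronglyMeasurable 1
          (Filter.Eventually.of_forall fun u => by
            rw [Real.norm_of_nonneg (Real.exp_pos _).le]
            exact Real.exp_le_one_iff.2 (neg_nonpos.2 (d0 y u)))
      have h3 : ∫ u, Real.exp (-2 * d y u) * loc c (tau K r A) u ∂μ ≤
          ∫ u, S * Real.exp (-d x y) * Real.exp (-d y u) ∂μ := by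
        refine integral_mono_of_nonneg (Filter.Eventually.of_forall fun u =>
          mul_nonneg (Real.exp_pos _).le (loc_nonneg c _ u)) (i1.const_mul _)
          (Filter.Eventually.of_forall fun u => ?_)
        have h4 : Real.exp (-2 * d y u) * Real.exp (-d x u) ≤
            Real.exp (-d x y) * Real.exp (-d y u) := by
          rw [← Real.exp_add, ← Real.exp_add]
          have := dt x u y
          rw [ds u y] at this
          exact Real.exp_le_exp.2 (by linarith)
        calc Real.exp (-2 * d y u) * loc c (tau K r A) u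
            ≤ Real.exp (-2 * d y u) * (S * Real.exp (-d x u)) := by gcongr; exact h1 u
          _ = S * (Real.exp (-2 * d y u) * Real.exp (-d x u)) := by ring
          _ ≤ S * (Real.exp (-d x y) * Real.exp (-d y u)) := by gcongr
          _ = _ := (mul_assoc _ _ _).symm
      rw [integral_const_mul] at h3
      calc _ ≤ C * (S * Real.exp (-d x y) * V) := by
            gcongr
            exact h3.trans (by gcongr; exact vol y)
        _ = _ := by ring) h0 t y
  refine h.trans ?_
  rw [sub_eq_add_neg, Real.exp_add, mul_assoc (2 * κ)]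
  gcongr

end Crest.Agent.R340.Fw
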