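import Crest.Agent.R340.GeoPair
import Crest.Agent.R340.LrGen

/-! # GEO: kernel bounds for the potential and for the energy density -/

set_option autoImplicit false

namespace Crest.Agent.R340

open Matrix MeasureTheory Set Crest.MathPhysics.Laughlin
open scoped ComplexConjugate Matrix.Norms.L2Operator MatrixOrder ComplexOrder

section gen
variable {𝔄 : Type} [CStarAlgebra 𝔄]

theorem b95_leib {A X Y : 𝔄} (hX : ‖X‖ ≤ 1) (hY : ‖Y‖ ≤ 1) :
    ‖A * (X * Y) - X * Y * A‖ ≤ ‖A * X - X * A‖ + ‖A * Y - Y * A‖ := by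
  have e : A * (X * Y) - X * Y * A = (A * X - X * A) * Y + X * (A * Y - Y * A) := by noncomm_ring
  rw [e]
  exact (norm_add_le _ _).trans (add_le_add
    ((norm_mul_le _ _).trans (mul_le_of_le_one_right (norm_nonneg _) hY))
    ((norm_mul_le _ _).trans (mul_le_of_le_one_left (norm_nonneg _) hX)))

theorem b95_leib3 {A X Y Z : 𝔄} (hX : ‖X‖ ≤ 1) (hY : ‖Y‖ ≤ 1) (hZ : ‖Z‖ ≤ 1) :
    ‖A * (X * Y * Z) - X * Y * Z * A‖ ≤ ‖A * X - X * A‖ + ‖A * Y - Y * A‖ + ‖A * Z - Z * A‖ :=
  (b95_leib ((norm_mul_le _ _).trans (mul_le_one₀ hX (norm_nonneg _) hY)) hZ).trans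
    (add_le_add_left (b95_leib hX hY) _)

theorem b95_smul (A X : 𝔄) (z : ℂ) : ‖A * (z • X) - z • X * A‖ = ‖z‖ * ‖A * X - X * A‖ := by
  rw [mul_smul_comm, smul_mul_assoc, ← smul_sub, norm_smul]

theorem b95_two (A X Y : 𝔄) (z w : ℂ) : ‖A * (z • X - w • Y) - (z • X - w • Y) * A‖ ≤
    ‖z‖ * ‖A * X - X * A‖ + ‖w‖ * ‖A * Y - Y * A‖ := by
  rw [← b95_smul, ← b95_smul]
  refine le_of_eq_of_le ?_ (norm_sub_le _ _)
  congr 1
  noncomm_ring

theorem b95_comm {a b c : 𝔄} {α β : ℂ} (ha : a * c + c * a = 0) (hb : b * c + c * b = 0)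
    (hα : c * star a + star a * c = α • (1 : 𝔄)) (hβ : c * star b + star b * c = β • (1 : 𝔄)) :
    star (a * b) * (a * b) * c - c * (star (a * b) * (a * b)) =
      α • (star b * a * b) - β • (star a * a * b) := by
  have h1 : star a * c = α • (1 : 𝔄) - c * star a := eq_sub_of_add_eq' hα
  have h2 : star b * c = β • (1 : 𝔄) - c * star b := eq_sub_of_add_eq' hβ
  have e1 : a * b * c = c * (a * b) := by
    rw [mul_assoc, eq_neg_of_add_eq_zero_left hb, mul_neg, ← mul_assoc, eq_neg_of_add_eq_zero_left ha,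
      neg_mul, neg_neg, mul_assoc]
  have e2 : star (a * b) * (a * b) * c = α • (star b * a * b) - star b * c * (star a * a * b) := by
    rw [mul_assoc, e1, star_mul, mul_assoc, ← mul_assoc (star a) c, h1]
    simp only [mul_sub, sub_mul, mul_smul_comm, smul_mul_assoc, one_mul, mul_assoc]
  rw [e2, h2, star_mul]
  simp only [sub_mul, smul_mul_assoc, one_mul, mul_assoc]
  abel

theorem b95_dcom {X : Type} {c : X → 𝔄} {y : X} {a b : 𝔄} {α β : ℂ} (A : 𝔄) (na : ‖a‖ ≤ 1)
    (nb : ‖b‖ ≤ 1) (ha : a * c y + c y * a = 0) (hb : b * c y + c y * b = 0)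
    (hα : c y * star a + star a * c y = α • (1 : 𝔄)) (hβ : c y * star b + star b * c y = β • (1 : 𝔄)) :
    Fw.dcom c (star (a * b) * (a * b)) A y ≤ 2 * (‖α‖ + ‖β‖) *
      ((‖A * a - a * A‖ + ‖A * star a - star a * A‖) + (‖A * b - b * A‖ + ‖A * star b - star b * A‖)) := by
  have e1 := b95_comm ha hb hα hβ
  have e2 : star (a * b) * (a * b) * star (c y) - star (c y) * (star (a * b) * (a * b)) =
      star β • (star b * star a * a) - star α • (star b * star a * b) := by
    have := congrArg star e1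
    simp only [star_sub, star_mul, star_smul, star_star, ← mul_assoc] at this
    simp only [star_mul, ← mul_assoc]
    rw [← neg_sub, this, neg_sub]
  have na' : ‖star a‖ ≤ 1 := by rwa [norm_star]
  have nb' : ‖star b‖ ≤ 1 := by rwa [norm_star]
  unfold Fw.dcom
  rw [e1, e2]
  have h1 := b95_two A (star b * a * b) (star a * a * b) α β
  have h2 := b95_two A (star b * star a * a) (star b * star a * b) (star β) (star α)
  rw [norm_star, norm_star] at h2
  have l1 := mul_le_mul_of_nonneg_left (b95_leib3 (A := A) nb' na nb) (norm_nonneg α)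
  have l2 := mul_le_mul_of_nonneg_left (b95_leib3 (A := A) na' na nb) (norm_nonneg β)
  have l3 := mul_le_mul_of_nonneg_left (b95_leib3 (A := A) nb' na' na) (norm_nonneg β)
  have l4 := mul_le_mul_of_nonneg_left (b95_leib3 (A := A) nb' na' nb) (norm_nonneg α)
  have p1 := mul_nonneg (norm_nonneg α) (norm_nonneg (A * a - a * A))
  have p2 := mul_nonneg (norm_nonneg α) (norm_nonneg (A * star a - star a * A))
  have p3 := mul_nonneg (norm_nonneg β) (norm_nonneg (A * b - b * A))
  have p4 := mul_nonneg (norm_nonneg β) (norm_nonneg (A * star b - star b * A))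
  linarith

theorem b95_dcom_smul {X : Type} (c : X → 𝔄) (y : X) (K A : 𝔄) (z : ℂ) :
    Fw.dcom c (z • K) A y = ‖z‖ * Fw.dcom c K A y := by
  unfold Fw.dcom
  simp only [smul_mul_assoc, mul_smul_comm, ← smul_sub, norm_smul, mul_add]

theorem b95_dcom_n {X : Type} {c : X → 𝔄} {y : X} {a : 𝔄} {α : ℂ} (A : 𝔄)
    (ha : a * c y + c y * a = 0) (hα : c y * star a + star a * c y = α • (1 : 𝔄)) :
    Fw.dcom c (star a * a) A y = ‖α‖ * (‖A * a - a * A‖ + ‖A * star a - star a * A‖) := by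
  have h1 : star a * c y = α • (1 : 𝔄) - c y * star a := eq_sub_of_add_eq' hα
  have e1 : star a * a * c y - c y * (star a * a) = (-α) • a := by
    rw [mul_assoc, eq_neg_of_add_eq_zero_left ha, mul_neg, ← mul_assoc, h1]
    simp only [sub_mul, smul_mul_assoc, one_mul, mul_assoc, neg_smul]
    abel
  have e2 : star a * a * star (c y) - star (c y) * (star a * a) = star α • star a := by
    have := congrArg star e1
    simp only [star_sub, star_mul, star_smul, star_star, star_neg, neg_smul] at this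
    rw [← neg_sub, this, neg_neg]
  unfold Fw.dcom
  rw [e1, e2, b95_smul, b95_smul, norm_neg, norm_star, mul_add]

theorem b95_dcom_int {X Y : Type} [MeasurableSpace Y] {ν : Measure Y} (c : X → 𝔄) (y : X) (A : 𝔄)
    {f : Y → 𝔄} (hf : Integrable f ν) {g : Y → ℝ} (hg : ∀ u, Fw.dcom c (f u) A y ≤ g u)
    (ig : Integrable g ν) : Fw.dcom c (∫ u, f u ∂ν) A y ≤ ∫ u, g u ∂ν := by
  have key : ∀ e : 𝔄, Integrable (fun u => ‖A * (f u * e - e * f u) - (f u * e - e * f u) * A‖) ν ∧
      ‖A * ((∫ u, f u ∂ν) * e - e * ∫ u, f u ∂ν) - ((∫ u, f u ∂ν) * e - e * ∫ u, f u ∂ν) * A‖ ≤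
        ∫ u, ‖A * (f u * e - e * f u) - (f u * e - e * f u) * A‖ ∂ν := fun e => by
    let L : 𝔄 →L[ℂ] 𝔄 := (ContinuousLinearMap.mul ℂ 𝔄 A - (ContinuousLinearMap.mul ℂ 𝔄).flip A).comp
      ((ContinuousLinearMap.mul ℂ 𝔄).flip e - ContinuousLinearMap.mul ℂ 𝔄 e)
    have hL : ∀ K, L K = A * (K * e - e * K) - (K * e - e * K) * A := fun K => by
      simp only [L, ContinuousLinearMap.comp_apply, _root_.sub_apply, ContinuousLinearMap.flip_apply,
        ContinuousLinearMap.mul_apply']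
    simp only [← hL]
    refine ⟨(L.integrable_comp hf).norm, ?_⟩
    rw [← L.integral_comp_comm hf]
    exact norm_integral_le_integral_norm _
  refine (add_le_add (key _).2 (key _).2).trans ?_
  rw [← integral_add (key _).1 (key _).1]
  exact integral_mono ((key _).1.add (key _).1) ig hg

end gen

variable {q : ℕ}

theorem b95_meas (q : ℕ) (x : S2) : Measurable (dq q x) := by
  unfold dq
  fun_prop

theorem b95_symm (q : ℕ) (x y : S2) : dq q x y = dq q y x := by
  unfold dq
  rw [norm_sub_rev]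

theorem b95_pot {φ : S2 → ℝ} (hφ : Measurable φ) (h1 : ∀ x, |φ x| ≤ 1)
    (A : Fk (q + 1)) (y : S2) : Fw.dcom (ca q) (Fw.pot (muq q) (ca q) φ) A y ≤
      ∫ u, Real.exp (-dq q y u ^ 2 / 2) * Fw.loc (ca q) A u ∂muq q := by
  have hm := b95_meas q y
  refine b95_dcom_int _ _ _ (Integrable.of_bound (C := 1) ?_ (Filter.Eventually.of_forall fun u => ?_))
    (fun u => ?_) (integrable_mul_loc q A (C := 1) (by fun_prop) fun u => ?_)
  · exact ((Complex.measurable_ofReal.comp hφ).stronglyMeasurable.smul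
      ((continuous_star.comp_stronglyMeasurable (stronglyMeasurable_ca q)).mul
        (stronglyMeasurable_ca q))).aestronglyMeasurable
  · rw [norm_smul, Complex.norm_real, Real.norm_eq_abs]
    refine mul_le_one₀ (h1 u) (norm_nonneg _) ((norm_mul_le _ _).trans ?_)
    rw [norm_star]
    exact mul_le_one₀ (norm_ca_le q u) (norm_nonneg _) (norm_ca_le q u)
  · rw [b95_dcom_smul, b95_dcom_n (c := ca q) (y := y) (a := ca q u) A (cC_anticomm _ _) (cC_car _ _),
      Complex.norm_real, Real.norm_eq_abs]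
    have h0 : 0 ≤ Fw.loc (ca q) A u := add_nonneg (norm_nonneg _) (norm_nonneg _)
    exact (mul_le_of_le_one_left (mul_nonneg (norm_nonneg _) h0) (h1 u)).trans
      (mul_le_mul_of_nonneg_right (coh_overlap_le q y u) h0)
  · rw [abs_of_pos (Real.exp_pos _), Real.exp_le_one_iff]
    nlinarith [sq_nonneg (dq q y u)]

theorem b95_ov0 (q : ℕ) (x y : S2) :
    ‖star (coh q y) ⬝ᵥ coh q x‖ ≤ 2 * Real.exp (-(1 - dq q x y) ^ 2 / 2) := by
  refine (coh_overlap_le q y x).trans ?_
  rw [b95_symm q y x]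
  have h2 : Real.exp (1 / 2) ≤ 2 := by
    have := Real.exp_one_lt_d9
    have e : Real.exp (1 / 2) * Real.exp (1 / 2) = Real.exp 1 := by rw [← Real.exp_add]; norm_num
    nlinarith [Real.exp_pos (1 / 2)]
  refine le_trans ?_ (mul_le_mul_of_nonneg_right h2 (Real.exp_pos _).le)
  rw [← Real.exp_add]
  exact Real.exp_le_exp.2 (by nlinarith [dq_nonneg q x y])

theorem b95_ov1 (hq : 1 ≤ q) (x y : S2) :
    ‖star (coh q y) ⬝ᵥ orb q x 1‖ ≤ Real.exp (-(1 - dq q x y) ^ 2 / 2) := by
  have h := orb_overlap_le q y x 1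
  have e : ((1 : Fin (q + 1)) : ℕ) = 1 := by
    rw [Fin.val_one', Nat.mod_eq_of_lt (by omega)]
  rwa [e, Nat.cast_one, Real.sqrt_one, b95_symm q y x] at h

theorem b95_hx (hq : 1 ≤ q) (x : S2) (A : Fk (q + 1)) (y : S2) :
    Fw.dcom (ca q) (hx q x) A y ≤ 100 * Real.exp (-(1 - dq q x y) ^ 2 / 2) *
      ∫ u, Real.exp (-(1 - dq q x u) ^ 2 / 2) * Fw.loc (ca q) A u ∂muq q := by
  have hm := b95_meas q x
  have h0 : ∀ u, 0 ≤ Fw.loc (ca q) A u := fun u => add_nonneg (norm_nonneg _) (norm_nonneg _)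
  have hi : Integrable (fun u => Real.exp (-(1 - dq q x u) ^ 2 / 2) * Fw.loc (ca q) A u) (muq q) :=
    integrable_mul_loc q A (C := 1) (by fun_prop) fun u => by
      rw [abs_of_pos (Real.exp_pos _), Real.exp_le_one_iff]
      nlinarith [sq_nonneg (1 - dq q x u)]
  set I := ∫ u, Real.exp (-(1 - dq q x u) ^ 2 / 2) * Fw.loc (ca q) A u ∂muq q with hI
  have hI0 : 0 ≤ I := integral_nonneg fun u => mul_nonneg (Real.exp_pos _).le (h0 u)
  have l1 := (comm_cC_le q A (orb q x 1)).trans (integral_mono_of_nonneg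
    (Filter.Eventually.of_forall fun u => mul_nonneg (norm_nonneg _) (h0 u)) hi
    (Filter.Eventually.of_forall fun u => mul_le_mul_of_nonneg_right (b95_ov1 hq x u) (h0 u)))
  have l0 := (comm_cC_le q A (coh q x)).trans (integral_mono_of_nonneg
    (Filter.Eventually.of_forall fun u => mul_nonneg (norm_nonneg _) (h0 u)) (hi.const_mul 2)
    (Filter.Eventually.of_forall fun u =>
      (mul_le_mul_of_nonneg_right (b95_ov0 q x u) (h0 u)).trans_eq (mul_assoc _ _ _)))
  rw [integral_const_mul] at l0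
  have hd := b95_dcom (c := ca q) (y := y) A (norm_cC_orb_le q x 1) (norm_ca_le q x)
    (cC_anticomm _ _) (cC_anticomm _ _) (cC_car _ _) (cC_car _ _)
  have hE := Real.exp_pos (-(1 - dq q x y) ^ 2 / 2)
  have hd2 : Fw.dcom (ca q) (star (By q x) * By q x) A y ≤
      2 * (3 * Real.exp (-(1 - dq q x y) ^ 2 / 2)) * (3 * I) := by
    rw [By_eq hq]
    refine hd.trans (mul_le_mul (by linarith [b95_ov0 q x y, b95_ov1 hq x y]) ?_ (by positivity)
      (by positivity))
    exact (add_le_add l1 l0).trans_eq (by ring)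
  have hq' : (1 : ℝ) ≤ q := by exact_mod_cast hq
  have hk : ‖(((2 * (q : ℝ) - 1) / ((q : ℝ) + 1) : ℝ) : ℂ)‖ ≤ 2 := by
    rw [Complex.norm_real, Real.norm_eq_abs, abs_of_nonneg (div_nonneg (by linarith) (by linarith)),
      div_le_iff₀ (by linarith)]
    linarith
  rw [hx, ← Complex.coe_smul, b95_dcom_smul]
  refine (mul_le_mul hk hd2 (add_nonneg (norm_nonneg _) (norm_nonneg _)) zero_le_two).trans ?_
  nlinarith [mul_nonneg hE.le hI0]

end Crest.Agent.R340
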