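import Crest.Agent.R340.GeoPair
import Crest.Agent.R340.LrGen
import Crest.Agent.R340.GeoFrameB1
import Crest.Agent.R340.FwFinal

/-! # GEO: the sphere is a `Fw.Frame`; local Hamiltonian; Lieb-Robinson bound -/

set_option autoImplicit false

namespace Crest.Agent.R340

open Matrix MeasureTheory Set Crest.MathPhysics.Laughlin
open scoped ComplexConjugate Matrix.Norms.L2Operator MatrixOrder ComplexOrder

variable {q : ℕ}

/-! ### part A -/

theorem gfA_comm {n : ℕ} {X Y Z : Fk n} {α β : ℂ} (hX : ‖X‖ ≤ 1) (hY : ‖Y‖ ≤ 1)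
    (h1 : Y * Z + Z * Y = β • (1 : Fk n)) (h2 : X * Z + Z * X = α • (1 : Fk n)) :
    ‖X * Y * Z - Z * (X * Y)‖ ≤ ‖β‖ + ‖α‖ := by
  have e : X * Y * Z - Z * (X * Y) = X * (Y * Z + Z * Y) - (X * Z + Z * X) * Y := by noncomm_ring
  rw [e, h1, h2, mul_smul_comm, smul_mul_assoc, mul_one, one_mul]
  refine (norm_sub_le _ _).trans ?_
  rw [norm_smul, norm_smul]
  nlinarith [norm_nonneg α, norm_nonneg β]

theorem gfA_anti {n : ℕ} (f g : Fin n → ℂ) : cC f * cC g + cC g * cC f = (0 : ℂ) • (1 : Fk n) := by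
  rw [cC_anticomm, zero_smul]

theorem gfA_anti' {n : ℕ} (f g : Fin n → ℂ) :
    star (cC f) * star (cC g) + star (cC g) * star (cC f) = (0 : ℂ) • (1 : Fk n) := by
  rw [gg_anti f g, neg_add_cancel, zero_smul]

theorem gfA_exp {a b C : ℝ} (h : Real.exp (a - b) ≤ C) : Real.exp a ≤ C * Real.exp b := by
  have : Real.exp a = Real.exp (a - b) * Real.exp b := by rw [← Real.exp_add]; congr 1; ring
  rw [this]
  exact mul_le_mul_of_nonneg_right h (Real.exp_pos _).le

theorem gfA_half {t : ℝ} (h : t ≤ 1 / 2) : Real.exp t ≤ 2 := by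
  have h1 : Real.exp t * Real.exp t ≤ Real.exp 1 := by
    rw [← Real.exp_add]; exact Real.exp_le_exp.2 (by linarith)
  nlinarith [Real.exp_one_lt_d9, Real.exp_pos t]

theorem gfA_three {t : ℝ} (h : t ≤ 3 / 2) : Real.exp t ≤ 6 := by
  have h1 : Real.exp t = Real.exp (t - 1) * Real.exp 1 := by rw [← Real.exp_add]; congr 1; ring
  have h2 := gfA_half (t := t - 1) (by linarith)
  rw [h1]
  nlinarith [Real.exp_one_lt_d9, Real.exp_pos (t - 1), Real.exp_pos 1]

theorem loc_n_le (q : ℕ) (x y : S2) :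
    Fw.loc (ca q) (star (ca q x) * ca q x) y ≤ 2 * Real.exp (-dq q x y ^ 2 / 2) := by
  have n1 := norm_ca_le q x
  have n2 : ‖star (ca q x)‖ ≤ 1 := by rwa [norm_star]
  have h1 := gfA_comm (Z := ca q y) n2 n1 (gfA_anti _ _)
    ((add_comm _ _).trans (cC_car (coh q y) (coh q x)))
  have h2 := gfA_comm (Z := star (ca q y)) n2 n1 (cC_car (coh q x) (coh q y)) (gfA_anti' _ _)
  have o1 := coh_overlap_le q x y
  have o2 := coh_overlap_le q y x
  rw [dq_symm q y x] at o2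
  rw [norm_zero] at h1 h2
  unfold Fw.loc
  linarith

theorem loc_By_le (hq : 1 ≤ q) (x y : S2) :
    Fw.loc (ca q) (By q x) y ≤ 3 * Real.exp (-(1 - dq q x y) ^ 2 / 2) := by
  have n1 := norm_ca_le q x
  have n2 := norm_cC_orb_le q x 1
  have h1 := gfA_comm (Z := ca q y) n2 n1 (gfA_anti _ _) (gfA_anti _ _)
  have h2 := gfA_comm (Z := star (ca q y)) n2 n1 (cC_car (coh q x) (coh q y))
    (cC_car (orb q x 1) (coh q y))
  have o1 := coh_overlap_le q x y
  have o2 := orb_overlap_le q y x 1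
  have e1 : (((1 : Fin (q + 1)) : ℕ) : ℝ) = 1 := by
    rw [Fin.val_one', Nat.mod_eq_of_lt (by omega), Nat.cast_one]
  rw [dq_symm q y x, e1, Real.sqrt_one] at o2
  have e2 : ‖star (orb q x 1) ⬝ᵥ coh q y‖ = ‖star (coh q y) ⬝ᵥ orb q x 1‖ := by
    rw [← norm_star, star_dotProduct, star_star]
  have o3 : Real.exp (-dq q x y ^ 2 / 2) ≤ 2 * Real.exp (-(1 - dq q x y) ^ 2 / 2) :=
    gfA_exp (gfA_half (by nlinarith [dq_nonneg q x y]))
  rw [norm_zero] at h1
  unfold Fw.loc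
  rw [By_eq hq]
  linarith

theorem gfA_loc_sq {n : ℕ} {X : Type} (c : X → Fk n) {B : Fk n} (hB : ‖B‖ ≤ 1) (y : X) :
    Fw.loc c (star B * B) y ≤ 2 * Fw.loc c B y := by
  have key : ∀ e : Fk n, ‖star B * B * e - e * (star B * B)‖ ≤
      ‖B * e - e * B‖ + ‖B * star e - star e * B‖ := by
    intro e
    have e1 : star B * B * e - e * (star B * B) =
        star B * (B * e - e * B) - star (B * star e - star e * B) * B := by
      simp only [star_sub, star_mul, star_star]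
      noncomm_ring
    rw [e1]
    refine (norm_sub_le _ _).trans (add_le_add ?_ ?_)
    · refine (norm_mul_le _ _).trans ?_
      rw [norm_star]
      nlinarith [norm_nonneg (B * e - e * B)]
    · refine (norm_mul_le _ _).trans ?_
      rw [norm_star]
      nlinarith [norm_nonneg (B * star e - star e * B)]
  have h1 := key (c y)
  have h2 := key (star (c y))
  rw [star_star] at h2
  unfold Fw.loc
  linarith

theorem gfA_coef (hq : 1 ≤ q) : |(2 * (q : ℝ) - 1) / ((q : ℝ) + 1)| ≤ 2 := by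
  have : (1 : ℝ) ≤ q := by exact_mod_cast hq
  rw [abs_of_nonneg (div_nonneg (by linarith) (by linarith)), div_le_iff₀ (by linarith)]
  linarith

theorem loc_hx_le (hq : 1 ≤ q) (x y : S2) :
    Fw.loc (ca q) (hx q x) y ≤ 16 * Real.exp (-(1 - dq q x y) ^ 2 / 2) := by
  have h1 := gfA_loc_sq (ca q) (norm_By_le hq x) y
  have h2 := loc_By_le hq x y
  have h3 := Fw.loc_nonneg (ca q) (star (By q x) * By q x) y
  have h4 := gfA_coef hq
  have h5 := Real.exp_pos (-(1 - dq q x y) ^ 2 / 2)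
  unfold hx
  rw [Fw.loc_rsmul]
  nlinarith

theorem norm_hx_le (hq : 1 ≤ q) (x : S2) : ‖hx q x‖ ≤ 2 := by
  have h1 := norm_By_le hq x
  have h4 := gfA_coef hq
  unfold hx
  rw [norm_smul, CStarRing.norm_star_mul_self, Real.norm_eq_abs]
  have h2 : ‖By q x‖ * ‖By q x‖ ≤ 1 := by nlinarith [norm_nonneg (By q x)]
  nlinarith [mul_nonneg (norm_nonneg (By q x)) (norm_nonneg (By q x))]

theorem el_n (q : ℕ) (x : S2) : Fw.EL (ca q) (dq q) (star (ca q x) * ca q x) x 100 := by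
  refine ⟨?_, fun y => (loc_n_le q x y).trans ?_⟩
  · rw [CStarRing.norm_star_mul_self]
    nlinarith [norm_ca_le q x, norm_nonneg (ca q x)]
  · have : Real.exp (-dq q x y ^ 2 / 2) ≤ 2 * Real.exp (-dq q x y) :=
      gfA_exp (gfA_half (by nlinarith [sq_nonneg (dq q x y - 1)]))
    linarith [Real.exp_pos (-dq q x y)]

theorem geo_ham (hq : 1 ≤ q) :
    Fw.Ham 100 (muq q) (dq q) (ca q) (numC (q + 1)) (hx q) (HC q) := by
  refine ⟨(HC_eq_integral hq).1, (HC_eq_integral hq).2, fun x => ?_, fun x => ?_,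
    fun x => ⟨(norm_hx_le hq x).trans (by norm_num), fun y => (loc_hx_le hq x y).trans ?_⟩⟩
  · exact IsSelfAdjoint.smul (IsSelfAdjoint.all _) (IsSelfAdjoint.star_mul_self _)
  · exact Commute.smul_right
      (commute_numC_star_mul (k := 2) (by simp) (numC_mul_bC _) (numC_mul_bC _)) _
  · have : Real.exp (-(1 - dq q x y) ^ 2 / 2) ≤ 6 * Real.exp (-dq q x y) :=
      gfA_exp (gfA_three (by nlinarith [sq_nonneg (dq q x y - 2)]))
    linarith [Real.exp_pos (-dq q x y)]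

/-- the reconstruction property (output of LOC) -/
def Recon (cr : ℝ → ℝ) (q : ℕ) : Prop :=
  ∀ a, 0 < a → a ≤ 1 → ∀ (y : S2) (K : ℝ) (Y A : Fk (q + 1)), Commute (numC (q + 1)) A →
    ‖Y‖ ≤ K → (∀ z, Fw.gloc (ca q) Y z ≤ K * Real.exp (-a * Real.sqrt (dq q y z))) →
    ‖A * Y - Y * A‖ ≤ cr a * K *
      ∫ u, Real.exp (-(a / 2) * Real.sqrt (dq q y u)) * Fw.loc (ca q) A u ∂muq q

theorem geo_frame {cr : ℝ → ℝ} (hq : 1 ≤ q) (h : Recon cr q) :
    Fw.Frame (fun a => 48 / a ^ 4) cr 100 (muq q) (dq q) (ca q) (numC (q + 1)) where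
  fin := inferInstance
  d_nonneg := dq_nonneg q
  d_symm := dq_symm q
  d_tri := dq_tri q
  d_bdd := ⟨_, dq_le q⟩
  meas_d x := ((continuous_dq q).comp (Continuous.prodMk_right x)).measurable
  meas_c := stronglyMeasurable_ca q
  norm_c := norm_ca_le q
  car0 _ _ := cC_anticomm _ _
  car1 _ _ := ⟨_, cC_car _ _⟩
  numN _ := commute_numC_star_cC_mul _ _
  ov := el_n q
  vol _ ha x := integral_exp_sqrt_dq hq x ha
  recon := h

/-! ### part B: kernel bounds -/

theorem dcom_pot (hq : 1 ≤ q) {φ : S2 → ℝ} (hφ : Measurable φ) (h1 : ∀ x, |φ x| ≤ 1)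
    (A : Fk (q + 1)) (y : S2) : Fw.dcom (ca q) (Fw.pot (muq q) (ca q) φ) A y ≤
      ∫ u, Real.exp (-dq q y u ^ 2 / 2) * Fw.loc (ca q) A u ∂muq q :=
  have _ := hq
  b95_pot hφ h1 A y

theorem dcom_hx (hq : 1 ≤ q) (x : S2) (A : Fk (q + 1)) (y : S2) :
    Fw.dcom (ca q) (hx q x) A y ≤ 100 * Real.exp (-(1 - dq q x y) ^ 2 / 2) *
      ∫ u, Real.exp (-(1 - dq q x u) ^ 2 / 2) * Fw.loc (ca q) A u ∂muq q :=
  b95_hx hq x A y

section h54
variable {𝔄 : Type} [CStarAlgebra 𝔄] {X : Type}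

/-- the double commutator as a continuous linear map of the middle entry -/
noncomputable def h54_L (A z : 𝔄) : 𝔄 →L[ℂ] 𝔄 :=
  (ContinuousLinearMap.mul ℂ 𝔄 A - (ContinuousLinearMap.mul ℂ 𝔄).flip A).comp
    ((ContinuousLinearMap.mul ℂ 𝔄).flip z - ContinuousLinearMap.mul ℂ 𝔄 z)

theorem h54_dcom (c : X → 𝔄) (K A : 𝔄) (y : X) :
    Fw.dcom c K A y = ‖h54_L A (c y) K‖ + ‖h54_L A (star (c y)) K‖ := rfl

theorem h54_dcom_add (c : X → 𝔄) (K K' A : 𝔄) (y : X) :
    Fw.dcom c (K + K') A y ≤ Fw.dcom c K A y + Fw.dcom c K' A y := by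
  simp only [h54_dcom, map_add]
  linarith [norm_add_le (h54_L A (c y) K) (h54_L A (c y) K'),
    norm_add_le (h54_L A (star (c y)) K) (h54_L A (star (c y)) K')]

theorem h54_dcom_int {Z : Type} [MeasurableSpace Z] {μ : Measure Z} (c : X → 𝔄) {h : Z → 𝔄}
    (hh : Integrable h μ) (A : 𝔄) (y : X) {g : Z → ℝ} (hg : Integrable g μ)
    (hle : ∀ x, Fw.dcom c (h x) A y ≤ g x) : Fw.dcom c (∫ x, h x ∂μ) A y ≤ ∫ x, g x ∂μ := by
  have one : ∀ z : 𝔄, ‖h54_L A z (∫ x, h x ∂μ)‖ ≤ ∫ x, ‖h54_L A z (h x)‖ ∂μ := fun z => by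
    rw [← (h54_L A z).integral_comp_comm hh]
    exact norm_integral_le_integral_norm _
  have int : ∀ z : 𝔄, Integrable (fun x => ‖h54_L A z (h x)‖) μ := fun z =>
    ((h54_L A z).integrable_comp hh).norm
  rw [h54_dcom]
  refine (add_le_add (one _) (one _)).trans ?_
  rw [← integral_add (int _) (int _)]
  exact integral_mono ((int _).add (int _)) hg hle

end h54

theorem h54_gauss (k r : ℝ) :
    Real.exp (-(1 - r) ^ 2 / 2) ≤ Real.exp ((1 + k) ^ 2 / 2) * Real.exp (-k * r) := by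
  rw [← Real.exp_add, Real.exp_le_exp]
  nlinarith [sq_nonneg (r - (1 + k))]

theorem h54_meas_dq (q : ℕ) (y : S2) : Measurable (dq q y) :=
  ((continuous_dq q).comp (continuous_const.prodMk continuous_id)).measurable

theorem h54_loc_nonneg (q : ℕ) (A : Fk (q + 1)) (u : S2) : 0 ≤ Fw.loc (ca q) A u :=
  add_nonneg (norm_nonneg _) (norm_nonneg _)

theorem h54_exp_le (q : ℕ) {m : ℝ} (hm : 0 ≤ m) (y u : S2) : |Real.exp (-m * dq q y u)| ≤ 1 := by
  rw [abs_of_pos (Real.exp_pos _), Real.exp_le_one_iff]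
  nlinarith [dq_nonneg q y u]

theorem h54_int_loc (q : ℕ) {m : ℝ} (hm : 0 ≤ m) (A : Fk (q + 1)) (y : S2) :
    Integrable (fun u => Real.exp (-m * dq q y u) * Fw.loc (ca q) A u) (muq q) :=
  integrable_mul_loc q A ((h54_meas_dq q y).const_mul _).exp (h54_exp_le q hm y)

/-- any exponential rate `m` -/
theorem dcom_HC (m : ℝ) (hm : 0 ≤ m) : ∃ C : ℝ, 0 < C ∧ ∀ q : ℕ, 1 ≤ q →
    ∀ (A : Fk (q + 1)) (y : S2), Fw.dcom (ca q) (HC q) A y ≤
      C * ∫ u, Real.exp (-m * dq q y u) * Fw.loc (ca q) A u ∂muq q := by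
  set a := Real.exp ((1 + m) ^ 2 / 2) with ha
  set b := Real.exp ((1 + (m + 1)) ^ 2 / 2) with hb
  have ha0 : 0 < a := Real.exp_pos _
  have hb0 : 0 < b := Real.exp_pos _
  refine ⟨100 * a * b * 4, by positivity, fun q hq A y => ?_⟩
  set J := ∫ u, Real.exp (-m * dq q y u) * Fw.loc (ca q) A u ∂muq q with hJ
  have hJ0 : 0 ≤ J := integral_nonneg fun u => mul_nonneg (Real.exp_pos _).le (h54_loc_nonneg q A u)
  have hi : Integrable (fun x => Real.exp (-1 * dq q y x)) (muq q) :=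
    Integrable.of_bound ((h54_meas_dq q y).const_mul _).exp.aestronglyMeasurable 1
      (Filter.Eventually.of_forall fun x => h54_exp_le q zero_le_one y x)
  rw [(HC_eq_integral hq).2]
  refine (h54_dcom_int (ca q) (HC_eq_integral hq).1 A y (hi.const_mul (100 * a * b * J))
    fun x => (dcom_hx hq x A y).trans ?_).trans ?_
  · have h1 : ∫ u, Real.exp (-(1 - dq q x u) ^ 2 / 2) * Fw.loc (ca q) A u ∂muq q ≤
        a * Real.exp (m * dq q y x) * J := by
      rw [hJ, ← integral_const_mul]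
      refine integral_mono_of_nonneg (Filter.Eventually.of_forall fun u =>
        mul_nonneg (Real.exp_pos _).le (h54_loc_nonneg q A u))
        ((h54_int_loc q hm A y).const_mul _) (Filter.Eventually.of_forall fun u => ?_)
      beta_reduce
      rw [← mul_assoc]
      refine mul_le_mul_of_nonneg_right ((h54_gauss m _).trans ?_) (h54_loc_nonneg q A u)
      rw [mul_assoc, ← Real.exp_add (m * dq q y x)]
      refine mul_le_mul_of_nonneg_left (Real.exp_le_exp.2 ?_) ha0.le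
      nlinarith [dq_tri q y x u]
    have h2 : Real.exp (-(1 - dq q x y) ^ 2 / 2) ≤ b * Real.exp (-(m + 1) * dq q y x) := by
      rw [dq_symm q y x]
      exact h54_gauss (m + 1) _
    have h3 : Real.exp (-(m + 1) * dq q y x) * Real.exp (m * dq q y x) =
        Real.exp (-1 * dq q y x) := by
      rw [← Real.exp_add]
      congr 1
      ring
    calc 100 * Real.exp (-(1 - dq q x y) ^ 2 / 2) *
          ∫ u, Real.exp (-(1 - dq q x u) ^ 2 / 2) * Fw.loc (ca q) A u ∂muq q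
        ≤ 100 * (b * Real.exp (-(m + 1) * dq q y x)) * (a * Real.exp (m * dq q y x) * J) :=
          mul_le_mul (by linarith) h1 (integral_nonneg fun u =>
            mul_nonneg (Real.exp_pos _).le (h54_loc_nonneg q A u)) (by positivity)
      _ = 100 * a * b * J * Real.exp (-1 * dq q y x) := by rw [← h3]; ring
  · rw [integral_const_mul]
    have h4 := integral_exp_dq hq y one_pos
    calc 100 * a * b * J * ∫ x, Real.exp (-1 * dq q y x) ∂muq q ≤ 100 * a * b * J * (4 / 1 ^ 2) :=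
          mul_le_mul_of_nonneg_left h4 (by positivity)
      _ = _ := by ring

/-! ### part C -/

theorem geo_lr : ∃ v : ℝ, 1 ≤ v ∧ ∀ q : ℕ, 1 ≤ q → ∀ φ : S2 → ℝ, Measurable φ →
    (∀ x, |φ x| ≤ 1) →
      Fw.LR (ca q) (dq q) (numC (q + 1)) (HC q + Fw.pot (muq q) (ca q) φ) v := by
  obtain ⟨C, hC, h⟩ := dcom_HC 2 zero_le_two
  have he : 0 < Real.exp 2 := Real.exp_pos _
  have hp : 0 < 2 * ((C + Real.exp 2) * 4) := by positivity
  refine ⟨2 + 2 * ((C + Real.exp 2) * 4), by linarith, fun q hq φ hφ h1 => ?_⟩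
  refine Fw.lr_of_kernel (μ := muq q) (C := C + Real.exp 2) (V := 4) ?_ (norm_ca_le q)
    (dq_nonneg q) (dq_symm q) (dq_tri q) ⟨_, dq_le q⟩ (h54_meas_dq q) (by positivity)
    (by norm_num) (fun x => ?_) (fun A y => ?_) (by linarith) (by linarith)
  · rw [← dG_toeplitz q hφ h1]
    exact (HC_sa q).add (dG_sa (toeplitz_sa q φ))
  · simpa using integral_exp_dq hq x one_pos
  · refine (h54_dcom_add _ _ _ _ _).trans ?_
    rw [add_mul]
    refine add_le_add (h q hq A y) ((dcom_pot hq hφ h1 A y).trans ?_)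
    rw [← integral_const_mul]
    refine integral_mono_of_nonneg (Filter.Eventually.of_forall fun u =>
      mul_nonneg (Real.exp_pos _).le (h54_loc_nonneg q A u))
      ((h54_int_loc q zero_le_two A y).const_mul _) (Filter.Eventually.of_forall fun u => ?_)
    beta_reduce
    rw [← mul_assoc, ← Real.exp_add]
    refine mul_le_mul_of_nonneg_right (Real.exp_le_exp.2 ?_) (h54_loc_nonneg q A u)
    nlinarith [sq_nonneg (dq q y u - 2)]

theorem locOut_of_recon {cr : ℝ → ℝ} (h0 : ∀ a, 0 ≤ cr a) (h : ∀ q, 1 ≤ q → Recon cr q) :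
    Fw.LocOut muq dq ca hx := by
  obtain ⟨v, hv, hL⟩ := geo_lr
  exact ⟨_, cr, 100, v, 1, hv, h0, fun q hq => ⟨geo_frame hq (h q hq), geo_ham hq,
    fun ψ hψ x => hx_zero_mode hq hψ x, fun φ hφ h1 => ⟨dG_toeplitz q hφ h1, hL q hq φ hφ h1⟩⟩⟩

end Crest.Agent.R340
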