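import Crest.Agent.R340.FwDefs

/-! # Row 340: algebra of the locality functions (helper67) -/

set_option autoImplicit false

namespace Crest.Agent.R340.A67

open Crest.Agent.R340.Fw

section gen

variable {𝔄 : Type} [CStarAlgebra 𝔄] {X : Type}

theorem loc_nonneg (c : X → 𝔄) (A : 𝔄) (y : X) : 0 ≤ loc c A y :=
  add_nonneg (norm_nonneg _) (norm_nonneg _)

theorem gloc_nonneg (c : X → 𝔄) (A : 𝔄) (y : X) : 0 ≤ gloc c A y :=
  add_nonneg (norm_nonneg _) (norm_nonneg _)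

theorem cm_add (A B z : 𝔄) :
    ‖(A + B) * z - z * (A + B)‖ ≤ ‖A * z - z * A‖ + ‖B * z - z * B‖ := by
  rw [show (A + B) * z - z * (A + B) = (A * z - z * A) + (B * z - z * B) by noncomm_ring]
  exact norm_add_le _ _

theorem ac_add (A B z : 𝔄) :
    ‖(A + B) * z + z * (A + B)‖ ≤ ‖A * z + z * A‖ + ‖B * z + z * B‖ := by
  rw [show (A + B) * z + z * (A + B) = (A * z + z * A) + (B * z + z * B) by noncomm_ring]
  exact norm_add_le _ _

theorem loc_add (c : X → 𝔄) (A B : 𝔄) (y : X) : loc c (A + B) y ≤ loc c A y + loc c B y := by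
  unfold loc
  linarith [cm_add A B (c y), cm_add A B (star (c y))]

theorem gloc_add (c : X → 𝔄) (A B : 𝔄) (y : X) : gloc c (A + B) y ≤ gloc c A y + gloc c B y := by
  unfold gloc
  linarith [ac_add A B (c y), ac_add A B (star (c y))]

theorem loc_smul (c : X → 𝔄) (z : ℂ) (A : 𝔄) (y : X) : loc c (z • A) y = ‖z‖ * loc c A y := by
  simp only [loc, smul_mul_assoc, mul_smul_comm, ← smul_sub, norm_smul, mul_add]

theorem gloc_smul (c : X → 𝔄) (z : ℂ) (A : 𝔄) (y : X) :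
    gloc c (z • A) y = ‖z‖ * gloc c A y := by
  simp only [gloc, smul_mul_assoc, mul_smul_comm, ← smul_add, norm_smul, mul_add]

theorem cm_star (A z : 𝔄) : ‖star A * z - z * star A‖ = ‖A * star z - star z * A‖ := by
  rw [← norm_star, star_sub, star_mul, star_mul, star_star, norm_sub_rev]

theorem ac_star (A z : 𝔄) : ‖star A * z + z * star A‖ = ‖A * star z + star z * A‖ := by
  rw [← norm_star, star_add, star_mul, star_mul, star_star, add_comm]

theorem loc_star (c : X → 𝔄) (A : 𝔄) (y : X) : loc c (star A) y = loc c A y := by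
  unfold loc
  rw [cm_star, cm_star, star_star, add_comm]

theorem gloc_star (c : X → 𝔄) (A : 𝔄) (y : X) : gloc c (star A) y = gloc c A y := by
  unfold gloc
  rw [ac_star, ac_star, star_star, add_comm]

theorem loc_one (c : X → 𝔄) (y : X) : loc c (1 : 𝔄) y = 0 := by
  simp [loc]

theorem nb (A B u v : 𝔄) : ‖A * u + v * B‖ ≤ ‖A‖ * ‖u‖ + ‖v‖ * ‖B‖ :=
  (norm_add_le _ _).trans (add_le_add (norm_mul_le _ _) (norm_mul_le _ _))

theorem nb' (A B u v : 𝔄) : ‖A * u - v * B‖ ≤ ‖A‖ * ‖u‖ + ‖v‖ * ‖B‖ :=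
  (norm_sub_le _ _).trans (add_le_add (norm_mul_le _ _) (norm_mul_le _ _))

theorem cc (A B z : 𝔄) :
    ‖A * B * z - z * (A * B)‖ ≤ ‖A‖ * ‖B * z - z * B‖ + ‖A * z - z * A‖ * ‖B‖ := by
  rw [show A * B * z - z * (A * B) = A * (B * z - z * B) + (A * z - z * A) * B by noncomm_ring]
  exact nb _ _ _ _

theorem aa (A B z : 𝔄) :
    ‖A * B * z - z * (A * B)‖ ≤ ‖A‖ * ‖B * z + z * B‖ + ‖A * z + z * A‖ * ‖B‖ := by
  rw [show A * B * z - z * (A * B) = A * (B * z + z * B) - (A * z + z * A) * B by noncomm_ring]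
  exact nb' _ _ _ _

theorem ca (A B z : 𝔄) :
    ‖A * B * z + z * (A * B)‖ ≤ ‖A‖ * ‖B * z + z * B‖ + ‖A * z - z * A‖ * ‖B‖ := by
  rw [show A * B * z + z * (A * B) = A * (B * z + z * B) - (A * z - z * A) * B by noncomm_ring]
  exact nb' _ _ _ _

theorem ac (A B z : 𝔄) :
    ‖A * B * z + z * (A * B)‖ ≤ ‖A‖ * ‖B * z - z * B‖ + ‖A * z + z * A‖ * ‖B‖ := by
  rw [show A * B * z + z * (A * B) = A * (B * z - z * B) + (A * z + z * A) * B by noncomm_ring]
  exact nb _ _ _ _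

theorem loc_mul_cc (c : X → 𝔄) (A B : 𝔄) (y : X) :
    loc c (A * B) y ≤ ‖A‖ * loc c B y + loc c A y * ‖B‖ := by
  unfold loc
  nlinarith [cc A B (c y), cc A B (star (c y))]

theorem loc_mul_aa (c : X → 𝔄) (A B : 𝔄) (y : X) :
    loc c (A * B) y ≤ ‖A‖ * gloc c B y + gloc c A y * ‖B‖ := by
  unfold loc gloc
  nlinarith [aa A B (c y), aa A B (star (c y))]

theorem gloc_mul_ca (c : X → 𝔄) (A B : 𝔄) (y : X) :
    gloc c (A * B) y ≤ ‖A‖ * gloc c B y + loc c A y * ‖B‖ := by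
  unfold loc gloc
  nlinarith [ca A B (c y), ca A B (star (c y))]

theorem gloc_mul_ac (c : X → 𝔄) (A B : 𝔄) (y : X) :
    gloc c (A * B) y ≤ ‖A‖ * loc c B y + gloc c A y * ‖B‖ := by
  unfold loc gloc
  nlinarith [ac A B (c y), ac A B (star (c y))]

theorem norm_mul_two {A B : 𝔄} {C C' : ℝ} (h : ‖A‖ ≤ C) (h' : ‖B‖ ≤ C') :
    ‖A * B‖ ≤ 2 * C * C' := by
  have hC := (norm_nonneg _).trans h
  have hC' := (norm_nonneg _).trans h'
  have := (norm_mul_le A B).trans (mul_le_mul h h' (norm_nonneg _) hC)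
  nlinarith [mul_nonneg hC hC']

end gen

theorem two_bound {nA nB lA lB C C' w l : ℝ} (hA0 : 0 ≤ nA) (hB0 : 0 ≤ nB) (hlA : 0 ≤ lA)
    (hlB : 0 ≤ lB) (hA : nA ≤ C) (hB : nB ≤ C') (h1 : lA ≤ C * w) (h2 : lB ≤ C' * w)
    (h : l ≤ nA * lB + lA * nB) : l ≤ 2 * C * C' * w := by
  have e1 : nA * lB ≤ C * (C' * w) := mul_le_mul hA h2 hlB (hA0.trans hA)
  have e2 : lA * nB ≤ C * w * C' := mul_le_mul h1 hB hB0 (hlA.trans h1)
  nlinarith

end Crest.Agent.R340.A67
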