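import Mathlib

/-! Row 340, module GEO: Archimedes' formula (first part copied from `R348/ELArchA.lean`). -/

set_option autoImplicit false

open MeasureTheory Set Filter Topology Metric
open scoped ENNReal RealInnerProductSpace Pointwise

noncomputable section

namespace Crest.Agent.R340.Arch

abbrev Space : Type := EuclideanSpace ℝ (Fin 3)

/-- polar coordinates in the plane -/
theorem archA_plane {h : ℝ → ℝ≥0∞} (hh : Measurable h) :
    ∫⁻ w : ℝ × ℝ, h (√(w.1 ^ 2 + w.2 ^ 2)) =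
      ∫⁻ ρ in Ioi (0 : ℝ), ENNReal.ofReal (2 * Real.pi * ρ) * h ρ := by
  rw [← lintegral_comp_polarCoord_symm, polarCoord_target]
  have e : ∀ p ∈ Ioi (0 : ℝ) ×ˢ Ioo (-Real.pi) Real.pi,
      ENNReal.ofReal p.1 • h (√((polarCoord.symm p).1 ^ 2 + (polarCoord.symm p).2 ^ 2)) =
        (fun ρ => ENNReal.ofReal ρ * h ρ) p.1 := by
    intro p hp
    have e1 : (polarCoord.symm p).1 ^ 2 + (polarCoord.symm p).2 ^ 2 = p.1 ^ 2 := by
      simp only [polarCoord_symm_apply]
      nlinarith [Real.cos_sq_add_sin_sq p.2]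
    rw [e1, Real.sqrt_sq (le_of_lt hp.1), smul_eq_mul]
  have mg : Measurable fun p : ℝ × ℝ => (fun ρ => ENNReal.ofReal ρ * h ρ) p.1 :=
    (ENNReal.measurable_ofReal.mul hh).comp measurable_fst
  rw [setLIntegral_congr_fun (measurableSet_Ioi.prod measurableSet_Ioo) e, Measure.volume_eq_prod,
    ← Measure.prod_restrict, lintegral_prod _ mg.aemeasurable]
  refine setLIntegral_congr_fun measurableSet_Ioi fun ρ hρ => ?_
  simp only [lintegral_const, Measure.restrict_apply MeasurableSet.univ, univ_inter,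
    Real.volume_Ioo]
  rw [ENNReal.ofReal_mul (by positivity), show Real.pi - -Real.pi = 2 * Real.pi by ring]
  ring

/-- the substitution `r = √(t² + ρ²)` -/
theorem archA_subst (t : ℝ) (g : ℝ → ℝ≥0∞) :
    ∫⁻ ρ in Ioi (0 : ℝ), ENNReal.ofReal (2 * Real.pi * ρ) * g (√(t ^ 2 + ρ ^ 2)) =
      ∫⁻ r in Ioi |t|, ENNReal.ofReal (2 * Real.pi * r) * g r := by
  have him : (fun ρ : ℝ => √(t ^ 2 + ρ ^ 2)) '' Ioi 0 = Ioi |t| := by
    ext r
    constructor
    · rintro ⟨ρ, hρ, rfl⟩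
      have : 0 < ρ ^ 2 := pow_pos hρ 2
      exact Real.lt_sqrt_of_sq_lt (by rw [sq_abs]; linarith)
    · intro hr
      have hr0 : 0 ≤ r := (abs_nonneg t).trans (le_of_lt hr)
      have h2 : t ^ 2 < r ^ 2 := by
        rw [← sq_abs t]; exact pow_lt_pow_left₀ hr (abs_nonneg t) two_ne_zero
      refine ⟨√(r ^ 2 - t ^ 2), Real.sqrt_pos.2 (by linarith), ?_⟩
      simp only
      rw [Real.sq_sqrt (by linarith), add_sub_cancel, Real.sqrt_sq hr0]
  have hd : ∀ ρ ∈ Ioi (0 : ℝ), HasDerivWithinAt (fun ρ : ℝ => √(t ^ 2 + ρ ^ 2))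
      (ρ / √(t ^ 2 + ρ ^ 2)) (Ioi 0) ρ := by
    intro ρ hρ
    have hp : 0 < t ^ 2 + ρ ^ 2 := by have : 0 < ρ ^ 2 := pow_pos hρ 2; positivity
    have h1 : HasDerivAt (fun ρ : ℝ => t ^ 2 + ρ ^ 2) (2 * ρ) ρ := by
      simpa using (hasDerivAt_pow 2 ρ).const_add (t ^ 2)
    have h2 := h1.sqrt hp.ne'
    have e : 2 * ρ / (2 * √(t ^ 2 + ρ ^ 2)) = ρ / √(t ^ 2 + ρ ^ 2) :=
      mul_div_mul_left _ _ two_ne_zero
    rw [e] at h2
    exact h2.hasDerivWithinAt
  have hi : InjOn (fun ρ : ℝ => √(t ^ 2 + ρ ^ 2)) (Ioi 0) := by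
    intro a ha b hb hab
    have h1 : t ^ 2 + a ^ 2 = t ^ 2 + b ^ 2 :=
      (Real.sqrt_inj (by positivity) (by positivity)).1 hab
    exact (pow_left_inj₀ (le_of_lt ha) (le_of_lt hb) two_ne_zero).1 (by linarith)
  rw [← him, lintegral_image_eq_lintegral_abs_deriv_mul measurableSet_Ioi hd hi]
  refine setLIntegral_congr_fun measurableSet_Ioi fun ρ hρ => ?_
  have hρ' : 0 < ρ := hρ
  have hp : 0 < √(t ^ 2 + ρ ^ 2) := Real.sqrt_pos.2 (by positivity)
  rw [← mul_assoc, ← ENNReal.ofReal_mul (abs_nonneg _), abs_of_pos (div_pos hρ' hp)]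
  congr 2
  field_simp

/-- splitting off the first coordinate -/
theorem archA_split (G : ℝ × (ℝ × ℝ) → ℝ≥0∞) :
    ∫⁻ y : Space, G (y 0, (y 1, y 2)) = ∫⁻ p : ℝ × (ℝ × ℝ), G p := by
  have m1 : MeasurePreserving (MeasurableEquiv.toLp 2 (Fin 3 → ℝ)).symm (volume : Measure Space)
      volume := EuclideanSpace.volume_preserving_symm_measurableEquiv_toLp (Fin 3)
  have m2 := volume_preserving_piFinSuccAbove (fun _ : Fin 3 => ℝ) 0
  have m3 : MeasurePreserving (MeasurableEquiv.prodCongr (MeasurableEquiv.refl ℝ)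
      (MeasurableEquiv.finTwoArrow (α := ℝ))) volume volume :=
    (MeasurePreserving.id volume).prod (volume_preserving_finTwoArrow ℝ)
  have m := (m1.trans m2).trans m3
  rw [← m.lintegral_comp_emb (MeasurableEquiv.measurableEmbedding _) G]
  rfl

theorem archA_axis {H : ℝ → ℝ → ℝ≥0∞} (hH : Measurable (Function.uncurry H)) :
    ∫⁻ y : Space, H ‖y‖ (y 0) =
      ∫⁻ r in Ioi (0 : ℝ), ∫⁻ t in Ioo (-r) r, ENNReal.ofReal (2 * Real.pi * r) * H r t := by
  have e1 : ∀ y : Space, H ‖y‖ (y 0) = (fun p : ℝ × (ℝ × ℝ) =>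
      H (√(p.1 ^ 2 + (√(p.2.1 ^ 2 + p.2.2 ^ 2)) ^ 2)) p.1) (y 0, (y 1, y 2)) := by
    intro y
    simp only
    rw [Real.sq_sqrt (by positivity), EuclideanSpace.norm_eq, Fin.sum_univ_three]
    simp only [Real.norm_eq_abs, sq_abs, add_assoc]
  have mG : Measurable fun p : ℝ × (ℝ × ℝ) =>
      H (√(p.1 ^ 2 + (√(p.2.1 ^ 2 + p.2.2 ^ 2)) ^ 2)) p.1 :=
    hH.comp (f := fun p : ℝ × (ℝ × ℝ) => (√(p.1 ^ 2 + (√(p.2.1 ^ 2 + p.2.2 ^ 2)) ^ 2), p.1))
      (by fun_prop)
  rw [lintegral_congr e1, archA_split (fun p : ℝ × (ℝ × ℝ) =>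
      H (√(p.1 ^ 2 + (√(p.2.1 ^ 2 + p.2.2 ^ 2)) ^ 2)) p.1), Measure.volume_eq_prod,
    lintegral_prod _ mG.aemeasurable]
  have mK : Measurable fun p : ℝ × ℝ => {q : ℝ × ℝ | |q.1| < q.2}.indicator
      (fun q => ENNReal.ofReal (2 * Real.pi * q.2) * H q.2 q.1) p :=
    Measurable.indicator ((ENNReal.measurable_ofReal.comp (by fun_prop)).mul
      (hH.comp measurable_swap)) (measurableSet_lt (by fun_prop) measurable_snd)
  have e2 : ∀ t : ℝ, ∫⁻ w : ℝ × ℝ, H (√(t ^ 2 + (√(w.1 ^ 2 + w.2 ^ 2)) ^ 2)) t =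
      ∫⁻ r, {q : ℝ × ℝ | |q.1| < q.2}.indicator
        (fun q => ENNReal.ofReal (2 * Real.pi * q.2) * H q.2 q.1) (t, r) := by
    intro t
    rw [archA_plane (h := fun ρ => H (√(t ^ 2 + ρ ^ 2)) t)
      (hH.comp (f := fun ρ : ℝ => (√(t ^ 2 + ρ ^ 2), t)) (by fun_prop)),
      archA_subst t (fun r => H r t), ← lintegral_indicator measurableSet_Ioi]
    refine lintegral_congr fun r => ?_
    by_cases hr : |t| < r
    · rw [indicator_of_mem (show r ∈ Ioi |t| from hr), indicator_of_mem (by exact hr)]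
    · rw [indicator_of_notMem (show r ∉ Ioi |t| from hr), indicator_of_notMem (by exact hr)]
  simp only [e2]
  rw [lintegral_lintegral_swap mK.aemeasurable, ← lintegral_indicator measurableSet_Ioi]
  refine lintegral_congr fun r => ?_
  by_cases hr : 0 < r
  · rw [indicator_of_mem (show r ∈ Ioi 0 from hr), ← lintegral_indicator measurableSet_Ioo]
    refine lintegral_congr fun t => ?_
    by_cases ht : |t| < r
    · rw [indicator_of_mem (show t ∈ Ioo (-r) r from abs_lt.1 ht), indicator_of_mem (by exact ht)]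
    · rw [indicator_of_notMem (show t ∉ Ioo (-r) r from fun h => ht (abs_lt.2 h)),
        indicator_of_notMem (by exact ht)]
  · rw [indicator_of_notMem (show r ∉ Ioi 0 from hr)]
    have : ∀ t : ℝ, {q : ℝ × ℝ | |q.1| < q.2}.indicator
        (fun q => ENNReal.ofReal (2 * Real.pi * q.2) * H q.2 q.1) (t, r) = 0 := fun t =>
      indicator_of_notMem (show (t, r) ∉ {q : ℝ × ℝ | |q.1| < q.2} from
        fun h => hr ((abs_nonneg t).trans_lt h)) _
    simp only [this, lintegral_zero]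

theorem archA {e : Space} (he : ‖e‖ = 1) {H : ℝ → ℝ → ℝ≥0∞} (hH : Measurable (Function.uncurry H)) :
    ∫⁻ y : Space, H ‖y‖ ⟪e, y⟫ =
      ∫⁻ r in Ioi (0 : ℝ), ∫⁻ t in Ioo (-r) r, ENNReal.ofReal (2 * Real.pi * r) * H r t := by
  set e0 : Space := EuclideanSpace.single 0 1 with he0
  have hn : ‖e‖ = ‖e0‖ := by rw [he, he0]; simp
  set R : Space ≃ₗᵢ[ℝ] Space := Submodule.reflection (ℝ ∙ (e - e0))ᗮ with hR
  have hRe : R e = e0 := Submodule.reflection_sub hn
  rw [← archA_axis hH, ← R.measurePreserving.lintegral_comp_emb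
    R.toHomeomorph.measurableEmbedding (fun y => H ‖y‖ (y 0))]
  refine lintegral_congr fun y => ?_
  rw [R.norm_map, ← R.inner_map_map, hRe, he0]
  simp [EuclideanSpace.inner_single_left]

theorem preserving (R : Space ≃ₗᵢ[ℝ] Space) :
    MeasurePreserving (fun x : sphere (0 : Space) 1 => (⟨R x, by simp⟩ : sphere (0 : Space) 1))
      (volume : Measure Space).toSphere (volume : Measure Space).toSphere := by
  have hf : Measurable fun x : sphere (0 : Space) 1 => (⟨R x, by simp⟩ : sphere (0 : Space) 1) :=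
    (R.continuous.measurable.comp measurable_subtype_coe).subtype_mk
  refine ⟨hf, ?_⟩
  ext A hA
  rw [Measure.map_apply hf hA, Measure.toSphere_apply' _ hA, Measure.toSphere_apply' _ (hf hA)]
  congr 1
  rw [← R.measurePreserving.measure_preimage_emb R.toHomeomorph.measurableEmbedding
    (Ioo (0 : ℝ) 1 • (Subtype.val '' A))]
  congr 1
  ext y
  constructor
  · rintro ⟨t, ht, a, ⟨b, hb, rfl⟩, rfl⟩
    exact ⟨t, ht, R b, ⟨_, hb, rfl⟩, by simp⟩
  · rintro ⟨t, ht, a, ⟨b, hb, rfl⟩, h⟩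
    refine ⟨t, ht, R.symm b, ⟨⟨R.symm b, by simp⟩, by simpa using hb, rfl⟩, ?_⟩
    apply R.injective
    simpa using h

theorem vol_aff {r : ℝ} (hr : 0 < r) (B : Set ℝ) :
    volume {t : ℝ | (1 - t / r) / 2 ∈ B} = ENNReal.ofReal (2 * r) * volume B := by
  have e : {t : ℝ | (1 - t / r) / 2 ∈ B} =
      (fun t => -(2 * r)⁻¹ * t) ⁻¹' ((fun s => 1 / 2 + s) ⁻¹' B) := by
    ext t
    simp only [mem_ofPred_eq, mem_preimage]
    rw [show (1 - t / r) / 2 = 1 / 2 + -(2 * r)⁻¹ * t by field_simp; ring]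
  rw [e, Real.volume_preimage_mul_left (neg_ne_zero.2 (inv_ne_zero (by positivity))),
    measure_preimage_add, inv_neg, inv_inv, abs_neg, abs_of_pos (by positivity)]

theorem map_sq (x : sphere (0 : Space) 1) :
    (volume : Measure Space).toSphere.map
        (fun y : sphere (0 : Space) 1 => ‖(x : Space) - (y : Space)‖ ^ 2 / 4) =
      ENNReal.ofReal (4 * Real.pi) • volume.restrict (Icc (0 : ℝ) 1) := by
  have hx : ‖(x : Space)‖ = 1 := by simp
  have hf : Measurable fun y : sphere (0 : Space) 1 => ‖(x : Space) - (y : Space)‖ ^ 2 / 4 := by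
    fun_prop
  have ef : ∀ y : Space, ‖y‖ = 1 → ‖(x : Space) - y‖ ^ 2 / 4 = (1 - ⟪(x : Space), y⟫) / 2 := by
    intro y hy
    rw [norm_sub_sq_real, hx, hy]
    ring
  ext A hA
  rw [Measure.map_apply hf hA, Measure.toSphere_apply' _ (hf hA), finrank_euclideanSpace,
    Fintype.card_fin, Nat.cast_ofNat]
  set S : Set (ℝ × ℝ) := {p | p.1 ∈ Ioo (0 : ℝ) 1 ∧ (1 - p.2 / p.1) / 2 ∈ A} with hS
  have mS : MeasurableSet S :=
    (measurable_fst measurableSet_Ioo).inter
      ((by fun_prop : Measurable fun p : ℝ × ℝ => (1 - p.2 / p.1) / 2) hA)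
  have e : Ioo (0 : ℝ) 1 • (Subtype.val ''
      ((fun y : sphere (0 : Space) 1 => ‖(x : Space) - (y : Space)‖ ^ 2 / 4) ⁻¹' A)) =
      (fun y : Space => (‖y‖, ⟪(x : Space), y⟫)) ⁻¹' S := by
    ext y
    constructor
    · rintro ⟨t, ht, a, ⟨b, hb, rfl⟩, rfl⟩
      have hb1 : ‖(b : Space)‖ = 1 := by simp
      have hn : ‖t • (b : Space)‖ = t := by
        rw [norm_smul, hb1, mul_one, Real.norm_of_nonneg ht.1.le]
      refine ⟨by simpa only [hn] using ht, ?_⟩
      simp only [hn, real_inner_smul_right]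
      rw [mul_div_cancel_left₀ _ ht.1.ne', ← ef _ hb1]
      exact hb
    · rintro ⟨h1, h2⟩
      have h0 : ‖y‖ ≠ 0 := h1.1.ne'
      have hb1 : ‖‖y‖⁻¹ • y‖ = 1 := by
        rw [norm_smul, norm_inv, norm_norm, inv_mul_cancel₀ h0]
      refine ⟨‖y‖, h1, ‖y‖⁻¹ • y, ⟨⟨‖y‖⁻¹ • y, by simpa using hb1⟩, ?_, rfl⟩, ?_⟩
      · simp only [mem_preimage]
        rw [ef _ hb1, real_inner_smul_right, inv_mul_eq_div]
        exact h2
      · simp only
        rw [smul_smul, mul_inv_cancel₀ h0, one_smul]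
  have mg : Measurable fun y : Space => (‖y‖, ⟪(x : Space), y⟫) := by fun_prop
  have e2 := archA hx (H := fun r t => S.indicator 1 (r, t)) (measurable_one.indicator mS)
  have e3 : volume ((fun y : Space => (‖y‖, ⟪(x : Space), y⟫)) ⁻¹' S) =
      ∫⁻ y : Space, S.indicator 1 (‖y‖, ⟪(x : Space), y⟫) := by
    rw [← lintegral_indicator_one (mg mS)]
    rfl
  have e4 : ∀ r ∈ Ioi (0 : ℝ), ∫⁻ t in Ioo (-r) r, ENNReal.ofReal (2 * Real.pi * r) *
      S.indicator (1 : ℝ × ℝ → ℝ≥0∞) (r, t) = (Ioo (0 : ℝ) 1).indicator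
        (fun r => ENNReal.ofReal (4 * Real.pi * r ^ 2) * volume (A ∩ Ioo 0 1)) r := by
    intro r hr
    have hr0 : 0 < r := hr
    by_cases h1 : r ∈ Ioo (0 : ℝ) 1
    · have mB : MeasurableSet {t : ℝ | (1 - t / r) / 2 ∈ A} :=
        (by fun_prop : Measurable fun t : ℝ => (1 - t / r) / 2) hA
      have e5 : ∀ t : ℝ, S.indicator (1 : ℝ × ℝ → ℝ≥0∞) (r, t) =
          {t : ℝ | (1 - t / r) / 2 ∈ A}.indicator 1 t := fun t => by
        by_cases ht : (1 - t / r) / 2 ∈ A
        · rw [indicator_of_mem (show (r, t) ∈ S from ⟨h1, ht⟩), indicator_of_mem (by exact ht)]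
          rfl
        · rw [indicator_of_notMem (show (r, t) ∉ S from fun h => ht h.2),
            indicator_of_notMem (by exact ht)]
      have e6 : {t : ℝ | (1 - t / r) / 2 ∈ A} ∩ Ioo (-r) r =
          {t : ℝ | (1 - t / r) / 2 ∈ A ∩ Ioo 0 1} := by
        ext t
        simp only [mem_inter_iff, mem_ofPred_eq, mem_Ioo]
        refine and_congr_right fun _ => ?_
        have a1 : -r < t ↔ -1 < t / r := by rw [lt_div_iff₀ hr0, neg_one_mul]
        have a2 : t < r ↔ t / r < 1 := by rw [div_lt_one hr0]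
        rw [a1, a2]
        constructor <;> rintro ⟨u, v⟩ <;> constructor <;> linarith
      simp only [e5]
      rw [lintegral_const_mul _ (measurable_one.indicator mB), lintegral_indicator_one mB,
        Measure.restrict_apply mB, e6, vol_aff hr0, indicator_of_mem h1, ← mul_assoc,
        ← ENNReal.ofReal_mul (by positivity)]
      congr 2
      ring
    · rw [indicator_of_notMem h1]
      have e5 : ∀ t : ℝ, S.indicator (1 : ℝ × ℝ → ℝ≥0∞) (r, t) = 0 := fun t =>
        indicator_of_notMem (show (r, t) ∉ S from fun h => h1 h.1) _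
      simp only [e5, mul_zero, lintegral_zero]
  have e7 : ∫⁻ r in Ioo (0 : ℝ) 1, ENNReal.ofReal (4 * Real.pi * r ^ 2) =
      ENNReal.ofReal (4 * Real.pi / 3) := by
    rw [← ofReal_integral_eq_lintegral_ofReal
      ((by fun_prop : Continuous fun r : ℝ => 4 * Real.pi * r ^ 2).integrableOn_Icc.mono_set
        Ioo_subset_Icc_self) (Eventually.of_forall fun r => by positivity),
      ← integral_Ioc_eq_integral_Ioo, ← intervalIntegral.integral_of_le zero_le_one,
      intervalIntegral.integral_const_mul, integral_pow]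
    congr 1
    ring
  rw [e, e3, e2, setLIntegral_congr_fun measurableSet_Ioi e4, lintegral_indicator measurableSet_Ioo,
    Measure.restrict_restrict measurableSet_Ioo, inter_eq_left.2 Ioo_subset_Ioi_self,
    lintegral_mul_const _ (by fun_prop), e7, Measure.smul_apply, smul_eq_mul,
    ← Measure.restrict_congr_set Ioo_ae_eq_Icc, Measure.restrict_apply hA, ← mul_assoc,
    ← ENNReal.ofReal_ofNat, ← ENNReal.ofReal_mul (by norm_num)]
  congr 2
  ring

end Crest.Agent.R340.Arch
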