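import Crest.Agent.R340.GeoRho
import Crest.Agent.R340.GeoCar
import Crest.Agent.R340.FwDefs
import Crest.Agent.R340.GeoArch

/-! # GEO: integrals over the sphere -/

set_option autoImplicit false

namespace Crest.Agent.R340

open Matrix MeasureTheory Set Crest.MathPhysics.Laughlin
open scoped ComplexConjugate Matrix.Norms.L2Operator MatrixOrder ComplexOrder ENNReal

variable {q : ℕ}

instance : IsFiniteMeasure sigS := by unfold sigS; infer_instance

instance (q : ℕ) : IsFiniteMeasure (muq q) := by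
  unfold muq
  exact Measure.smul_finite _ ENNReal.ofReal_ne_top

/-! ### part A: Archimedes -/

theorem sigS_preserving (R : EuclideanSpace ℝ (Fin 3) ≃ₗᵢ[ℝ] EuclideanSpace ℝ (Fin 3)) :
    MeasurePreserving (fun x : S2 => (⟨R x, by simp⟩ : S2)) sigS sigS :=
  Arch.preserving R

/-- Archimedes: `t = |x - y|² / 4` is uniform on `[0, 1]` -/
theorem map_tS (x : S2) :
    sigS.map (tS x) = ENNReal.ofReal (4 * Real.pi) • volume.restrict (Icc (0 : ℝ) 1) :=
  Arch.map_sq x

/-! ### part B: volume bounds -/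

theorem geoB_meas (x : S2) : Measurable (tS x) := by
  refine Continuous.measurable ?_
  unfold tS
  fun_prop

theorem geoB_map (q : ℕ) (x : S2) :
    (muq q).map (tS x) = ENNReal.ofReal ((q : ℝ) + 1) • volume.restrict (Icc (0 : ℝ) 1) := by
  unfold muq
  rw [Measure.map_smul, map_tS, smul_smul, ← ENNReal.ofReal_mul (by positivity)]
  congr 2
  have := Real.pi_pos
  field_simp

theorem geoB_dq (q : ℕ) (x y : S2) : dq q x y = √(q * tS x y) := by
  rw [← dq_sq, Real.sqrt_sq (dq_nonneg q x y)]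

theorem geoB_ball (q : ℕ) (x : S2) (r : ℝ) : muq q {y | dq q x y ≤ r} =
    ENNReal.ofReal ((q : ℝ) + 1) * volume ({t : ℝ | √(q * t) ≤ r} ∩ Icc 0 1) := by
  have hm : MeasurableSet {t : ℝ | √(q * t) ≤ r} :=
    (isClosed_le (by fun_prop) continuous_const).measurableSet
  have e : {y | dq q x y ≤ r} = tS x ⁻¹' {t : ℝ | √(q * t) ≤ r} := by
    ext y; simp [geoB_dq]
  rw [e, ← Measure.map_apply (geoB_meas x) hm, geoB_map, Measure.smul_apply,
    Measure.restrict_apply hm, smul_eq_mul]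

theorem muq_univ (q : ℕ) : muq q univ = (q : ℝ≥0∞) + 1 := by
  let x : S2 := ⟨EuclideanSpace.single 0 1, by simp⟩
  rw [← preimage_univ (f := tS x), ← Measure.map_apply (geoB_meas x) MeasurableSet.univ, geoB_map]
  simp [ENNReal.ofReal_add]

theorem integral_tS (q : ℕ) (x : S2) {F : ℝ → ℝ} (hF : Measurable F) :
    ∫ y, F (tS x y) ∂muq q = ((q : ℝ) + 1) * ∫ t in Icc (0 : ℝ) 1, F t := by
  rw [← integral_map (geoB_meas x).aemeasurable hF.aestronglyMeasurable, geoB_map,
    integral_smul_measure, ENNReal.toReal_ofReal (by positivity), smul_eq_mul]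

theorem lintegral_dq_le (hq : 1 ≤ q) (x : S2) {F : ℝ → ℝ≥0∞} (hF : Measurable F) :
    ∫⁻ y, F (dq q x y) ∂muq q ≤ ∫⁻ r in Ioi (0 : ℝ), ENNReal.ofReal (4 * r) * F r := by
  have hq' : (1 : ℝ) ≤ q := by exact_mod_cast hq
  have hq0 : (0 : ℝ) < q := by linarith
  have hm : Measurable fun t : ℝ => F √(q * t) := hF.comp (by fun_prop)
  have him : (fun r : ℝ => r ^ 2 / q) '' Ioi 0 = Ioi 0 := by
    ext t
    constructor
    · rintro ⟨r, hr, rfl⟩
      have : 0 < r := hr
      exact mem_Ioi.2 (by positivity)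
    · intro ht
      have : 0 < t := ht
      refine ⟨√(q * t), mem_Ioi.2 (by positivity), ?_⟩
      simp only
      rw [Real.sq_sqrt (by positivity)]
      field_simp
  have hcv := lintegral_image_eq_lintegral_abs_deriv_mul (f := fun r : ℝ => r ^ 2 / q)
    (f' := fun r => 2 * r / q) measurableSet_Ioi
    (fun r _ => (((hasDerivAt_pow 2 r).div_const (q : ℝ)).congr_deriv (by simp)).hasDerivWithinAt)
    (fun a (ha : 0 < a) b (hb : 0 < b) h => by
      have h2 : a ^ 2 = b ^ 2 := by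
        simp only at h
        field_simp at h
        exact h
      exact (pow_left_inj₀ ha.le hb.le two_ne_zero).1 h2) (fun t => F √(q * t))
  rw [him] at hcv
  simp only [geoB_dq]
  rw [← lintegral_map hm (geoB_meas x), geoB_map, lintegral_smul_measure, smul_eq_mul,
    ← Measure.restrict_congr_set Ioc_ae_eq_Icc]
  refine (mul_le_mul_right (lintegral_mono_set Ioc_subset_Ioi_self) _).trans ?_
  rw [hcv, ← lintegral_const_mul' _ _ ENNReal.ofReal_ne_top]
  refine setLIntegral_mono' measurableSet_Ioi fun r (hr : 0 < r) => ?_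
  have e : √(q * (r ^ 2 / q)) = r := by
    rw [mul_div_cancel₀ _ hq0.ne', Real.sqrt_sq hr.le]
  rw [e, ← mul_assoc, ← ENNReal.ofReal_mul (by positivity), abs_of_pos (by positivity)]
  refine mul_le_mul_left (ENNReal.ofReal_le_ofReal ?_) _
  rw [← mul_div_assoc, div_le_iff₀ hq0]
  nlinarith

theorem integral_dq_le (hq : 1 ≤ q) (x : S2) {F : ℝ → ℝ} (hF : Measurable F) (h0 : ∀ r, 0 ≤ F r)
    (hi : IntegrableOn (fun r => r * F r) (Ioi 0)) :
    ∫ y, F (dq q x y) ∂muq q ≤ 4 * ∫ r in Ioi (0 : ℝ), r * F r := by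
  have hmd : Measurable fun y => dq q x y :=
    ((continuous_dq q).comp (Continuous.prodMk_right x)).measurable
  have hp : ∀ᵐ r ∂(volume.restrict (Ioi (0 : ℝ))), 0 ≤ 4 * (r * F r) := by
    filter_upwards [ae_restrict_mem measurableSet_Ioi] with r (hr : 0 < r)
    have := h0 r
    positivity
  rw [integral_eq_lintegral_of_nonneg_ae (Filter.Eventually.of_forall fun y => h0 _)
    (hF.comp hmd).aestronglyMeasurable, ← integral_const_mul]
  refine ENNReal.toReal_le_of_le_ofReal (integral_nonneg_of_ae hp) ?_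
  rw [ofReal_integral_eq_lintegral_ofReal (hi.const_mul 4) hp]
  refine (lintegral_dq_le hq x (F := fun r => ENNReal.ofReal (F r)) hF.ennreal_ofReal).trans ?_
  refine setLIntegral_mono' measurableSet_Ioi fun r (hr : 0 < r) => ?_
  rw [← ENNReal.ofReal_mul (by positivity), mul_assoc]

theorem muq_ball (hq : 1 ≤ q) (x : S2) (r : ℝ) :
    muq q {y | dq q x y ≤ r} ≤ ENNReal.ofReal (2 * r ^ 2) := by
  have hq' : (1 : ℝ) ≤ q := by exact_mod_cast hq
  have hq0 : (0 : ℝ) < q := by linarith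
  rw [geoB_ball]
  have hsub : {t : ℝ | √(q * t) ≤ r} ∩ Icc 0 1 ⊆ Icc 0 (r ^ 2 / q) := by
    rintro t ⟨ht, h0, -⟩
    refine ⟨h0, ?_⟩
    rw [le_div_iff₀ hq0, mul_comm]
    exact (Real.sqrt_le_iff.1 ht).2
  refine (mul_le_mul_right (measure_mono hsub) _).trans ?_
  rw [Real.volume_Icc, ← ENNReal.ofReal_mul (by positivity)]
  refine ENNReal.ofReal_le_ofReal ?_
  rw [sub_zero, ← mul_div_assoc, div_le_iff₀ hq0]
  nlinarith [sq_nonneg r]

theorem muq_ball_ge (hq : 1 ≤ q) (x : S2) {r : ℝ} (h0 : 0 ≤ r) (hr : r ^ 2 ≤ q) :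
    ENNReal.ofReal (r ^ 2) ≤ muq q {y | dq q x y ≤ r} := by
  have hq' : (1 : ℝ) ≤ q := by exact_mod_cast hq
  have hq0 : (0 : ℝ) < q := by linarith
  rw [geoB_ball]
  have hsub : Icc 0 (r ^ 2 / q) ⊆ {t : ℝ | √(q * t) ≤ r} ∩ Icc 0 1 := by
    rintro t ⟨h1, h2⟩
    refine ⟨Real.sqrt_le_iff.2 ⟨h0, ?_⟩, h1, h2.trans ((div_le_one hq0).2 hr)⟩
    rwa [le_div_iff₀ hq0, mul_comm] at h2
  refine le_trans ?_ (mul_le_mul_right (measure_mono hsub) _)
  rw [Real.volume_Icc, ← ENNReal.ofReal_mul (by positivity)]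
  refine ENNReal.ofReal_le_ofReal ?_
  rw [sub_zero, ← mul_div_assoc, le_div_iff₀ hq0]
  nlinarith [sq_nonneg r]

theorem integral_exp_dq (hq : 1 ≤ q) (x : S2) {a : ℝ} (ha : 0 < a) :
    ∫ y, Real.exp (-a * dq q x y) ∂muq q ≤ 4 / a ^ 2 := by
  have hi := integrableOn_rpow_mul_exp_neg_mul_rpow (p := 1) (s := 1) (by norm_num) one_pos ha
  have he := integral_rpow_mul_exp_neg_mul_rpow (p := 1) (q := 1) one_pos (by norm_num) ha
  simp only [Real.rpow_one] at hi he
  refine (integral_dq_le hq x (F := fun r => Real.exp (-a * r)) (by fun_prop)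
    (fun r => (Real.exp_pos _).le) hi).trans (le_of_eq ?_)
  rw [he, show (-(1 + 1) / 1 : ℝ) = -((2 : ℕ) : ℝ) by norm_num,
    show ((1 + 1) / 1 : ℝ) = ((1 : ℕ) : ℝ) + 1 by norm_num, Real.Gamma_nat_eq_factorial,
    Real.rpow_neg ha.le, Real.rpow_natCast]
  simp [div_eq_mul_inv]

theorem integral_exp_sqrt_dq (hq : 1 ≤ q) (x : S2) {a : ℝ} (ha : 0 < a) :
    ∫ y, Real.exp (-a * Real.sqrt (dq q x y)) ∂muq q ≤ 48 / a ^ 4 := by
  have hi := integrableOn_rpow_mul_exp_neg_mul_rpow (p := 1 / 2) (s := 1) (by norm_num)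
    (by norm_num) ha
  have he := integral_rpow_mul_exp_neg_mul_rpow (p := 1 / 2) (q := 1) (by norm_num) (by norm_num) ha
  simp only [Real.rpow_one, ← Real.sqrt_eq_rpow] at hi he
  refine (integral_dq_le hq x (F := fun r => Real.exp (-a * √r)) (by fun_prop)
    (fun r => (Real.exp_pos _).le) hi).trans (le_of_eq ?_)
  rw [he, show (-(1 + 1) / (1 / 2) : ℝ) = -((4 : ℕ) : ℝ) by norm_num,
    show ((1 + 1) / (1 / 2) : ℝ) = ((3 : ℕ) : ℝ) + 1 by norm_num, Real.Gamma_nat_eq_factorial,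
    Real.rpow_neg ha.le, Real.rpow_natCast]
  simp [Nat.factorial]
  ring

/-- a ring of radius `s` -/
theorem integral_ring (hq : 1 ≤ q) (x : S2) {s : ℝ} (hs : 0 ≤ s) :
    ∫ y, Real.exp (-(s - dq q x y) ^ 2 / 2) ∂muq q ≤ 16 * (1 + s) := by
  have hg : Integrable fun r : ℝ => (1 + s) * Real.exp (-(1 / 4) * (r - s) ^ 2) :=
    ((integrable_exp_neg_mul_sq (b := 1 / 4) (by norm_num)).comp_sub_right s).const_mul _
  have hb : ∀ r : ℝ, r * Real.exp (-(s - r) ^ 2 / 2) ≤
      (1 + s) * Real.exp (-(1 / 4) * (r - s) ^ 2) := by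
    intro r
    have e : Real.exp (-(1 / 4) * (r - s) ^ 2) =
        Real.exp ((r - s) ^ 2 / 4) * Real.exp (-(s - r) ^ 2 / 2) := by
      rw [← Real.exp_add]; congr 1; ring
    rw [e, ← mul_assoc]
    refine mul_le_mul_of_nonneg_right ?_ (Real.exp_pos _).le
    have h1 := Real.add_one_le_exp ((r - s) ^ 2 / 4)
    have h2 : (1 + s) * ((r - s) ^ 2 / 4 + 1) ≤ (1 + s) * Real.exp ((r - s) ^ 2 / 4) :=
      mul_le_mul_of_nonneg_left h1 (by linarith)
    nlinarith [sq_nonneg (r - s - 2), mul_nonneg hs (sq_nonneg (r - s))]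
  have hi : IntegrableOn (fun r : ℝ => r * Real.exp (-(s - r) ^ 2 / 2)) (Ioi 0) := by
    refine hg.integrableOn.mono' (by fun_prop) ?_
    filter_upwards [ae_restrict_mem measurableSet_Ioi] with r (hr : 0 < r)
    rw [Real.norm_of_nonneg (by positivity)]
    exact hb r
  refine (integral_dq_le hq x (F := fun r => Real.exp (-(s - r) ^ 2 / 2)) (by fun_prop)
    (fun r => (Real.exp_pos _).le) hi).trans ?_
  have k1 := setIntegral_mono_on hi hg.integrableOn measurableSet_Ioi fun r _ => hb r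
  have k2 := k1.trans (setIntegral_le_integral (s := Ioi (0 : ℝ)) hg
    (Filter.Eventually.of_forall fun r => by positivity))
  rw [integral_const_mul, integral_sub_right_eq_self (fun r : ℝ => Real.exp (-(1 / 4) * r ^ 2)) s,
    integral_gaussian] at k2
  have k3 : √(Real.pi / (1 / 4)) ≤ 4 := by
    refine Real.sqrt_le_iff.2 ⟨by norm_num, ?_⟩
    have := Real.pi_le_four
    linarith
  have k4 := mul_le_mul_of_nonneg_left k3 (by linarith : 0 ≤ 1 + s)
  linarith

/-! ### part C: resolutions of the identity -/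

theorem c1_sum_sq {n : ℕ} (a : Fin n → ℂ) : star a ⬝ᵥ a = ((∑ j, ‖a j‖ ^ 2 : ℝ) : ℂ) := by
  simp only [dotProduct, Pi.star_apply, Complex.ofReal_sum]
  refine Finset.sum_congr rfl fun j _ => ?_
  rw [Complex.star_def, Complex.conj_mul', Complex.ofReal_pow]

theorem c1_norm_orb_le (m : ℕ) (x : S2) (k j : Fin (m + 1)) : ‖orb m x k j‖ ≤ 1 := by
  have h := orb_dot m x k k
  rw [c1_sum_sq, if_pos rfl] at h
  have h1 : ∑ j, ‖orb m x k j‖ ^ 2 = 1 := by exact_mod_cast h
  have h2 : ‖orb m x k j‖ ^ 2 ≤ 1 := by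
    rw [← h1]
    exact Finset.single_le_sum (f := fun j => ‖orb m x k j‖ ^ 2) (fun _ _ => by positivity)
      (Finset.mem_univ j)
  nlinarith [norm_nonneg (orb m x k j)]

theorem c1_measurable_orb (m : ℕ) (k j : Fin (m + 1)) : Measurable fun x => orb m x k j :=
  (measurable_pi_apply j).comp (measurable_orb m k)

theorem integrable_orb (q m : ℕ) (k : Fin (m + 1)) (j j' : Fin (m + 1)) {φ : S2 → ℂ}
    (hφ : Measurable φ) {C : ℝ} (hC : ∀ x, ‖φ x‖ ≤ C) :
    Integrable (fun x => φ x * (orb m x k j * conj (orb m x k j'))) (muq q) := by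
  refine Integrable.of_bound ?_ C (Filter.Eventually.of_forall fun x => ?_)
  · exact (hφ.mul ((c1_measurable_orb m k j).mul
      (Complex.continuous_conj.measurable.comp (c1_measurable_orb m k j')))).aestronglyMeasurable
  · rw [norm_mul, norm_mul, Complex.norm_conj]
    have h1 := c1_norm_orb_le m x k j
    have h2 := c1_norm_orb_le m x k j'
    have h3 : ‖orb m x k j‖ * ‖orb m x k j'‖ ≤ 1 := mul_le_one₀ h1 (norm_nonneg _) h2
    calc ‖φ x‖ * (‖orb m x k j‖ * ‖orb m x k j'‖) ≤ ‖φ x‖ * 1 := by gcongr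
      _ ≤ C := by rw [mul_one]; exact hC x

theorem c1_beta (a b : ℕ) : ∫ t in (0 : ℝ)..1, (1 - t) ^ a * t ^ b =
    (a.factorial : ℝ) * b.factorial / (a + b + 1).factorial := by
  induction a generalizing b with
  | zero =>
    simp only [pow_zero, one_mul, integral_pow, Nat.factorial_zero, Nat.cast_one, zero_add,
      Nat.factorial_succ]
    have : (b.factorial : ℝ) ≠ 0 := by positivity
    push_cast
    field_simp
    simp
  | succ a ih =>
    have e : ∀ t : ℝ, (1 - t) ^ (a + 1) * t ^ b = (1 - t) ^ a * t ^ b - (1 - t) ^ a * t ^ (b + 1) := by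
      intro t; ring
    simp_rw [e]
    rw [intervalIntegral.integral_sub (by apply Continuous.intervalIntegrable; fun_prop)
      (by apply Continuous.intervalIntegrable; fun_prop), ih, ih]
    have e1 : a + (b + 1) + 1 = (a + b + 1) + 1 := by ring
    have e2 : a + 1 + b + 1 = (a + b + 1) + 1 := by ring
    rw [e1, e2, Nat.factorial_succ (a + b + 1), Nat.factorial_succ a, Nat.factorial_succ b]
    have : ((a + b + 1).factorial : ℝ) ≠ 0 := by positivity
    push_cast
    field_simp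
    ring

theorem c1_beta' (m : ℕ) (k : Fin (m + 1)) :
    ∫ t in Icc (0 : ℝ) 1, (m.choose k : ℝ) * (1 - t) ^ (m - k) * t ^ (k : ℕ) = 1 / ((m : ℝ) + 1) := by
  have hk : (k : ℕ) ≤ m := Nat.lt_succ_iff.mp k.2
  simp_rw [mul_assoc]
  rw [integral_const_mul, integral_Icc_eq_integral_Ioc,
    ← intervalIntegral.integral_of_le zero_le_one, c1_beta, Nat.sub_add_cancel hk,
    Nat.factorial_succ, Nat.cast_choose ℝ hk]
  have h1 : ((m - k).factorial : ℝ) ≠ 0 := by positivity
  have h2 : ((k : ℕ).factorial : ℝ) ≠ 0 := by positivity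
  have h3 : (m.factorial : ℝ) ≠ 0 := by positivity
  push_cast
  field_simp

theorem c1_pt {n : ℕ} (y a : Fin n → ℂ) :
    ∑ j, ∑ j', conj (y j) * (a j * conj (a j')) * y j' = ((‖star y ⬝ᵥ a‖ ^ 2 : ℝ) : ℂ) := by
  rw [Complex.ofReal_pow, ← Complex.mul_conj']
  simp only [dotProduct, Pi.star_apply, map_sum, Finset.sum_mul_sum, Complex.star_def, map_mul,
    Complex.conj_conj]
  refine Finset.sum_congr rfl fun j _ => Finset.sum_congr rfl fun j' _ => by ring

/-- Schur orthogonality -/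
theorem integral_orb (q m : ℕ) (k : Fin (m + 1)) (j j' : Fin (m + 1)) :
    ∫ x, orb m x k j * conj (orb m x k j') ∂muq q =
      if j = j' then (((q : ℝ) + 1) / ((m : ℝ) + 1) : ℝ) else 0 := by
  have hi : ∀ j j', Integrable (fun x => orb m x k j * conj (orb m x k j')) (muq q) := by
    intro j j'
    have := integrable_orb q m k j j' (φ := fun _ => 1) measurable_const (C := 1) (by simp)
    simpa using this
  set c : ℝ := ((q : ℝ) + 1) / ((m : ℝ) + 1) with hc
  let N : Matrix (Fin (m + 1)) (Fin (m + 1)) ℂ :=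
    Matrix.of fun j j' => ∫ x, orb m x k j * conj (orb m x k j') ∂muq q
  have key : N - (c : ℂ) • 1 = 0 := by
    refine symbol_inj fun y => ?_
    have h1 : star (coh m y) ⬝ᵥ coh m y = 1 := by
      have := orb_dot m y 0 0
      rwa [orb_zero, if_pos rfl] at this
    have h2 : star (coh m y) ⬝ᵥ N *ᵥ coh m y = (c : ℂ) := by
      have e1 : star (coh m y) ⬝ᵥ N *ᵥ coh m y =
          ∑ j, ∑ j', ∫ x, conj (coh m y j) * (orb m x k j * conj (orb m x k j')) * coh m y j'
            ∂muq q := by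
        simp only [dotProduct, mulVec, Pi.star_apply, Complex.star_def, Finset.mul_sum, N,
          Matrix.of_apply]
        refine Finset.sum_congr rfl fun j _ => Finset.sum_congr rfl fun j' _ => ?_
        rw [integral_mul_const, integral_const_mul, mul_assoc]
      have hi2 : ∀ j j', Integrable (fun x => conj (coh m y j) *
          (orb m x k j * conj (orb m x k j')) * coh m y j') (muq q) :=
        fun j j' => ((hi j j').const_mul _).mul_const _
      rw [e1]
      simp_rw [← integral_finsetSum _ fun j' _ => hi2 _ j']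
      rw [← integral_finsetSum _ fun j _ => integrable_finsetSum _ fun j' _ => hi2 j j']
      simp_rw [c1_pt, orb_overlap_sq]
      rw [integral_complex_ofReal, integral_tS q y
        (F := fun t => (m.choose k : ℝ) * (1 - t) ^ (m - k) * t ^ (k : ℕ)) (by fun_prop), c1_beta']
      rw [hc]; congr 1; ring
    rw [sub_mulVec, dotProduct_sub, h2, smul_mulVec, one_mulVec, dotProduct_smul, h1, smul_eq_mul,
      mul_one, sub_self]
  have := congrFun (congrFun (sub_eq_zero.mp key) j) j'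
  simp only [N, Matrix.of_apply, Matrix.smul_apply, Matrix.one_apply, smul_eq_mul, mul_ite, mul_one,
    mul_zero] at this
  rw [this]
  split_ifs <;> simp

theorem c1_kernel (q : ℕ) (j j' : Fin (q + 1)) (x : S2) :
    coherentKernel q j j' x = conj ((spin x).1 ^ (q - j) * (spin x).2 ^ (j : ℕ)) *
      ((spin x).1 ^ (q - j') * (spin x).2 ^ (j' : ℕ)) := by
  have hj : (j : ℕ) ≤ q := Nat.lt_succ_iff.mp j.2
  have hj' : (j' : ℕ) ≤ q := Nat.lt_succ_iff.mp j'.2
  have h0 : (((1 + (x : EuclideanSpace ℝ (Fin 3)) 2) / 2 : ℝ) : ℂ) = conj (spin x).1 * (spin x).1 := by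
    rw [← spin_sq0, Complex.conj_mul', Complex.ofReal_pow]
  have h1 : (((1 - (x : EuclideanSpace ℝ (Fin 3)) 2) / 2 : ℝ) : ℂ) = conj (spin x).2 * (spin x).2 := by
    rw [← spin_sq1, Complex.conj_mul', Complex.ofReal_pow]
  have h2 := spin_cross x
  have h3 : (spin x).1 * conj (spin x).2 =
      ((x : EuclideanSpace ℝ (Fin 3)) 0 - (x : EuclideanSpace ℝ (Fin 3)) 1 * Complex.I) / 2 := by
    have := congrArg conj h2
    simp only [map_mul, Complex.conj_conj, map_div₀, map_add, Complex.conj_ofReal, Complex.conj_I,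
      map_ofNat] at this
    rw [this]; ring
  show ((((1 + (x : EuclideanSpace ℝ (Fin 3)) 2) / 2) ^ (q - max (j : ℕ) j') *
      (((1 - (x : EuclideanSpace ℝ (Fin 3)) 2) / 2) ^ (min (j : ℕ) j')) : ℝ) : ℂ) *
    (if (j : ℕ) ≤ j' then
        (((x : EuclideanSpace ℝ (Fin 3)) 0 + (x : EuclideanSpace ℝ (Fin 3)) 1 * Complex.I) / 2)
      else (((x : EuclideanSpace ℝ (Fin 3)) 0 - (x : EuclideanSpace ℝ (Fin 3)) 1 * Complex.I) / 2)) ^
      (max (j : ℕ) j' - min (j : ℕ) j') = _
  rw [Complex.ofReal_mul, Complex.ofReal_pow, Complex.ofReal_pow, h0, h1, ← h2, ← h3]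
  generalize (spin x).1 = u, (spin x).2 = v
  generalize (j : ℕ) = a at hj ⊢
  generalize (j' : ℕ) = b at hj' ⊢
  simp only [map_mul, map_pow]
  split_ifs with h
  · obtain ⟨d, rfl⟩ := Nat.exists_eq_add_of_le h
    obtain ⟨e, rfl⟩ := Nat.exists_eq_add_of_le hj'
    rw [max_eq_right h, min_eq_left h, show a + d + e - (a + d) = e by omega,
      show a + d - a = d by omega, show a + d + e - a = d + e by omega]
    ring
  · have h' : b ≤ a := by omega
    obtain ⟨d, rfl⟩ := Nat.exists_eq_add_of_le h'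
    obtain ⟨e, rfl⟩ := Nat.exists_eq_add_of_le hj
    rw [max_eq_left h', min_eq_right h', show b + d + e - (b + d) = e by omega,
      show b + d - b = d by omega, show b + d + e - b = d + e by omega]
    ring

theorem toeplitz_eq (q : ℕ) (φ : S2 → ℝ) (j j' : Fin (q + 1)) :
    toeplitz q φ j j' = ∫ x, (φ x : ℂ) * (coh q x j * conj (coh q x j')) ∂muq q := by
  have e : ∀ x, (φ x : ℂ) * (coh q x j * conj (coh q x j')) =
      ((Real.sqrt ((q.choose j : ℝ) * q.choose j') : ℝ) : ℂ) *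
        ((φ x : ℂ) * coherentKernel q j j' x) := by
    intro x
    rw [c1_kernel, Real.sqrt_mul (Nat.cast_nonneg _)]
    show (φ x : ℂ) * (((Real.sqrt (q.choose j) : ℂ) *
      conj ((spin x).1 ^ (q - j) * (spin x).2 ^ (j : ℕ))) * conj ((Real.sqrt (q.choose j') : ℂ) *
      conj ((spin x).1 ^ (q - j') * (spin x).2 ^ (j' : ℕ)))) = _
    rw [map_mul conj (Real.sqrt (q.choose j') : ℂ), Complex.conj_conj, Complex.conj_ofReal]
    push_cast
    ring
  simp_rw [e]
  show (((q + 1 : ℝ) * Real.sqrt ((Nat.choose q j : ℝ) * Nat.choose q j') / (4 * Real.pi) : ℝ) : ℂ) *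
      ∫ x : S2, (φ x : ℂ) * coherentKernel q j j' x ∂sigS =
    ∫ x, _ ∂(ENNReal.ofReal (((q : ℝ) + 1) / (4 * Real.pi)) • sigS)
  rw [integral_smul_measure, integral_const_mul, ENNReal.toReal_ofReal (by positivity),
    Complex.real_smul]
  push_cast
  ring

theorem norm_ca_le (q : ℕ) (x : S2) : ‖ca q x‖ ≤ 1 := by
  have := norm_cC_le (orb q x 0)
  rw [orb_dot, if_pos rfl, Complex.one_re, Real.sqrt_one, orb_zero] at this
  exact this

theorem norm_cC_orb_le (q : ℕ) (x : S2) (k : Fin (q + 1)) : ‖cC (orb q x k)‖ ≤ 1 := by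
  have := norm_cC_le (orb q x k)
  rwa [orb_dot, if_pos rfl, Complex.one_re, Real.sqrt_one] at this

theorem stronglyMeasurable_ca (q : ℕ) : StronglyMeasurable (ca q) := by
  exact continuous_cC.comp_stronglyMeasurable (measurable_coh q).stronglyMeasurable

theorem gc2_int (q : ℕ) (j j' : Fin (q + 1)) {φ : S2 → ℂ} (hφ : Measurable φ) {C : ℝ}
    (hC : ∀ x, ‖φ x‖ ≤ C) :
    Integrable (fun x => φ x * (coh q x j * conj (coh q x j'))) (muq q) := by
  simpa only [orb_zero] using integrable_orb q q 0 j j' hφ hC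

theorem gc2_res (q : ℕ) (j j' : Fin (q + 1)) :
    ∫ x, coh q x j * conj (coh q x j') ∂muq q = if j = j' then 1 else 0 := by
  have h := integral_orb q q 0 j j'
  simp only [orb_zero] at h
  rw [h, div_self (by positivity)]
  split_ifs <;> simp

theorem dG_toeplitz (q : ℕ) {φ : S2 → ℝ} (hφ : Measurable φ) {C : ℝ} (hC : ∀ x, |φ x| ≤ C) :
    dG (toeplitz q φ) = Fw.pot (muq q) (ca q) φ := by
  have hi : ∀ i j : Fin (q + 1), Integrable (fun x => ((φ x : ℂ) * (coh q x i * conj (coh q x j))) •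
      (star (annC i) * annC j : Fk (q + 1))) (muq q) := fun i j =>
    (gc2_int q i j (φ := fun x => (φ x : ℂ)) (Complex.measurable_ofReal.comp hφ) (C := C)
      fun x => by simpa using hC x).smul_const _
  have h : ∀ x, (φ x : ℂ) • (star (ca q x) * ca q x) = ∑ i, ∑ j,
      ((φ x : ℂ) * (coh q x i * conj (coh q x j))) • (star (annC i) * annC j : Fk (q + 1)) := by
    intro x
    rw [ca, ← dG_vecMulVec, ← dG_smul, dG]
    rfl
  rw [Fw.pot]
  simp only [h]
  rw [integral_finsetSum _ fun i _ => integrable_finsetSum _ fun j _ => hi i j, dG]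
  refine Finset.sum_congr rfl fun i _ => ?_
  rw [integral_finsetSum _ fun j _ => hi i j]
  refine Finset.sum_congr rfl fun j _ => ?_
  rw [integral_smul_const, toeplitz_eq]

theorem cC_eq_integral (q : ℕ) (f : Fin (q + 1) → ℂ) :
    Integrable (fun u => conj (star (coh q u) ⬝ᵥ f) • ca q u) (muq q) ∧
      cC f = ∫ u, conj (star (coh q u) ⬝ᵥ f) • ca q u ∂muq q := by
  have h0 : ∀ u j, ((star (coh q u) ⬝ᵥ f) • coh q u) j =
      ∑ k, f k * (coh q u j * conj (coh q u k)) := by
    intro u j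
    simp only [Pi.smul_apply, smul_eq_mul, dotProduct, Finset.sum_mul, Pi.star_apply,
      Complex.star_def]
    exact Finset.sum_congr rfl fun k _ => by ring
  have hk : ∀ j k, Integrable (fun u => f k * (coh q u j * conj (coh q u k))) (muq q) :=
    fun j k => gc2_int q j k measurable_const fun _ => le_rfl
  have hj : ∀ j, Integrable (fun u => ((star (coh q u) ⬝ᵥ f) • coh q u) j) (muq q) := fun j => by
    simp only [h0]
    exact integrable_finsetSum _ fun k _ => hk j k
  have hF : Integrable (fun u => (star (coh q u) ⬝ᵥ f) • coh q u) (muq q) :=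
    integrable_pi_iff.2 hj
  have h1 : ∫ u, (star (coh q u) ⬝ᵥ f) • coh q u ∂muq q = f := by
    funext j
    rw [eval_integral hj]
    simp only [h0]
    rw [integral_finsetSum _ fun k _ => hk j k]
    simp only [integral_const_mul, gc2_res]
    simp
  have h := cC_integral hF
  rw [h1] at h
  simpa only [cC_smul, ca] using h

theorem gc2_clm (q : ℕ) (f : Fin (q + 1) → ℂ) (L : Fk (q + 1) →L[ℂ] Fk (q + 1)) :
    Integrable (fun u => ‖star (coh q u) ⬝ᵥ f‖ * ‖L (ca q u)‖) (muq q) ∧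
      ‖L (cC f)‖ ≤ ∫ u, ‖star (coh q u) ⬝ᵥ f‖ * ‖L (ca q u)‖ ∂muq q := by
  obtain ⟨h1, h2⟩ := cC_eq_integral q f
  have e : ∀ u, ‖L (conj (star (coh q u) ⬝ᵥ f) • ca q u)‖ =
      ‖star (coh q u) ⬝ᵥ f‖ * ‖L (ca q u)‖ := fun u => by
    rw [map_smul, norm_smul, Complex.norm_conj]
  constructor
  · simpa only [e] using (L.integrable_comp h1).norm
  · rw [h2, ← L.integral_comp_comm h1]
    refine (norm_integral_le_integral_norm _).trans (le_of_eq ?_)
    simp only [e]

theorem gc2_two (q : ℕ) (f : Fin (q + 1) → ℂ) (L L' : Fk (q + 1) →L[ℂ] Fk (q + 1)) :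
    ‖L (cC f)‖ + ‖L' (cC f)‖ ≤
      ∫ u, ‖star (coh q u) ⬝ᵥ f‖ * (‖L (ca q u)‖ + ‖L' (ca q u)‖) ∂muq q := by
  obtain ⟨h1, h2⟩ := gc2_clm q f L
  obtain ⟨h3, h4⟩ := gc2_clm q f L'
  simp only [mul_add]
  rw [integral_add h1 h3]
  exact add_le_add h2 h4

/-- commutators with `c(f)`, `c(f)^*` are controlled by `loc` -/
theorem comm_cC_le (q : ℕ) (A : Fk (q + 1)) (f : Fin (q + 1) → ℂ) :
    ‖A * cC f - cC f * A‖ + ‖A * star (cC f) - star (cC f) * A‖ ≤
      ∫ u, ‖star (coh q u) ⬝ᵥ f‖ * Fw.loc (ca q) A u ∂muq q := by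
  have e : ∀ c : Fk (q + 1), ‖A * star c - star c * A‖ = ‖c * star A - star A * c‖ := fun c => by
    rw [← norm_star, star_sub, star_mul, star_mul, star_star]
  simp only [Fw.loc, e]
  exact gc2_two q f (ContinuousLinearMap.mul ℂ _ A - (ContinuousLinearMap.mul ℂ _).flip A)
    ((ContinuousLinearMap.mul ℂ _).flip (star A) - ContinuousLinearMap.mul ℂ _ (star A))

theorem acomm_cC_le (q : ℕ) (Y : Fk (q + 1)) (f : Fin (q + 1) → ℂ) :
    ‖Y * cC f + cC f * Y‖ + ‖Y * star (cC f) + star (cC f) * Y‖ ≤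
      ∫ u, ‖star (coh q u) ⬝ᵥ f‖ * Fw.gloc (ca q) Y u ∂muq q := by
  have e : ∀ c : Fk (q + 1), ‖Y * star c + star c * Y‖ = ‖c * star Y + star Y * c‖ := fun c => by
    rw [← norm_star, star_add, star_mul, star_mul, star_star]
  simp only [Fw.gloc, e]
  exact gc2_two q f (ContinuousLinearMap.mul ℂ _ Y + (ContinuousLinearMap.mul ℂ _).flip Y)
    ((ContinuousLinearMap.mul ℂ _).flip (star Y) + ContinuousLinearMap.mul ℂ _ (star Y))

theorem integrable_mul_loc (q : ℕ) (A : Fk (q + 1)) {g : S2 → ℝ} (hg : Measurable g) {C : ℝ}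
    (hC : ∀ x, |g x| ≤ C) : Integrable (fun u => g u * Fw.loc (ca q) A u) (muq q) := by
  have hm : StronglyMeasurable (Fw.loc (ca q) A) := by
    have h1 := stronglyMeasurable_ca q
    have h2 : StronglyMeasurable fun u => star (ca q u) :=
      continuous_star.comp_stronglyMeasurable h1
    exact ((h1.const_mul A).sub (h1.mul_const A)).norm.add
      ((h2.const_mul A).sub (h2.mul_const A)).norm
  have e : ∀ c : Fk (q + 1), ‖c‖ ≤ 1 → ‖A * c - c * A‖ ≤ 2 * ‖A‖ := fun c hc => by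
    have h1 := (norm_mul_le A c).trans (mul_le_of_le_one_right (norm_nonneg A) hc)
    have h2 := (norm_mul_le c A).trans (mul_le_of_le_one_left (norm_nonneg A) hc)
    linarith [norm_sub_le (A * c) (c * A)]
  refine Integrable.of_bound (hg.stronglyMeasurable.mul hm).aestronglyMeasurable (C * (4 * ‖A‖))
    (Filter.Eventually.of_forall fun u => ?_)
  have h1 := e _ (norm_ca_le q u)
  have h2 := e (star (ca q u)) (by rw [norm_star]; exact norm_ca_le q u)
  have h0 : 0 ≤ Fw.loc (ca q) A u := add_nonneg (norm_nonneg _) (norm_nonneg _)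
  rw [norm_mul, Real.norm_eq_abs, Real.norm_of_nonneg h0]
  refine mul_le_mul (hC u) ?_ h0 ((abs_nonneg _).trans (hC u))
  unfold Fw.loc
  linarith

end Crest.Agent.R340
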