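import Crest.Agent.R340.PinDefs
import Crest.Agent.R340.GeoInt

/-! # Row 340: volume growth of the chart measure `nuC` (helper10) -/

set_option autoImplicit false

namespace Crest.Agent.R340.Pin

open MeasureTheory Set Crest.MathPhysics.Laughlin
open scoped ENNReal

theorem h10_rad {R : ℝ} (hR : 0 ≤ R) :
    ∫⁻ ρ in Ioi R, ENNReal.ofReal (2 * ρ / (1 + ρ ^ 2) ^ 2) = ENNReal.ofReal (1 + R ^ 2)⁻¹ := by
  have hd : ∀ x ∈ Ici R, HasDerivAt (fun ρ : ℝ => -(1 + ρ ^ 2)⁻¹) (2 * x / (1 + x ^ 2) ^ 2) x := by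
    intro x _
    have h1 : HasDerivAt (fun ρ : ℝ => 1 + ρ ^ 2) (2 * x) x := by
      simpa using (hasDerivAt_pow 2 x).const_add 1
    have h2 := (h1.inv (by positivity)).neg
    rw [neg_div, neg_neg] at h2
    exact h2
  have hp : ∀ x ∈ Ioi R, 0 ≤ 2 * x / (1 + x ^ 2) ^ 2 := fun x hx => by
    have : 0 ≤ x := hR.trans (le_of_lt hx)
    positivity
  have ht : Filter.Tendsto (fun ρ : ℝ => -(1 + ρ ^ 2)⁻¹) Filter.atTop (nhds 0) := by
    have h1 : Filter.Tendsto (fun ρ : ℝ => 1 + ρ ^ 2) Filter.atTop Filter.atTop :=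
      Filter.tendsto_atTop_add_const_left _ _ (Filter.tendsto_pow_atTop two_ne_zero)
    simpa using h1.inv_tendsto_atTop.neg
  have hi := integrableOn_Ioi_deriv_of_nonneg' hd hp ht
  have he := integral_Ioi_of_hasDerivAt_of_nonneg' hd hp ht
  rw [← ofReal_integral_eq_lintegral_ofReal hi
    ((ae_restrict_iff' measurableSet_Ioi).2 (Filter.Eventually.of_forall hp)), he]
  simp

theorem h10_tailR (c : ℝ) (hc : 0 ≤ c) {R : ℝ} (hR : 0 ≤ R) :
    ∫⁻ w in {w : ℂ | R ≤ ‖w‖}, ENNReal.ofReal (c / (Real.pi * (1 + ‖w‖ ^ 2) ^ 2)) =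
      ENNReal.ofReal (c * (1 + R ^ 2)⁻¹) := by
  let h : ℝ → ℝ≥0∞ := (Ici R).indicator fun ρ => ENNReal.ofReal (c / (Real.pi * (1 + ρ ^ 2) ^ 2))
  have hh : Measurable h := Measurable.indicator (by fun_prop) measurableSet_Ici
  have hS : MeasurableSet {w : ℂ | R ≤ ‖w‖} := measurableSet_le measurable_const measurable_norm
  have h1 : ∫⁻ w in {w : ℂ | R ≤ ‖w‖}, ENNReal.ofReal (c / (Real.pi * (1 + ‖w‖ ^ 2) ^ 2)) =
      ∫⁻ w : ℂ, h ‖w‖ := by
    rw [← lintegral_indicator hS]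
    rfl
  have h2 : ∫⁻ w : ℂ, h ‖w‖ = ∫⁻ p : ℝ × ℝ, h (√(p.1 ^ 2 + p.2 ^ 2)) := by
    rw [← Complex.volume_preserving_equiv_real_prod.lintegral_comp_emb
      Complex.measurableEquivRealProd.measurableEmbedding]
    refine lintegral_congr fun w => ?_
    rw [Complex.norm_eq_sqrt_sq_add_sq]
    rfl
  have h3 : ∀ ρ ∈ Ioi (0 : ℝ), ENNReal.ofReal (2 * Real.pi * ρ) * h ρ =
      (Ici R).indicator (fun ρ => ENNReal.ofReal c * ENNReal.ofReal (2 * ρ / (1 + ρ ^ 2) ^ 2)) ρ := by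
    intro ρ hρ
    have hρ' : 0 < ρ := hρ
    have := Real.pi_pos
    by_cases hx : ρ ∈ Ici R
    · simp only [h, indicator_of_mem hx]
      rw [← ENNReal.ofReal_mul (by positivity), ← ENNReal.ofReal_mul hc]
      congr 1
      field_simp
    · simp only [h, indicator_of_notMem hx, mul_zero]
  have h4 : (Ici R ∩ Ioi 0 : Set ℝ) =ᵐ[volume] Ioi R := by
    filter_upwards [(countable_singleton R).ae_notMem volume] with x hx
    have hx' : x ≠ R := hx
    apply propext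
    change (R ≤ x ∧ 0 < x) ↔ R < x
    exact ⟨fun h => lt_of_le_of_ne h.1 hx'.symm, fun h => ⟨h.le, hR.trans_lt h⟩⟩
  rw [h1, h2, Arch.archA_plane hh, setLIntegral_congr_fun measurableSet_Ioi h3,
    lintegral_indicator measurableSet_Ici, Measure.restrict_restrict measurableSet_Ici,
    setLIntegral_congr h4, lintegral_const_mul _ (by fun_prop), h10_rad hR,
    ENNReal.ofReal_mul hc]

theorem h10_tail (Q : ℕ) {τ : ℝ} (hτ : 0 ≤ τ) :
    nuC Q {w : ℂ | (1 + ‖w‖ ^ 2)⁻¹ ≤ τ} ≤ ENNReal.ofReal ((Q + 1) * τ) := by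
  rcases hτ.eq_or_lt with rfl | hτ
  · have : {w : ℂ | (1 + ‖w‖ ^ 2)⁻¹ ≤ (0 : ℝ)} = ∅ := by
      ext w
      have : 0 < (1 + ‖w‖ ^ 2)⁻¹ := by positivity
      exact ⟨fun h => absurd h (not_le.2 this), fun h => h.elim⟩
    rw [this, measure_empty]
    exact zero_le
  · set R := √(τ⁻¹ - 1) with hRd
    have hR : 0 ≤ R := Real.sqrt_nonneg _
    have hS : MeasurableSet {w : ℂ | R ≤ ‖w‖} := measurableSet_le measurable_const measurable_norm
    have hsub : {w : ℂ | (1 + ‖w‖ ^ 2)⁻¹ ≤ τ} ⊆ {w : ℂ | R ≤ ‖w‖} := fun w hw => by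
      have h1 : τ⁻¹ ≤ 1 + ‖w‖ ^ 2 := (inv_le_comm₀ (by positivity) hτ).1 hw
      exact Real.sqrt_le_iff.2 ⟨norm_nonneg _, by linarith⟩
    refine (measure_mono hsub).trans ?_
    rw [nuC, withDensity_apply _ hS, h10_tailR _ (by positivity) hR]
    refine ENNReal.ofReal_le_ofReal (mul_le_mul_of_nonneg_left ?_ (by positivity))
    refine (inv_le_comm₀ (by positivity) hτ).2 ?_
    have : τ⁻¹ - 1 ≤ R ^ 2 := by rw [hRd, Real.sq_sqrt']; exact le_max_left _ _
    linarith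

theorem h10_tS (w : ℂ) (u : S2) : (1 + ‖w‖ ^ 2) * (2 * tS (ster w) u) =
    (1 + ‖w‖ ^ 2) - (2 * w.re * (u : EuclideanSpace ℝ (Fin 3)) 0 +
      2 * w.im * (u : EuclideanSpace ℝ (Fin 3)) 1 +
      (1 - ‖w‖ ^ 2) * (u : EuclideanSpace ℝ (Fin 3)) 2) := by
  have h : (0 : ℝ) < 1 + ‖w‖ ^ 2 := by positivity
  rw [geoB_tS]
  simp only [ster, Matrix.cons_val_zero, Matrix.cons_val_one, Matrix.cons_val]
  field_simp

theorem h10_cap (Q : ℕ) (u : S2) {t : ℝ} (ht : 0 ≤ t) :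
    nuC Q {w : ℂ | tS (ster w) u ≤ t} ≤ ENNReal.ofReal ((Q + 1) * (34 * t)) := by
  have hu := geoB_norm u
  have hts := fun w => h10_tS w u
  generalize (u : EuclideanSpace ℝ (Fin 3)) 0 = u0 at hu hts
  generalize (u : EuclideanSpace ℝ (Fin 3)) 1 = u1 at hu hts
  generalize (u : EuclideanSpace ℝ (Fin 3)) 2 = u2 at hu hts
  have hn : ∀ w : ℂ, ‖w‖ ^ 2 = w.re ^ 2 + w.im ^ 2 := fun w => by
    rw [Complex.sq_norm, Complex.normSq_apply]; ring
  by_cases hA : 1 + u2 ≤ 32 * t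
  · refine le_trans (measure_mono fun w hw => ?_) (h10_tail Q (τ := 34 * t) (by positivity))
    have hw' : tS (ster w) u ≤ t := hw
    have hb : (0 : ℝ) < 1 + ‖w‖ ^ 2 := by positivity
    have h1 := hts w
    have h2 := hn w
    change (1 + ‖w‖ ^ 2)⁻¹ ≤ 34 * t
    rw [inv_le_iff_one_le_mul₀' hb]
    generalize ‖w‖ ^ 2 = n at h1 h2 hb ⊢
    have h3 : (1 + n) * (2 * tS (ster w) u) ≤ (1 + n) * (2 * t) :=
      mul_le_mul_of_nonneg_left (by linarith) hb.le
    have h4 : (1 + n) * (1 + u2) ≤ (1 + n) * (32 * t) := mul_le_mul_of_nonneg_left hA hb.le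
    have h5 : 1 ≤ (1 + n) * (2 * tS (ster w) u) + (1 + n) * (1 + u2) := by
      rw [h1]
      refine le_of_mul_le_mul_left ?_ hb
      have e : (1 + n) * (1 + n - (2 * w.re * u0 + 2 * w.im * u1 + (1 - n) * u2) +
          (1 + n) * (1 + u2)) - (1 + n) * 1 = ((w.re - (1 + n) * u0) ^ 2 +
          (w.im - (1 + n) * u1) ^ 2 + (n + (1 + n) * u2) ^ 2) := by
        have : u2 ^ 2 = 1 - u0 ^ 2 - u1 ^ 2 := by linarith
        subst h2
        ring_nf
        rw [this]
        ring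
      nlinarith [sq_nonneg (w.re - (1 + n) * u0), sq_nonneg (w.im - (1 + n) * u1),
        sq_nonneg (n + (1 + n) * u2)]
    linarith
  · push Not at hA
    have hA0 : 0 < 1 + u2 := by linarith
    let e : ℂ := ⟨u0 / (1 + u2), u1 / (1 + u2)⟩
    set a : ℝ := 2 / (1 + u2) with had
    have ha0 : 0 < a := by positivity
    have he : 1 + ‖e‖ ^ 2 = a := by
      rw [hn, had]
      simp only [e]
      field_simp
      nlinarith
    have hta : t * a ≤ 1 / 16 := by
      rw [had, ← mul_div_assoc, div_le_iff₀ hA0]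
      linarith
    have hd : ∀ w : ℂ, ‖w - e‖ ^ 2 = a * (1 + ‖w‖ ^ 2) * tS (ster w) u := fun w => by
      have h1 := hts w
      have : a * (1 + ‖w‖ ^ 2) * tS (ster w) u = ((1 + ‖w‖ ^ 2) * (2 * tS (ster w) u)) / (1 + u2) := by
        rw [had]
        field_simp
      rw [this, h1, hn, hn]
      simp only [e, Complex.sub_re, Complex.sub_im]
      field_simp
      have : u0 ^ 2 = 1 - u1 ^ 2 - u2 ^ 2 := by linarith
      ring_nf
      rw [this]
      ring
    let D : Set ℂ := Metric.closedBall e (√(2 * t) * a) ∩ {w | a / 2 ≤ 1 + ‖w‖ ^ 2}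
    have hD : MeasurableSet D := measurableSet_closedBall.inter
      (measurableSet_le measurable_const (by fun_prop))
    have hsub : {w : ℂ | tS (ster w) u ≤ t} ⊆ D := fun w hw => by
      have hw' : tS (ster w) u ≤ t := hw
      have hb : (0 : ℝ) < 1 + ‖w‖ ^ 2 := by positivity
      have h1 : ‖w - e‖ ^ 2 ≤ a * (1 + ‖w‖ ^ 2) * t := by
        rw [hd]
        exact mul_le_mul_of_nonneg_left hw' (by positivity)
      have h2 : ‖w - e‖ ^ 2 ≤ (1 + ‖w‖ ^ 2) / 16 := by nlinarith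
      have h3 : ‖w‖ ≤ ‖e‖ + ‖w - e‖ := by
        simpa using norm_add_le e (w - e)
      have h4 : ‖e‖ ≤ ‖w‖ + ‖w - e‖ := by
        simpa using norm_sub_le w (w - e)
      have h5 := pow_le_pow_left₀ (norm_nonneg _) h3 2
      have h6 := pow_le_pow_left₀ (norm_nonneg _) h4 2
      have h7 : 1 + ‖w‖ ^ 2 ≤ 2 * a := by nlinarith [sq_nonneg (‖e‖ - 3 * ‖w - e‖)]
      have h8 : a / 2 ≤ 1 + ‖w‖ ^ 2 := by nlinarith [sq_nonneg (‖w‖ - 3 * ‖w - e‖)]
      refine ⟨?_, h8⟩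
      rw [Metric.mem_closedBall, dist_eq_norm]
      refine abs_le_of_sq_le_sq' ?_ (by positivity) |>.2
      rw [mul_pow, Real.sq_sqrt (by positivity)]
      have := mul_le_mul_of_nonneg_left h7 (mul_nonneg ha0.le ht)
      nlinarith
    have hpi := Real.pi_pos
    refine (measure_mono hsub).trans ?_
    rw [nuC, withDensity_apply _ hD]
    calc ∫⁻ w in D, ENNReal.ofReal ((Q + 1) / (Real.pi * (1 + ‖w‖ ^ 2) ^ 2))
        ≤ ∫⁻ _ in D, ENNReal.ofReal ((Q + 1) / (Real.pi * (a / 2) ^ 2)) := by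
          refine setLIntegral_mono' hD fun w hw => ENNReal.ofReal_le_ofReal ?_
          have h1 : a / 2 ≤ 1 + ‖w‖ ^ 2 := hw.2
          gcongr
      _ ≤ ENNReal.ofReal ((Q + 1) / (Real.pi * (a / 2) ^ 2)) *
          volume (Metric.closedBall e (√(2 * t) * a)) := by
          rw [setLIntegral_const]
          exact mul_le_mul_right (measure_mono inter_subset_left) _
      _ = ENNReal.ofReal ((Q + 1) * (8 * t)) := by
          rw [Complex.volume_closedBall, ← ENNReal.ofReal_pow (by positivity),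
            ← ENNReal.ofReal_coe_nnreal, ← ENNReal.ofReal_mul (by positivity),
            ← ENNReal.ofReal_mul (by positivity), mul_pow, Real.sq_sqrt (by positivity),
            NNReal.coe_real_pi]
          congr 1
          field_simp
          ring
      _ ≤ _ := ENNReal.ofReal_le_ofReal (by
          have : (0 : ℝ) ≤ (Q + 1) * t := by positivity
          nlinarith)

theorem h10_cont_ster : Continuous ster := by
  refine Continuous.subtype_mk ((PiLp.continuous_toLp 2 _).comp (continuous_pi fun i => ?_)) _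
  have h : ∀ w : ℂ, (1 + ‖w‖ ^ 2) ≠ 0 := fun w => by positivity
  fin_cases i <;> simp only [Fin.zero_eta, Fin.mk_one, Fin.reduceFinMk, Matrix.cons_val_zero,
    Matrix.cons_val_one, Matrix.cons_val] <;> exact Continuous.div (by fun_prop) (by fun_prop) h

theorem h10_sites_nuC : ∃ G, ∀ Q, 1 ≤ Q → Sites Q G (nuC Q) ster := by
  refine ⟨68, fun Q hQ => ⟨⟨?_⟩, h10_cont_ster.measurable, fun u r hr => ?_⟩⟩
  · refine lt_of_le_of_lt (le_trans (measure_mono fun w _ => ?_) (h10_tail Q zero_le_one))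
      ENNReal.ofReal_lt_top
    exact inv_le_one_of_one_le₀ (le_add_of_nonneg_right (sq_nonneg ‖w‖))
  · have hQ' : (1 : ℝ) ≤ Q := by exact_mod_cast hQ
    have hsub : {w : ℂ | dq Q (ster w) u ≤ r} ⊆ {w : ℂ | tS (ster w) u ≤ r ^ 2 / Q} := fun w hw => by
      have h1 := pow_le_pow_left₀ (dq_nonneg Q (ster w) u) (show dq Q (ster w) u ≤ r from hw) 2
      rw [dq_sq] at h1
      change tS (ster w) u ≤ r ^ 2 / Q
      rw [le_div_iff₀ (by linarith)]
      linarith
    have h2 := (measure_mono hsub).trans (h10_cap Q u (t := r ^ 2 / Q) (by positivity))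
    refine (ENNReal.toReal_le_of_le_ofReal (by positivity) h2).trans ?_
    have h3 : ((Q : ℝ) + 1) * (34 * (r ^ 2 / Q)) ≤ 68 * r ^ 2 := by
      rw [← mul_div_assoc, ← mul_div_assoc, div_le_iff₀ (by linarith)]
      nlinarith [sq_nonneg r]
    nlinarith

end Crest.Agent.R340.Pin
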