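import Crest.Agent.R340.LcRep

/-! # Row 340, module LOC: Haar measure, Schur orthogonality, volume bounds -/

set_option autoImplicit false

namespace Crest.Agent.R340.Loc

open Matrix MeasureTheory Finset
open scoped Matrix.Norms.L2Operator MatrixOrder ComplexOrder

variable {Q m : ℕ}

/-! ### part A: Schur -/

/-- `map (· * g) haar` is a Haar probability measure (`isHaarMeasure_eq_of_isProbabilityMeasure`) -/
instance : haar.IsMulRightInvariant := by
  refine ⟨fun g => ?_⟩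
  have : IsProbabilityMeasure (Measure.map (· * g) haar) :=
    Measure.isProbabilityMeasure_map (measurable_mul_const g).aemeasurable
  exact Measure.isHaarMeasure_eq_of_isProbabilityMeasure _ _
instance : haar.IsInvInvariant := by
  refine ⟨?_⟩
  have : IsProbabilityMeasure haar.inv :=
    Measure.isProbabilityMeasure_map measurable_inv.aemeasurable
  have : haar.inv.IsHaarMeasure := {}
  exact Measure.isHaarMeasure_eq_of_isProbabilityMeasure _ _
instance (Q : ℕ) : (mu Q).IsMulLeftInvariant := by unfold mu; infer_instance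
instance (Q : ℕ) : (mu Q).IsMulRightInvariant := by unfold mu; infer_instance
instance (Q : ℕ) : (mu Q).IsInvInvariant := by
  refine ⟨?_⟩
  rw [mu, Measure.inv_def, Measure.map_smul, Measure.map_inv_eq_self]
theorem integral_mu {E : Type} [NormedAddCommGroup E] [NormedSpace ℝ E] (Q : ℕ) (f : SU → E) :
    ∫ g, f g ∂mu Q = (Q + 1 : ℝ) • ∫ g, f g ∂haar := by
  rw [mu, integral_smul_measure, ENNReal.toReal_natCast, Nat.cast_add, Nat.cast_one]
theorem integrable_haar {E : Type} [NormedAddCommGroup E] {f : SU → E} (hf : Continuous f) :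
    Integrable f haar := hf.integrable_of_hasCompactSupport (HasCompactSupport.of_compactSpace f)
theorem integrable_mu {E : Type} [NormedAddCommGroup E] {f : SU → E} (hf : Continuous f) :
    Integrable f (mu Q) := hf.integrable_of_hasCompactSupport (HasCompactSupport.of_compactSpace f)
theorem volA_ko (m : ℕ) (g : SU) (i : Fin (m + 1)) : ko m g i = rep m g i 0 := by
  rw [← orb_zero]; simp [orb]
theorem volA_cont (m : ℕ) (i k : Fin (m + 1)) : Continuous fun g => rep m g i k :=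
  (continuous_rep m).matrix_elem i k
/-- a matrix commuting with the representation is scalar (`ko_form_ext`) -/
theorem scalar_of_commute {M : Matrix (Fin (m + 1)) (Fin (m + 1)) ℂ}
    (h : ∀ g, rep m g * M = M * rep m g) : M = M 0 0 • (1 : Matrix _ _ ℂ) := by
  refine sub_eq_zero.1 (ko_form_ext fun g => ?_)
  have h1 : ko m g = rep m g *ᵥ ko m 1 := by rw [rep_ko, mul_one]
  have h2 : ko m 1 = Pi.single 0 1 := by rw [← orb_zero]; exact orb_one 0
  have h3 : (M - M 0 0 • (1 : Matrix _ _ ℂ)) * rep m g = rep m g * (M - M 0 0 • (1 : Matrix _ _ ℂ)) := by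
    rw [Matrix.sub_mul, Matrix.mul_sub, h, Matrix.smul_mul, Matrix.mul_smul, Matrix.one_mul,
      Matrix.mul_one]
  rw [h1, Matrix.mulVec_mulVec, h3, ← Matrix.mulVec_mulVec, rep_dot, h2]
  simp
theorem schur (m : ℕ) (i j k l : Fin (m + 1)) :
    ∫ g, rep m g i k * star (rep m g j l) ∂haar =
      if i = j ∧ k = l then ((m + 1 : ℂ))⁻¹ else 0 := by
  set M : Matrix (Fin (m + 1)) (Fin (m + 1)) ℂ :=
    Matrix.of fun i j => ∫ g, rep m g i k * star (rep m g j l) ∂haar with hM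
  have hi : ∀ p q, Integrable (fun g => rep m g p k * star (rep m g q l)) haar := fun p q =>
    integrable_haar ((volA_cont m p k).mul (volA_cont m q l).star)
  have h1 : ∀ h, rep m h * M * star (rep m h) = M := by
    intro h
    ext p q
    have e : ∀ g, rep m (h * g) p k * star (rep m (h * g) q l) =
        ∑ b, ∑ a, rep m h p a * (rep m g a k * star (rep m g b l)) * star (rep m h q b) := by
      intro g
      simp only [rep_mul, Matrix.mul_apply, star_sum, star_mul', Finset.sum_mul, Finset.mul_sum]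
      exact Finset.sum_congr rfl fun b _ => Finset.sum_congr rfl fun a _ => by ring
    rw [hM, Matrix.of_apply, ← integral_mul_left_eq_self _ h]
    simp only [e]
    rw [integral_finsetSum _ fun b _ => integrable_finsetSum _ fun a _ =>
      ((hi a b).const_mul _).mul_const _]
    simp only [Matrix.mul_apply, Matrix.star_apply, Matrix.of_apply, Finset.sum_mul]
    refine Finset.sum_congr rfl fun b _ => ?_
    rw [integral_finsetSum _ fun a _ => ((hi a b).const_mul _).mul_const _]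
    refine Finset.sum_congr rfl fun a _ => ?_
    rw [integral_mul_const, integral_const_mul]
  have h2 := scalar_of_commute (M := M) fun h => by
    conv_rhs => rw [← h1 h, Matrix.mul_assoc, star_rep_mul, Matrix.mul_one]
  have h3 : ∑ p, M p p = if k = l then 1 else 0 := by
    simp only [hM, Matrix.of_apply]
    rw [← integral_finsetSum _ fun p _ => hi p p]
    have e : ∀ g, ∑ p, rep m g p k * star (rep m g p l) = if k = l then 1 else 0 := by
      intro g
      have := congrFun (congrFun (star_rep_mul m g) l) k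
      simp only [Matrix.mul_apply, Matrix.star_apply, Matrix.one_apply] at this
      simp only [eq_comm (a := k), ← this, mul_comm]
    simp only [e]
    simp
  have h4 : (m + 1 : ℂ) * M 0 0 = if k = l then 1 else 0 := by
    rw [← h3]
    conv_rhs => rw [h2]
    simp
  have h5 : (m + 1 : ℂ) ≠ 0 := by exact_mod_cast Nat.succ_ne_zero m
  have h6 : M 0 0 = (m + 1 : ℂ)⁻¹ * if k = l then 1 else 0 := by
    rw [← h4, inv_mul_cancel_left₀ h5]
  change M i j = _
  rw [h2, Matrix.smul_apply, h6, Matrix.one_apply]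
  by_cases hij : i = j <;> by_cases hkl : k = l <;> simp [hij, hkl]
theorem resol_entry (m : ℕ) (i j : Fin (m + 1)) :
    ∫ g, ko m g i * star (ko m g j) ∂haar = if i = j then ((m + 1 : ℂ))⁻¹ else 0 := by
  simp only [volA_ko, schur, and_true]
theorem resol (Q : ℕ) (v : Fin (Q + 1) → ℂ) :
    ∫ u, (star (ko Q u) ⬝ᵥ v) • ko Q u ∂mu Q = v := by
  have hc : ∀ i, Continuous fun u => ko Q u i := fun i => (continuous_apply i).comp (continuous_ko Q)
  have hi : Integrable (fun u => (star (ko Q u) ⬝ᵥ v) • ko Q u) haar :=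
    integrable_haar (((continuous_ko Q).star.dotProduct continuous_const).smul (continuous_ko Q))
  have h5 : (Q + 1 : ℂ) ≠ 0 := by exact_mod_cast Nat.succ_ne_zero Q
  funext i
  have h1 := (ContinuousLinearMap.proj (R := ℂ) (φ := fun _ : Fin (Q + 1) => ℂ) i).integral_comp_comm hi
  simp only [ContinuousLinearMap.proj_apply] at h1
  have e : ∀ u, ((star (ko Q u) ⬝ᵥ v) • ko Q u) i = ∑ j, ko Q u i * star (ko Q u j) * v j := by
    intro u
    simp only [Pi.smul_apply, smul_eq_mul, dotProduct, Pi.star_apply, Finset.sum_mul]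
    exact Finset.sum_congr rfl fun j _ => by ring
  rw [integral_mu, Pi.smul_apply, ← h1]
  simp only [e]
  rw [integral_finsetSum _ fun j _ => (integrable_haar ((hc i).fun_mul (hc j).star)).mul_const _]
  simp only [integral_mul_const, resol_entry, ite_mul, zero_mul, Finset.sum_ite_eq, Finset.mem_univ,
    if_true, Complex.real_smul]
  push_cast
  rw [mul_inv_cancel_left₀ h5]
theorem moment (m : ℕ) : ∫ g, (1 - ‖g.b‖ ^ 2) ^ m ∂haar = ((m + 1 : ℝ))⁻¹ := by
  have h := resol_entry m 0 0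
  have e : ∀ g : SU, ko m g 0 * star (ko m g 0) = (((1 - ‖g.b‖ ^ 2) ^ m : ℝ) : ℂ) := by
    intro g
    have h1 : ko m g 0 = g.a ^ m := by simp [ko, sym]
    have h2 : 1 - ‖g.b‖ ^ 2 = ‖g.a‖ ^ 2 := by linarith [g.norm_sq]
    rw [h1, h2, Complex.star_def, Complex.mul_conj, Complex.normSq_eq_norm_sq, norm_pow, ← pow_mul,
      ← pow_mul, mul_comm]
  simp only [e, integral_complex_ofReal, if_true] at h
  apply Complex.ofReal_injective
  rw [h]
  push_cast
  rfl

/-! ### part B: volume -/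

/-- with `m = ⌊Q / (2 (1 + r)²)⌋`, Bernoulli gives `(1 - ‖b‖²)^m ≥ 1/2` on the ball -/
theorem sites_mu (Q : ℕ) : Sites Q 8 (mu Q) id := by
  refine ⟨inferInstance, measurable_id, fun u r hr => ?_⟩
  have hr1 : 0 < 2 * (1 + r) ^ 2 := by positivity
  obtain ⟨m, hm1, hm2⟩ : ∃ m : ℕ, (m : ℝ) * (2 * (1 + r) ^ 2) ≤ Q ∧
      (Q : ℝ) ≤ (m + 1) * (2 * (1 + r) ^ 2) :=
    ⟨⌊(Q : ℝ) / (2 * (1 + r) ^ 2)⌋₊, (le_div_iff₀ hr1).mp (Nat.floor_le (by positivity)),
      (div_le_iff₀ hr1).mp (Nat.lt_floor_add_one _).le⟩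
  have hc : Continuous fun g : SU => (1 - ‖(u⁻¹ * g).b‖ ^ 2) ^ m := by fun_prop
  have h1 := mul_meas_ge_le_integral_of_nonneg (μ := haar)
    (f := fun g : SU => (1 - ‖(u⁻¹ * g).b‖ ^ 2) ^ m) (ae_of_all _ fun g => pow_nonneg (by
      nlinarith [(u⁻¹ * g).norm_sq, sq_nonneg ‖(u⁻¹ * g).a‖]) m) (integrable_haar hc) (1 / 2)
  rw [integral_mul_left_eq_self (fun g : SU => (1 - ‖g.b‖ ^ 2) ^ m) u⁻¹, moment] at h1
  have h2 : haar.real {i | dst Q (id i) u ≤ r} ≤
      haar.real {g : SU | 1 / 2 ≤ (1 - ‖(u⁻¹ * g).b‖ ^ 2) ^ m} := by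
    refine measureReal_mono fun g hg => ?_
    have hg' : Real.sqrt Q * ‖(u⁻¹ * g).b‖ ≤ r := by
      have : dst Q g u ≤ r := hg
      rwa [dst_symm] at this
    have h3 : (Q : ℝ) * ‖(u⁻¹ * g).b‖ ^ 2 ≤ r ^ 2 := by
      have := pow_le_pow_left₀ (by positivity) hg' 2
      rwa [mul_pow, Real.sq_sqrt (Nat.cast_nonneg Q)] at this
    have hb := (u⁻¹ * g).norm_b_le
    have hb0 := norm_nonneg (u⁻¹ * g).b
    have h4 := one_add_mul_le_pow (a := -‖(u⁻¹ * g).b‖ ^ 2) (by nlinarith) m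
    have h5 : (m : ℝ) * ‖(u⁻¹ * g).b‖ ^ 2 ≤ 1 / 2 := by
      refine le_of_mul_le_mul_right ?_ hr1
      have := mul_le_mul_of_nonneg_right hm1 (sq_nonneg ‖(u⁻¹ * g).b‖)
      nlinarith
    show 1 / 2 ≤ (1 - ‖(u⁻¹ * g).b‖ ^ 2) ^ m
    rw [← sub_eq_add_neg] at h4
    linarith
  have h6 : (mu Q).real {i | dst Q (id i) u ≤ r} =
      (Q + 1 : ℝ) * haar.real {i | dst Q (id i) u ≤ r} := by
    rw [mu, measureReal_ennreal_smul_apply, ENNReal.toReal_natCast, Nat.cast_add, Nat.cast_one]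
  have hm0 : (0 : ℝ) < m + 1 := by positivity
  have h7 : haar.real {i | dst Q (id i) u ≤ r} * (m + 1) ≤ 2 := by
    rw [← le_div_iff₀ hm0, div_eq_mul_inv]
    linarith
  rw [h6]
  refine le_of_mul_le_mul_right ?_ hm0
  have h8 : (1 : ℝ) ≤ (m + 1) * (2 * (1 + r) ^ 2) := by
    have : (0 : ℝ) ≤ m := Nat.cast_nonneg m
    nlinarith [mul_nonneg this hr1.le]
  have h9 := mul_le_mul_of_nonneg_left h7 (by positivity : (0 : ℝ) ≤ Q + 1)
  nlinarith

variable {G : ℝ} {ι : Type} [MeasurableSpace ι] {ν : Measure ι} {x : ι → SU}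

theorem Sites.nonneg (h : Sites Q G ν x) : 0 ≤ G := by
  have := measureReal_nonneg.trans (h.growth 1 0 le_rfl)
  simpa using this
theorem Sites.integrable (h : Sites Q G ν x) {F : SU → ℝ} (hF : Continuous F) :
    Integrable (fun i => F (x i)) ν := by
  have := h.fin
  obtain ⟨C, hC⟩ := isCompact_univ.exists_bound_of_continuousOn hF.continuousOn
  exact Integrable.of_bound (hF.measurable.comp h.meas).aestronglyMeasurable C
    (ae_of_all _ fun i => hC _ (Set.mem_univ _))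
theorem Sites.restrict (h : Sites Q G ν x) (s : Set ι) : Sites Q G (ν.restrict s) x := by
  have := h.fin
  refine ⟨inferInstance, h.meas, fun u r hr => le_trans ?_ (h.growth u r hr)⟩
  exact ENNReal.toReal_mono (measure_ne_top _ _) (Measure.le_iff'.1 Measure.restrict_le_self _)
/-- shells `k ≤ d < k + 1` -/
theorem Sites.int_le (h : Sites Q G ν x) (u : SU) {F : ℝ → ℝ} {f : ℕ → ℝ} (hF : Continuous F)
    (hf : ∀ k : ℕ, ∀ r, (k : ℝ) ≤ r → r ≤ k + 1 → F r ≤ f k) (f0 : ∀ k, 0 ≤ f k) {S : ℝ}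
    (hS : ∀ M, ∑ k ∈ range M, (2 + k : ℝ) ^ 2 * f k ≤ S) :
    ∫ i, F (dst Q (x i) u) ∂ν ≤ G * S := by
  have := h.fin
  have hd : Continuous fun g : SU => dst Q g u := by fun_prop
  have hm : ∀ k : ℕ, MeasurableSet {i | dst Q (x i) u ≤ (k : ℝ) + 1} := fun k =>
    measurableSet_le (hd.measurable.comp h.meas) measurable_const
  have hi : ∀ k : ℕ, Integrable ({i | dst Q (x i) u ≤ (k : ℝ) + 1}.indicator fun _ => f k) ν :=
    fun k => (integrable_const _).indicator (hm k)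
  have h1 : ∫ i, F (dst Q (x i) u) ∂ν ≤ ∫ i, ∑ k ∈ range (⌊Real.sqrt Q⌋₊ + 1),
      {i | dst Q (x i) u ≤ (k : ℝ) + 1}.indicator (fun _ => f k) i ∂ν := by
    refine integral_mono (h.integrable (hF.comp hd)) (integrable_finsetSum _ fun k _ => hi k)
      fun i => ?_
    have h0 := dst_nonneg Q (x i) u
    have h2 := (Nat.lt_floor_add_one (dst Q (x i) u)).le
    refine le_trans ?_ (single_le_sum
      (f := fun k : ℕ => {i | dst Q (x i) u ≤ (k : ℝ) + 1}.indicator (fun _ => f k) i)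
      (fun k _ => Set.indicator_nonneg (fun _ _ => f0 k) i)
      (mem_range.mpr (Nat.lt_succ_of_le (Nat.floor_le_floor (dst_le Q (x i) u)))))
    rw [Set.indicator_of_mem (show i ∈ {j | dst Q (x j) u ≤ (⌊dst Q (x i) u⌋₊ : ℝ) + 1} from h2)]
    exact hf _ _ (Nat.floor_le h0) h2
  refine h1.trans ?_
  rw [integral_finsetSum _ fun k _ => hi k]
  refine le_trans ?_ (mul_le_mul_of_nonneg_left (hS (⌊Real.sqrt Q⌋₊ + 1)) h.nonneg)
  rw [mul_sum]
  refine sum_le_sum fun k _ => ?_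
  rw [integral_indicator_const _ (hm k), smul_eq_mul, ← mul_assoc]
  refine mul_le_mul_of_nonneg_right ((h.growth u _ (by positivity)).trans (le_of_eq ?_)) (f0 k)
  ring
theorem int_ring : ∃ K : ℝ, 1 ≤ K ∧ ∀ (Q : ℕ) (g : SU) (s : ℝ), 0 ≤ s →
    ∫ w, Real.exp (-(dst Q g w - s) ^ 2 / 4) ∂mu Q ≤ K * (1 + s) ^ 2 := by
  have hq : Summable fun n : ℕ => Real.exp (-(n : ℝ) / 2) := by
    refine (summable_geometric_of_lt_one (Real.exp_pos (-1 / 2)).le
      (Real.exp_lt_one_iff.mpr (by norm_num))).congr fun n => ?_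
    rw [← Real.exp_nat_mul]
    congr 1
    ring
  have hz : Summable fun j : ℤ => Real.exp (-|(j : ℝ)| / 2) :=
    Summable.of_nat_of_neg (hq.congr fun n => by simp) (hq.congr fun n => by simp)
  have hT : 0 ≤ ∑' j : ℤ, Real.exp (-|(j : ℝ)| / 2) := tsum_nonneg fun j => (Real.exp_pos _).le
  refine ⟨8 * (16 * Real.exp (5 / 2) * ∑' j : ℤ, Real.exp (-|(j : ℝ)| / 2)) + 1,
    le_add_of_nonneg_left (by positivity), fun Q g s hs => ?_⟩
  have h := (sites_mu Q).int_le g (F := fun r => Real.exp (-(r - s) ^ 2 / 4))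
    (f := fun k => Real.exp (2 - |(k : ℝ) - s|)) (by fun_prop) (fun k r h1 h2 => by
      refine Real.exp_le_exp.mpr ?_
      have a1 : |(k : ℝ) - s| ≤ |r - s| + 1 := by
        rw [abs_le]
        constructor <;> linarith [le_abs_self (r - s), neg_abs_le (r - s)]
      nlinarith [sq_nonneg (|r - s| - 2), sq_abs (r - s)]) (fun k => (Real.exp_pos _).le)
    (S := (1 + s) ^ 2 * (16 * Real.exp (5 / 2) * ∑' j : ℤ, Real.exp (-|(j : ℝ)| / 2))) (fun M => by
      have b1 : ∑ k ∈ range M, Real.exp (-|(((k : ℤ) - (⌊s⌋₊ : ℤ) : ℤ) : ℝ)| / 2) ≤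
          ∑' j : ℤ, Real.exp (-|(j : ℝ)| / 2) := by
        rw [← sum_image (s := range M) (g := fun k : ℕ => (k : ℤ) - (⌊s⌋₊ : ℤ))
          (f := fun j : ℤ => Real.exp (-|(j : ℝ)| / 2)) (fun a _ b _ hab => by
            simpa using hab)]
        exact hz.sum_le_tsum _ fun j _ => (Real.exp_pos _).le
      refine le_trans ?_ (mul_le_mul_of_nonneg_left (mul_le_mul_of_nonneg_left b1
        (by positivity)) (by positivity))
      rw [mul_sum, mul_sum]
      refine sum_le_sum fun k _ => ?_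
      push_cast
      set t := |(k : ℝ) - s| with ht
      have t0 : 0 ≤ t := abs_nonneg _
      have c1 : (2 + k : ℝ) ≤ (1 + s) * (4 * Real.exp (t / 4)) := by
        have := Real.add_one_le_exp (t / 4)
        have h3 : (k : ℝ) - s ≤ t := le_abs_self _
        nlinarith [mul_nonneg hs t0]
      have c2 : |(k : ℝ) - ⌊s⌋₊| ≤ t + 1 := by
        have h3 : (k : ℝ) - s ≤ t := le_abs_self _
        have h4 : -t ≤ (k : ℝ) - s := neg_abs_le _
        rw [abs_le]
        constructor <;> linarith [Nat.floor_le hs, Nat.lt_floor_add_one s]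
      have c3 : Real.exp (t / 4) ^ 2 * Real.exp (2 - t) ≤
          Real.exp (5 / 2) * Real.exp (-|(k : ℝ) - ⌊s⌋₊| / 2) := by
        rw [← Real.exp_nat_mul, ← Real.exp_add, ← Real.exp_add]
        refine Real.exp_le_exp.mpr ?_
        push_cast
        linarith
      calc (2 + k : ℝ) ^ 2 * Real.exp (2 - t)
          ≤ ((1 + s) * (4 * Real.exp (t / 4))) ^ 2 * Real.exp (2 - t) :=
            mul_le_mul_of_nonneg_right (pow_le_pow_left₀ (by positivity) c1 2) (by positivity)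
        _ = (1 + s) ^ 2 * (16 * (Real.exp (t / 4) ^ 2 * Real.exp (2 - t))) := by ring
        _ ≤ (1 + s) ^ 2 * (16 * (Real.exp (5 / 2) * Real.exp (-|(k : ℝ) - ⌊s⌋₊| / 2))) := by
            gcongr
        _ = _ := by ring)
  simp only [id, dst_symm Q _ g] at h
  refine h.trans ?_
  nlinarith [sq_nonneg (1 + s)]

/-! ### part C: real inequalities -/

theorem vcC_rpow {α r s : ℝ} (h0 : 0 < α) (h1 : α ≤ 1) (hr : 0 ≤ r) (hs : 0 ≤ s) :
    r ^ α ≤ s ^ α + 1 + |r - s| := by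
  rcases le_total r s with h | h
  · have := Real.rpow_le_rpow hr h h0.le
    have := abs_nonneg (r - s)
    linarith
  · have ht : 0 ≤ r - s := by linarith
    have h2 := Real.rpow_add_le_add_rpow hs ht h0.le h1
    rw [add_sub_cancel] at h2
    rw [abs_of_nonneg ht]
    rcases le_total (r - s) 1 with h3 | h3
    · have := Real.rpow_le_one ht h3 h0.le
      linarith
    · have := Real.rpow_le_rpow_of_exponent_le h3 h1
      rw [Real.rpow_one] at this
      linarith

theorem vcC_mul {α b r s : ℝ} (h0 : 0 < α) (h1 : α ≤ 1) (hb : |b| ≤ 1) (hr : 0 ≤ r) (hs : 0 ≤ s) :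
    b * r ^ α - b * s ^ α ≤ 1 + |r - s| := by
  have h2 := vcC_rpow h0 h1 hr hs
  have h3 := vcC_rpow h0 h1 hs hr
  rw [abs_sub_comm] at h3
  have h4 : |r ^ α - s ^ α| ≤ 1 + |r - s| := abs_le.2 ⟨by linarith, by linarith⟩
  calc b * r ^ α - b * s ^ α = b * (r ^ α - s ^ α) := by ring
    _ ≤ |b * (r ^ α - s ^ α)| := le_abs_self _
    _ = |b| * |r ^ α - s ^ α| := abs_mul _ _
    _ ≤ 1 * (1 + |r - s|) := mul_le_mul hb h4 (abs_nonneg _) zero_le_one
    _ = 1 + |r - s| := one_mul _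

/-- `r ^ α ≤ s ^ α + 1 + |r - s|` -/
theorem gauss_le {α b r s : ℝ} (h0 : 0 < α) (h1 : α ≤ 1) (b0 : 0 ≤ b) (b1 : b ≤ 1) (hr : 0 ≤ r)
    (hs : 0 ≤ s) : Real.exp (-(r - s) ^ 2 / 2) ≤
      Real.exp (3 / 2) * (Real.exp (b * s ^ α) * Real.exp (-(b * r ^ α))) := by
  rw [← Real.exp_add, ← Real.exp_add, Real.exp_le_exp]
  have h := vcC_mul h0 h1 (abs_le.2 ⟨by linarith, b1⟩ : |b| ≤ 1) hr hs
  nlinarith [sq_nonneg (|r - s| - 1), sq_abs (r - s)]
theorem gauss_le' {α b r s : ℝ} (h0 : 0 < α) (h1 : α ≤ 1) (b0 : 0 ≤ b) (b1 : b ≤ 1) (hr : 0 ≤ r)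
    (hs : 0 ≤ s) : Real.exp (-(r - s) ^ 2 / 2) ≤ Real.exp 2 * (Real.exp (-(r - s) ^ 2 / 4) *
      (Real.exp (b * s ^ α) * Real.exp (-(b * r ^ α)))) := by
  rw [← Real.exp_add, ← Real.exp_add, ← Real.exp_add, Real.exp_le_exp]
  have h := vcC_mul h0 h1 (abs_le.2 ⟨by linarith, b1⟩ : |b| ≤ 1) hr hs
  nlinarith [sq_nonneg (|r - s| - 2), sq_abs (r - s)]
/-- `exp (-y) ≤ N! / y ^ N` -/
theorem sum_exp {β : ℝ} (h0 : 0 < β) (k : ℕ) : ∃ (K : ℝ) (p : ℕ), 1 ≤ K ∧
    ∀ (a : ℝ), 0 < a → a ≤ 1 → ∀ M : ℕ,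
      ∑ j ∈ range M, (2 + j : ℝ) ^ k * Real.exp (-(a * (j : ℝ) ^ β)) ≤ K / a ^ p := by
  obtain ⟨N, hN⟩ := exists_nat_ge (((k : ℝ) + 2) / β)
  rw [div_le_iff₀ h0] at hN
  have hsum : Summable fun j : ℕ => 1 / ((j : ℝ) + 1) ^ 2 := by
    simpa using (summable_nat_add_iff 1).2 (Real.summable_one_div_nat_pow.2 one_lt_two)
  have hS : 0 ≤ ∑' j : ℕ, 1 / ((j : ℝ) + 1) ^ 2 := tsum_nonneg fun j => by positivity
  have hF : (1 : ℝ) ≤ N.factorial := by exact_mod_cast N.factorial_pos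
  refine ⟨4 * 3 ^ k * N.factorial * (∑' j : ℕ, 1 / ((j : ℝ) + 1) ^ 2) + 1, N,
    le_add_of_nonneg_left (by positivity), fun a ha ha1 M => ?_⟩
  have haN : 0 < a ^ N := pow_pos ha N
  have key : ∀ j : ℕ, (2 + j : ℝ) ^ k * Real.exp (-(a * (j : ℝ) ^ β)) ≤
      4 * 3 ^ k * N.factorial / a ^ N * (1 / ((j : ℝ) + 1) ^ 2) := by
    intro j
    rcases Nat.eq_zero_or_pos j with rfl | hj
    · have h1 : a ^ N ≤ 1 := pow_le_one₀ ha.le ha1
      have h2 : (2 : ℝ) ^ k ≤ 3 ^ k := pow_le_pow_left₀ (by norm_num) (by norm_num) k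
      have h3 : (0 : ℝ) < 2 ^ k := by positivity
      simp only [Nat.cast_zero, add_zero, Real.zero_rpow h0.ne', mul_zero, neg_zero, Real.exp_zero,
        mul_one, zero_add, one_pow, div_one]
      rw [le_div_iff₀ haN]
      nlinarith
    · have hj1 : (1 : ℝ) ≤ j := by exact_mod_cast hj
      have hy : 0 ≤ a * (j : ℝ) ^ β := by positivity
      have h1 := Real.pow_div_factorial_le_exp _ hy N
      have h2 : (j : ℝ) ^ (k + 2) ≤ ((j : ℝ) ^ β) ^ N := by
        rw [← Real.rpow_natCast, ← Real.rpow_natCast _ N, ← Real.rpow_mul (by linarith)]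
        refine Real.rpow_le_rpow_of_exponent_le hj1 ?_
        push_cast
        linarith
      have h3 : (2 + j : ℝ) ^ k ≤ 3 ^ k * (j : ℝ) ^ k := by
        rw [← mul_pow]
        exact pow_le_pow_left₀ (by linarith) (by linarith) k
      have h4 : ((j : ℝ) + 1) ^ 2 ≤ 4 * (j : ℝ) ^ 2 := by nlinarith
      rw [mul_pow, div_le_iff₀ (by linarith)] at h1
      have h5 : a ^ N * (j : ℝ) ^ (k + 2) ≤ Real.exp (a * (j : ℝ) ^ β) * N.factorial :=
        (mul_le_mul_of_nonneg_left h2 haN.le).trans h1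
      rw [Real.exp_neg, mul_one_div, div_div, ← div_eq_mul_inv,
        div_le_div_iff₀ (Real.exp_pos _) (by positivity)]
      calc (2 + j : ℝ) ^ k * (a ^ N * ((j : ℝ) + 1) ^ 2)
          ≤ (3 ^ k * (j : ℝ) ^ k) * (a ^ N * (4 * (j : ℝ) ^ 2)) := by gcongr
        _ = 4 * 3 ^ k * (a ^ N * (j : ℝ) ^ (k + 2)) := by ring
        _ ≤ 4 * 3 ^ k * (Real.exp (a * (j : ℝ) ^ β) * N.factorial) := by gcongr
        _ = _ := by ring
  refine (Finset.sum_le_sum fun j _ => key j).trans ?_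
  rw [← Finset.mul_sum, div_mul_eq_mul_div]
  gcongr
  refine le_trans ?_ (le_add_of_nonneg_right zero_le_one)
  gcongr
  exact hsum.sum_le_tsum _ fun j _ => by positivity
theorem sum_exp_sqrt {α : ℝ} (h0 : 0 < α) (k : ℕ) : ∃ (K : ℝ) (p : ℕ), 1 ≤ K ∧
    ∀ (a a' : ℝ), 0 ≤ a' → a' < a → a ≤ 1 → ∀ m M : ℕ,
      ∑ j ∈ Ico m M, (2 + j : ℝ) ^ k * Real.exp (-(a * Real.sqrt j ^ α)) ≤
        K / (a - a') ^ p * Real.exp (-(a' * Real.sqrt m ^ α)) := by
  obtain ⟨K, p, hK, h⟩ := sum_exp (half_pos h0) k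
  refine ⟨K, p, hK, fun a a' ha' haa ha m M => ?_⟩
  have h1 := h (a - a') (by linarith) (by linarith) M
  refine le_trans ?_ (mul_le_mul_of_nonneg_right h1 (Real.exp_pos _).le)
  rw [Finset.sum_mul]
  refine le_trans (Finset.sum_le_sum fun j hj => ?_) (Finset.sum_le_sum_of_subset_of_nonneg
    (fun j hj => Finset.mem_range.2 (Finset.mem_Ico.1 hj).2) fun j _ _ => by positivity)
  have hm : (m : ℝ) ≤ j := by exact_mod_cast (Finset.mem_Ico.1 hj).1
  have h2 : Real.sqrt m ^ α ≤ Real.sqrt j ^ α :=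
    Real.rpow_le_rpow (Real.sqrt_nonneg _) (Real.sqrt_le_sqrt hm) h0.le
  have h3 : (j : ℝ) ^ (α / 2) = Real.sqrt j ^ α := by
    rw [Real.sqrt_eq_rpow, ← Real.rpow_mul (Nat.cast_nonneg j)]
    congr 1
    ring
  rw [h3, mul_assoc, ← Real.exp_add]
  gcongr
  nlinarith [mul_le_mul_of_nonneg_left h2 ha']
/-- ring integrals against a weight centred at the same point -/
theorem int_ring_wt : ∃ K : ℝ, 1 ≤ K ∧ ∀ (α b : ℝ), 0 < α → α ≤ 1 → |b| ≤ 1 →
    ∀ (Q : ℕ) (g : SU) (s : ℝ), 0 ≤ s →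
    ∫ w, Real.exp (-(dst Q g w - s) ^ 2 / 2) * Real.exp (b * dst Q g w ^ α) ∂mu Q ≤
      K * (1 + s) ^ 2 * Real.exp (b * s ^ α) := by
  obtain ⟨K, hK, h⟩ := int_ring
  have he : 1 ≤ Real.exp 2 := Real.one_le_exp (by norm_num)
  refine ⟨Real.exp 2 * K, by nlinarith, fun α b h0 h1 hb Q g s hs => ?_⟩
  have hc : Continuous fun w => Real.exp (-(dst Q g w - s) ^ 2 / 4) := by
    unfold dst
    fun_prop
  calc ∫ w, Real.exp (-(dst Q g w - s) ^ 2 / 2) * Real.exp (b * dst Q g w ^ α) ∂mu Q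
      ≤ ∫ w, Real.exp 2 * Real.exp (b * s ^ α) * Real.exp (-(dst Q g w - s) ^ 2 / 4) ∂mu Q := by
        refine integral_mono_of_nonneg (Filter.Eventually.of_forall fun w => by positivity)
          ((integrable_mu hc).const_mul _) (Filter.Eventually.of_forall fun w => ?_)
        have hr : 0 ≤ dst Q g w := by unfold dst; positivity
        have h2 := vcC_mul h0 h1 hb hr hs
        simp only
        rw [← Real.exp_add, ← Real.exp_add, ← Real.exp_add, Real.exp_le_exp]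
        nlinarith [sq_nonneg (|dst Q g w - s| - 2), sq_abs (dst Q g w - s)]
    _ = Real.exp 2 * Real.exp (b * s ^ α) *
        ∫ w, Real.exp (-(dst Q g w - s) ^ 2 / 4) ∂mu Q := integral_const_mul _ _
    _ ≤ Real.exp 2 * Real.exp (b * s ^ α) * (K * (1 + s) ^ 2) := by
        gcongr
        exact h Q g s hs
    _ = _ := by ring

theorem int_exp {α : ℝ} (h0 : 0 < α) (h1 : α ≤ 1) : ∃ (K : ℝ) (p : ℕ), 1 ≤ K ∧
    ∀ (a : ℝ), 0 < a → a ≤ 1 → ∀ (Q : ℕ) (G : ℝ) (ι : Type) [MeasurableSpace ι] (ν : Measure ι)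
      (x : ι → SU), Sites Q G ν x → ∀ u,
      ∫ i, Real.exp (-(a * dst Q (x i) u ^ α)) ∂ν ≤ G * (K / a ^ p) := by
  obtain ⟨K, p, hK, hs⟩ := sum_exp h0 2
  refine ⟨K, p, hK, fun a a0 a1 Q G ι _ ν x h u => ?_⟩
  refine h.int_le u (F := fun r => Real.exp (-(a * r ^ α)))
    (f := fun k => Real.exp (-(a * (k : ℝ) ^ α))) ?_ (fun k r hk _ => ?_)
    (fun k => (Real.exp_pos _).le) (hs a a0 a1)
  · have := Real.continuous_rpow_const h0.le
    fun_prop
  · exact Real.exp_le_exp.mpr (neg_le_neg (mul_le_mul_of_nonneg_left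
      (Real.rpow_le_rpow (Nat.cast_nonneg k) hk h0.le) a0.le))

end Crest.Agent.R340.Loc
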