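import Crest.Agent.R340.GeoSU2
import Crest.Agent.R340.LcVol

/-! # Row 340: volume bounds for sites (helper10) -/

set_option autoImplicit false

namespace Crest.Agent.R340.Pin

open MeasureTheory Crest.MathPhysics.Laughlin

theorem h10_sites_vol {α a : ℝ} (h0 : 0 < α) (ha : 0 < a) : ∃ V, 0 ≤ V ∧ ∀ (Q : ℕ) (G : ℝ)
    (ι : Type) [MeasurableSpace ι] (ν : Measure ι) (x : ι → S2), Sites Q G ν x → ∀ y,
      Integrable (fun i => wt α a (dq Q (x i) y)) ν ∧ ∫ i, wt α a (dq Q (x i) y) ∂ν ≤ V * G := by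
  obtain ⟨K, p, hK, hs⟩ := Loc.sum_exp h0 2
  have hb : 0 < min a 1 := lt_min ha one_pos
  have hc : Continuous (wt α a) := by
    unfold wt
    exact Real.continuous_exp.comp
      (continuous_const.mul (Real.continuous_rpow_const h0.le)).neg
  refine ⟨K / min a 1 ^ p, by positivity, fun Q G ι _ ν x h y => ⟨?_, ?_⟩⟩
  · haveI := h.fin
    have hm : Measurable fun i => wt α a (dq Q (x i) y) :=
      hc.measurable.comp (((continuous_dq Q).comp
        (continuous_id.prodMk continuous_const)).measurable.comp h.meas)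
    refine Integrable.of_bound hm.aestronglyMeasurable 1 (Filter.Eventually.of_forall fun i => ?_)
    rw [wt, Real.norm_of_nonneg (Real.exp_pos _).le, Real.exp_le_one_iff, neg_nonpos]
    exact mul_nonneg ha.le (Real.rpow_nonneg (dq_nonneg _ _ _) _)
  · have h1 := h.toLoc.int_le (toSU y) hc
      (f := fun k => Real.exp (-(min a 1 * (k : ℝ) ^ α))) (fun k r hk _ => by
        refine Real.exp_le_exp.2 (neg_le_neg (mul_le_mul (min_le_left _ _)
          (Real.rpow_le_rpow (Nat.cast_nonneg k) hk h0.le)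
          (Real.rpow_nonneg (Nat.cast_nonneg k) _) ha.le)))
      (fun k => (Real.exp_pos _).le) (hs _ hb (min_le_right _ _))
    simpa only [dst_toSU, hopf_toSU, mul_comm G] using h1

theorem h10_mass {Q : ℕ} {G : ℝ} {ι : Type} [MeasurableSpace ι] {ν : Measure ι} {x : ι → S2}
    (h : Sites Q G ν x) : ν.real Set.univ ≤ G * (1 + Real.sqrt Q) ^ 2 := by
  have h1 := h.growth (ster 0) (Real.sqrt Q) (Real.sqrt_nonneg _)
  rwa [Set.eq_univ_of_forall (s := {i | dq Q (x i) (ster 0) ≤ Real.sqrt Q})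
    fun i => dq_le Q _ _] at h1

end Crest.Agent.R340.Pin
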