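import Crest.Agent.R340.CFock

/-!
# Row 340, module LOC: definitions

Points are elements of `SU = SU(2)`, `ko Q g` is the coherent state at `g`, `orb Q g j` the `j`-th
orbital centred at `g`, `dst Q` the distance in magnetic units, `mu Q` the measure with
`∫ |ko u⟩⟨ko u| dmu = 1`.  Locality of `A` (of any parity) is measured by plain commutators with the
dual fields `dA v = c(v) θ`.
-/

set_option autoImplicit false

namespace Crest.Agent.R340.Loc

open Matrix MeasureTheory
open scoped Matrix.Norms.L2Operator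

/-- `SU(2)`: the pair `(a, b)` is the matrix `!![a, -conj b; b, conj a]` -/
def SU : Type := {p : ℂ × ℂ // p.1 * star p.1 + p.2 * star p.2 = 1}

namespace SU

def a (g : SU) : ℂ := g.1.1
def b (g : SU) : ℂ := g.1.2

theorem unit (g : SU) : g.a * star g.a + g.b * star g.b = 1 := g.2

@[ext] theorem ext {g h : SU} (ha : g.a = h.a) (hb : g.b = h.b) : g = h :=
  Subtype.ext (Prod.ext ha hb)

instance : One SU := ⟨⟨(1, 0), by simp⟩⟩

instance : Mul SU := ⟨fun g h => ⟨(g.a * h.a - star g.b * h.b, g.b * h.a + star g.a * h.b), by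
  simp only [star_sub, star_add, star_mul', star_star]
  linear_combination (h.a * star h.a + h.b * star h.b) * g.unit + h.unit⟩⟩

instance : Inv SU := ⟨fun g => ⟨(star g.a, -g.b), by
  simp only [star_neg, star_star]
  linear_combination g.unit⟩⟩

@[simp] theorem one_a : (1 : SU).a = 1 := rfl
@[simp] theorem one_b : (1 : SU).b = 0 := rfl
theorem mul_a (g h : SU) : (g * h).a = g.a * h.a - star g.b * h.b := rfl
theorem mul_b (g h : SU) : (g * h).b = g.b * h.a + star g.a * h.b := rfl
@[simp] theorem inv_a (g : SU) : g⁻¹.a = star g.a := rfl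
@[simp] theorem inv_b (g : SU) : g⁻¹.b = -g.b := rfl

instance : Group SU := Group.ofLeftAxioms
  (fun g h k => by
    ext <;> simp only [mul_a, mul_b, star_sub, star_add, star_mul', star_star] <;> ring)
  (fun g => by ext <;> simp [mul_a, mul_b])
  (fun g => by
    ext
    · simp only [mul_a, inv_a, inv_b, star_neg, one_a]; linear_combination g.unit
    · simp only [mul_b, inv_a, inv_b, star_star, one_b]; ring)

noncomputable instance : TopologicalSpace SU := instTopologicalSpaceSubtype

@[fun_prop] theorem continuous_a : Continuous a := continuous_fst.comp continuous_subtype_val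
@[fun_prop] theorem continuous_b : Continuous b := continuous_snd.comp continuous_subtype_val

instance : IsTopologicalGroup SU where
  continuous_mul := Continuous.subtype_mk (by fun_prop) _
  continuous_inv := Continuous.subtype_mk (by fun_prop) _

theorem norm_sq (g : SU) : ‖g.a‖ ^ 2 + ‖g.b‖ ^ 2 = 1 := by
  have := g.unit
  simp only [Complex.star_def, Complex.mul_conj, Complex.normSq_eq_norm_sq] at this
  exact_mod_cast this

theorem norm_a_le (g : SU) : ‖g.a‖ ≤ 1 := by
  nlinarith [g.norm_sq, norm_nonneg g.a, sq_nonneg ‖g.b‖]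

theorem norm_b_le (g : SU) : ‖g.b‖ ≤ 1 := by
  nlinarith [g.norm_sq, norm_nonneg g.b, sq_nonneg ‖g.a‖]

instance : CompactSpace SU := isCompact_iff_compactSpace.1 <|
  (isCompact_closedBall (0 : ℂ × ℂ) 1).of_isClosed_subset
    (isClosed_eq (by fun_prop) continuous_const) fun p hp => by
      rw [mem_closedBall_zero_iff, Prod.norm_def]
      exact max_le (norm_a_le ⟨p, hp⟩) (norm_b_le ⟨p, hp⟩)

instance : T2Space SU := inferInstanceAs (T2Space (Subtype _))
instance : SecondCountableTopology SU := inferInstanceAs (SecondCountableTopology (Subtype _))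
noncomputable instance : MeasurableSpace SU := borel SU
instance : BorelSpace SU := ⟨rfl⟩

end SU

/-- the Haar probability measure -/
noncomputable def haar : Measure SU := Measure.haarMeasure ⊤

instance : haar.IsHaarMeasure := inferInstanceAs (Measure.haarMeasure ⊤).IsHaarMeasure

instance : IsProbabilityMeasure haar := ⟨Measure.haarMeasure_self (K₀ := ⊤)⟩

/-- `(Q + 1)` times the Haar measure -/
noncomputable def mu (Q : ℕ) : Measure SU := ((Q + 1 : ℕ) : ENNReal) • haar

instance (Q : ℕ) : IsFiniteMeasure (mu Q) := Measure.smul_finite _ (ENNReal.natCast_ne_top _)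

/-- distance in magnetic units -/
noncomputable def dst (Q : ℕ) (g h : SU) : ℝ := Real.sqrt Q * ‖(g⁻¹ * h).b‖

/-- the symmetric power of the spinor `(z₀, z₁)` -/
noncomputable def sym (m : ℕ) (z₀ z₁ : ℂ) (j : Fin (m + 1)) : ℂ :=
  (Real.sqrt (m.choose j) : ℂ) * (z₀ ^ (m - j) * z₁ ^ (j : ℕ))

/-- the spin `m / 2` representation: `√(C(m,i) / C(m,j))` times the coefficient of `X ^ j` in
`(a - conj b X) ^ (m - i) (b + conj a X) ^ i` -/
noncomputable def rep (m : ℕ) (g : SU) : Matrix (Fin (m + 1)) (Fin (m + 1)) ℂ := Matrix.of fun i j =>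
  (Real.sqrt (m.choose i) / Real.sqrt (m.choose j) : ℝ) *
    ∑ l ∈ Finset.range (j + 1), (((m - i).choose l : ℂ) * (g.a ^ (m - i - l) * (-star g.b) ^ l)) *
      (((i : ℕ).choose (j - l) : ℂ) * (g.b ^ ((i : ℕ) - (j - l)) * star g.a ^ ((j : ℕ) - l)))

/-- the `j`-th orbital centred at `g` (zero for `j > Q`) -/
noncomputable def orb (Q : ℕ) (g : SU) (j : ℕ) : Fin (Q + 1) → ℂ :=
  fun i => if h : j < Q + 1 then rep Q g i ⟨j, h⟩ else 0

/-- the coherent state at `g` -/
noncomputable def ko (Q : ℕ) (g : SU) : Fin (Q + 1) → ℂ := sym Q g.a g.b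

variable {n : ℕ}

/-- Euclidean norm -/
noncomputable def nv (v : Fin n → ℂ) : ℝ := ‖(WithLp.toLp 2 v : EuclideanSpace ℂ (Fin n))‖

/-- projection on the first `m` orbitals at `g` -/
noncomputable def pj (Q : ℕ) (g : SU) (m : ℕ) (v : Fin (Q + 1) → ℂ) : Fin (Q + 1) → ℂ :=
  ∑ j ∈ Finset.range m, (star (orb Q g j) ⬝ᵥ v) • orb Q g j

/-- `c(v)`, conjugate linear in `v` -/
noncomputable def cA (v : Fin n → ℂ) : Fk n := ∑ j, star (v j) • annC j

/-- parity `θ = (-1)^N` -/
def par (n : ℕ) : Fk n := Matrix.diagonal fun S => (-1) ^ S.card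

/-- dual field `c(v) θ` -/
noncomputable def dA (v : Fin n → ℂ) : Fk n := cA v * par n

/-- commutator -/
def cm (A B : Fk n) : Fk n := A * B - B * A

/-- even operators -/
def Ev (A : Fk n) : Prop := Commute (par n) A

/-- the locality profile -/
noncomputable def ell (A : Fk n) (v : Fin n → ℂ) : ℝ := ‖cm A (dA v)‖ + ‖cm A (star (dA v))‖

/-- `A` is localised at `g` with tails `C exp (-a r ^ α)` -/
def IsLoc (Q : ℕ) (α a C : ℝ) (g : SU) (A : Fk (Q + 1)) : Prop :=
  ‖A‖ ≤ C ∧ ∀ u, ell A (ko Q u) ≤ C * Real.exp (-(a * dst Q g u ^ α))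

/-- a family of sites with quadratic volume growth (`mu Q` with `x = id`, or the counting measure
of a finite family) -/
structure Sites (Q : ℕ) (G : ℝ) {ι : Type} [MeasurableSpace ι] (ν : Measure ι) (x : ι → SU) :
    Prop where
  fin : IsFiniteMeasure ν
  meas : Measurable x
  growth : ∀ u r, 0 ≤ r → ν.real {i | dst Q (x i) u ≤ r} ≤ G * (1 + r) ^ 2

/-- an interaction: even local terms; the operator is `∫ i, D i ∂ν` -/
structure Inter (Q : ℕ) (α a C G : ℝ) {ι : Type} [MeasurableSpace ι] (ν : Measure ι) (x : ι → SU)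
    (D : ι → Fk (Q + 1)) : Prop where
  sites : Sites Q G ν x
  meas : AEStronglyMeasurable D ν
  ev : ∀ i, Ev (D i)
  loc : ∀ i, IsLoc Q α a C (x i) (D i)

/-- the CAR algebra of the first `m` orbitals at `g` -/
noncomputable def Lc (Q : ℕ) (g : SU) (m : ℕ) : StarSubalgebra ℂ (Fk (Q + 1)) :=
  StarAlgebra.adjoin ℂ {X | ∃ j < m, X = cA (orb Q g j)}

/-- the same for the dual fields -/
noncomputable def Ld (Q : ℕ) (g : SU) (m : ℕ) : StarSubalgebra ℂ (Fk (Q + 1)) :=
  StarAlgebra.adjoin ℂ {X | ∃ j < m, X = dA (orb Q g j)}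

/-- average over the Majorana unitaries `1, γ, γ', γ γ'` of one mode `d` -/
noncomputable def E1 (d X : Fk n) : Fk n :=
  (1 / 4 : ℂ) • (X + (d + star d) * X * (d + star d) + (d - star d) * X * star (d - star d) +
    (d + star d) * ((d - star d) * X * star (d - star d)) * (d + star d))

/-- average over a list of modes -/
noncomputable def EL (l : List (Fk n)) (X : Fk n) : Fk n := l.foldr E1 X

/-- conditional expectation onto `Lc Q g m` -/
noncomputable def Ex (Q : ℕ) (g : SU) (m : ℕ) (X : Fk (Q + 1)) : Fk (Q + 1) :=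
  EL ((List.range' m (Q + 1 - m)).map fun j => dA (orb Q g j)) X

/-- second quantisation `Γ(U)`: column `T` is `∏_{t ∈ T} c^*(U e_t) Ω` -/
noncomputable def Gam (U : Matrix (Fin n) (Fin n) ℂ) : Fk n := Matrix.of fun S T =>
  ((T.sort (· ≤ ·)).map fun t => star (cA fun i => U i t)).prod S ∅

/-- the rotation of Fock space -/
noncomputable def rot (Q : ℕ) (g : SU) : Fk (Q + 1) := Gam (rep Q g)

/-- the pair annihilator at `g` -/
noncomputable def Bg (Q : ℕ) (g : SU) : Fk (Q + 1) := cA (orb Q g 1) * cA (orb Q g 0)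

/-- the density at `g` -/
noncomputable def ng (Q : ℕ) (g : SU) : Fk (Q + 1) := star (cA (ko Q g)) * cA (ko Q g)

/-- the point of the sphere under `g` -/
noncomputable def hopf (g : SU) : Crest.MathPhysics.Laughlin.S2 :=
  ⟨!₂[2 * (g.a * star g.b).re, 2 * (g.a * star g.b).im, ‖g.a‖ ^ 2 - ‖g.b‖ ^ 2], by
    have h := g.norm_sq
    have h2 : (g.a * star g.b).re ^ 2 + (g.a * star g.b).im ^ 2 = ‖g.a‖ ^ 2 * ‖g.b‖ ^ 2 := by
      rw [← mul_pow, ← norm_star g.b, ← norm_mul, Complex.sq_norm, Complex.normSq_apply]; ring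
    rw [mem_sphere_zero_iff_norm, EuclideanSpace.norm_eq, Real.sqrt_eq_one]
    simp only [Fin.sum_univ_three, Real.norm_eq_abs, sq_abs]
    simp only [Matrix.cons_val_zero, Matrix.cons_val_one, Matrix.cons_val]
    nlinarith⟩

/-- the local terms of `H + dΓ(T φ)` -/
noncomputable def hloc (Q : ℕ) (φ : Crest.MathPhysics.Laughlin.S2 → ℝ) (g : SU) : Fk (Q + 1) :=
  (((2 * Q - 1) / (Q + 1) : ℝ) : ℂ) • (star (Bg Q g) * Bg Q g) + (φ (hopf g) : ℂ) • ng Q g

end Crest.Agent.R340.Loc
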