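import Crest.Agent.R340.LocC
import Crest.Agent.R340.LrGen

/-! # Lieb-Robinson bound and filters (IfLoc part D) -/

set_option autoImplicit false

namespace Crest.Agent.R340.Pin

open Matrix MeasureTheory Crest.MathPhysics.Laughlin
open scoped Matrix.Norms.L2Operator MatrixOrder ComplexOrder ComplexConjugate

/-! ### part A: Lieb-Robinson -/

/-- `gloc_cC`, `Ls.norm_coh_dot_orN` with `j = 0` (`Ls.orN_zero`),
`a r ^ α ≤ a (1 + r) ≤ a + a ^ 2 / 2 + r ^ 2 / 2`; `gloc` is invariant under `star` -/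
theorem OL_ca {α a : ℝ} (h0 : 0 < α) (h1 : α ≤ 1) (ha : 0 ≤ a) : ∃ C, 0 ≤ C ∧ ∀ (Q : ℕ) (y : S2),
    OL Q α a C y (ca Q y) ∧ OL Q α a C y (star (ca Q y)) := by
  refine ⟨Real.exp (a + a ^ 2 / 2), (Real.exp_pos _).le, fun Q y => ?_⟩
  have n1 : ‖ca Q y‖ ≤ Real.exp (a + a ^ 2 / 2) :=
    (norm_ca_le Q y).trans (Real.one_le_exp (by positivity))
  have g1 : ∀ z, Fw.gloc (ca Q) (ca Q y) z ≤ Real.exp (a + a ^ 2 / 2) * wt α a (dq Q y z) := by
    intro z
    rw [show ca Q y = cC (coh Q y) from rfl, gloc_cC]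
    refine (coh_overlap_le Q z y).trans ?_
    rw [wt, ← Real.exp_add, dq_symm Q z y]
    refine Real.exp_le_exp.2 ?_
    have d0 := dq_nonneg Q y z
    have h2 : dq Q y z ^ α ≤ 1 + dq Q y z := by
      rcases le_total (dq Q y z) 1 with h | h
      · linarith [Real.rpow_le_one d0 h h0.le]
      · have := Real.rpow_le_rpow_of_exponent_le h h1
        rw [Real.rpow_one] at this
        linarith
    nlinarith [mul_le_mul_of_nonneg_left h2 ha, sq_nonneg (dq Q y z - a)]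
  refine ⟨⟨n1, g1⟩, by rwa [norm_star], fun z => le_of_eq_of_le ?_ (g1 z)⟩
  have e : ∀ A B : Fk (Q + 1), ‖star A * B + B * star A‖ = ‖A * star B + star B * A‖ := fun A B => by
    rw [← norm_star, star_add, star_mul, star_mul, star_star, add_comm (star B * A)]
  rw [Fw.gloc, Fw.gloc, e, e, star_star]
  exact add_comm _ _

/-- `Y = K c - c K` (`c = ca Q y` or its adjoint) is odd and `OL` at `y` (`comm_LocHam'` with
`max C 0`, `OL_ca`), rate `a₁`; weaken to `a₂ = min a₁ (min a 1)`; `master_any`, then `conv_wt` with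
`b = a₂ / 4` -/
theorem lr_ker {α a C G : ℝ} (h0 : 0 < α) (h1 : α ≤ 1) (ha : 0 < a) :
    ∃ b v, 0 < b ∧ b ≤ a ∧ 0 < v ∧ ∀ Q, 1 ≤ Q → ∀ K : Fk (Q + 1), LocHam Q α a C G K →
      ∀ (x : S2) (T : Fk (Q + 1)) (S : ℝ), 0 ≤ S →
        (∀ u, Fw.loc (ca Q) T u ≤ S * wt α b (dq Q x u)) →
        ∀ y, Fw.dcom (ca Q) K T y ≤ v * S * wt α b (dq Q x y) := by
  obtain ⟨a₁, K₁, ha₁, hK₁, cm⟩ := comm_LocHam' h0 h1 ha
  obtain ⟨C₀, hC₀, oc⟩ := OL_ca h0 h1 ha.le
  set a₂ := min a₁ (min a 1) with ha₂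
  have p2 : 0 < a₂ := lt_min ha₁ (lt_min ha one_pos)
  have l2 : a₂ ≤ a := (min_le_right _ _).trans (min_le_left _ _)
  obtain ⟨K₂, hK₂, ma⟩ := master_any h0 h1 p2 ((min_le_right _ _).trans (min_le_right _ _))
  obtain ⟨V, hV, cv⟩ := conv_wt h0 h1 (show 0 < a₂ / 4 by positivity)
  set C₁ := K₁ * max C 0 * max G 0 * C₀ with hC₁
  have C10 : 0 ≤ C₁ := by positivity
  refine ⟨a₂ / 4, 2 * (K₂ * C₁ * V) + 1, by positivity, by linarith, by positivity,
    fun Q hQ K hK x T S hS hT y => ?_⟩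
  obtain ⟨-, -, ev, G0⟩ := hK.ev'
  have key : ∀ e : Fk (Q + 1), Loc.par (Q + 1) * e = -(e * Loc.par (Q + 1)) → OL Q α a C₀ y e →
      ‖T * (K * e - e * K) - (K * e - e * K) * T‖ ≤
        K₂ * C₁ * V * S * wt α (a₂ / 4) (dq Q x y) := by
    intro e he hO
    have h2 := (cm Q hQ _ G C₀ y K e (le_max_right C 0) (hK.mono' (le_max_left C 0))).2 hO
    rw [← max_eq_left G0, ← hC₁] at h2
    have od : Loc.par (Q + 1) * (K * e - e * K) = -((K * e - e * K) * Loc.par (Q + 1)) := by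
      rw [mul_sub, ← mul_assoc, ev.eq, mul_assoc, he, ← mul_assoc _ e, he, neg_mul, mul_assoc e,
        ev.eq]
      noncomm_ring
    have h3 := ma Q hQ C₁ y T _ od fun z => (h2.2 z).trans (mul_le_mul_of_nonneg_left
      (Ls.wt_anti (min_le_left _ _) (dq_nonneg _ _ _)) C10)
    have h4 := cv Q x y S _ (Fw.loc_nonneg _ T) hT
    rw [show 2 * (a₂ / 4) = a₂ / 2 by ring] at h4
    exact h3.trans ((mul_le_mul_of_nonneg_left h4 (mul_nonneg hK₂ C10)).trans_eq (by ring))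
  have k1 := key _ (Loc.par_mul_cA _) (oc Q y).1
  have k2 := key _ (Loc.par_mul_star_cA _) (oc Q y).2
  have k3 : 0 ≤ S * wt α (a₂ / 4) (dq Q x y) := mul_nonneg hS (Ls.wt_pos _ _ _).le
  refine (add_le_add k1 k2).trans ?_
  nlinarith

/-- `Fw.lr_tau` with `F = fun y => wt α b (dq Q x y)` (bounded below by `dq_le`), `lr_ker`,
`Filt.norm_tau`; `OL` case: `OL_iff_QL_par`, `tau_mul_par` -/
theorem lr_tau' {α a C G : ℝ} (h0 : 0 < α) (h1 : α ≤ 1) (ha : 0 < a) :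
    ∃ a' v, 0 < a' ∧ a' ≤ a ∧ 0 < v ∧ ∀ Q, 1 ≤ Q → ∀ K : Fk (Q + 1), LocHam Q α a C G K →
      ∀ (C' : ℝ) (x : S2) (A : Fk (Q + 1)) (t : ℝ),
        (QL Q α a C' x A → QL Q α a' (2 * Real.exp (v * |t|) * C') x (Filt.tau K t A)) ∧
        (OL Q α a C' x A → OL Q α a' (2 * Real.exp (v * |t|) * C') x (Filt.tau K t A)) := by
  obtain ⟨b, v, hb, hba, hv, ker⟩ := lr_ker (C := C) (G := G) h0 h1 ha
  refine ⟨b, 2 * v, hb, hba, by positivity, fun Q hQ K hK C' x A t => ?_⟩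
  obtain ⟨sa, -, ev, -⟩ := hK.ev'
  have key : ∀ A, QL Q α a C' x A →
      QL Q α b (2 * Real.exp (2 * v * |t|) * C') x (Filt.tau K t A) := by
    intro A hA
    have C0 : 0 ≤ C' := (norm_nonneg _).trans hA.1
    refine ⟨?_, fun y => ?_⟩
    · rw [Filt.norm_tau sa]
      have := Real.one_le_exp (show 0 ≤ 2 * v * |t| by positivity)
      nlinarith [hA.1]
    · refine (Fw.lr_tau (c := ca Q) (F := fun y => wt α b (dq Q x y)) (κ := C') sa (norm_ca_le Q)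
        (Ls.wt_pos α b (Real.sqrt Q))
        (fun y => Ls.wt_anti_right h0.le hb.le (dq_nonneg _ _ _) (dq_le Q x y)) hv
        (fun r S hS h => ker Q hQ K hK x _ S hS h) (fun u => (hA.2 u).trans
          (mul_le_mul_of_nonneg_left (Ls.wt_anti hba (dq_nonneg _ _ _)) C0)) t y).trans_eq ?_
      ring
  refine ⟨key A, fun hA => ?_⟩
  rw [OL_iff_QL_par] at hA ⊢
  rw [tau_mul_par ev]
  exact key _ hA

/-! ### part B: filters -/

/-- `Fw.min_exp_le` with `T = v |t|`, `D = a r ^ α`, small `b`: `√D = √a r ^ (α / 2)` -/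
theorem min_split {α a v c : ℝ} (ha : 0 < a) (hv : 0 < v) (hc : 0 < c) : ∃ a' K, 0 < a' ∧ 0 ≤ K ∧
    ∀ t r : ℝ, 0 ≤ r → min 1 (Real.exp (v * |t|) * wt α a r) ≤
      K * Real.exp (c * Real.sqrt |t|) * wt (α / 2) a' r := by
  have hsv := Real.sqrt_pos.2 hv
  have hb : 0 < c / Real.sqrt v := div_pos hc hsv
  refine ⟨c / Real.sqrt v * Real.sqrt a, Real.exp ((c / Real.sqrt v) ^ 2),
    mul_pos hb (Real.sqrt_pos.2 ha), (Real.exp_pos _).le, fun t r hr => ?_⟩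
  have h := Fw.min_exp_le (T := v * |t|) (D := a * r ^ α) hb.le (by positivity) (by positivity)
  rw [wt, wt, ← Real.exp_add, ← Real.exp_add, ← Real.exp_add, ← sub_eq_add_neg]
  refine h.trans_eq ?_
  congr 1
  have e : Real.sqrt (r ^ α) = r ^ (α / 2) := by
    rw [Real.sqrt_eq_rpow, ← Real.rpow_mul hr, mul_one_div]
  rw [Real.sqrt_mul hv.le, Real.sqrt_mul ha.le, e]
  field_simp
  ring

/-- `‖w t‖ exp (c/2 √|t|) ≤ Cw exp (-c/2 √|t|)`; see `Fw.fwB_int` -/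
theorem decay_int {Cw c : ℝ} (hc : 0 < c) : ∃ J, 0 ≤ J ∧ ∀ w : ℝ → ℂ, Integrable w →
    Filt.Decay Cw c w → Integrable (fun t => ‖w t‖ * Real.exp (c / 2 * Real.sqrt |t|)) ∧
      ∫ t, ‖w t‖ * Real.exp (c / 2 * Real.sqrt |t|) ≤ J ∧ ∫ t, ‖w t‖ ≤ J := by
  have i0 : Integrable fun t : ℝ => |Cw| * Real.exp (-(c / 2) * Real.sqrt |t|) := by
    simpa using Filt.Decay.integrable_pow (C := |Cw|) (half_pos hc) 0
  refine ⟨∫ t : ℝ, |Cw| * Real.exp (-(c / 2) * Real.sqrt |t|),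
    integral_nonneg fun t => by positivity, fun w hw hd => ?_⟩
  have hle : ∀ t : ℝ, ‖w t‖ * Real.exp (c / 2 * Real.sqrt |t|) ≤
      |Cw| * Real.exp (-(c / 2) * Real.sqrt |t|) := fun t => by
    have e : Real.exp (-(c / 2) * Real.sqrt |t|) =
        Real.exp (-c * Real.sqrt |t|) * Real.exp (c / 2 * Real.sqrt |t|) := by
      rw [← Real.exp_add]; congr 1; ring
    rw [e, ← mul_assoc]
    exact mul_le_mul_of_nonneg_right ((hd t).trans
      (mul_le_mul_of_nonneg_right (le_abs_self _) (Real.exp_pos _).le)) (Real.exp_pos _).le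
  have hc' : Continuous fun t : ℝ => Real.exp (c / 2 * Real.sqrt |t|) := by fun_prop
  have i1 : Integrable fun t => ‖w t‖ * Real.exp (c / 2 * Real.sqrt |t|) :=
    i0.mono' (hw.aestronglyMeasurable.norm.mul hc'.aestronglyMeasurable)
      (Filter.Eventually.of_forall fun t => by
        rw [Real.norm_of_nonneg (by positivity)]; exact hle t)
  refine ⟨i1, integral_mono i1 i0 hle, integral_mono hw.norm i0 fun t => le_trans ?_ (hle t)⟩
  exact le_mul_of_one_le_right (norm_nonneg _) (Real.one_le_exp (by positivity))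

theorem filt_mul_par {Q : ℕ} {K : Fk (Q + 1)} (hs : IsSelfAdjoint K) (hK : Loc.Ev K) {w : ℝ → ℂ}
    (hw : Integrable w) (Y : Fk (Q + 1)) :
    Filt.filt w K Y * Loc.par (Q + 1) = Filt.filt w K (Y * Loc.par (Q + 1)) := by
  rw [Filt.filt_eq_filt2, Filt.filt_eq_filt2]
  exact Filt.filt2_mul hw hs hs hK.eq.symm Y

/-- `loc (tau K t A) y ≤ min (4 C') (2 exp (v |t|) C' wt) ≤ 4 C' min 1 (..)`, `min_split` with
`c = cw / 2`, `Fw.loc_filt_le`, `decay_int`, `Filt.norm_filt2_le` -/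
theorem filt_QL' {α a C G Cw cw : ℝ} (h0 : 0 < α) (h1 : α ≤ 1) (ha : 0 < a) (hc : 0 < cw) :
    ∃ a' K', 0 < a' ∧ 0 ≤ K' ∧ ∀ Q, 1 ≤ Q → ∀ K : Fk (Q + 1), LocHam Q α a C G K →
      ∀ w : ℝ → ℂ, Integrable w → Filt.Decay Cw cw w → ∀ (C' : ℝ) (x : S2) (A : Fk (Q + 1)),
        (QL Q α a C' x A → QL Q (α / 2) a' (K' * C') x (Filt.filt w K A)) ∧
        (OL Q α a C' x A → OL Q (α / 2) a' (K' * C') x (Filt.filt w K A)) := by
  obtain ⟨b, v, hb, -, hv, lr⟩ := lr_tau' (C := C) (G := G) h0 h1 ha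
  obtain ⟨a', K₁, ha', hK₁, ms⟩ := min_split (α := α) hb hv (half_pos hc)
  obtain ⟨J, hJ, di⟩ := decay_int (Cw := Cw) hc
  refine ⟨a', (4 * K₁ + 1) * J, ha', by positivity, fun Q hQ K hK w hw hd C' x => ?_⟩
  obtain ⟨sa, -, ev, -⟩ := hK.ev'
  obtain ⟨i1, i2, i3⟩ := di w hw hd
  have key : ∀ A, QL Q α a C' x A → QL Q (α / 2) a' ((4 * K₁ + 1) * J * C') x (Filt.filt w K A) := by
    intro A hA
    have C0 : 0 ≤ C' := (norm_nonneg _).trans hA.1
    refine ⟨(Filt.norm_filt2_le hw sa sa A).trans ?_, fun y => ?_⟩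
    · have := mul_le_mul i3 hA.1 (norm_nonneg _) hJ
      have h2 : 0 ≤ K₁ * J * C' := by positivity
      nlinarith
    have W0 := Ls.wt_pos (α / 2) a' (dq Q x y)
    have hg : ∀ t, Fw.loc (ca Q) (Filt.tau K t A) y ≤
        4 * C' * K₁ * wt (α / 2) a' (dq Q x y) * Real.exp (cw / 2 * Real.sqrt |t|) := by
      intro t
      have e1 := Fw.loc_le (norm_ca_le Q) (Filt.tau K t A) y
      rw [Filt.norm_tau sa] at e1
      have e2 := ((lr Q hQ K hK C' x A t).1 hA).2 y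
      have e3 := mul_le_mul_of_nonneg_left (ms t _ (dq_nonneg Q x y)) (show 0 ≤ 4 * C' by positivity)
      have e4 : 0 ≤ Real.exp (v * |t|) * C' * wt α b (dq Q x y) :=
        mul_nonneg (by positivity) (Ls.wt_pos _ _ _).le
      refine le_trans ?_ (e3.trans_eq (by ring))
      rw [mul_min_of_nonneg _ _ (show 0 ≤ 4 * C' by positivity)]
      exact le_min (by linarith [hA.1]) (by linarith)
    have e5 : ∀ t, ‖w t‖ * (4 * C' * K₁ * wt (α / 2) a' (dq Q x y) *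
        Real.exp (cw / 2 * Real.sqrt |t|)) = 4 * C' * K₁ * wt (α / 2) a' (dq Q x y) *
        (‖w t‖ * Real.exp (cw / 2 * Real.sqrt |t|)) := fun t => by ring
    refine (Fw.loc_filt_le hw sa hg (by simpa only [e5] using i1.const_mul _)).trans ?_
    simp only [e5]
    rw [integral_const_mul]
    have := mul_le_mul_of_nonneg_left i2
      (show 0 ≤ 4 * C' * K₁ * wt (α / 2) a' (dq Q x y) by positivity)
    have h2 : 0 ≤ J * C' * wt (α / 2) a' (dq Q x y) := by positivity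
    nlinarith
  refine fun A => ⟨key A, fun hA => ?_⟩
  rw [OL_iff_QL_par] at hA ⊢
  rw [filt_mul_par sa ev hw]
  exact key _ hA

/-- `filt_QL'`, `Filt.exists_filt2_clm` (`ContinuousLinearMap.integrable_comp`,
`integral_comp_comm`), `Filt.filt_sa`, `Filt.commute_filt` -/
theorem filt_SInter' {α a C G Cw cw : ℝ} (h0 : 0 < α) (h1 : α ≤ 1) (ha : 0 < a) (hc : 0 < cw) :
    ∃ a' K', 0 < a' ∧ 0 ≤ K' ∧ ∀ Q, 1 ≤ Q → ∀ K : Fk (Q + 1), LocHam Q α a C G K →
      ∀ w : ℝ → ℂ, Integrable w → (∀ t, conj (w t) = w t) → Filt.Decay Cw cw w →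
        ∀ (C' G' : ℝ) (ι : Type) [MeasurableSpace ι] (ν : Measure ι) (x : ι → S2)
          (M : ι → Fk (Q + 1)), SInter Q α a C' G' ν x M →
          SInter Q (α / 2) a' (K' * C') G' ν x (fun i => Filt.filt w K (M i)) ∧
            Filt.filt w K (∫ i, M i ∂ν) = ∫ i, Filt.filt w K (M i) ∂ν := by
  obtain ⟨a', K', ha', hK', h⟩ := filt_QL' (C := C) (G := G) (Cw := Cw) h0 h1 ha hc
  refine ⟨a', K', ha', hK', fun Q hQ K hK w hw hr hd C' G' ι _ ν x M hM => ?_⟩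
  obtain ⟨sa, nc, -, -⟩ := hK.ev'
  obtain ⟨L, hL⟩ := Filt.exists_filt2_clm hw sa sa
  have e : ∀ A, Filt.filt w K A = L A := fun A => (hL A).symm
  refine ⟨⟨hM.sites, ?_, fun i => Filt.filt_sa hr sa (hM.sa i), fun i =>
    ⟨Filt.commute_filt hw sa nc (hM.loc i).1, (h Q hQ K hK w hw hd C' _ _).1 (hM.loc i).2⟩⟩, ?_⟩
  · simpa only [e] using L.integrable_comp hM.int
  · simpa only [e] using (L.integral_comp_comm hM.int).symm

end Crest.Agent.R340.Pin
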