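import Crest.Agent.R340.PinDefs
import Crest.Agent.R340.IfLocA67
import Crest.Agent.R340.IfNu
import Crest.Agent.R340.IfNu2
import Crest.Agent.R340.LcDefs
import Crest.Agent.R340.GeoFrame
import Crest.Agent.R340.FiltSpec
import Crest.Agent.R340.LocD

/-! # Row 340 interface: LOC + LR (calculus of quasi-local operators). Owners helper16, helper18 -/

set_option autoImplicit false

namespace Crest.Agent.R340.Pin

open Matrix MeasureTheory Crest.MathPhysics.Laughlin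
open scoped Matrix.Norms.L2Operator MatrixOrder ComplexOrder ComplexConjugate

variable {Q : ℕ} {α a C C' : ℝ} {x y : S2} {A B : Fk (Q + 1)}

/-- odd operators -/
def Od {n : ℕ} (Y : Fk n) : Prop := Loc.par n * Y = -(Y * Loc.par n)

/-! ### part A: elementary calculus -/

private theorem a1_low_card {n : ℕ} {A : Fk n} {k : ℤ} (h : Low k A) {S T : Finset (Fin n)}
    (hA : A S T ≠ 0) : (T.card : ℤ) = S.card + k := by
  have h1 := congrFun (congrFun h S) T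
  simp only [numC, Matrix.sub_apply, Matrix.diagonal_mul, Matrix.mul_diagonal, Matrix.smul_apply,
    smul_eq_mul] at h1
  have h2 : ((T.card : ℂ) - (S.card + k)) * A S T = 0 := by linear_combination -h1
  have h3 : (T.card : ℂ) = S.card + k := sub_eq_zero.1 ((mul_eq_zero.1 h2).resolve_right hA)
  exact_mod_cast h3

private theorem a1_low_par {n : ℕ} {A : Fk n} {k : ℤ} (h : Low k A) :
    Loc.par n * A = ((-1 : ℂ) ^ k) • (A * Loc.par n) := by
  ext S T
  simp only [Loc.par, Matrix.diagonal_mul, Matrix.mul_diagonal, Matrix.smul_apply, smul_eq_mul]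
  by_cases hA : A S T = 0
  · simp [hA]
  · have h1 := a1_low_card h hA
    have h2 : ((-1 : ℂ) ^ T.card) = (-1) ^ S.card * (-1) ^ k := by
      rw [← zpow_natCast, h1, zpow_add₀ (by norm_num), zpow_natCast]
    have h3 : ((-1 : ℂ) ^ k) * (-1) ^ k = 1 := by rw [← mul_zpow]; simp
    rw [h2]
    linear_combination (-((-1 : ℂ) ^ S.card * A S T)) * h3

private theorem a1_wt_weaken {α' a' r : ℝ} (h0 : 0 < α') (h1 : α' ≤ α) (h2 : 0 ≤ a')
    (h3 : a' ≤ a) (hr : 0 ≤ r) : wt α a r ≤ Real.exp a * wt α' a' r := by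
  rw [wt, wt, ← Real.exp_add, Real.exp_le_exp]
  have p0 : 0 ≤ r ^ α := Real.rpow_nonneg hr _
  have p1 : 0 ≤ r ^ α' := Real.rpow_nonneg hr _
  have p2 : r ^ α' ≤ 1 + r ^ α := by
    rcases le_total r 1 with h | h
    · linarith [Real.rpow_le_one hr h h0.le]
    · linarith [Real.rpow_le_rpow_of_exponent_le h h1]
  nlinarith [mul_le_mul_of_nonneg_right h3 p1, mul_le_mul_of_nonneg_left p2 (h2.trans h3)]

private theorem a1_wt_shift (h0 : 0 < α) (h1 : α ≤ 1) (ha : 0 ≤ a) {r : ℝ}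
    (hr : dq Q x y ≤ r) (z : S2) :
    wt α a (dq Q x z) ≤ Real.exp (a * r ^ α) * wt α a (dq Q y z) := by
  rw [wt, wt, ← Real.exp_add, Real.exp_le_exp]
  have r0 : 0 ≤ r := (dq_nonneg Q x y).trans hr
  have p1 : dq Q y z ≤ r + dq Q x z := by
    have := dq_tri Q y x z
    rw [dq_symm Q y x] at this
    linarith
  have p2 : dq Q y z ^ α ≤ r ^ α + dq Q x z ^ α :=
    (Real.rpow_le_rpow (dq_nonneg Q y z) p1 h0.le).trans
      (Real.rpow_add_le_add_rpow r0 (dq_nonneg Q x z) h0.le h1)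
  nlinarith [mul_le_mul_of_nonneg_left p2 ha]

private theorem a1_step {u C e w w' : ℝ} (hC : 0 ≤ C) (hu : u ≤ C * w) (hw : w ≤ e * w') :
    u ≤ e * C * w' := by
  have := mul_le_mul_of_nonneg_left hw hC
  linarith

theorem NC.ev {n : ℕ} {A : Fk n} (h : NC A) : Loc.Ev A := by
  have h' : Low 0 A := by
    rw [Low, h.eq]; simp
  have := a1_low_par h'
  rwa [zpow_zero, one_smul] at this

theorem Low.ev {n : ℕ} {A : Fk n} {k : ℤ} (h : Low k A) (hk : Even k) : Loc.Ev A := by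
  have := a1_low_par h
  rwa [hk.neg_one_zpow, one_smul] at this

theorem Low.od {n : ℕ} {A : Fk n} {k : ℤ} (h : Low k A) (hk : Odd k) : Od A := by
  have := a1_low_par h
  rwa [hk.neg_one_zpow, neg_one_smul] at this

theorem QL.mono (h : QL Q α a C x A) (hC : C ≤ C') : QL Q α a C' x A :=
  ⟨h.1.trans hC, fun z => (h.2 z).trans (mul_le_mul_of_nonneg_right hC (Real.exp_pos _).le)⟩

theorem OL.mono (h : OL Q α a C x A) (hC : C ≤ C') : OL Q α a C' x A :=
  ⟨h.1.trans hC, fun z => (h.2 z).trans (mul_le_mul_of_nonneg_right hC (Real.exp_pos _).le)⟩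

theorem QL.weaken (h : QL Q α a C x A) {α' a' : ℝ} (h0 : 0 < α') (h1 : α' ≤ α) (h2 : 0 ≤ a')
    (h3 : a' ≤ a) : QL Q α' a' (Real.exp a * C) x A := by
  have hC : 0 ≤ C := (norm_nonneg _).trans h.1
  exact ⟨h.1.trans (le_mul_of_one_le_left hC (Real.one_le_exp (h2.trans h3))), fun z =>
    a1_step hC (h.2 z) (a1_wt_weaken h0 h1 h2 h3 (dq_nonneg Q x z))⟩

theorem OL.weaken (h : OL Q α a C x A) {α' a' : ℝ} (h0 : 0 < α') (h1 : α' ≤ α) (h2 : 0 ≤ a')
    (h3 : a' ≤ a) : OL Q α' a' (Real.exp a * C) x A := by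
  have hC : 0 ≤ C := (norm_nonneg _).trans h.1
  exact ⟨h.1.trans (le_mul_of_one_le_left hC (Real.one_le_exp (h2.trans h3))), fun z =>
    a1_step hC (h.2 z) (a1_wt_weaken h0 h1 h2 h3 (dq_nonneg Q x z))⟩

theorem QL.shift (h : QL Q α a C x A) (h0 : 0 < α) (h1 : α ≤ 1) (ha : 0 ≤ a) {r : ℝ}
    (hr : dq Q x y ≤ r) : QL Q α a (Real.exp (a * r ^ α) * C) y A := by
  have hC : 0 ≤ C := (norm_nonneg _).trans h.1
  have r0 : 0 ≤ r := (dq_nonneg Q x y).trans hr
  exact ⟨h.1.trans (le_mul_of_one_le_left hC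
    (Real.one_le_exp (mul_nonneg ha (Real.rpow_nonneg r0 _)))), fun z =>
    a1_step hC (h.2 z) (a1_wt_shift h0 h1 ha hr z)⟩

theorem OL.shift (h : OL Q α a C x A) (h0 : 0 < α) (h1 : α ≤ 1) (ha : 0 ≤ a) {r : ℝ}
    (hr : dq Q x y ≤ r) : OL Q α a (Real.exp (a * r ^ α) * C) y A := by
  have hC : 0 ≤ C := (norm_nonneg _).trans h.1
  have r0 : 0 ≤ r := (dq_nonneg Q x y).trans hr
  exact ⟨h.1.trans (le_mul_of_one_le_left hC
    (Real.one_le_exp (mul_nonneg ha (Real.rpow_nonneg r0 _)))), fun z =>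
    a1_step hC (h.2 z) (a1_wt_shift h0 h1 ha hr z)⟩

theorem QL.add (h : QL Q α a C x A) (h' : QL Q α a C' x B) : QL Q α a (C + C') x (A + B) := by
  refine ⟨(norm_add_le _ _).trans (add_le_add h.1 h'.1), fun y => ?_⟩
  rw [add_mul]
  exact (A67.loc_add _ _ _ _).trans (add_le_add (h.2 y) (h'.2 y))

theorem OL.add (h : OL Q α a C x A) (h' : OL Q α a C' x B) : OL Q α a (C + C') x (A + B) := by
  refine ⟨(norm_add_le _ _).trans (add_le_add h.1 h'.1), fun y => ?_⟩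
  rw [add_mul]
  exact (A67.gloc_add _ _ _ _).trans (add_le_add (h.2 y) (h'.2 y))

theorem QL.smul (h : QL Q α a C x A) (z : ℂ) : QL Q α a (‖z‖ * C) x (z • A) := by
  refine ⟨(norm_smul z A).le.trans (mul_le_mul_of_nonneg_left h.1 (norm_nonneg _)), fun y => ?_⟩
  rw [A67.loc_smul, mul_assoc]
  exact mul_le_mul_of_nonneg_left (h.2 y) (norm_nonneg _)

theorem OL.smul (h : OL Q α a C x A) (z : ℂ) : OL Q α a (‖z‖ * C) x (z • A) := by
  refine ⟨(norm_smul z A).le.trans (mul_le_mul_of_nonneg_left h.1 (norm_nonneg _)), fun y => ?_⟩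
  rw [A67.gloc_smul, mul_assoc]
  exact mul_le_mul_of_nonneg_left (h.2 y) (norm_nonneg _)

theorem QL.star (h : QL Q α a C x A) : QL Q α a C x (star A) := by
  exact ⟨(norm_star A).le.trans h.1, fun y => (A67.loc_star _ _ _).le.trans (h.2 y)⟩

theorem OL.star (h : OL Q α a C x A) : OL Q α a C x (star A) := by
  exact ⟨(norm_star A).le.trans h.1, fun y => (A67.gloc_star _ _ _).le.trans (h.2 y)⟩

theorem QL.one (Q : ℕ) (α a : ℝ) (x : S2) : QL Q α a 1 x 1 := by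
  refine ⟨CStarRing.norm_one.le, fun y => ?_⟩
  rw [A67.loc_one, one_mul]
  exact (Real.exp_pos _).le

theorem x75_l1 {R : Type} [NormedRing R] (A B c : R) :
    ‖A * B * c - c * (A * B)‖ ≤ ‖A‖ * ‖B * c - c * B‖ + ‖A * c - c * A‖ * ‖B‖ := by
  rw [show A * B * c - c * (A * B) = A * (B * c - c * B) + (A * c - c * A) * B by noncomm_ring]
  exact (norm_add_le _ _).trans (add_le_add (norm_mul_le _ _) (norm_mul_le _ _))

theorem x75_l2 {R : Type} [NormedRing R] (A B c : R) :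
    ‖A * B * c - c * (A * B)‖ ≤ ‖A‖ * ‖B * c + c * B‖ + ‖A * c + c * A‖ * ‖B‖ := by
  rw [show A * B * c - c * (A * B) = A * (B * c + c * B) - (A * c + c * A) * B by noncomm_ring]
  exact (norm_sub_le _ _).trans (add_le_add (norm_mul_le _ _) (norm_mul_le _ _))

theorem x75_l3 {R : Type} [NormedRing R] (A B c : R) :
    ‖A * B * c + c * (A * B)‖ ≤ ‖A‖ * ‖B * c + c * B‖ + ‖A * c - c * A‖ * ‖B‖ := by
  rw [show A * B * c + c * (A * B) = A * (B * c + c * B) - (A * c - c * A) * B by noncomm_ring]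
  exact (norm_sub_le _ _).trans (add_le_add (norm_mul_le _ _) (norm_mul_le _ _))

theorem x75_l4 {R : Type} [NormedRing R] (A B c : R) :
    ‖A * B * c + c * (A * B)‖ ≤ ‖A‖ * ‖B * c - c * B‖ + ‖A * c + c * A‖ * ‖B‖ := by
  rw [show A * B * c + c * (A * B) = A * (B * c - c * B) + (A * c + c * A) * B by noncomm_ring]
  exact (norm_add_le _ _).trans (add_le_add (norm_mul_le _ _) (norm_mul_le _ _))

theorem x75_num {p q C C' w l₁ l₂ a₁ a₂ b₁ b₂ : ℝ} (hp : 0 ≤ p) (hq : 0 ≤ q) (hC : p ≤ C)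
    (hC' : q ≤ C') (h1 : 0 ≤ a₁ + a₂) (h2 : 0 ≤ b₁ + b₂) (ha : a₁ + a₂ ≤ C * w)
    (hb : b₁ + b₂ ≤ C' * w) (e1 : l₁ ≤ p * b₁ + a₁ * q) (e2 : l₂ ≤ p * b₂ + a₂ * q) :
    l₁ + l₂ ≤ 2 * C * C' * w := by
  have k1 : p * (b₁ + b₂) ≤ C * (C' * w) := mul_le_mul hC hb h2 (hp.trans hC)
  have k2 : (a₁ + a₂) * q ≤ C * w * C' := mul_le_mul ha hC' hq (h1.trans ha)
  linarith

theorem x75_norm {R : Type} [NormedRing R] {A B : R} {C C' : ℝ} (h : ‖A‖ ≤ C) (h' : ‖B‖ ≤ C') :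
    ‖A * B‖ ≤ 2 * C * C' := by
  have h0 := (norm_nonneg _).trans h
  have h1 := (norm_mul_le A B).trans (mul_le_mul h h' (norm_nonneg _) h0)
  have h2 := mul_nonneg h0 ((norm_nonneg _).trans h')
  linarith

theorem x75_int {𝔄 : Type} [CStarAlgebra 𝔄] {N : 𝔄} {f : ℝ → 𝔄} {k : ℂ}
    (h : ∀ t, N * f t - f t * N = k • f t) : N * (∫ t, f t) - (∫ t, f t) * N = k • ∫ t, f t := by
  by_cases hf : Integrable f
  · have h1 : N * ∫ t, f t = ∫ t, N * f t :=
      ((ContinuousLinearMap.mul ℂ 𝔄 N).integral_comp_comm hf).symm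
    have h2 : (∫ t, f t) * N = ∫ t, f t * N :=
      (((ContinuousLinearMap.mul ℂ 𝔄).flip N).integral_comp_comm hf).symm
    rw [h1, h2, ← integral_sub (hf.const_mul N) (hf.mul_const N), ← integral_smul]
    simp only [h]
  · rw [integral_undef hf, mul_zero, zero_mul, sub_zero, smul_zero]

theorem x75_filt {𝔄 : Type} [CStarAlgebra 𝔄] {N K A : 𝔄} {k : ℂ} (hK : Commute N K)
    (hA : N * A - A * N = k • A) (w : ℝ → ℂ) :
    N * Filt.filt w K A - Filt.filt w K A * N = k • Filt.filt w K A := by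
  refine x75_int fun t => ?_
  have e1 := Filt.ev_intertwine hK.eq t
  have e2 := Filt.ev_intertwine hK.eq (-t)
  have e3 : N * Filt.tau K t A - Filt.tau K t A * N = k • Filt.tau K t A := by
    rw [Filt.tau, ← mul_assoc, ← mul_assoc, e1, mul_assoc _ _ N, ← e2, ← smul_mul_assoc,
      ← mul_smul_comm, ← hA]
    noncomm_ring
  rw [mul_smul_comm, smul_mul_assoc, ← smul_sub, e3, smul_comm]

theorem QL.mul (h : QL Q α a C x A) (h' : QL Q α a C' x B) :
    QL Q α a (2 * C * C') x (A * B) := by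
  exact ⟨x75_norm h.1 h'.1, fun y => x75_num (norm_nonneg A) (norm_nonneg B) h.1 h'.1
    (add_nonneg (norm_nonneg _) (norm_nonneg _)) (add_nonneg (norm_nonneg _) (norm_nonneg _))
    (h.2 y) (h'.2 y) (x75_l1 A B _) (x75_l1 A B _)⟩

theorem OL.mul (h : OL Q α a C x A) (h' : OL Q α a C' x B) :
    QL Q α a (2 * C * C') x (A * B) := by
  exact ⟨x75_norm h.1 h'.1, fun y => x75_num (norm_nonneg A) (norm_nonneg B) h.1 h'.1
    (add_nonneg (norm_nonneg _) (norm_nonneg _)) (add_nonneg (norm_nonneg _) (norm_nonneg _))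
    (h.2 y) (h'.2 y) (x75_l2 A B _) (x75_l2 A B _)⟩

theorem QL.mul_OL (h : QL Q α a C x A) (h' : OL Q α a C' x B) :
    OL Q α a (2 * C * C') x (A * B) := by
  exact ⟨x75_norm h.1 h'.1, fun y => x75_num (norm_nonneg A) (norm_nonneg B) h.1 h'.1
    (add_nonneg (norm_nonneg _) (norm_nonneg _)) (add_nonneg (norm_nonneg _) (norm_nonneg _))
    (h.2 y) (h'.2 y) (x75_l3 A B _) (x75_l3 A B _)⟩

theorem OL.mul_QL (h : OL Q α a C x A) (h' : QL Q α a C' x B) :
    OL Q α a (2 * C * C') x (A * B) := by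
  exact ⟨x75_norm h.1 h'.1, fun y => x75_num (norm_nonneg A) (norm_nonneg B) h.1 h'.1
    (add_nonneg (norm_nonneg _) (norm_nonneg _)) (add_nonneg (norm_nonneg _) (norm_nonneg _))
    (h.2 y) (h'.2 y) (x75_l4 A B _) (x75_l4 A B _)⟩

/-- a field with localised symbol -/
theorem OL_cC {f : Fin (Q + 1) → ℂ} (hC : 0 ≤ C) (h1 : nq f ≤ C ^ 2)
    (h2 : ∀ y, ‖star (coh Q y) ⬝ᵥ f‖ ≤ C * wt α a (dq Q x y)) : OL Q α a C x (cC f) := by
  refine ⟨(norm_cC_le f).trans ?_, fun z => ?_⟩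
  · exact Real.sqrt_le_iff.2 ⟨hC, h1⟩
  · have h : Fw.gloc (ca Q) (cC f) z = ‖star (coh Q z) ⬝ᵥ f‖ := by
      rw [Fw.gloc, ca, cC_anticomm, cC_car, norm_zero, zero_add, norm_smul, norm_one, mul_one,
        ← norm_star, ← star_dotProduct_star, star_star]
    rw [h]
    exact h2 z

theorem OL_orb (a : ℝ) (m : ℕ) : ∃ C, ∀ (Q : ℕ) (x : S2) (k : Fin (Q + 1)), (k : ℕ) ≤ m →
    OL Q 1 a C x (cC (orb Q x k)) := by
  refine ⟨Real.exp ((Real.sqrt m + |a|) ^ 2 / 2), fun Q x k hk => ?_⟩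
  have h1 : 1 ≤ Real.exp ((Real.sqrt m + |a|) ^ 2 / 2) := Real.one_le_exp (by positivity)
  refine OL_cC (by positivity) ?_ fun y => ?_
  · have h : nq (orb Q x k) = 1 := by
      unfold nq
      rw [orb_dot]
      simp
    rw [h]
    exact one_le_pow₀ h1
  · refine (orb_overlap_le Q y x k).trans ?_
    rw [wt, ← Real.exp_add, Real.rpow_one, dq_symm Q y x]
    refine Real.exp_le_exp.2 ?_
    have hd := dq_nonneg Q x y
    have hs : Real.sqrt k ≤ Real.sqrt m := Real.sqrt_le_sqrt (by exact_mod_cast hk)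
    have hs0 : 0 ≤ Real.sqrt k := Real.sqrt_nonneg _
    have ha := le_abs_self a
    set d := dq Q x y
    set s := Real.sqrt k
    set M := Real.sqrt m
    have h2 : s * d ≤ M * d := mul_le_mul_of_nonneg_right hs hd
    have h3 : a * d ≤ |a| * d := mul_le_mul_of_nonneg_right ha hd
    nlinarith [sq_nonneg (M + |a| - d), sq_nonneg s]

/-- functional calculus of a local operator: no loss of decay -/
theorem QL.fcal (h : QL Q α a C x A) (hA : IsSelfAdjoint A) {w : ℝ → ℂ} (hw : Integrable w)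
    (hw' : Integrable fun t => t * ‖w t‖) :
    QL Q α a ((∫ t, ‖w t‖) + (∫ t, |t| * ‖w t‖) * C) x (Filt.fcal w A) := by
  have hw1 : Integrable fun t => |t| * ‖w t‖ := by
    simpa only [abs_mul, abs_norm] using hw'.abs
  have h0 : 0 ≤ ∫ t, ‖w t‖ := integral_nonneg fun _ => norm_nonneg _
  have h1 : 0 ≤ ∫ t, |t| * ‖w t‖ := integral_nonneg fun _ => mul_nonneg (abs_nonneg _) (norm_nonneg _)
  have hC : 0 ≤ C := (norm_nonneg _).trans h.1
  refine ⟨(Filt.norm_fcal_le hw hA).trans (le_add_of_nonneg_right (mul_nonneg h1 hC)), fun y => ?_⟩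
  have h2 := Filt.norm_fcal_comm_le hw hw1 hA (ca Q y)
  have h3 := Filt.norm_fcal_comm_le hw hw1 hA (Star.star (ca Q y))
  have h4 := mul_le_mul_of_nonneg_left (h.2 y) h1
  have h5 : 0 ≤ (∫ t, ‖w t‖) * wt α a (dq Q x y) := mul_nonneg h0 (Real.exp_pos _).le
  unfold Fw.loc at h4 ⊢
  linarith

theorem NC.filt {n : ℕ} {K A : Fk n} (hK : NC K) (hA : NC A) (w : ℝ → ℂ) :
    NC (Filt.filt w K A) := by
  have h := x75_filt (k := 0) hK (by rw [hA.eq, sub_self, zero_smul]) w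
  rw [zero_smul, sub_eq_zero] at h
  exact h

theorem Low.filt {n : ℕ} {K A : Fk n} {k : ℤ} (hK : NC K) (hA : Low k A) (w : ℝ → ℂ) :
    Low k (Filt.filt w K A) := by
  exact x75_filt hK hA w

theorem NC.fcal {n : ℕ} {A : Fk n} (hA : NC A) (w : ℝ → ℂ) : NC (Filt.fcal w A) := by
  have h := x75_int (N := numC n) (k := 0) (f := fun t => w t • Filt.ev A t) fun t => by
    rw [mul_smul_comm, smul_mul_assoc, Filt.ev_intertwine hA.eq t, sub_self, zero_smul]
  rw [zero_smul, sub_eq_zero] at h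
  exact h

theorem Parent.toGap {n : ℕ} {K P : Fk n} {g : ℝ} (h : Parent K P g) (hP : IsStarProjection P) :
    Filt.Gap 1 K P 0 g := by
  have hK : IsSelfAdjoint K := IsSelfAdjoint.of_nonneg h.nonneg
  have h1 : P * K = 0 := by
    have := congrArg star h.kill
    rwa [star_mul, hK.star_eq, hP.isSelfAdjoint.star_eq, star_zero] at this
  refine ⟨hK, IsStarProjection.one _, hP, one_mul _, Commute.one_left _, h1.trans h.kill.symm, ?_, ?_⟩
  · rw [h1, zero_mul, zero_smul]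
  · rw [sub_mul, one_mul, h1, sub_zero, mul_sub, mul_one, h.kill, sub_zero]
    exact h.gap

/-! ### part B: sites -/

theorem sites_muq : ∃ G, ∀ Q, 1 ≤ Q → Sites Q G (muq Q) id :=
  ⟨2, fun _ hQ => pin_sites_muq hQ⟩

theorem sites_nuC : ∃ G, ∀ Q, 1 ≤ Q → Sites Q G (nuC Q) ster := h10_sites_nuC

theorem sites_vol {α a : ℝ} (h0 : 0 < α) (ha : 0 < a) : ∃ V, 0 ≤ V ∧ ∀ (Q : ℕ) (G : ℝ) (ι : Type)
    [MeasurableSpace ι] (ν : Measure ι) (x : ι → S2), Sites Q G ν x → ∀ y,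
      Integrable (fun i => wt α a (dq Q (x i) y)) ν ∧ ∫ i, wt α a (dq Q (x i) y) ∂ν ≤ V * G :=
  h10_sites_vol h0 ha

theorem Sites.mass {G : ℝ} {ι : Type} [MeasurableSpace ι] {ν : Measure ι} {x : ι → S2}
    (h : Sites Q G ν x) : ν.real Set.univ ≤ G * (1 + Real.sqrt Q) ^ 2 :=
  h10_mass h

/-- packing -/
theorem card_ball_le : ∃ G, ∀ Q, 1 ≤ Q → ∀ (R : ℝ) (T : Finset S2), 1 ≤ R → Sep Q R T.val →
    ∀ u r, 0 ≤ r → ((T.filter fun b => dq Q b u ≤ r).card : ℝ) ≤ G * (1 + r / R) ^ 2 := by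
  refine ⟨18, fun Q hQ R T hR hT u r hr => ?_⟩
  have hR0 : 0 < R := by linarith
  set S := T.filter fun b => dq Q b u ≤ r with hS
  have h1 : (1 : ℝ) ≤ (1 + r / R) ^ 2 := one_le_pow₀ (by linarith [div_nonneg hr hR0.le])
  rcases le_or_gt S.card 1 with hc | hc
  · have : (S.card : ℝ) ≤ 1 := by exact_mod_cast hc
    linarith
  obtain ⟨a, ha, b, hb, hab⟩ := Finset.one_lt_card.1 hc
  have hRQ : R ≤ Real.sqrt Q :=
    (hT a (Finset.mem_filter.1 ha).1 b (Finset.mem_filter.1 hb).1 hab).trans (dq_le Q a b)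
  have hRQ' : (R / 3) ^ 2 ≤ Q := by
    have := pow_le_pow_left₀ hR0.le hRQ 2
    rw [Real.sq_sqrt (Nat.cast_nonneg Q)] at this
    nlinarith
  have hm : ∀ (x : S2) (ρ : ℝ), MeasurableSet {y | dq Q x y ≤ ρ} := fun x ρ =>
    measurableSet_le (h54_meas_dq Q x) measurable_const
  have hdis : (S : Set S2).PairwiseDisjoint fun b => {y | dq Q b y ≤ R / 3} := by
    intro a ha b hb hab
    refine Set.disjoint_left.2 fun y h1 h2 => ?_
    have h3 := hT a (Finset.mem_filter.1 ha).1 b (Finset.mem_filter.1 hb).1 hab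
    have h4 := dq_tri Q a y b
    rw [dq_symm Q y b] at h4
    simp only [Set.mem_ofPred_eq] at h1 h2
    linarith
  have hsub : (⋃ b ∈ S, {y | dq Q b y ≤ R / 3}) ⊆ {y | dq Q u y ≤ r + R / 3} := by
    intro y hy
    obtain ⟨b, hb, hy'⟩ := Set.mem_iUnion₂.1 hy
    have h3 := (Finset.mem_filter.1 hb).2
    have h4 := dq_tri Q u b y
    rw [dq_symm Q u b] at h4
    simp only [Set.mem_ofPred_eq] at hy' ⊢
    linarith
  have h5 : ENNReal.ofReal (S.card * (R / 3) ^ 2) ≤ ENNReal.ofReal (2 * (r + R / 3) ^ 2) := by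
    refine le_trans ?_ ((measure_mono hsub).trans (muq_ball hQ u _))
    rw [measure_biUnion_finset hdis fun b _ => hm b _, ENNReal.ofReal_mul (Nat.cast_nonneg _),
      ENNReal.ofReal_natCast, ← nsmul_eq_mul]
    exact Finset.card_nsmul_le_sum _ _ _ fun b _ => muq_ball_ge hQ b (by positivity) hRQ'
  have h6 := (ENNReal.ofReal_le_ofReal_iff (by positivity)).1 h5
  have h7 : r = R * (r / R) := by field_simp
  have h8 : 0 ≤ r / R := div_nonneg hr hR0.le
  generalize r / R = t at h7 h8 ⊢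
  subst h7
  have h9 : (S.card : ℝ) * R ^ 2 ≤ 18 * (1 + t) ^ 2 * R ^ 2 := by
    nlinarith [mul_nonneg h8 (sq_nonneg R), sq_nonneg R]
  exact le_of_mul_le_mul_right h9 (by positivity)

theorem locHam_HC (a : ℝ) : ∃ C G, ∀ Q, 1 ≤ Q → LocHam Q 1 a C G (HC Q) := by
  obtain ⟨G, hG⟩ := sites_muq
  refine ⟨16 * Real.exp ((1 + a) ^ 2 / 2), G, fun Q hQ => ⟨S2, inferInstance, muq Q, id, hx Q,
    ⟨hG Q hQ, (geo_ham hQ).int, (geo_ham hQ).sa, fun x => ⟨(geo_ham hQ).num x, ?_, fun y => ?_⟩⟩,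
    (geo_ham hQ).eq⟩⟩
  · have : 1 ≤ Real.exp ((1 + a) ^ 2 / 2) := Real.one_le_exp (by positivity)
    exact (norm_hx_le hQ x).trans (by linarith)
  · refine (loc_hx_le hQ x y).trans ?_
    rw [wt, Real.rpow_one, mul_assoc, ← Real.exp_add]
    refine mul_le_mul_of_nonneg_left (Real.exp_le_exp.2 ?_) (by norm_num)
    simp only [id]
    nlinarith [sq_nonneg (dq Q x y - (1 + a))]

theorem LocHam.add {G G' : ℝ} (h : LocHam Q α a C G A) (h' : LocHam Q α a C G' B) :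
    LocHam Q α a C (G + G') (A + B) := by
  obtain ⟨ι, mι, ν, x, M, hI, rfl⟩ := h
  obtain ⟨ι', mι', ν', x', M', hI', rfl⟩ := h'
  have e1 : MeasurableEmbedding (Sum.inl : ι → ι ⊕ ι') :=
    ⟨Sum.inl_injective, measurable_inl, fun s hs => measurableSet_inl_image.2 hs⟩
  have e2 : MeasurableEmbedding (Sum.inr : ι' → ι ⊕ ι') :=
    ⟨Sum.inr_injective, measurable_inr, fun s hs => measurableSet_inr_image.2 hs⟩
  have f1 := hI.sites.fin
  have f2 := hI'.sites.fin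
  have i1 : Integrable (Sum.elim M M') (ν.map Sum.inl) := e1.integrable_map_iff.2 hI.int
  have i2 : Integrable (Sum.elim M M') (ν'.map Sum.inr) := e2.integrable_map_iff.2 hI'.int
  refine ⟨ι ⊕ ι', inferInstance, ν.map Sum.inl + ν'.map Sum.inr, Sum.elim x x', Sum.elim M M',
    ⟨⟨inferInstance, hI.sites.meas.sumElim hI'.sites.meas, fun u r hr => ?_⟩, i1.add_measure i2,
      fun i => ?_, fun i => ?_⟩, ?_⟩
  · rw [measureReal_add_apply (measure_ne_top _ _) (measure_ne_top _ _), add_mul]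
    refine add_le_add ?_ ?_
    · rw [Measure.real, e1.map_apply]; exact hI.sites.growth u r hr
    · rw [Measure.real, e2.map_apply]; exact hI'.sites.growth u r hr
  · cases i with
    | inl i => exact hI.sa i
    | inr i => exact hI'.sa i
  · cases i with
    | inl i => exact hI.loc i
    | inr i => exact hI'.loc i
  · rw [integral_add_measure i1 i2, e1.integral_map, e2.integral_map]
    rfl

theorem LocHam.weaken {G G' α' a' : ℝ} (h : LocHam Q α a C G A) (h0 : 0 < α') (h1 : α' ≤ α)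
    (h2 : 0 ≤ a') (h3 : a' ≤ a) (hC : Real.exp a * C ≤ C') (hG : G ≤ G') :
    LocHam Q α' a' C' G' A := by
  obtain ⟨ι, mι, ν, x, M, hI, rfl⟩ := h
  exact ⟨ι, mι, ν, x, M, ⟨⟨hI.sites.fin, hI.sites.meas, fun u r hr =>
    (hI.sites.growth u r hr).trans (mul_le_mul_of_nonneg_right hG (sq_nonneg _))⟩, hI.int, hI.sa,
    fun i => ⟨(hI.loc i).1, ((hI.loc i).2.weaken h0 h1 h2 h3).mono hC⟩⟩, rfl⟩

theorem locHam_sum : ∃ G, ∀ Q, 1 ≤ Q → ∀ (α a C : ℝ) (T : Finset S2) (M : S2 → Fk (Q + 1)),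
    Sep Q 1 T.val → (∀ b ∈ T, IsSelfAdjoint (M b) ∧ NL Q α a C b (M b)) →
      LocHam Q α a C G (∑ b ∈ T, M b) := by
  obtain ⟨G, hG⟩ := card_ball_le
  refine ⟨G, fun Q hQ α a C T M hT hM => ⟨T, inferInstance, Measure.count, Subtype.val,
    fun b => M b, ⟨⟨inferInstance, measurable_subtype_coe, fun u r hr => ?_⟩, Integrable.of_finite,
      fun b => (hM b b.2).1, fun b => (hM b b.2).2⟩, ?_⟩⟩
  · have h1 := hG Q hQ 1 T le_rfl hT u r hr
    rw [div_one] at h1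
    refine le_trans (le_of_eq ?_) h1
    have e : {i : T | dq Q i u ≤ r} = ↑(T.attach.filter fun i : T => dq Q i u ≤ r) := by
      ext i
      simp
    rw [e, Measure.real, Measure.count_apply_finset, ENNReal.toReal_natCast,
      Finset.filter_attach (fun b => dq Q b u ≤ r) T, Finset.card_map, Finset.card_attach]
  · rw [integral_count, Finset.sum_coe_sort T M]

theorem LocHam.sa {G : ℝ} (h : LocHam Q α a C G A) : IsSelfAdjoint A := by
  obtain ⟨ι, mι, ν, x, M, hI, rfl⟩ := h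
  exact Fw.cC_sa hI.sa

theorem LocHam.nc {G : ℝ} (h : LocHam Q α a C G A) : NC A := by
  obtain ⟨ι, mι, ν, x, M, hI, rfl⟩ := h
  exact Fw.cC_num hI.int fun i => (hI.loc i).1

/-! ### part C: commutators (reconstruction) -/

theorem recon_main : ∃ cr : ℝ → ℝ, (∀ a, 0 ≤ cr a) ∧ ∀ q, 1 ≤ q → Recon cr q :=
  recon_of_master

theorem comm_QL {α a : ℝ} (h0 : 0 < α) (h1 : α ≤ 1) (ha : 0 < a) : ∃ a' K, 0 < a' ∧ 0 ≤ K ∧
    ∀ Q, 1 ≤ Q → ∀ (C C' : ℝ) (x y : S2) (A B : Fk (Q + 1)), Loc.Ev A → QL Q α a C x A →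
      (QL Q α a C' y B →
        QL Q α a' (K * C * C' * wt α a' (dq Q x y)) x (A * B - B * A) ∧
        QL Q α a' (K * C * C' * wt α a' (dq Q x y)) y (A * B - B * A)) ∧
      (OL Q α a C' y B →
        OL Q α a' (K * C * C' * wt α a' (dq Q x y)) x (A * B - B * A) ∧
        OL Q α a' (K * C * C' * wt α a' (dq Q x y)) y (A * B - B * A)) :=
  comm_QL' h0 h1 ha

theorem acomm_OL {α a : ℝ} (h0 : 0 < α) (h1 : α ≤ 1) (ha : 0 < a) : ∃ a' K, 0 < a' ∧ 0 ≤ K ∧
    ∀ Q, 1 ≤ Q → ∀ (C C' : ℝ) (x y : S2) (A B : Fk (Q + 1)), Od A → OL Q α a C x A →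
      OL Q α a C' y B → QL Q α a' (K * C * C' * wt α a' (dq Q x y)) x (A * B + B * A) :=
  acomm_OL' h0 h1 ha

/-- commutator with an interaction -/
theorem comm_LocHam {α a : ℝ} (h0 : 0 < α) (h1 : α ≤ 1) (ha : 0 < a) : ∃ a' K, 0 < a' ∧ 0 ≤ K ∧
    ∀ Q, 1 ≤ Q → ∀ (C G C' : ℝ) (y : S2) (M B : Fk (Q + 1)), 0 ≤ C → LocHam Q α a C G M →
      (QL Q α a C' y B → QL Q α a' (K * C * G * C') y (M * B - B * M)) ∧
      (OL Q α a C' y B → OL Q α a' (K * C * G * C') y (M * B - B * M)) :=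
  comm_LocHam' h0 h1 ha

/-! ### part D: Lieb-Robinson bound and filters -/

theorem lr_tau {α a C G : ℝ} (h0 : 0 < α) (h1 : α ≤ 1) (ha : 0 < a) :
    ∃ a' v, 0 < a' ∧ a' ≤ a ∧ 0 < v ∧ ∀ Q, 1 ≤ Q → ∀ K : Fk (Q + 1), LocHam Q α a C G K →
      ∀ (C' : ℝ) (x : S2) (A : Fk (Q + 1)) (t : ℝ),
        (QL Q α a C' x A → QL Q α a' (2 * Real.exp (v * |t|) * C') x (Filt.tau K t A)) ∧
        (OL Q α a C' x A → OL Q α a' (2 * Real.exp (v * |t|) * C') x (Filt.tau K t A)) :=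
  lr_tau' h0 h1 ha

theorem filt_QL {α a C G Cw cw : ℝ} (h0 : 0 < α) (h1 : α ≤ 1) (ha : 0 < a) (hc : 0 < cw) :
    ∃ a' K', 0 < a' ∧ 0 ≤ K' ∧ ∀ Q, 1 ≤ Q → ∀ K : Fk (Q + 1), LocHam Q α a C G K →
      ∀ w : ℝ → ℂ, Integrable w → Filt.Decay Cw cw w → ∀ (C' : ℝ) (x : S2) (A : Fk (Q + 1)),
        (QL Q α a C' x A → QL Q (α / 2) a' (K' * C') x (Filt.filt w K A)) ∧
        (OL Q α a C' x A → OL Q (α / 2) a' (K' * C') x (Filt.filt w K A)) :=
  filt_QL' h0 h1 ha hc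

/-- filtering an interaction term by term (`w` real) -/
theorem filt_SInter {α a C G Cw cw : ℝ} (h0 : 0 < α) (h1 : α ≤ 1) (ha : 0 < a) (hc : 0 < cw) :
    ∃ a' K', 0 < a' ∧ 0 ≤ K' ∧ ∀ Q, 1 ≤ Q → ∀ K : Fk (Q + 1), LocHam Q α a C G K →
      ∀ w : ℝ → ℂ, Integrable w → (∀ t, conj (w t) = w t) → Filt.Decay Cw cw w →
        ∀ (C' G' : ℝ) (ι : Type) [MeasurableSpace ι] (ν : Measure ι) (x : ι → S2)
          (M : ι → Fk (Q + 1)), SInter Q α a C' G' ν x M →
          SInter Q (α / 2) a' (K' * C') G' ν x (fun i => Filt.filt w K (M i)) ∧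
            Filt.filt w K (∫ i, M i ∂ν) = ∫ i, Filt.filt w K (M i) ∂ν :=
  filt_SInter' h0 h1 ha hc

end Crest.Agent.R340.Pin
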