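import Crest.Agent.R340.FiltDefs

/-! # FILT: the Fannes-Nachtergaele-Werner lemma and the gap of a sum of projections -/

set_option autoImplicit false

namespace Crest.Agent.R340.Filt

variable {𝔄 : Type} [CStarAlgebra 𝔄] [PartialOrder 𝔄] [StarOrderedRing 𝔄] {P E F G : 𝔄} {δ : ℝ}

/-- `x^* y + y^* x ≤ x^* x + y^* y` -/
theorem cross_le (x y : 𝔄) : star x * y + star y * x ≤ star x * x + star y * y := by
  have := star_mul_self_nonneg (x - y)
  rw [star_sub, sub_mul, mul_sub, mul_sub] at this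
  rw [← sub_nonneg]
  convert this using 1
  abel

theorem star_mul_le_sq (T y : 𝔄) (h : ‖T‖ ≤ δ) :
    star (T * y) * (T * y) ≤ (δ ^ 2) • (star y * y) := by
  have h1 : star T * T ≤ algebraMap ℝ 𝔄 (δ ^ 2) := by
    refine (IsSelfAdjoint.star_mul_self T).le_algebraMap_norm_self.trans ?_
    rw [CStarRing.norm_star_mul_self, ← sub_nonneg, ← map_sub, Algebra.algebraMap_eq_smul_one]
    exact smul_nonneg (by nlinarith [norm_nonneg T]) zero_le_one
  have h2 := star_left_conjugate_le_conjugate h1 y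
  rw [Algebra.algebraMap_eq_smul_one, mul_smul_comm, smul_mul_assoc, mul_one] at h2
  rw [star_mul]
  simpa only [mul_assoc] using h2

/-- `x^* T y + h.c. ≤ δ (x^* x + y^* y)` when `‖T‖ ≤ δ` -/
theorem cross_norm_le (x T y : 𝔄) (h : ‖T‖ ≤ δ) :
    star x * T * y + star y * star T * x ≤ δ • (star x * x + star y * y) := by
  rcases (norm_nonneg T).trans h |>.eq_or_lt with h0 | h0
  · have : T = 0 := norm_le_zero_iff.1 (h0 ▸ h)
    simp [this, ← h0]
  · have h1 := cross_le (δ • x) (T * y)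
    have h2 := star_mul_le_sq T y h
    have h3 : δ • (star x * T * y + star y * star T * x) ≤
        δ • δ • (star x * x + star y * y) := by
      calc _ = star (δ • x) * (T * y) + star (T * y) * (δ • x) := by
            simp only [star_smul, star_trivial, star_mul, smul_mul_assoc, mul_smul_comm, smul_add,
              mul_assoc]
        _ ≤ star (δ • x) * (δ • x) + (δ ^ 2) • (star y * y) := h1.trans (by gcongr)
        _ = _ := by
            simp only [star_smul, star_trivial, smul_mul_assoc, mul_smul_comm, smul_add, smul_smul,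
              sq]
    exact le_of_smul_le_smul_of_pos_left h3 h0

theorem proj_anticomm_le (hE : IsStarProjection E) (hF : IsStarProjection F) (h : ‖E * F‖ ≤ δ) :
    E * F + F * E ≤ δ • (E + F) ∧ -(δ • (E + F)) ≤ E * F + F * E := by
  have e1 := hE.isSelfAdjoint.star_eq
  have e2 := hF.isSelfAdjoint.star_eq
  have i1 := hE.isIdempotentElem.eq
  have i2 := hF.isIdempotentElem.eq
  have h1 := cross_norm_le E (E * F) F h
  have h2 := cross_norm_le (δ := δ) E (-(E * F)) F (by rwa [norm_neg])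
  simp only [star_neg, star_mul, e1, e2, i1, i2, mul_neg, neg_mul, ← mul_assoc] at h1 h2
  simp only [mul_assoc, i1, i2] at h1 h2
  refine ⟨h1, ?_⟩
  rw [neg_le, neg_add]
  exact h2

/-- `S ≥ c R`, `R` a projection with `R S = S`: `S² ≥ c S` -/
theorem sq_ge_of_ge {S R : 𝔄} {c : ℝ} (h0 : 0 ≤ S) (hRS : R * S = S) (h : c • R ≤ S) :
    c • S ≤ S * S := by
  have hs : star (CFC.sqrt S) = CFC.sqrt S := (CFC.sqrt_nonneg S).star_eq
  have hq : CFC.sqrt S * CFC.sqrt S = S := CFC.sqrt_mul_sqrt_self S h0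
  have h1 : R * CFC.sqrt S = CFC.sqrt S := by
    have e : ((1 - R) * CFC.sqrt S) * star ((1 - R) * CFC.sqrt S) = 0 := by
      rw [star_mul, hs, mul_assoc, ← mul_assoc (CFC.sqrt S), hq, ← mul_assoc, sub_mul, hRS, one_mul,
        sub_self, zero_mul]
    have e' := (CStarRing.mul_star_self_eq_zero_iff _).1 e
    rw [sub_mul, one_mul, sub_eq_zero] at e'
    exact e'.symm
  have h2 := star_left_conjugate_le_conjugate h (CFC.sqrt S)
  rw [hs, mul_smul_comm, smul_mul_assoc, mul_assoc, h1, hq] at h2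
  refine h2.trans_eq ?_
  calc CFC.sqrt S * S * CFC.sqrt S
      = CFC.sqrt S * (CFC.sqrt S * CFC.sqrt S) * CFC.sqrt S := by rw [hq]
    _ = (CFC.sqrt S * CFC.sqrt S) * (CFC.sqrt S * CFC.sqrt S) := by simp only [mul_assoc]
    _ = S * S := by rw [hq]

/-- FNW: `E, F ≤ P` projections, `G` a common subprojection with `‖E F - G‖ ≤ δ` -/
theorem fnw (hP : IsStarProjection P) (hE : IsStarProjection E) (hF : IsStarProjection F)
    (hG : IsStarProjection G) (pE : P * E = E) (pF : P * F = F) (gE : E * G = G) (gF : F * G = G)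
    (h : ‖E * F - G‖ ≤ δ) :
    -(δ • ((P - E) + (P - F))) ≤ (P - E) * (P - F) + (P - F) * (P - E) := by
  have flip : ∀ {x y z : 𝔄}, IsStarProjection x → IsStarProjection y → IsStarProjection z →
      x * y = z → y * x = z := fun hx hy hz e => by
    have := congrArg star e
    rwa [star_mul, hx.isSelfAdjoint.star_eq, hy.isSelfAdjoint.star_eq,
      hz.isSelfAdjoint.star_eq] at this
  have pG : P * G = G := by rw [← gE, ← mul_assoc, pE]
  have Ep := flip hP hE hE pE
  have Fp := flip hP hF hF pF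
  have Gp := flip hP hG hG pG
  have Ge := flip hE hG hG gE
  have Gf := flip hF hG hG gF
  have iP := hP.isIdempotentElem.eq
  have iE := hE.isIdempotentElem.eq
  have iF := hF.isIdempotentElem.eq
  have iG := hG.isIdempotentElem.eq
  have hE' : IsStarProjection (E - G) := hG.sub_of_mul_eq_left hE Ge
  have hF' : IsStarProjection (F - G) := hG.sub_of_mul_eq_left hF Gf
  have hR : IsStarProjection (P - G) := hG.sub_of_mul_eq_left hP Gp
  have hA : IsStarProjection (P - E) := hE.sub_of_mul_eq_left hP Ep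
  have hB : IsStarProjection (P - F) := hF.sub_of_mul_eq_left hP Fp
  have e1 : (E - G) * (F - G) = E * F - G := by
    rw [sub_mul, mul_sub, mul_sub, gE, Gf, iG]; abel
  have hδ : 0 ≤ δ := (norm_nonneg _).trans h
  have h1 := (proj_anticomm_le hE' hF' (e1 ▸ h)).1
  set T := (E - G) + (F - G) with hT
  have T0 : 0 ≤ T := add_nonneg hE'.nonneg hF'.nonneg
  have h2 : T * T ≤ (1 + δ) • T := by
    calc T * T = T + ((E - G) * (F - G) + (F - G) * (E - G)) := by
          rw [hT, add_mul, mul_add, mul_add, hE'.isIdempotentElem.eq, hF'.isIdempotentElem.eq]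
          abel
      _ ≤ T + δ • T := by gcongr
      _ = _ := by rw [add_smul, one_smul]
  have h3 : ‖T‖ ≤ 1 + δ := by
    have h4 := CStarAlgebra.norm_le_norm_of_nonneg_of_le
      (by simpa [T0.star_eq] using star_mul_self_nonneg T) h2
    have h5 : ‖T * T‖ = ‖T‖ * ‖T‖ := by simpa [T0.star_eq] using CStarRing.norm_star_mul_self (x := T)
    rw [h5, norm_smul, Real.norm_of_nonneg (by positivity)] at h4
    rcases (norm_nonneg T).eq_or_lt with h0 | h0
    · rw [← h0]; positivity
    · exact le_of_mul_le_mul_right h4 h0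
  have RT : (P - G) * T = T := by
    rw [hT, mul_add, sub_mul, sub_mul, mul_sub, mul_sub, mul_sub, mul_sub, pE, pF, pG, Ge, Gf, iG]
    abel
  have TR : T * (P - G) = T := by
    have := congrArg star RT
    rwa [star_mul, T0.star_eq, hR.isSelfAdjoint.star_eq] at this
  have h6 : T ≤ (1 + δ) • (P - G) := by
    have h7 : T ≤ algebraMap ℝ 𝔄 (1 + δ) :=
      (CStarAlgebra.norm_le_iff_le_algebraMap T (by positivity) T0).1 h3
    have h8 := star_left_conjugate_le_conjugate h7 (P - G)
    rwa [hR.isSelfAdjoint.star_eq, RT, TR, Algebra.algebraMap_eq_smul_one, mul_smul_comm,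
      smul_mul_assoc, mul_one, hR.isIdempotentElem.eq] at h8
  set S := (P - E) + (P - F) with hS
  have S0 : 0 ≤ S := add_nonneg hA.nonneg hB.nonneg
  have eS : S = (2 : ℝ) • (P - G) - T := by rw [hS, hT, two_smul]; abel
  have h9 : (1 - δ) • (P - G) ≤ S := by
    rw [eS, le_sub_comm, ← sub_smul, show (2 : ℝ) - (1 - δ) = 1 + δ by ring]
    exact h6
  have RS : (P - G) * S = S := by
    rw [eS, mul_sub, mul_smul_comm, hR.isIdempotentElem.eq, RT]
  have h10 := sq_ge_of_ge S0 RS h9
  have e2 : S * S = S + ((P - E) * (P - F) + (P - F) * (P - E)) := by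
    rw [hS, add_mul, mul_add, mul_add, hA.isIdempotentElem.eq, hB.isIdempotentElem.eq]
    abel
  rw [e2, sub_smul, one_smul, sub_eq_add_neg] at h10
  exact le_of_add_le_add_left h10

/-- the gap of a sum of projections from pairwise anticommutator bounds -/
theorem sum_proj_gap {ι : Type*} [DecidableEq ι] (s : Finset ι) (Q : ι → 𝔄) (d : ι → ι → ℝ)
    (hQ : ∀ a ∈ s, IsStarProjection (Q a)) (hd : ∀ a b, d a b = d b a)
    (h : ∀ a ∈ s, ∀ b ∈ s, a ≠ b → -(d a b • (Q a + Q b)) ≤ Q a * Q b + Q b * Q a)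
    (hs : ∀ a ∈ s, ∑ b ∈ s.erase a, d a b ≤ δ) :
    (1 - δ) • ∑ a ∈ s, Q a ≤ (∑ a ∈ s, Q a) * ∑ a ∈ s, Q a := by
  have swap : ∀ f : ι → ι → 𝔄, ∑ a ∈ s, ∑ b ∈ s.erase a, f a b = ∑ a ∈ s, ∑ b ∈ s.erase a, f b a :=
    fun f => Finset.sum_comm' (by
      intro a b
      simp only [Finset.mem_erase]
      constructor
      · rintro ⟨h1, h2, h3⟩; exact ⟨⟨fun e => h2 e.symm, h1⟩, h3⟩
      · rintro ⟨⟨h1, h2⟩, h3⟩; exact ⟨h2, fun e => h1 e.symm, h3⟩)
  have e1 : (∑ a ∈ s, Q a) * ∑ a ∈ s, Q a =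
      ∑ a ∈ s, Q a + ∑ a ∈ s, ∑ b ∈ s.erase a, Q a * Q b := by
    rw [Finset.sum_mul_sum, ← Finset.sum_add_distrib]
    refine Finset.sum_congr rfl fun a ha => ?_
    rw [← Finset.add_sum_erase _ _ ha, (hQ a ha).isIdempotentElem.eq]
  have h1 : -((2 : ℝ) • ∑ a ∈ s, ∑ b ∈ s.erase a, d a b • Q a) ≤
      (2 : ℝ) • ∑ a ∈ s, ∑ b ∈ s.erase a, Q a * Q b := by
    rw [two_smul, two_smul]
    nth_rewrite 2 [swap fun a b => d a b • Q a]
    nth_rewrite 2 [swap fun a b => Q a * Q b]
    rw [← Finset.sum_add_distrib, ← Finset.sum_add_distrib, ← Finset.sum_neg_distrib]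
    refine Finset.sum_le_sum fun a ha => ?_
    rw [← Finset.sum_add_distrib, ← Finset.sum_add_distrib, ← Finset.sum_neg_distrib]
    refine Finset.sum_le_sum fun b hb => ?_
    rw [hd b a, ← smul_add]
    exact h a ha b (Finset.mem_of_mem_erase hb) (Finset.ne_of_mem_erase hb).symm
  rw [← smul_neg] at h1
  have h2 := le_of_smul_le_smul_of_pos_left h1 two_pos
  have h3 : ∑ a ∈ s, ∑ b ∈ s.erase a, d a b • Q a ≤ δ • ∑ a ∈ s, Q a := by
    rw [Finset.smul_sum]
    refine Finset.sum_le_sum fun a ha => ?_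
    rw [← Finset.sum_smul]
    exact smul_le_smul_of_nonneg_right (hs a ha) (hQ a ha).nonneg
  rw [e1, sub_smul, one_smul, sub_eq_add_neg]
  gcongr
  exact (neg_le_neg h3).trans h2

end Crest.Agent.R340.Filt
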