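import Crest.Agent.R340.FiltSpec
import Crest.Agent.R340.FiltFNW

/-! # Row 340, modules KD + CNT: the abstract algebra (architect helper68) -/

set_option autoImplicit false

namespace Crest.Agent.R340.Kd

open Crest.Agent.R340.Filt

variable {𝔄 : Type} [CStarAlgebra 𝔄] [FiniteDimensional ℂ 𝔄] [PartialOrder 𝔄] [StarOrderedRing 𝔄]
  {H P E F G S R c a : 𝔄} {w W : ℝ → ℂ} {g γ γ' ε : ℝ}

/-! ### part A -/

theorem kdA_sq (hS : IsSelfAdjoint S) : S * S = cfc (fun x : ℝ => x * x) S := by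
  rw [cfc_mul _ _ S (h54_cont S _) (h54_cont S _), cfc_id' ℝ S]

theorem kdA_smul (hS : IsSelfAdjoint S) (r : ℝ) : r • S = cfc (fun x : ℝ => r * x) S :=
  (cfc_const_mul_id r S).symm

theorem kdA_sq_le_iff (hS : IsSelfAdjoint S) (r : ℝ) :
    S * S ≤ r • S ↔ ∀ x ∈ spectrum ℝ S, x * x ≤ r * x := by
  rw [kdA_sq hS, kdA_smul hS, cfc_le_iff _ _ S (h54_cont S _) (h54_cont S _)]

theorem kdA_le_sq_iff (hS : IsSelfAdjoint S) (r : ℝ) :
    r • S ≤ S * S ↔ ∀ x ∈ spectrum ℝ S, r * x ≤ x * x := by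
  rw [kdA_sq hS, kdA_smul hS, cfc_le_iff _ _ S (h54_cont S _) (h54_cont S _)]

/-- `S ≥ 0`, `S² ≤ λ S` gives `‖S‖ ≤ λ` (`sp`, `mul_sp`, or `cfc`) -/
theorem norm_le_of_sq_le {lam : ℝ} (h0 : 0 ≤ S) (hl : 0 ≤ lam) (h : S * S ≤ lam • S) :
    ‖S‖ ≤ lam := by
  have hS : IsSelfAdjoint S := IsSelfAdjoint.of_nonneg h0
  rw [kdA_sq_le_iff hS] at h
  rw [CStarAlgebra.norm_le_iff_le_algebraMap S hl h0]
  refine le_algebraMap_of_spectrum_le (fun x hx => ?_) hS
  by_contra hc
  have h1 := h x hx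
  nlinarith [not_le.1 hc]

/-- `S ≥ 0`, `g S ≤ S²` and `R` kills the kernel of `S`.  Take `p = sp S 0`; every other
eigenvalue is `≥ g`, so `g (1 - p) ≤ S`, and `R p = 0` gives `R ≤ 1 - p`. -/
theorem ge_of_sq (hg : 0 ≤ g) (h0 : 0 ≤ S) (h : g • S ≤ S * S) (hR : IsStarProjection R)
    (hk : ∀ X, S * X = 0 → R * X = 0) : g • R ≤ S := by
  have hS : IsSelfAdjoint S := IsSelfAdjoint.of_nonneg h0
  rw [kdA_le_sq_iff hS] at h
  have h1 : R * sp S 0 = 0 := hk _ (by rw [mul_sp hS]; simp)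
  have h2 : R ≤ 1 - sp S 0 :=
    (hR.le_iff_mul_eq_left (sp_proj S 0).one_sub).2 (by rw [mul_sub, mul_one, h1, sub_zero])
  refine (smul_le_smul_of_nonneg_left h2 hg).trans ?_
  have h3 : g • (1 - sp S 0) = cfc (fun x : ℝ => g * (1 - if x = 0 then (1 : ℝ) else 0)) S := by
    rw [cfc_const_mul _ _ S (h54_cont S _), cfc_sub _ _ S (h54_cont S _) (h54_cont S _),
      cfc_const_one ℝ S]
    rfl
  rw [h3]
  nth_rewrite 2 [← cfc_id' ℝ S]
  rw [cfc_le_iff _ _ S (h54_cont S _) (h54_cont S _)]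
  intro x hx
  have hx0 : 0 ≤ x := spectrum_nonneg_of_nonneg h0 hx
  split_ifs with e
  · simp [e]
  · have := h x hx
    have hx1 : 0 < x := hx0.lt_of_ne (Ne.symm e)
    rw [sub_zero, mul_one]
    exact le_of_mul_le_mul_right this hx1

/-- ANGLE DICHOTOMY.  `D = E - G`, `A = D F D`: `0 ≤ A ≤ (1 - g) D`,
`A - A² = D F (1 - E) F D` has norm `≤ ε²`, `g A ≤ A - A²`, `‖D F‖² = ‖A‖`, `E F - G = D F`. -/
theorem angle (hE : IsStarProjection E) (hF : IsStarProjection F) (hG : IsStarProjection G)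
    (gE : E * G = G) (gF : F * G = G) (hg : 0 < g)
    (h : g • (E - G) ≤ (E - G) * (1 - F) * (E - G)) (hc : ‖E * F - F * E‖ ≤ ε) :
    ‖E * F - G‖ ≤ ε / Real.sqrt g := by
  have hD : IsStarProjection (E - G) := hG.sub_of_mul_eq_right hE gE
  have hε : 0 ≤ ε := (norm_nonneg _).trans hc
  have eE := hE.isIdempotentElem.eq
  have eF := hF.isIdempotentElem.eq
  have eG := hG.isIdempotentElem.eq
  have gF' : G * F = G := by
    have := congrArg star gF
    rwa [star_mul, hG.isSelfAdjoint.star_eq, hF.isSelfAdjoint.star_eq] at this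
  have gE' : G * E = G := by
    have := congrArg star gE
    rwa [star_mul, hG.isSelfAdjoint.star_eq, hE.isSelfAdjoint.star_eq] at this
  have hT : E * F - G = (E - G) * F := by rw [sub_mul, gF']
  have dG : (E - G) * G = 0 := by rw [sub_mul, gE, eG, sub_self]
  have dE : (E - G) * E = E - G := by rw [sub_mul, eE, gE']
  have hE1 : E = (E - G) + G := by abel
  generalize E - G = D at *
  have eD := hD.isIdempotentElem.eq
  have sD := hD.isSelfAdjoint.star_eq
  rw [hT]
  have hA : D * F * star (D * F) = D * F * D := by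
    rw [star_mul, sD, hF.isSelfAdjoint.star_eq, mul_assoc D F, ← mul_assoc F F, eF, mul_assoc]
  have hA0 : 0 ≤ D * F * D := hA ▸ mul_star_self_nonneg _
  have hn : ‖D * F‖ * ‖D * F‖ = ‖D * F * D‖ := by rw [← hA, CStarRing.norm_self_mul_star]
  have h1 : D * F * D ≤ (1 - g) • D := by
    rw [mul_sub, mul_one, sub_mul, eD] at h
    rw [sub_smul, one_smul]
    exact le_sub_comm.1 h
  have hsq : D * F * D * (D * F * D) ≤ (1 - g) • (D * F * D) := by
    rcases le_total g 1 with hg1 | hg1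
    · rw [kdA_sq_le_iff (IsSelfAdjoint.of_nonneg hA0)]
      intro x hx
      have h2 : D * F * D ≤ algebraMap ℝ 𝔄 (1 - g) := by
        rw [Algebra.algebraMap_eq_smul_one]
        exact h1.trans (smul_le_smul_of_nonneg_left hD.le_one (sub_nonneg.2 hg1))
      exact mul_le_mul_of_nonneg_right
        ((le_algebraMap_iff_spectrum_le (IsSelfAdjoint.of_nonneg hA0)).1 h2 x hx)
        (spectrum_nonneg_of_nonneg hA0 hx)
    · have h2 : D * F * D = 0 :=
        le_antisymm (h1.trans (smul_nonpos_of_nonpos_of_nonneg (sub_nonpos.2 hg1) hD.nonneg)) hA0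
      rw [h2]; simp
  have hU : D * F * (1 - E) = D * (E * F - F * E) * (1 - E) := by
    have e1 : E * (1 - E) = 0 := by rw [mul_sub, mul_one, eE, sub_self]
    rw [mul_sub D, sub_mul (D * (E * F)), ← mul_assoc D E, dE, mul_assoc D (F * E), mul_assoc F E,
      e1, mul_zero, mul_zero, sub_zero]
  have hUn : ‖D * F * (1 - E)‖ ≤ ε := by
    rw [hU]
    refine (norm_mul_le _ _).trans ((mul_le_of_le_one_right (norm_nonneg _)
      (hE.one_sub.norm_le _)).trans ((norm_mul_le _ _).trans ?_))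
    exact (mul_le_of_le_one_left (norm_nonneg _) (hD.norm_le _)).trans hc
  have hUU : D * F * (1 - E) * star (D * F * (1 - E)) = D * F * D - D * F * D * (D * F * D) := by
    have e1 : (1 - E) * (1 - E) = 1 - E := hE.one_sub.isIdempotentElem.eq
    have e2 : D * F * G = 0 := by rw [mul_assoc, gF, dG]
    rw [star_mul, star_mul, sD, hF.isSelfAdjoint.star_eq, hE.one_sub.isSelfAdjoint.star_eq,
      mul_assoc (D * F), ← mul_assoc (1 - E), e1, hE1, sub_mul, one_mul, mul_sub, add_mul, mul_add,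
      ← mul_assoc (D * F) G, e2, zero_mul, add_zero]
    congr 1
    · rw [mul_assoc D F, ← mul_assoc F F, eF, mul_assoc]
    · simp only [mul_assoc]
      rw [← mul_assoc D D, eD]
  have h3 : g • (D * F * D) ≤ D * F * (1 - E) * star (D * F * (1 - E)) := by
    rw [hUU]
    rw [sub_smul, one_smul] at hsq
    exact le_sub_comm.1 hsq
  have h4 := CStarAlgebra.norm_le_norm_of_nonneg_of_le (smul_nonneg hg.le hA0) h3
  rw [CStarRing.norm_self_mul_star, norm_smul, Real.norm_of_nonneg hg.le, ← hn] at h4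
  have h5 : ‖D * F * (1 - E)‖ * ‖D * F * (1 - E)‖ ≤ ε * ε :=
    mul_self_le_mul_self (norm_nonneg _) hUn
  rw [le_div_iff₀ (Real.sqrt_pos.2 hg)]
  refine (mul_self_le_mul_self_iff (by positivity) hε).2 ?_
  rw [mul_mul_mul_comm, Real.mul_self_sqrt hg.le]
  linarith

/-- a contraction `c` killing `F` satisfies `c^* c ≤ 1 - F` -/
theorem star_mul_le_compl (hF : IsStarProjection F) (hc : ‖c‖ ≤ 1) (h : c * F = 0) :
    star c * c ≤ 1 - F := by
  have h1 := star_mul_le_sq c (1 - F) hc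
  rwa [mul_sub, mul_one, h, sub_zero, one_pow, one_smul, hF.one_sub.isSelfAdjoint.star_eq,
    hF.one_sub.isIdempotentElem.eq] at h1

/-! ### part B -/

omit [FiniteDimensional ℂ 𝔄] [PartialOrder 𝔄] [StarOrderedRing 𝔄] in
theorem kb_flip {x y z : 𝔄} (hx : IsSelfAdjoint x) (hy : IsSelfAdjoint y) (hz : IsSelfAdjoint z)
    (e : x * y = z) : y * x = z := by
  have := congrArg star e
  rwa [star_mul, hx.star_eq, hy.star_eq, hz.star_eq] at this

omit [FiniteDimensional ℂ 𝔄] [PartialOrder 𝔄] [StarOrderedRing 𝔄] in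
theorem kb_fcal_sa (hf : IsFilt γ' w W) {V : 𝔄} (hV : IsSelfAdjoint V) :
    IsSelfAdjoint (fcal w V) := by
  have h1 := (starL' ℝ : 𝔄 ≃L[ℝ] 𝔄).integral_comp_comm (μ := MeasureTheory.volume)
    fun t : ℝ => w t • ev V t
  simp only [starL'_apply] at h1
  have h2 := MeasureTheory.integral_neg_eq_self (fun t : ℝ => w t • ev V t) MeasureTheory.volume
  rw [IsSelfAdjoint, fcal, ← h1, ← h2]
  refine MeasureTheory.integral_congr_ae (Filter.Eventually.of_forall fun t => ?_)
  have h3 : star (w t) = w t := hf.real_w t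
  simp only [star_smul, star_ev hV, h3, hf.even_w]

/-- the filtered annihilator (`Gap.commute_filt`, `filt_eig`, `IsFilt.one`) -/
theorem filt_ann (hf : IsFilt γ' w W) (hγ : γ' ≤ γ) (h : Gap 1 H P 0 γ) (h0 : H * P = 0)
    (c : 𝔄) : Commute P (filt w H c) ∧ filt w H c * P = P * c * P := by
  have hc : Commute P (filt w H c) :=
    h.commute_filt hf (by rwa [zero_add]) (Commute.one_left c)
  refine ⟨hc, ?_⟩
  have e := filt_eig (E := 0) hf.int_w h.sa h.proj.isSelfAdjoint (by simpa using h0) c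
  rw [hf.one 0 (by rw [abs_zero]; linarith [hf.pos]), one_smul] at e
  rw [← e, hc.eq, mul_assoc, h.proj.isIdempotentElem.eq]

/-- adding a positive term that commutes with the ground projection -/
theorem gap_add {V : 𝔄} (h : Gap 1 H P 0 γ) (h0 : H * P = 0) (hV : 0 ≤ V) (cV : Commute P V)
    (hG : IsStarProjection G) (pG : P * G = G) (vG : V * G = 0) (hg : g ≤ γ)
    (hle : g • (P - G) ≤ P * V * P) : Gap 1 (H + V) G 0 g ∧ (H + V) * G = 0 := by
  have hVs : IsSelfAdjoint V := IsSelfAdjoint.of_nonneg hV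
  have hs : IsSelfAdjoint (H + V) := h.sa.add hVs
  have hG0 : H * G = 0 := by rw [← pG, ← mul_assoc, h0, zero_mul]
  have e1 : (H + V) * G = 0 := by rw [add_mul, hG0, vG, add_zero]
  have e2 : G * (H + V) = 0 := kb_flip hs hG.isSelfAdjoint (IsSelfAdjoint.zero _) e1
  have p0 : P * H = 0 := kb_flip h.sa h.proj.isSelfAdjoint (IsSelfAdjoint.zero _) h0
  have pp : P * P = P := h.proj.isIdempotentElem.eq
  refine ⟨⟨hs, h.projPi, hG, one_mul _, Commute.one_left _, e2.trans e1.symm, ?_, ?_⟩, e1⟩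
  · rw [e2, zero_mul, zero_smul]
  · have e3 : (1 - G) * (H + V) * (1 - G) = H + V := by
      rw [sub_mul, one_mul, e2, sub_zero, mul_sub, mul_one, e1, sub_zero]
    have e4 : (1 - P) * H * (1 - P) = H := by
      rw [sub_mul, one_mul, p0, sub_zero, mul_sub, mul_one, h0, sub_zero]
    have e5 : P * V * P = V * P := by rw [cV.eq, mul_assoc, pp]
    have e6 : star (1 - P) * V * (1 - P) = V - P * V * P := by
      rw [h.proj_compl.isSelfAdjoint.star_eq, sub_mul, one_mul, sub_mul, mul_sub, mul_sub, mul_one,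
        mul_one, e5, cV.eq, sub_self, sub_zero]
    have i1 : g • (1 - P) ≤ H := by
      have := h.high
      rw [e4] at this
      exact (smul_le_smul_of_nonneg_right hg h.proj_compl.nonneg).trans this
    have i2 : P * V * P ≤ V := by
      have := star_left_conjugate_nonneg hV (1 - P)
      rwa [e6, sub_nonneg] at this
    rw [e3]
    calc g • (1 - G) = g • (1 - P) + g • (P - G) := by rw [← smul_add, sub_add_sub_cancel]
      _ ≤ H + V := add_le_add i1 (hle.trans i2)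

/-- the local detector (`Gap.eq_fcal` in the sector `P`) -/
theorem fcal_pin {V : 𝔄} (hf : IsFilt γ' w W) (hγ : γ' ≤ g) (hP : IsStarProjection P)
    (hV : IsSelfAdjoint V) (cV : Commute P V) (hG : IsStarProjection G) (pG : P * G = G)
    (vG : V * G = 0) (hle : g • (P - G) ≤ P * V * P) :
    fcal w V * P = G ∧ Commute P (fcal w V) ∧ IsSelfAdjoint (fcal w V) := by
  have gV : G * V = 0 := kb_flip hV hG.isSelfAdjoint (IsSelfAdjoint.zero _) vG
  have hgap : Gap P V G 0 g := by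
    refine ⟨hV, hP, hG, pG, cV, gV.trans vG.symm, ?_, ?_⟩
    · rw [gV, zero_mul, zero_smul]
    · rwa [sub_mul, gV, sub_zero, mul_sub, mul_assoc P V G, vG, mul_zero, sub_zero]
  have e := hgap.eq_fcal hf (by simpa using vG) (by rwa [zero_add])
  rw [zero_smul, sub_zero] at e
  exact ⟨e, mul_fcal hf.int_w hV hV cV.eq, kb_fcal_sa hf hV⟩

/-- FNW: units `U ∈ s` with projections `Pi U ≤ P`, pair meets `Pm U U'`, total meet `G`
(`fnw`, `sum_proj_gap`, `ge_of_sq` with `R = P - G`; `(Σ Q) X = 0 → Q X = 0` by positivity) -/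
theorem fnw_gap {ι : Type} [DecidableEq ι] (s : Finset ι) (Pi : ι → 𝔄) (d : ι → ι → ℝ) {δ : ℝ}
    (hδ : δ ≤ 1) (hP : IsStarProjection P) (hG : IsStarProjection G) (pG : P * G = G)
    (hPi : ∀ U ∈ s, IsStarProjection (Pi U)) (pPi : ∀ U ∈ s, P * Pi U = Pi U)
    (hd : ∀ U V, d U V = d V U)
    (hpair : ∀ U ∈ s, ∀ V ∈ s, U ≠ V → ∃ M, IsStarProjection M ∧ Pi U * M = M ∧ Pi V * M = M ∧
      ‖Pi U * Pi V - M‖ ≤ d U V)
    (hs : ∀ U ∈ s, ∑ V ∈ s.erase U, d U V ≤ δ)
    (hmeet : ∀ X, P * X = X → (∀ U ∈ s, Pi U * X = X) → G * X = X) :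
    (1 - δ) • (P - G) ≤ ∑ U ∈ s, (P - Pi U) := by
  have hQ : ∀ U ∈ s, IsStarProjection (P - Pi U) := fun U hU =>
    (hPi U hU).sub_of_mul_eq_right hP (pPi U hU)
  have h1 := sum_proj_gap s (fun U => P - Pi U) d hQ hd (fun U hU V hV hne => by
    obtain ⟨M, hM, e1, e2, e3⟩ := hpair U hU V hV hne
    exact fnw hP (hPi U hU) (hPi V hV) hM (pPi U hU) (pPi V hV) e1 e2 e3) hs
  refine ge_of_sq (sub_nonneg.2 hδ) (Finset.sum_nonneg fun U hU => (hQ U hU).nonneg) h1
    (hG.sub_of_mul_eq_right hP pG) fun X hX => ?_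
  have h2 : ∑ U ∈ s, star ((P - Pi U) * X) * ((P - Pi U) * X) = 0 := by
    calc ∑ U ∈ s, star ((P - Pi U) * X) * ((P - Pi U) * X)
        = star X * ((∑ U ∈ s, (P - Pi U)) * X) := by
          rw [Finset.sum_mul, Finset.mul_sum]
          refine Finset.sum_congr rfl fun U hU => ?_
          rw [star_mul, (hQ U hU).isSelfAdjoint.star_eq, mul_assoc, ← mul_assoc (P - Pi U),
            (hQ U hU).isIdempotentElem.eq]
      _ = 0 := by rw [hX, mul_zero]
  rw [Finset.sum_eq_zero_iff_of_nonneg fun U _ => star_mul_self_nonneg _] at h2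
  have pp : P * P = P := hP.isIdempotentElem.eq
  have h3 : G * (P * X) = P * X := by
    refine hmeet _ (by rw [← mul_assoc, pp]) fun U hU => ?_
    have h4 : (P - Pi U) * X = 0 := (CStarRing.star_mul_self_eq_zero_iff _).1 (h2 U hU)
    rw [sub_mul, sub_eq_zero] at h4
    rw [← mul_assoc, kb_flip hP.isSelfAdjoint (hPi U hU).isSelfAdjoint (hPi U hU).isSelfAdjoint
      (pPi U hU), h4]
  rw [← mul_assoc, kb_flip hP.isSelfAdjoint hG.isSelfAdjoint hG.isSelfAdjoint pG] at h3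
  rw [sub_mul, h3, sub_self]

/-! ### part C: COUNT -/

omit [FiniteDimensional ℂ 𝔄] [PartialOrder 𝔄] [StarOrderedRing 𝔄] in
theorem kc_nm {x y : 𝔄} {s t : ℝ} (hx : ‖x‖ ≤ s) (hy : ‖y‖ ≤ t) : ‖x * y‖ ≤ s * t :=
  (norm_mul_le x y).trans (mul_le_mul hx hy (norm_nonneg y) ((norm_nonneg x).trans hx))

/-- the off-diagonal block.  `p = P_T`, `E = P_{Ty} = π p`, `F = P_{Ty'} = π' p`, `G = P_{Tyy'}`,
`A, B` = filtered `X, X'`.  `E X p X'^* F = E A B^* F`, `E X'^* G X F = E B^* G A F`,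
`E B^* p = E B^* E + E [π, B^*] p`, `A F = F A F + [A, π'] F`. -/
theorem cnt_block {p π π' X X' A B : 𝔄} {K e1 e2 e3 : ℝ} (hp : IsStarProjection p)
    (hE : IsStarProjection E) (hF : IsStarProjection F) (hG : IsStarProjection G)
    (eE : π * p = E) (eF : π' * p = F) (pG : p * G = G)
    (cA : Commute p A) (cB : Commute p B) (eA : A * p = p * X * p) (eB : B * p = p * X' * p)
    (nA : ‖A‖ ≤ K) (nB : ‖B‖ ≤ K) (h1 : ‖A * star B - star B * A‖ ≤ e1)
    (h2 : ‖π * star B - star B * π‖ ≤ e2) (h2' : ‖A * π' - π' * A‖ ≤ e2) (h3 : ‖E * F - G‖ ≤ e3) :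
    ‖E * X * p * star X' * F - E * star X' * G * X * F‖ ≤ e1 + 2 * K * e2 + K ^ 2 * e3 := by
  have pp := hp.isIdempotentElem.eq
  have sp := hp.isSelfAdjoint.star_eq
  have flip : ∀ {x : 𝔄}, IsStarProjection x → (x * p = x ↔ p * x = x) := fun hx =>
    ⟨fun e => by simpa only [star_mul, sp, hx.isSelfAdjoint.star_eq] using congrArg star e,
      fun e => by simpa only [star_mul, sp, hx.isSelfAdjoint.star_eq] using congrArg star e⟩
  have Ep : E * p = E := by rw [← eE, mul_assoc, pp]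
  have pF : p * F = F := (flip hF).1 (by rw [← eF, mul_assoc, pp])
  have Gp : G * p = G := (flip hG).2 pG
  have cB' : star B * p = p * star B := by simpa only [star_mul, sp] using congrArg star cB.eq
  have eB' : p * star B = p * star X' * p := by
    simpa only [star_mul, sp, ← mul_assoc] using congrArg star eB
  have nB' : ‖star B‖ ≤ K := by rwa [norm_star]
  generalize star B = B' at *
  generalize star X' = Y' at *
  have EA : E * A = E * X * p := by
    calc E * A = E * (p * A) := by rw [← mul_assoc, Ep]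
      _ = E * X * p := by rw [cA.eq, eA, ← mul_assoc, ← mul_assoc, Ep]
  have BF : B' * F = p * (Y' * F) := by
    calc B' * F = B' * p * F := by rw [mul_assoc, pF]
      _ = p * (Y' * F) := by rw [cB', eB', mul_assoc, pF, mul_assoc]
  have EB : E * B' = E * Y' * p := by
    calc E * B' = E * (p * B') := by rw [← mul_assoc, Ep]
      _ = E * Y' * p := by rw [eB', ← mul_assoc, ← mul_assoc, Ep]
  have AF : A * F = p * (X * F) := by
    calc A * F = A * p * F := by rw [mul_assoc, pF]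
      _ = p * (X * F) := by rw [eA, mul_assoc, pF, mul_assoc]
  have k1 : E * X * p * Y' * F = E * A * (B' * F) := by
    rw [EA, BF, mul_assoc _ p (p * _), ← mul_assoc p p, pp]
    simp only [mul_assoc]
  have k2 : E * Y' * G * X * F = E * B' * G * (A * F) := by
    rw [EB, AF, mul_assoc _ p G, pG, mul_assoc _ G (p * _), ← mul_assoc G p, Gp]
    simp only [mul_assoc]
  have pAF : p * (A * F) = A * F := by rw [← mul_assoc, cA.eq, mul_assoc, pF]
  have pBAF : p * (B' * (A * F)) = B' * (A * F) := by rw [← mul_assoc, ← cB', mul_assoc, pAF]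
  have t1 : ∀ Y, p * Y = Y → π * Y = E * Y := fun Y h => by rw [← eE, mul_assoc, h]
  have t2 : ∀ Y, p * Y = Y → π' * Y = F * Y := fun Y h => by rw [← eF, mul_assoc, h]
  have k3 := t1 _ pBAF
  have k4 := t1 _ pAF
  have k5 : π' * F = F := (t2 _ pF).trans hF.isIdempotentElem.eq
  have k6 := t2 _ pAF
  have k7 : ∀ Y, E * (E * Y) = E * Y := fun Y => by rw [← mul_assoc, hE.isIdempotentElem.eq]
  have key : E * A * (B' * F) - E * B' * G * (A * F) =
      E * (A * B' - B' * A) * F + E * (π * B' - B' * π) * A * F +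
        E * B' * E * (A * π' - π' * A) * F + E * B' * (E * F - G) * A * F := by
    simp only [mul_sub, sub_mul, mul_assoc, k3, k4, k5, k6, k7]
    abel
  have nE := hE.norm_le
  have nF := hF.norm_le
  have a1 := kc_nm (kc_nm nE h1) nF
  have a2 := kc_nm (kc_nm (kc_nm nE h2) nA) nF
  have a3 := kc_nm (kc_nm (kc_nm (kc_nm nE nB') nE) h2') nF
  have a4 := kc_nm (kc_nm (kc_nm (kc_nm nE nB') h3) nA) nF
  rw [k1, k2, key]
  refine (norm_add_le_of_le (norm_add_le_of_le (norm_add_le_of_le a1 a2) a3) a4).trans_eq ?_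
  ring

/-- one step.  `S = Σ Y^* Y`, `S² = Σ Y_y^* (Y_y Y_y'^*) Y_y'`; diagonal `≤ K² S`; off-diagonal by
`cross_le` (`Z`) and `cross_norm_le` (errors) after symmetrising in `(y, y')`; `norm_le_of_sq_le`. -/
theorem cnt_step {ι : Type} [DecidableEq ι] (s : Finset ι) (Y : ι → 𝔄) (Z : ι → ι → 𝔄)
    (e : ι → ι → ℝ) {K c r : ℝ} (hc : 0 ≤ c) (hr : 0 ≤ r) (hY : ∀ y ∈ s, ‖Y y‖ ≤ K)
    (he : ∀ y y', e y y' = e y' y)
    (hb : ∀ y ∈ s, ∀ y' ∈ s, y ≠ y' → ‖Y y * star (Y y') - star (Z y y') * Z y' y‖ ≤ e y y')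
    (hs : ∀ y ∈ s, ∑ y' ∈ s.erase y, e y y' ≤ c)
    (hZ : ∀ y ∈ s, ‖∑ y' ∈ s.erase y, star (Z y y') * Z y y'‖ ≤ r) :
    ‖∑ y ∈ s, star (Y y) * Y y‖ ≤ K ^ 2 + c + r := by
  have swap : ∀ f : ι → ι → 𝔄, ∑ a ∈ s, ∑ b ∈ s.erase a, f a b = ∑ a ∈ s, ∑ b ∈ s.erase a, f b a :=
    fun f => Finset.sum_comm' (by
      intro a b
      simp only [Finset.mem_erase]
      constructor
      · rintro ⟨h1, h2, h3⟩; exact ⟨⟨fun e => h2 e.symm, h1⟩, h3⟩
      · rintro ⟨⟨h1, h2⟩, h3⟩; exact ⟨h2, fun e => h1 e.symm, h3⟩)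
  obtain ⟨Q, hQ⟩ : ∃ Q : ι → 𝔄, ∀ y, Q y = star (Y y) * Y y := ⟨_, fun _ => rfl⟩
  obtain ⟨N, hN⟩ : ∃ N : ι → ι → 𝔄, ∀ y y',
      N y y' = star (Z y y' * Y y) * (Z y y' * Y y) + e y y' • Q y := ⟨_, fun _ _ => rfl⟩
  have Q0 : ∀ y, 0 ≤ Q y := fun y => by rw [hQ]; exact star_mul_self_nonneg _
  simp only [← hQ]
  refine norm_le_of_sq_le (Finset.sum_nonneg fun y _ => Q0 y) (by positivity) ?_
  have e1 : (∑ a ∈ s, Q a) * ∑ a ∈ s, Q a =
      ∑ a ∈ s, Q a * Q a + ∑ a ∈ s, ∑ b ∈ s.erase a, Q a * Q b := by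
    rw [Finset.sum_mul_sum, ← Finset.sum_add_distrib]
    refine Finset.sum_congr rfl fun a ha => ?_
    rw [← Finset.add_sum_erase _ _ ha]
  have h0 : ∑ a ∈ s, Q a * Q a ≤ K ^ 2 • ∑ a ∈ s, Q a := by
    rw [Finset.smul_sum]
    refine Finset.sum_le_sum fun a ha => ?_
    have := star_mul_le_sq (star (Y a)) (Y a) (δ := K) (by rw [norm_star]; exact hY a ha)
    rwa [← hQ, (Q0 a).star_eq] at this
  have h1 : (2 : ℝ) • ∑ a ∈ s, ∑ b ∈ s.erase a, Q a * Q b ≤
      (2 : ℝ) • ∑ a ∈ s, ∑ b ∈ s.erase a, N a b := by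
    rw [two_smul, two_smul]
    nth_rewrite 2 [swap fun a b => Q a * Q b]
    nth_rewrite 2 [swap N]
    rw [← Finset.sum_add_distrib, ← Finset.sum_add_distrib]
    refine Finset.sum_le_sum fun a ha => ?_
    rw [← Finset.sum_add_distrib, ← Finset.sum_add_distrib]
    refine Finset.sum_le_sum fun b hb' => ?_
    have i1 := cross_le (Z a b * Y a) (Z b a * Y b)
    have i2 := cross_norm_le (Y a) _ (Y b)
      (hb a ha b (Finset.mem_of_mem_erase hb') (Finset.ne_of_mem_erase hb').symm)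
    refine le_of_eq_of_le ?_ ((add_le_add i1 i2).trans_eq ?_)
    · simp only [hQ, star_sub, star_mul, star_star, mul_sub, sub_mul, mul_assoc]
      abel
    · rw [hN, hN, he b a, ← hQ, ← hQ, smul_add]
      abel
  have h2 := le_of_smul_le_smul_of_pos_left h1 two_pos
  have h3 : ∑ a ∈ s, ∑ b ∈ s.erase a, N a b ≤ r • ∑ a ∈ s, Q a + c • ∑ a ∈ s, Q a := by
    rw [Finset.smul_sum, Finset.smul_sum, ← Finset.sum_add_distrib]
    refine Finset.sum_le_sum fun a ha => ?_
    simp only [hN]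
    rw [Finset.sum_add_distrib, ← Finset.sum_smul]
    refine add_le_add ?_ (smul_le_smul_of_nonneg_right (hs a ha) (Q0 a))
    have i1 := (CStarAlgebra.norm_le_iff_le_algebraMap _ hr
      (Finset.sum_nonneg fun b _ => star_mul_self_nonneg (Z a b))).1 (hZ a ha)
    have i2 := star_left_conjugate_le_conjugate i1 (Y a)
    rw [Algebra.algebraMap_eq_smul_one, mul_smul_comm, smul_mul_assoc, mul_one, ← hQ,
      Finset.mul_sum, Finset.sum_mul] at i2
    simpa only [star_mul, mul_assoc] using i2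
  rw [e1, add_smul, add_smul, add_assoc, add_comm (c • _)]
  exact add_le_add h0 (h2.trans h3)

/-- COUNT.  Downward induction on `T ⊆ Λ` (on `m - T.card`) with `Y y = P_{Ty} X_y P_T`,
`Z y y' = P_{Tyy'} X_y' P_{Ty}` in `cnt_step`. -/
theorem cnt_abstract {ι : Type} [DecidableEq ι] (Λ : Finset ι) (Pp : Finset ι → 𝔄) (X : ι → 𝔄)
    (e : ι → ι → ℝ) {K c : ℝ} (m : ℕ) (hc : 0 ≤ c) (hP : ∀ T ⊆ Λ, IsStarProjection (Pp T))
    (hX : ∀ y ∈ Λ, ‖X y‖ ≤ K) (he : ∀ y y', e y y' = e y' y) (he0 : ∀ y y', 0 ≤ e y y')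
    (hs : ∀ y ∈ Λ, ∑ y' ∈ Λ.erase y, e y y' ≤ c)
    (hb : ∀ T ⊆ Λ, ∀ y ∈ Λ \ T, ∀ y' ∈ Λ \ T, y ≠ y' →
      ‖Pp (insert y T) * X y * Pp T * star (X y') * Pp (insert y' T) -
        Pp (insert y T) * star (X y') * Pp (insert y' (insert y T)) * X y * Pp (insert y' T)‖ ≤
        e y y')
    (hm : ∀ T ⊆ Λ, m < T.card → Pp T = 0) :
    ‖∑ y ∈ Λ, Pp ∅ * star (X y) * Pp {y} * X y * Pp ∅‖ ≤ (K ^ 2 + c) * m := by
  have key : ∀ k : ℕ, ∀ T ⊆ Λ, m ≤ T.card + k →
      ‖∑ y ∈ Λ \ T, star (Pp (insert y T) * X y * Pp T) * (Pp (insert y T) * X y * Pp T)‖ ≤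
        (K ^ 2 + c) * k := by
    intro k
    induction k with
    | zero =>
      intro T hT h
      rw [Finset.sum_eq_zero, norm_zero, Nat.cast_zero, mul_zero]
      intro y hy
      rw [Finset.mem_sdiff] at hy
      rw [hm _ (Finset.insert_subset hy.1 hT) (by rw [Finset.card_insert_of_notMem hy.2]; omega),
        zero_mul, zero_mul, mul_zero]
    | succ k ih =>
      intro T hT h
      have hi : ∀ y ∈ Λ \ T, insert y T ⊆ Λ := fun y hy =>
        Finset.insert_subset (Finset.mem_sdiff.1 hy).1 hT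
      refine (cnt_step (Λ \ T) (fun y => Pp (insert y T) * X y * Pp T)
        (fun y y' => Pp (insert y' (insert y T)) * X y' * Pp (insert y T)) e (K := K)
        (r := (K ^ 2 + c) * k) hc (by positivity) (fun y hy => ?_) he (fun y hy y' hy' hne => ?_)
        (fun y hy => ?_) (fun y hy => ?_)).trans_eq (by push_cast; ring)
      · simpa only [one_mul, mul_one] using kc_nm (kc_nm (hP _ (hi y hy)).norm_le
          (hX y (Finset.mem_sdiff.1 hy).1)) (hP T hT).norm_le
      · have h1 := hP T hT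
        have h2 := hP _ (Finset.insert_subset (Finset.mem_sdiff.1 hy').1 (hi y hy))
        have j1 : ∀ x, Pp T * (Pp T * x) = Pp T * x := fun x => by
          rw [← mul_assoc, h1.isIdempotentElem.eq]
        have j2 : ∀ x, Pp (insert y' (insert y T)) * (Pp (insert y' (insert y T)) * x) =
            Pp (insert y' (insert y T)) * x := fun x => by
          rw [← mul_assoc, h2.isIdempotentElem.eq]
        have := hb T hT y hy y' hy' hne
        rw [Finset.insert_comm y y' T]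
        simpa only [star_mul, h1.isSelfAdjoint.star_eq, h2.isSelfAdjoint.star_eq,
          (hP _ (hi y hy)).isSelfAdjoint.star_eq, (hP _ (hi y' hy')).isSelfAdjoint.star_eq,
          mul_assoc, j1, j2] using this
      · exact (Finset.sum_le_sum_of_subset_of_nonneg
          (Finset.erase_subset_erase y Finset.sdiff_subset) fun y' _ _ => he0 y y').trans
          (hs y (Finset.mem_sdiff.1 hy).1)
      · rw [← Finset.sdiff_insert]
        exact ih _ (hi y hy) (by
          rw [Finset.card_insert_of_notMem (Finset.mem_sdiff.1 hy).2]; omega)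
  have h := key m ∅ (Finset.empty_subset _) (by simp)
  rw [Finset.sdiff_empty] at h
  refine le_of_eq_of_le (congrArg _ (Finset.sum_congr rfl fun y hy => ?_)) h
  have h1 := hP {y} (Finset.singleton_subset_iff.2 hy)
  have j1 : ∀ x, Pp {y} * (Pp {y} * x) = Pp {y} * x := fun x => by
    rw [← mul_assoc, h1.isIdempotentElem.eq]
  simp only [Finset.insert_empty, star_mul, h1.isSelfAdjoint.star_eq,
    (hP ∅ (Finset.empty_subset _)).isSelfAdjoint.star_eq, mul_assoc, j1]

end Crest.Agent.R340.Kd
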