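import Crest.Agent.R340.IfAlg
import Crest.Agent.R340.IfLoc
import Crest.Agent.R340.FiltFun
import Crest.Agent.R340.KdAlg

/-! # Row 340, module CNT: auxiliary facts (architect helper6) -/

set_option autoImplicit false

namespace Crest.Agent.R340.Pin

open Matrix MeasureTheory Crest.MathPhysics.Laughlin
open scoped Matrix.Norms.L2Operator MatrixOrder ComplexOrder ComplexConjugate

/-! ### the inputs from `IfKD` (as hypotheses, so that this file does not import the certificate) -/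

/-- statement of `kd_parent` -/
def KdParent : Prop := ∃ (R₀ g a C G : ℝ) (Q₀ : ℕ), 0 < g ∧ 0 < a ∧ ∀ Q, Q₀ ≤ Q →
    ∀ T S : Multiset S2, AdmT Q R₀ T → AdmS Q R₀ S →
      ∃ K, LocHam Q (1 / 2) a C G K ∧ Parent K (PD Q (T + S)) g

open Classical in
/-- statement of `kd_add` -/
def KdAdd : Prop := ∃ (r₀ R₀ g : ℝ) (Q₀ : ℕ), 1 ≤ r₀ ∧ 4 * (r₀ + 1) ≤ R₀ ∧ 0 < g ∧ ∀ Q, Q₀ ≤ Q →
    ∀ (T S : Multiset S2) (w : S2), AdmT Q R₀ T → AdmS Q R₀ (w ::ₘ S) →
      ((∀ b ∈ T, r₀ ≤ dq Q b w) → g • (PD Q (T + S) - PD Q (w ::ₘ (T + S))) ≤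
        PD Q (T + S) * nx Q w * PD Q (T + S)) ∧
      ∀ b ∈ T, dq Q b w ≤ r₀ + 1 → g • (PD Q (T + S) - PD Q (w ::ₘ (T + S))) ≤
        PD Q (T + S) * (star (cC (fo Q b (T.count b) w)) * cC (fo Q b (T.count b) w)) *
          PD Q (T + S)

/-- statement of `OL_fo` -/
def OlFo : Prop := ∀ r a : ℝ, ∃ C, ∀ Q, 1 ≤ Q → ∀ (b w : S2) (m : ℕ), m ≤ 3 → dq Q b w ≤ r →
    OL Q 1 a C w (cC (fo Q b m w))

/-- statement of `kd_pi` -/
def KdPi : Prop := ∃ (R₀ a C : ℝ) (Q₀ : ℕ), 0 < a ∧ ∀ Q, Q₀ ≤ Q →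
    ∀ (T S : Multiset S2) (w : S2), AdmT Q R₀ T → AdmS Q R₀ (w ::ₘ S) →
      ∃ π : Fk (Q + 1), NL Q (1 / 4) a C w π ∧ IsSelfAdjoint π ∧
        π * PD Q (T + S) = PD Q (w ::ₘ (T + S)) ∧ PD Q (T + S) * π = PD Q (w ::ₘ (T + S))

/-! ### part A -/

theorem cn_nq_nonneg {ι : Type} [Fintype ι] (v : ι → ℂ) : 0 ≤ nq v := by
  exact (Complex.nonneg_iff.mp (dotProduct_star_self_nonneg v)).1

theorem cn_qf_le {n : ℕ} (A : Fk n) (v : Finset (Fin n) → ℂ) : qf A v ≤ ‖A‖ * nq v := by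
  exact (le_abs_self _).trans (Filt.abs_re_dot_le A v)

/-- entrywise: `A S T ≠ 0` forces `S.card = T.card` -/
theorem cn_commute_secP {n : ℕ} {A : Fk n} (h : NC A) (N : ℕ) : Commute (secP n N) A := by
  exact commute_secP h N

theorem cn_nc_star {n : ℕ} {A : Fk n} (h : NC A) : NC (star A) := by
  have h1 : Commute (star (numC n)) (star A) := Commute.star_star h
  rwa [(numC_sa n).star_eq] at h1

theorem cn_mul_PD {Q : ℕ} {D : Multiset S2} {c : Fk (Q + 1)} (h : ∀ v ∈ ZD Q D, c *ᵥ v = 0) :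
    c * PD Q D = 0 := by
  refine Matrix.ext_iff_mulVec.2 fun v => ?_
  rw [← mulVec_mulVec, h _ (PD_mulVec_mem D v), zero_mulVec]

/-- `InZ.eq_zero` for the columns -/
theorem cn_PD_secP {Q N : ℕ} {D : Multiset S2} (hN : 1 ≤ N) (hn : nfree Q D N < 0) :
    PD Q D * secP (Q + 1) N = 0 := by
  refine Matrix.ext_iff_mulVec.2 fun v => ?_
  rw [zero_mulVec]
  refine InZ.eq_zero (Q := Q) (D := D) ⟨?_, ?_⟩ hN hn
  · rw [mulVec_mulVec, ← mul_assoc, (cn_commute_secP (PD_nc Q D) N).eq, mul_assoc,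
      (secP_proj (Q + 1) N).isIdempotentElem.eq]
  · rw [← mulVec_mulVec]
    exact PD_mulVec_mem D _

/-- sums of the weight over separated sets (`sites_vol` for the counting measure
`∑ b ∈ S, dirac b`, or shells and `card_ball_le`) -/
theorem cn_sum_wt {α a : ℝ} (h0 : 0 < α) (ha : 0 < a) : ∃ V, 0 ≤ V ∧ ∀ Q, 1 ≤ Q →
    ∀ S : Finset S2, Sep Q 1 S.val → ∀ y, ∑ b ∈ S, wt α a (dq Q y b) ≤ V := by
  obtain ⟨V, hV, h⟩ := sites_vol h0 ha
  obtain ⟨G, hG⟩ := card_ball_le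
  refine ⟨V * max G 0, mul_nonneg hV (le_max_right _ _), fun Q hQ S hS y => ?_⟩
  have hs : Sites Q (max G 0) (Measure.count : Measure S) Subtype.val := by
    refine ⟨inferInstance, measurable_subtype_coe, fun u r hr => ?_⟩
    have e : {i : S | dq Q i u ≤ r} = ↑(Finset.univ.filter fun i : S => dq Q i u ≤ r) := by
      ext i
      simp
    have h1 := hG Q hQ 1 S le_rfl hS u r hr
    rw [div_one] at h1
    rw [e, Measure.real, Measure.count_apply_finset, ENNReal.toReal_natCast, Finset.card_filter,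
      Finset.sum_coe_sort S fun b => if dq Q b u ≤ r then 1 else 0, ← Finset.card_filter]
    exact h1.trans (mul_le_mul_of_nonneg_right (le_max_left _ _) (sq_nonneg _))
  have := (h Q _ S _ _ hs y).2
  rw [integral_count, Finset.sum_coe_sort S fun b => wt α a (dq Q b y)] at this
  simpa only [dq_symm Q y] using this

/-! ### part B -/

theorem h85_gap {𝔄 : Type} [CStarAlgebra 𝔄] [FiniteDimensional ℂ 𝔄] [PartialOrder 𝔄]
    [StarOrderedRing 𝔄] {E F G c : 𝔄} {g C : ℝ} (hE : IsStarProjection E)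
    (hF : IsStarProjection F) (hG : IsStarProjection G) (hFG : F * G = G) (hC : 0 < C)
    (hc : ‖c‖ ≤ C) (hcF : c * F = 0) (h : g • (E - G) ≤ E * (star c * c) * E) :
    (g / C ^ 2) • (E - G) ≤ (E - G) * (1 - F) * (E - G) := by
  have hGF : G * F = G := by
    have := congrArg star hFG
    rwa [star_mul, hF.isSelfAdjoint.star_eq, hG.isSelfAdjoint.star_eq] at this
  have e1 : (E - G) * (1 - F) * (E - G) = E * (1 - F) * E := by
    have a1 : (E - G) * (1 - F) = E * (1 - F) := by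
      rw [sub_mul, mul_sub G, hGF, mul_one, sub_self, sub_zero]
    have a2 : (1 - F) * (E - G) = (1 - F) * E := by
      rw [mul_sub, sub_mul 1 F G, hFG, one_mul, sub_self, sub_zero]
    rw [a1, mul_assoc, a2, ← mul_assoc]
  have h1 : star (C⁻¹ • c) * (C⁻¹ • c) ≤ 1 - F := by
    refine Kd.star_mul_le_compl hF ?_ ?_
    · rw [norm_smul, Real.norm_eq_abs, abs_of_pos (inv_pos.2 hC), inv_mul_le_iff₀ hC, mul_one]
      exact hc
    · rw [smul_mul_assoc, hcF, smul_zero]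
  have h2 := hE.isSelfAdjoint.conjugate_le_conjugate h1
  have e2 : E * (star (C⁻¹ • c) * (C⁻¹ • c)) * E = (C ^ 2)⁻¹ • (E * (star c * c) * E) := by
    rw [star_smul, star_trivial, smul_mul_smul_comm, mul_smul_comm, smul_mul_assoc, sq, mul_inv]
  rw [e1]
  refine le_trans ?_ h2
  rw [e2, div_eq_inv_mul, mul_smul]
  exact smul_le_smul_of_nonneg_left h (by positivity)

/-- the hypothesis of `Kd.angle`.  `hA` for `(T, y ::ₘ S, w)`; the field `c` (`ca Q w = cC (fo Q w 0 w)`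
if `w` is `r₀`-far from `T`, `cC (fo Q b (T.count b) w)` otherwise) has norm `≤ C` (`hO (r₀ + 1) 1`)
and kills `F` (`mem_ZD_cons_of_not_mem`, `mem_ZD_cons_near`, `(T + S).count b = T.count b`), so
`star c * c ≤ C'² • (1 - F)` (`Kd.star_mul_le_compl` for `C'⁻¹ • c`, `C' = max C 1`) and
`E (1 - F) E = (E - G) (1 - F) (E - G)` because `F G = G`. -/
theorem cn_gap (hA : KdAdd) (hO : OlFo) : ∃ (R₀ g : ℝ) (Q₀ : ℕ), 0 < g ∧ ∀ Q, Q₀ ≤ Q → ∀ (T S : Multiset S2) (y w : S2),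
    AdmT Q R₀ T → AdmS Q R₀ (w ::ₘ y ::ₘ S) →
      g • (PD Q (y ::ₘ (T + S)) - PD Q (w ::ₘ y ::ₘ (T + S))) ≤
        (PD Q (y ::ₘ (T + S)) - PD Q (w ::ₘ y ::ₘ (T + S))) * (1 - PD Q (w ::ₘ (T + S))) *
          (PD Q (y ::ₘ (T + S)) - PD Q (w ::ₘ y ::ₘ (T + S))) := by
  classical
  obtain ⟨r₀, R₀, g, Q₀, hr, -, hg, hA⟩ := hA
  obtain ⟨C, hO⟩ := hO (r₀ + 1) 1
  have hC : 0 < max C 1 := lt_max_of_lt_right one_pos
  refine ⟨R₀, g / max C 1 ^ 2, max Q₀ 1, by positivity, fun Q hQ T S y w hT hS => ?_⟩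
  have hQ1 : 1 ≤ Q := (le_max_right _ _).trans hQ
  obtain ⟨h1, h2⟩ := hA Q ((le_max_left _ _).trans hQ) T (y ::ₘ S) w hT hS
  rw [Multiset.add_cons] at h1 h2
  have hFG : PD Q (w ::ₘ (T + S)) * PD Q (w ::ₘ y ::ₘ (T + S)) = PD Q (w ::ₘ y ::ₘ (T + S)) :=
    (PD_mul_of_le (Multiset.cons_le_cons w (Multiset.le_cons_self _ y))).1
  by_cases hfar : ∀ b ∈ T, r₀ ≤ dq Q b w
  · refine h85_gap (c := ca Q w) (PD_proj _ _) (PD_proj _ _) (PD_proj _ _) hFG hC ?_ ?_ (h1 hfar)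
    · have h3 := (hO Q hQ1 w w 0 (by norm_num) (by rw [dq_self]; linarith)).1
      rw [fo_zero] at h3
      exact h3.trans (le_max_left _ _)
    · refine cn_mul_PD fun v hv => ?_
      have h4 : v ∈ ZD Q (w ::ₘ 0) := ZD_anti (Multiset.cons_le_cons w (Multiset.zero_le _)) hv
      exact ((mem_ZD_cons_of_not_mem (Multiset.notMem_zero w)).1 h4).2
  · obtain ⟨b, hb, hbw⟩ : ∃ b ∈ T, dq Q b w ≤ r₀ + 1 := by
      by_contra hcon
      exact hfar fun b hb => by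
        by_contra h5
        exact hcon ⟨b, hb, by linarith [not_le.1 h5]⟩
    have h3 := h2 b hb hbw
    refine h85_gap (PD_proj _ _) (PD_proj _ _) (PD_proj _ _) hFG hC ?_ ?_ h3
    · refine (hO Q hQ1 b w _ ?_ hbw).1.trans (le_max_left _ _)
      convert hT.2 b
    · refine cn_mul_PD fun v hv => ?_
      refine ((mem_ZD_unit hQ1 b w _).1 (ZD_anti (Multiset.cons_le_cons w ?_) hv)).2
      exact (Multiset.le_count_iff_replicate_le.1 le_rfl).trans (Multiset.le_add_right _ _)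

end Crest.Agent.R340.Pin
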