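import Crest.Agent.R340.IfAlg
import Crest.Agent.R340.GeoInt

/-! # Row 340, module CNT: from separated sums to integrals (exchange argument) -/

set_option autoImplicit false

namespace Crest.Agent.R340.Cn

open Matrix MeasureTheory Crest.MathPhysics.Laughlin Crest.Agent.R340.Pin
open scoped Matrix.Norms.L2Operator MatrixOrder ComplexOrder ComplexConjugate

/-- a nearly maximal separated family dominates `F` pointwise -/
theorem exch {ι : Type} (near : ι → ι → Prop) (hs : ∀ i j, near i j → near j i)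
    (hr : ∀ i, near i i) (good : Set ι) (F : ι → ℝ) {Λ η : ℝ} (hη : 0 < η)
    (hΛ : ∀ J : Finset ι, (∀ i ∈ J, i ∈ good) → (∀ i ∈ J, ∀ j ∈ J, i ≠ j → ¬ near i j) →
      ∑ i ∈ J, F i ≤ Λ) :
    ∃ J : Finset ι, ∑ i ∈ J, F i ≤ Λ ∧
      ∀ i ∈ good, F i ≤ ∑ j ∈ J, {i | near j i}.indicator (fun _ => F j) i + η := by
  classical
  set A : Set ℝ := {t | ∃ J : Finset ι, (∀ i ∈ J, i ∈ good) ∧
    (∀ i ∈ J, ∀ j ∈ J, i ≠ j → ¬ near i j) ∧ ∑ i ∈ J, F i = t} with hA
  have hne : A.Nonempty := ⟨0, ∅, by simp, by simp, by simp⟩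
  have hbd : BddAbove A := ⟨Λ, fun t ⟨J, h1, h2, h3⟩ => h3 ▸ hΛ J h1 h2⟩
  obtain ⟨t, ⟨J, h1, h2, rfl⟩, ht⟩ := exists_lt_of_lt_csSup hne (sub_lt_self (sSup A) hη)
  refine ⟨J, hΛ J h1 h2, fun i hi => ?_⟩
  have hi' : i ∉ J.filter fun j => ¬ near j i := fun h => (Finset.mem_filter.1 h).2 (hr i)
  have h3 : ∑ j ∈ insert i (J.filter fun j => ¬ near j i), F j ≤ sSup A := by
    refine le_csSup hbd ⟨_, fun j hj => ?_, fun j hj k hk hjk => ?_, rfl⟩
    · rcases Finset.mem_insert.1 hj with rfl | hj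
      · exact hi
      · exact h1 j (Finset.mem_filter.1 hj).1
    · rcases Finset.mem_insert.1 hj with rfl | hj
      · rcases Finset.mem_insert.1 hk with rfl | hk
        · exact absurd rfl hjk
        · exact fun h => (Finset.mem_filter.1 hk).2 (hs _ _ h)
      · rcases Finset.mem_insert.1 hk with rfl | hk
        · exact (Finset.mem_filter.1 hj).2
        · exact h2 j (Finset.mem_filter.1 hj).1 k (Finset.mem_filter.1 hk).1 hjk
  rw [Finset.sum_insert hi'] at h3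
  have h4 := Finset.sum_filter_add_sum_filter_not J (fun j => near j i) F
  have h5 : ∑ j ∈ J, {i | near j i}.indicator (fun _ => F j) i =
      ∑ j ∈ J.filter (fun j => near j i), F j := by
    rw [Finset.sum_filter]
    refine Finset.sum_congr rfl fun j _ => ?_
    simp only [Set.indicator_apply, Set.mem_ofPred_eq]
  rw [h5]
  linarith

theorem int_le_of_sep {ι : Type} [MeasurableSpace ι] (ν : Measure ι) [IsFiniteMeasure ν]
    (near : ι → ι → Prop) (hs : ∀ i j, near i j → near j i) (hr : ∀ i, near i i)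
    (hm : ∀ j, MeasurableSet {i | near j i}) {V Λ : ℝ} (hV0 : 0 ≤ V)
    (hV : ∀ j, ν.real {i | near j i} ≤ V) (good : Set ι) (hg : ∀ᵐ i ∂ν, i ∈ good) (f F : ι → ℝ)
    (hF : ∀ i, 0 ≤ F i) (hf : ∀ i ∈ good, f i ≤ F i)
    (hΛ : ∀ J : Finset ι, (∀ i ∈ J, i ∈ good) → (∀ i ∈ J, ∀ j ∈ J, i ≠ j → ¬ near i j) →
      ∑ i ∈ J, F i ≤ Λ) : ∫ i, f i ∂ν ≤ V * Λ := by
  have hΛ0 : 0 ≤ Λ := by simpa using hΛ ∅ (by simp) (by simp)
  by_cases hint : Integrable f ν
  swap
  · rw [integral_undef hint]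
    exact mul_nonneg hV0 hΛ0
  refine le_of_forall_pos_le_add fun ε hε => ?_
  have hm0 : 0 ≤ ν.real Set.univ := measureReal_nonneg
  obtain ⟨J, hJ, h⟩ := exch near hs hr good F (η := ε / (ν.real Set.univ + 1)) (by positivity) hΛ
  have hi : ∀ j ∈ J, Integrable ({i | near j i}.indicator fun _ => F j) ν := fun j _ =>
    (integrable_const (F j)).indicator (hm j)
  have h1 : ∫ i, f i ∂ν ≤ ∫ i, (∑ j ∈ J, {i | near j i}.indicator (fun _ => F j) i +
      ε / (ν.real Set.univ + 1)) ∂ν :=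
    integral_mono_ae hint ((integrable_finsetSum J hi).add (integrable_const _))
      (hg.mono fun i hi => (hf i hi).trans (h i hi))
  rw [integral_add (integrable_finsetSum J hi) (integrable_const _), integral_finsetSum J hi,
    integral_const, smul_eq_mul] at h1
  have h2 : ∑ j ∈ J, ∫ i, {i | near j i}.indicator (fun _ => F j) i ∂ν ≤ ∑ j ∈ J, V * F j := by
    refine Finset.sum_le_sum fun j _ => ?_
    rw [integral_indicator_const _ (hm j), smul_eq_mul]
    exact mul_le_mul_of_nonneg_right (hV j) (hF j)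
  rw [← Finset.mul_sum] at h2
  have h3 : V * ∑ j ∈ J, F j ≤ V * Λ := mul_le_mul_of_nonneg_left hJ hV0
  have h4 : ν.real Set.univ * (ε / (ν.real Set.univ + 1)) ≤ ε := by
    rw [mul_div_assoc', div_le_iff₀ (by positivity)]
    nlinarith
  linarith

theorem maj_of_sep {ι : Type} [MeasurableSpace ι] (ν : Measure ι) [IsFiniteMeasure ν]
    (near : ι → ι → Prop) (hs : ∀ i j, near i j → near j i) (hr : ∀ i, near i i)
    (hm : ∀ j, MeasurableSet {i | near j i}) {V Λ : ℝ} (hV0 : 0 ≤ V)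
    (hV : ∀ j, ν.real {i | near j i} ≤ V) (F : ι → ℝ) (hF : ∀ i, 0 ≤ F i)
    (hΛ : ∀ J : Finset ι, (∀ i ∈ J, ∀ j ∈ J, i ≠ j → ¬ near i j) → ∑ i ∈ J, F i ≤ Λ) :
    ∃ g : ι → ℝ, Integrable g ν ∧ (∀ i, 0 ≤ g i) ∧ (∀ i, F i ≤ g i) ∧
      ∫ i, g i ∂ν ≤ (V + 1) * Λ := by
  have hΛ0 : 0 ≤ Λ := by simpa using hΛ ∅ (by simp)
  rcases hΛ0.eq_or_lt with h0 | hpos
  · refine ⟨fun _ => 0, integrable_const _, fun _ => le_rfl, fun i => ?_, by simp [← h0]⟩
    simpa [← h0] using hΛ {i} (by simp)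
  have hm0 : 0 ≤ ν.real Set.univ := measureReal_nonneg
  obtain ⟨J, hJ, h⟩ := exch near hs hr Set.univ F (η := Λ / (ν.real Set.univ + 1))
    (by positivity) fun J _ => hΛ J
  have hi : ∀ j ∈ J, Integrable ({i | near j i}.indicator fun _ => F j) ν := fun j _ =>
    (integrable_const (F j)).indicator (hm j)
  refine ⟨fun i => ∑ j ∈ J, {i | near j i}.indicator (fun _ => F j) i +
    Λ / (ν.real Set.univ + 1), (integrable_finsetSum J hi).add (integrable_const _),
    fun i => (hF i).trans (h i trivial), fun i => h i trivial, ?_⟩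
  rw [integral_add (integrable_finsetSum J hi) (integrable_const _), integral_finsetSum J hi,
    integral_const, smul_eq_mul]
  have h2 : ∑ j ∈ J, ∫ i, {i | near j i}.indicator (fun _ => F j) i ∂ν ≤ ∑ j ∈ J, V * F j := by
    refine Finset.sum_le_sum fun j _ => ?_
    rw [integral_indicator_const _ (hm j), smul_eq_mul]
    exact mul_le_mul_of_nonneg_right (hV j) (hF j)
  rw [← Finset.mul_sum] at h2
  have h3 : V * ∑ j ∈ J, F j ≤ V * Λ := mul_le_mul_of_nonneg_left hJ hV0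
  have h4 : ν.real Set.univ * (Λ / (ν.real Set.univ + 1)) ≤ Λ := by
    rw [mul_div_assoc', div_le_iff₀ (by positivity)]
    nlinarith
  linarith

theorem nq_nonneg' {ι : Type} [Fintype ι] (v : ι → ℂ) : 0 ≤ nq v := by
  unfold nq
  exact (Complex.nonneg_iff.1 (dotProduct_star_self_nonneg v)).1

/-- `cnt_int` from `cnt_sum` -/
theorem cnt_int_of {α a : ℝ} (G : ℝ)
    (hsum : ∃ (R₀ C : ℝ) (Q₀ : ℕ), 0 ≤ C ∧ ∀ Q, Q₀ ≤ Q → ∀ (T : Multiset S2) (S : Finset S2),
      AdmT Q R₀ T → Sep Q R₀ S.val → ∀ (N : ℕ) (v : FV Q), 1 ≤ N → InZ Q T N v →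
        ∀ (B : ℝ) (X : S2 → Fk (Q + 1)), (∀ w ∈ S, NL Q α a B w (X w)) →
          ∑ w ∈ S, nq ((PD Q (w ::ₘ T) * X w) *ᵥ v) ≤ C * B ^ 2 * nfree Q T N * nq v) :
    ∃ (R₀ C : ℝ) (Q₀ : ℕ), 0 ≤ C ∧ ∀ Q, Q₀ ≤ Q → ∀ T : Multiset S2, AdmT Q R₀ T →
      ∀ (N : ℕ) (v : FV Q), 1 ≤ N → InZ Q T N v →
        ∀ (ι : Type) [MeasurableSpace ι] (ν : Measure ι) (x : ι → S2), Sites Q G ν x →
          ∀ (B : ℝ) (f : ι → ℝ), (∀ᵐ i ∂ν, ∃ X, NL Q α a B (x i) X ∧
            f i ≤ nq ((PD Q (x i ::ₘ T) * X) *ᵥ v)) →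
            ∫ i, f i ∂ν ≤ C * B ^ 2 * nfree Q T N * nq v := by
  classical
  obtain ⟨R₀, C, Q₀, hC, h⟩ := hsum
  set R : ℝ := max R₀ 1 with hR
  have hR1 : 1 ≤ R := le_max_right _ _
  refine ⟨R₀, |G| * (1 + R) ^ 2 * C, Q₀, by positivity,
    fun Q hQ T hT N v hN hv ι _ ν x hx B f hf => ?_⟩
  have := hx.fin
  set good : Set ι := {i | ∃ X, NL Q α a B (x i) X ∧ f i ≤ nq ((PD Q (x i ::ₘ T) * X) *ᵥ v)}
  have hch : ∀ i, ∃ X, i ∈ good →
      NL Q α a B (x i) X ∧ f i ≤ nq ((PD Q (x i ::ₘ T) * X) *ᵥ v) := fun i => by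
    by_cases hi : i ∈ good
    · obtain ⟨X, hX⟩ := hi
      exact ⟨X, fun _ => hX⟩
    · exact ⟨0, fun h => absurd h hi⟩
  choose X hX using hch
  have key := int_le_of_sep ν (fun j i => dq Q (x i) (x j) < R)
    (fun i j h => by rwa [dq_symm]) (fun i => by rw [dq_self]; linarith)
    (fun j => measurableSet_lt (((continuous_dq Q).comp
      (continuous_id.prodMk continuous_const)).measurable.comp hx.meas) measurable_const)
    (V := |G| * (1 + R) ^ 2) (Λ := C * B ^ 2 * nfree Q T N * nq v) (by positivity)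
    (fun j => by
      have e1 : ν.real {i | dq Q (x i) (x j) < R} ≤ ν.real {i | dq Q (x i) (x j) ≤ R} :=
        measureReal_mono (fun i (hi : dq Q (x i) (x j) < R) => (le_of_lt hi : dq Q (x i) (x j) ≤ R))
          (measure_ne_top _ _)
      have e2 := hx.growth (x j) R (by linarith)
      have e3 : G * (1 + R) ^ 2 ≤ |G| * (1 + R) ^ 2 :=
        mul_le_mul_of_nonneg_right (le_abs_self G) (by positivity)
      exact e1.trans (e2.trans e3))
    good hf f (fun i => nq ((PD Q (x i ::ₘ T) * X i) *ᵥ v)) (fun i => nq_nonneg' _)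
    (fun i hi => (hX i hi).2) fun J hJ hsep => by
      have hinj : Set.InjOn x J := fun i hi j hj hij => by
        by_contra hne
        exact hsep i hi j hj hne (by rw [hij, dq_self]; linarith)
      have hch : ∀ w, ∃ Y, ∀ i ∈ J, x i = w → Y = X i := fun w => by
        by_cases hw : ∃ i ∈ J, x i = w
        · obtain ⟨i, hi, rfl⟩ := hw
          exact ⟨X i, fun j hj hij => by rw [hinj hj hi hij]⟩
        · exact ⟨0, fun i hi hw' => absurd ⟨i, hi, hw'⟩ hw⟩
      choose Y hY using hch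
      have h1 := h Q hQ T (J.image x) hT (fun b hb c hc hbc => by
        obtain ⟨i, hi, rfl⟩ := Finset.mem_image.1 hb
        obtain ⟨j, hj, rfl⟩ := Finset.mem_image.1 hc
        exact (le_max_left _ _).trans (not_lt.1 (hsep j hj i hi fun e => hbc (by rw [e]))))
        N v hN hv B Y (fun w hw => by
          obtain ⟨i, hi, rfl⟩ := Finset.mem_image.1 hw
          rw [hY _ i hi rfl]
          exact (hX i (hJ i hi)).1)
      rw [Finset.sum_image hinj] at h1
      refine le_of_eq_of_le (Finset.sum_congr rfl fun i hi => ?_) h1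
      rw [hY _ i hi rfl]
  calc _ ≤ _ := key
    _ = _ := by ring

/-- majorant form -/
theorem cnt_maj_of {α a : ℝ} (G : ℝ)
    (hsum : ∃ (R₀ C : ℝ) (Q₀ : ℕ), 0 ≤ C ∧ ∀ Q, Q₀ ≤ Q → ∀ (T : Multiset S2) (S : Finset S2),
      AdmT Q R₀ T → Sep Q R₀ S.val → ∀ (N : ℕ) (v : FV Q), 1 ≤ N → InZ Q T N v →
        ∀ (B : ℝ) (X : S2 → Fk (Q + 1)), (∀ w ∈ S, NL Q α a B w (X w)) →
          ∑ w ∈ S, nq ((PD Q (w ::ₘ T) * X w) *ᵥ v) ≤ C * B ^ 2 * nfree Q T N * nq v) :
    ∃ (R₀ C : ℝ) (Q₀ : ℕ), 0 ≤ C ∧ ∀ Q, Q₀ ≤ Q → ∀ T : Multiset S2, AdmT Q R₀ T →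
      ∀ (N : ℕ) (v : FV Q), 1 ≤ N → InZ Q T N v →
        ∀ (ι : Type) [MeasurableSpace ι] (ν : Measure ι) (x : ι → S2), Sites Q G ν x →
          ∀ (B : ℝ) (X : ι → Fk (Q + 1)), (∀ i, NL Q α a B (x i) (X i)) →
            ∃ g : ι → ℝ, Integrable g ν ∧ (∀ i, 0 ≤ g i) ∧
              (∀ i, nq ((PD Q (x i ::ₘ T) * X i) *ᵥ v) ≤ g i) ∧
              ∫ i, g i ∂ν ≤ C * B ^ 2 * nfree Q T N * nq v := by
  classical
  obtain ⟨R₀, C, Q₀, hC, h⟩ := hsum
  set R : ℝ := max R₀ 1 with hR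
  have hR1 : 1 ≤ R := le_max_right _ _
  refine ⟨R₀, (|G| * (1 + R) ^ 2 + 1) * C, Q₀, by positivity,
    fun Q hQ T hT N v hN hv ι _ ν x hx B X hX => ?_⟩
  have := hx.fin
  obtain ⟨g, g1, g2, g3, g4⟩ := maj_of_sep ν (fun j i => dq Q (x i) (x j) < R)
    (fun i j h => by rwa [dq_symm]) (fun i => by rw [dq_self]; linarith)
    (fun j => measurableSet_lt (((continuous_dq Q).comp
      (continuous_id.prodMk continuous_const)).measurable.comp hx.meas) measurable_const)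
    (V := |G| * (1 + R) ^ 2) (Λ := C * B ^ 2 * nfree Q T N * nq v) (by positivity)
    (fun j => by
      have e1 : ν.real {i | dq Q (x i) (x j) < R} ≤ ν.real {i | dq Q (x i) (x j) ≤ R} :=
        measureReal_mono (fun i (hi : dq Q (x i) (x j) < R) => (le_of_lt hi : dq Q (x i) (x j) ≤ R))
          (measure_ne_top _ _)
      have e2 := hx.growth (x j) R (by linarith)
      have e3 : G * (1 + R) ^ 2 ≤ |G| * (1 + R) ^ 2 :=
        mul_le_mul_of_nonneg_right (le_abs_self G) (by positivity)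
      exact e1.trans (e2.trans e3))
    (fun i => nq ((PD Q (x i ::ₘ T) * X i) *ᵥ v)) (fun i => nq_nonneg' _)
    fun J hsep => by
      have hinj : Set.InjOn x J := fun i hi j hj hij => by
        by_contra hne
        exact hsep i hi j hj hne (by rw [hij, dq_self]; linarith)
      have hch : ∀ w, ∃ Y, ∀ i ∈ J, x i = w → Y = X i := fun w => by
        by_cases hw : ∃ i ∈ J, x i = w
        · obtain ⟨i, hi, rfl⟩ := hw
          exact ⟨X i, fun j hj hij => by rw [hinj hj hi hij]⟩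
        · exact ⟨0, fun i hi hw' => absurd ⟨i, hi, hw'⟩ hw⟩
      choose Y hY using hch
      have h1 := h Q hQ T (J.image x) hT (fun b hb c hc hbc => by
        obtain ⟨i, hi, rfl⟩ := Finset.mem_image.1 hb
        obtain ⟨j, hj, rfl⟩ := Finset.mem_image.1 hc
        exact (le_max_left _ _).trans (not_lt.1 (hsep j hj i hi fun e => hbc (by rw [e]))))
        N v hN hv B Y (fun w hw => by
          obtain ⟨i, hi, rfl⟩ := Finset.mem_image.1 hw
          rw [hY _ i hi rfl]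
          exact hX i)
      rw [Finset.sum_image hinj] at h1
      refine le_of_eq_of_le (Finset.sum_congr rfl fun i hi => ?_) h1
      rw [hY _ i hi rfl]
  exact ⟨g, g1, g2, g3, g4.trans_eq (by ring)⟩

end Crest.Agent.R340.Cn
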