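import Crest.Agent.R340.IfAlg
import Crest.Agent.R340.IfLoc

/-! # Row 340, module CNT: from the discrete count to the integral form (architect helper6) -/

set_option autoImplicit false

namespace Crest.Agent.R340.Pin

open Matrix MeasureTheory Crest.MathPhysics.Laughlin
open scoped Matrix.Norms.L2Operator MatrixOrder ComplexOrder ComplexConjugate

/-- GREEDY SELECTION.  `val w t`: the value `t` is achievable at `w`.  Induction on `n` (for all `Ω`):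
if some positive value is achievable in `Ω`, take `(w₁, t₁)` with `t₁ > sup / 2` and apply the
induction hypothesis to `Ω ∩ {w | R ≤ d w w₁}`; otherwise take `S = ∅`. -/
theorem cn_greedy {X : Type} (d : X → X → ℝ) (hd : ∀ x y, d x y = d y x) (hd0 : ∀ x, d x x = 0)
    {R M : ℝ} (hR : 0 < R) (val : X → ℝ → Prop) (hM : ∀ w t, val w t → 0 ≤ t ∧ t ≤ M) (n : ℕ)
    (Ω : Set X) (hn : ∀ S : Finset X, (∀ s ∈ S, s ∈ Ω) → (∀ a ∈ S, ∀ b ∈ S, a ≠ b → R ≤ d a b) →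
      S.card ≤ n) :
    ∃ (S : Finset X) (t : X → ℝ), (∀ s ∈ S, s ∈ Ω ∧ val s (t s)) ∧
      (∀ a ∈ S, ∀ b ∈ S, a ≠ b → R ≤ d a b) ∧
      ∀ w ∈ Ω, ∀ t', val w t' → t' ≤ 0 ∨ ∃ s ∈ S, d w s ≤ R ∧ t' ≤ 2 * t s := by
  classical
  induction n generalizing Ω with
  | zero =>
    refine ⟨∅, fun _ => 0, by simp, by simp, fun w hw t' _ => ?_⟩
    have := hn {w} (by simpa using hw) (by simp)
    simp at this
  | succ n ih =>
    by_cases h0 : ∀ w ∈ Ω, ∀ t', val w t' → t' ≤ 0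
    · exact ⟨∅, fun _ => 0, by simp, by simp, fun w hw t' ht => Or.inl (h0 w hw t' ht)⟩
    push Not at h0
    obtain ⟨w₀, hw₀, t₀, hv₀, ht₀⟩ := h0
    have hb : BddAbove {t | ∃ w ∈ Ω, val w t} := ⟨M, fun t ⟨w, _, h⟩ => (hM w t h).2⟩
    have h1 : t₀ ≤ sSup {t | ∃ w ∈ Ω, val w t} := le_csSup hb ⟨w₀, hw₀, hv₀⟩
    obtain ⟨t₁, ⟨w₁, hw₁, hv₁⟩, ht₁⟩ := exists_lt_of_lt_csSup (s := {t | ∃ w ∈ Ω, val w t})
      ⟨t₀, w₀, hw₀, hv₀⟩ (half_lt_self (ht₀.trans_le h1))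
    have hne : ∀ s ∈ Ω ∩ {w | R ≤ d w w₁}, s ≠ w₁ := by
      rintro s hs rfl
      have h2 : R ≤ d s s := hs.2
      rw [hd0] at h2
      linarith
    have sep : ∀ S : Finset X, (∀ s ∈ S, s ∈ Ω ∩ {w | R ≤ d w w₁}) →
        (∀ a ∈ S, ∀ b ∈ S, a ≠ b → R ≤ d a b) →
        ∀ a ∈ insert w₁ S, ∀ b ∈ insert w₁ S, a ≠ b → R ≤ d a b := by
      intro S h2 h3 a ha b hb hab
      rcases Finset.mem_insert.1 ha with h4 | h4 <;> rcases Finset.mem_insert.1 hb with h5 | h5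
      · exact absurd (h4.trans h5.symm) hab
      · rw [hd, h4]; exact (h2 b h5).2
      · rw [h5]; exact (h2 a h4).2
      · exact h3 a h4 b h5 hab
    obtain ⟨S, t, h2, h3, h4⟩ := ih (Ω ∩ {w | R ≤ d w w₁}) fun S h2 h3 => by
      have h5 := hn (insert w₁ S) (fun s hs => by
        rcases Finset.mem_insert.1 hs with rfl | hs
        exacts [hw₁, (h2 s hs).1]) (sep S h2 h3)
      rw [Finset.card_insert_of_notMem fun h => hne _ (h2 _ h) rfl] at h5
      omega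
    refine ⟨insert w₁ S, Function.update t w₁ t₁, fun s hs => ?_, sep S (fun s hs => (h2 s hs).1) h3,
      fun w hw t' ht' => ?_⟩
    · rcases Finset.mem_insert.1 hs with rfl | hs
      · rw [Function.update_self]; exact ⟨hw₁, hv₁⟩
      · rw [Function.update_of_ne (hne s (h2 s hs).1)]; exact ⟨(h2 s hs).1.1, (h2 s hs).2⟩
    · rcases le_total R (d w w₁) with h5 | h5
      · refine (h4 w ⟨hw, h5⟩ t' ht').imp_right fun ⟨s, hs, h6, h7⟩ =>
          ⟨s, Finset.mem_insert_of_mem hs, h6, ?_⟩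
        rwa [Function.update_of_ne (hne s (h2 s hs).1)]
      · refine Or.inr ⟨w₁, Finset.mem_insert_self _ _, h5, ?_⟩
        have h6 : t' ≤ sSup {t | ∃ w ∈ Ω, val w t} := le_csSup hb ⟨w, hw, ht'⟩
        rw [Function.update_self]
        linarith

/-- the statement of `cnt_sum` -/
def CntSum (α a : ℝ) : Prop :=
  ∃ (R₀ C : ℝ) (Q₀ : ℕ), 0 ≤ C ∧ ∀ Q, Q₀ ≤ Q → ∀ (T : Multiset S2) (S : Finset S2),
    AdmT Q R₀ T → Sep Q R₀ S.val → ∀ (N : ℕ) (v : FV Q), 1 ≤ N → InZ Q T N v →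
      ∀ (B : ℝ) (X : S2 → Fk (Q + 1)), (∀ w ∈ S, NL Q α a B w (X w)) →
        ∑ w ∈ S, nq ((PD Q (w ::ₘ T) * X w) *ᵥ v) ≤ C * B ^ 2 * nfree Q T N * nq v

/-- Take `R = max R₀ 1`, `Q₀' = max Q₀ 1`, `C' = 2 |G| (1 + R)² C`.  `cn_greedy` with `d = dq Q`,
`val w t := ∃ X, NL Q α a B w X ∧ t = nq ((PD Q (w ::ₘ T) * X) *ᵥ v)` (bounded: a finite sum of
squares of entries, or `cnt_sum` for `S = {w}`), `n` from `card_ball_le` with `r = √Q` (`dq_le`).
Then a.e. `f i ≤ ∑ s ∈ S, indicator {i | dq Q (x i) s ≤ R} (2 * t s) i`; `integral_mono_ae` if `f` is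
integrable, `integral_undef` otherwise (the right side is `≥ 0`: `hS` with `S = ∅`). -/
theorem cnt_int_of {α a : ℝ} (G : ℝ) (hS : CntSum α a) :
    ∃ (R₀ C : ℝ) (Q₀ : ℕ), 0 ≤ C ∧ ∀ Q, Q₀ ≤ Q → ∀ T : Multiset S2, AdmT Q R₀ T →
      ∀ (N : ℕ) (v : FV Q), 1 ≤ N → InZ Q T N v →
        ∀ (ι : Type) [MeasurableSpace ι] (ν : Measure ι) (x : ι → S2), Sites Q G ν x →
          ∀ (B : ℝ) (f : ι → ℝ), (∀ᵐ i ∂ν, ∃ X, NL Q α a B (x i) X ∧
            f i ≤ nq ((PD Q (x i ::ₘ T) * X) *ᵥ v)) →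
            ∫ i, f i ∂ν ≤ C * B ^ 2 * nfree Q T N * nq v := by
  classical
  obtain ⟨R₀, C, Q₀, hC, hS⟩ := hS
  obtain ⟨G', hG'⟩ := card_ball_le
  set R := max R₀ 1 with hRdef
  have hR1 : 1 ≤ R := le_max_right _ _
  have hR0 : R₀ ≤ R := le_max_left _ _
  refine ⟨R, |G| * (1 + R) ^ 2 * 2 * C, max Q₀ 1, by positivity,
    fun Q hQ T hT N v hN hv ι _ ν x hx B f hf => ?_⟩
  have hQ0 : Q₀ ≤ Q := (le_max_left _ _).trans hQ
  have hQ1 : 1 ≤ Q := (le_max_right _ _).trans hQ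
  have hT0 : AdmT Q R₀ T := ⟨fun a ha b hb hab => hR0.trans (hT.1 a ha b hb hab), hT.2⟩
  have hnq : ∀ u : FV Q, 0 ≤ nq u := fun u => by
    have := (Complex.nonneg_iff.1 (dotProduct_star_self_nonneg u)).1
    exact this
  set Z := C * B ^ 2 * nfree Q T N * nq v with hZ
  have hsum : ∀ (S : Finset S2) (X : S2 → Fk (Q + 1)),
      (∀ a ∈ S, ∀ b ∈ S, a ≠ b → R ≤ dq Q a b) → (∀ w ∈ S, NL Q α a B w (X w)) →
      ∑ w ∈ S, nq ((PD Q (w ::ₘ T) * X w) *ᵥ v) ≤ Z := fun S X h1 h2 =>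
    hS Q hQ0 T S hT0 (fun a ha b hb hab => hR0.trans (h1 a ha b hb hab)) N v hN hv B X h2
  have hZ0 : 0 ≤ Z := by simpa using hsum ∅ (fun _ => 0) (by simp) (by simp)
  obtain ⟨S, t, h1, h2, h3⟩ := cn_greedy (dq Q) (dq_symm Q) (fun y => by simp [dq])
    (R := R) (M := Z) (by linarith)
    (fun w t => ∃ X, NL Q α a B w X ∧ t = nq ((PD Q (w ::ₘ T) * X) *ᵥ v))
    (by
      rintro w t ⟨X, hX, rfl⟩
      refine ⟨hnq _, ?_⟩
      simpa using hsum {w} (fun _ => X) (by simp) (by simpa using hX))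
    ⌈G' * (1 + Real.sqrt Q / R) ^ 2⌉₊ Set.univ
    (by
      intro S _ hsep
      have := hG' Q hQ1 R S hR1 hsep (ster 0) (Real.sqrt Q) (Real.sqrt_nonneg _)
      rw [Finset.filter_true_of_mem fun b _ => dq_le Q b _] at this
      exact_mod_cast this.trans (Nat.le_ceil _))
  choose! X hX using fun s hs => (h1 s hs).2
  have ht0 : ∀ s ∈ S, 0 ≤ t s := fun s hs => (hX s hs).2 ▸ hnq _
  have hts : ∑ s ∈ S, t s ≤ Z := by
    rw [Finset.sum_congr rfl fun s hs => (hX s hs).2]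
    exact hsum S X h2 fun s hs => (hX s hs).1
  have hfin := hx.fin
  have hm : ∀ s, MeasurableSet {i | dq Q (x i) s ≤ R} := fun s =>
    measurableSet_le (((continuous_dq Q).comp
      (continuous_id.prodMk continuous_const)).measurable.comp hx.meas) measurable_const
  have hi : ∀ s ∈ S, Integrable ({i | dq Q (x i) s ≤ R}.indicator fun _ => 2 * t s) ν :=
    fun s _ => (integrable_const _).indicator (hm s)
  have e : |G| * (1 + R) ^ 2 * 2 * C * B ^ 2 * nfree Q T N * nq v = |G| * (1 + R) ^ 2 * 2 * Z := by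
    rw [hZ]; ring
  rw [e]
  by_cases hfi : Integrable f ν
  swap
  · rw [integral_undef hfi]; positivity
  have hle : f ≤ᵐ[ν] fun i => ∑ s ∈ S, {i | dq Q (x i) s ≤ R}.indicator (fun _ => 2 * t s) i := by
    filter_upwards [hf] with i hi
    obtain ⟨Y, hY, hfY⟩ := hi
    have hnn : ∀ s ∈ S, 0 ≤ {i | dq Q (x i) s ≤ R}.indicator (fun _ => 2 * t s) i := fun s hs =>
      Set.indicator_nonneg (fun _ _ => by linarith [ht0 s hs]) i
    rcases h3 (x i) trivial _ ⟨Y, hY, rfl⟩ with h | ⟨s, hs, h4, h5⟩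
    · exact (hfY.trans h).trans (Finset.sum_nonneg hnn)
    · refine (hfY.trans h5).trans (le_trans (le_of_eq ?_) (Finset.single_le_sum hnn hs))
      rw [Set.indicator_of_mem (show i ∈ {i | dq Q (x i) s ≤ R} from h4)]
  refine (integral_mono_ae hfi (integrable_finsetSum _ hi) hle).trans ?_
  rw [integral_finsetSum _ hi]
  calc ∑ s ∈ S, ∫ i, {i | dq Q (x i) s ≤ R}.indicator (fun _ => 2 * t s) i ∂ν
      ≤ ∑ s ∈ S, |G| * (1 + R) ^ 2 * 2 * t s := by
        refine Finset.sum_le_sum fun s hs => ?_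
        rw [integral_indicator_const _ (hm s), smul_eq_mul, mul_assoc]
        refine mul_le_mul_of_nonneg_right ((hx.growth s R (by linarith)).trans ?_)
          (by linarith [ht0 s hs])
        exact mul_le_mul_of_nonneg_right (le_abs_self G) (sq_nonneg _)
    _ = |G| * (1 + R) ^ 2 * 2 * ∑ s ∈ S, t s := by rw [Finset.mul_sum]
    _ ≤ _ := mul_le_mul_of_nonneg_left hts (by positivity)

end Crest.Agent.R340.Pin
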