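import Crest.Agent.R340.CnAux
import Crest.Agent.R340.CnInt

/-! # Row 340, module CNT: the block estimate and the discrete count (architect helper6) -/

set_option autoImplicit false

namespace Crest.Agent.R340.Pin

open Matrix MeasureTheory Crest.MathPhysics.Laughlin
open scoped Matrix.Norms.L2Operator MatrixOrder ComplexOrder ComplexConjugate

/-- the off-diagonal blocks -/
theorem cn_block (hP : KdParent) (hA : KdAdd) (hO : OlFo) (hπ : KdPi) {α a : ℝ} (h0 : 0 < α)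
    (h1 : α ≤ 1 / 2) (ha : 0 < a) :
    ∃ (R₀ Ce a' : ℝ) (Q₀ : ℕ), 0 ≤ Ce ∧ 0 < a' ∧ ∀ Q, Q₀ ≤ Q → ∀ (T S : Multiset S2) (y w : S2),
      AdmT Q R₀ T → AdmS Q R₀ (w ::ₘ y ::ₘ S) → ∀ (B : ℝ) (X X' : Fk (Q + 1)),
        NL Q α a B y X → NL Q α a B w X' →
          ‖PD Q (y ::ₘ (T + S)) * X * PD Q (T + S) * star X' * PD Q (w ::ₘ (T + S)) -
            PD Q (y ::ₘ (T + S)) * star X' * PD Q (w ::ₘ y ::ₘ (T + S)) * X *
              PD Q (w ::ₘ (T + S))‖ ≤ Ce * B ^ 2 * wt (α / 2) a' (dq Q y w) := by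
  sorry

theorem cnt_sum_of (hP : KdParent) (hA : KdAdd) (hO : OlFo) (hπ : KdPi) {α a : ℝ} (h0 : 0 < α)
    (h1 : α ≤ 1 / 2) (ha : 0 < a) : CntSum α a := by
  sorry

end Crest.Agent.R340.Pin
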