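import Crest.Agent.R340.IfKD

/-! # Row 340, module CNT: the discrete COUNT bound (helper68) -/

set_option autoImplicit false

namespace Crest.Agent.R340.Pin

open Matrix MeasureTheory Crest.MathPhysics.Laughlin
open scoped Matrix.Norms.L2Operator MatrixOrder ComplexOrder ComplexConjugate

open Classical in
theorem c68_angle : ∃ (R₀ κ : ℝ) (Q₀ : ℕ), 0 ≤ κ ∧ ∀ Q, Q₀ ≤ Q → ∀ (T S : Multiset S2) (y y' : S2),
    AdmT Q R₀ T → AdmS Q R₀ (y' ::ₘ y ::ₘ S) → ∀ ε : ℝ,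
      ‖PD Q (y ::ₘ (T + S)) * PD Q (y' ::ₘ (T + S)) - PD Q (y' ::ₘ (T + S)) * PD Q (y ::ₘ (T + S))‖ ≤ ε →
      ‖PD Q (y ::ₘ (T + S)) * PD Q (y' ::ₘ (T + S)) - PD Q (y' ::ₘ y ::ₘ (T + S))‖ ≤ κ * ε := by
  obtain ⟨r, R₀, g, Q₀, hr, -, hg, H⟩ := kd_add
  obtain ⟨C, hC, HC'⟩ := OL_fo_b (r + 1) 1
  refine ⟨R₀, (Real.sqrt (g / (C ^ 2 + 1)))⁻¹, max Q₀ 1, by positivity,
    fun Q hQ T S y y' hT hS ε hε => ?_⟩
  have hQ1 : 1 ≤ Q := le_of_max_le_right hQ
  obtain ⟨H1, H2⟩ := H Q (le_of_max_le_left hQ) T (y ::ₘ S) y' hT hS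
  rw [Multiset.add_cons] at H1 H2
  have key : ∃ (b : S2) (m : ℕ), dq Q b y' ≤ r + 1 ∧ Multiset.replicate m b ≤ T ∧
      g • (PD Q (y ::ₘ (T + S)) - PD Q (y' ::ₘ y ::ₘ (T + S))) ≤ PD Q (y ::ₘ (T + S)) *
        (star (cC (fo Q b m y')) * cC (fo Q b m y')) * PD Q (y ::ₘ (T + S)) := by
    by_cases h : ∀ b ∈ T, r ≤ dq Q b y'
    · refine ⟨y', 0, by rw [dq_self]; linarith, by simp, ?_⟩
      rw [fo_zero]
      exact H1 h
    · push Not at h
      obtain ⟨b, hb, hb'⟩ := h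
      exact ⟨b, T.count b, by linarith, Multiset.le_count_iff_replicate_le.mp le_rfl,
        H2 b hb (by linarith)⟩
  obtain ⟨b, m, hb, hm, hle⟩ := key
  set E := PD Q (y ::ₘ (T + S))
  set F := PD Q (y' ::ₘ (T + S))
  set G := PD Q (y' ::ₘ y ::ₘ (T + S))
  set c := cC (fo Q b m y')
  have hE : IsStarProjection E := PD_proj _ _
  have hF : IsStarProjection F := PD_proj _ _
  have hG : IsStarProjection G := PD_proj _ _
  have eG := PD_mul_of_le (Q := Q) (Multiset.le_cons_self (y ::ₘ (T + S)) y')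
  have fG := PD_mul_of_le (Q := Q)
    (Multiset.cons_le_cons y' (Multiset.le_cons_self (T + S) y))
  have cF : c * F = 0 :=
    fo_kill hQ1 (Multiset.cons_le_cons _ (hm.trans (Multiset.le_add_right _ _)))
  have nc : ‖star c * c‖ ≤ C ^ 2 + 1 := by
    rw [CStarRing.norm_star_mul_self]
    have := (HC' Q hQ1 b y' m hb).1
    nlinarith [norm_nonneg c]
  have h1 : star c * c ≤ (C ^ 2 + 1) • (1 - F) :=
    Kd.le_norm_compl hF (star_mul_self_nonneg c) nc (by rw [mul_assoc, cF, mul_zero])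
  have hD : IsStarProjection (E - G) := hG.sub_of_mul_eq_right hE eG.1
  have dE : (E - G) * E = E - G := by rw [sub_mul, hE.isIdempotentElem.eq, eG.2]
  have eD : E * (E - G) = E - G := by rw [mul_sub, hE.isIdempotentElem.eq, eG.1]
  have dD : (E - G) * (E - G) = E - G := hD.isIdempotentElem.eq
  have h2 := hD.isSelfAdjoint.conjugate_le_conjugate hle
  have h3 := hD.isSelfAdjoint.conjugate_le_conjugate h1
  rw [mul_smul_comm, smul_mul_assoc, dD, dD, ← mul_assoc, ← mul_assoc, dE, mul_assoc _ E, eD] at h2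
  rw [mul_smul_comm, smul_mul_assoc] at h3
  have h4 : (g / (C ^ 2 + 1)) • (E - G) ≤ (E - G) * (1 - F) * (E - G) := by
    have h5 := smul_le_smul_of_nonneg_left (h2.trans h3)
      (show (0 : ℝ) ≤ (C ^ 2 + 1)⁻¹ by positivity)
    rwa [smul_smul, smul_smul, inv_mul_cancel₀ (by positivity), one_smul, inv_mul_eq_div] at h5
  have h6 := Kd.angle hE hF hG eG.1 fG.1 (by positivity) h4 hε
  rwa [div_eq_inv_mul] at h6

theorem c68_block {α a : ℝ} (h0 : 0 < α) (h1 : α ≤ 1 / 2) (ha : 0 < a) :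
    ∃ (R₀ a' κ : ℝ) (Q₀ : ℕ), 0 < a' ∧ 0 ≤ κ ∧ ∀ Q, Q₀ ≤ Q → 1 ≤ Q ∧
      ∀ (T S : Multiset S2) (y y' : S2), AdmT Q R₀ T → AdmS Q R₀ (y' ::ₘ y ::ₘ S) →
        ∀ (B : ℝ) (X X' : Fk (Q + 1)), NL Q α a B y X → NL Q α a B y' X' →
          ‖PD Q (y ::ₘ (T + S)) * X * PD Q (T + S) * star X' * PD Q (y' ::ₘ (T + S)) -
            PD Q (y ::ₘ (T + S)) * star X' * PD Q (y' ::ₘ y ::ₘ (T + S)) * X *
              PD Q (y' ::ₘ (T + S))‖ ≤ κ * B ^ 2 * wt (α / 2) a' (dq Q y y') := by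
  obtain ⟨R₁, g, a₁, C₁, G₁, Q₁, hg, ha₁, H₁⟩ := kd_parent
  obtain ⟨R₂, a₂, C₂, Q₂, ha₂, H₂⟩ := kd_pi
  obtain ⟨R₃, κ, Q₃, hκ, H₃⟩ := c68_angle
  obtain ⟨w, W, Cw, cw, -, hcw, hf, hd, -⟩ := ex_filt hg
  obtain ⟨a₃, K₃, ha₃, hK₃, H₄⟩ := filt_QL (α := α) (a := min a a₁) (C := Real.exp a₁ * C₁) (G := G₁)
    (Cw := Cw) h0 (by linarith) (lt_min ha ha₁) hcw
  obtain ⟨a₅, K₅, ha₅, hK₅, H₅⟩ := comm_QL (α := α / 2) (a := min a₃ a₂) (by positivity)
    (by linarith) (lt_min ha₃ ha₂)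
  set k := Real.exp a₃ * (K₃ * Real.exp a) with hk
  set p := Real.exp a₂ * |C₂| with hp
  have k0 : 0 ≤ k := by positivity
  have p0 : 0 ≤ p := by positivity
  refine ⟨max R₁ (max R₂ R₃), a₅, K₅ * k * k + 2 * k * (K₅ * p * k) + k ^ 2 * (κ * (K₅ * p * p)),
    max (max Q₁ 1) (max Q₂ Q₃), ha₅, by positivity, fun Q hQ => ?_⟩
  have hQ1 : 1 ≤ Q := le_of_max_le_right (le_of_max_le_left hQ)
  refine ⟨hQ1, fun T S y y' hT hS B X X' hX hX' => ?_⟩
  have hB : 0 ≤ B := (norm_nonneg _).trans hX.2.1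
  have l1 : R₁ ≤ max R₁ (max R₂ R₃) := le_max_left _ _
  have l2 : R₂ ≤ max R₁ (max R₂ R₃) := (le_max_left _ _).trans (le_max_right _ _)
  have l3 : R₃ ≤ max R₁ (max R₂ R₃) := (le_max_right _ _).trans (le_max_right _ _)
  obtain ⟨K, hK, hP⟩ := H₁ Q (le_of_max_le_left (le_of_max_le_left hQ)) T S (hT.mono l1 le_rfl)
    (hS.mono l1 ((Multiset.le_cons_self _ _).trans (Multiset.le_cons_self _ _)))
  have hQ2 : Q₂ ≤ Q := le_of_max_le_left (le_of_max_le_right hQ)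
  obtain ⟨π, hπ, -, eπ, eπ2⟩ := H₂ Q hQ2 T S y (hT.mono l2 le_rfl)
    (hS.mono l2 (Multiset.le_cons_self _ _))
  obtain ⟨π', hπ', -, eπ', eπ2'⟩ := H₂ Q hQ2 T S y' (hT.mono l2 le_rfl)
    (hS.mono l2 (Multiset.cons_le_cons _ (Multiset.le_cons_self _ _)))
  have m1 : (0 : ℝ) ≤ min a a₁ := (lt_min ha ha₁).le
  have m2 : (0 : ℝ) ≤ min a₃ a₂ := (lt_min ha₃ ha₂).le
  have hK' := hK.weaken h0 h1 m1 (min_le_right _ _) le_rfl le_rfl
  have hA : ∀ (x : S2) (Y : Fk (Q + 1)), NL Q α a B x Y →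
      NL Q (α / 2) (min a₃ a₂) (k * B) x (Filt.filt w K Y) := by
    intro x Y hY
    refine ⟨hK.nc.filt hY.1 w, ?_⟩
    have h2 := (H₄ Q hQ1 K hK' w hf.int_w hd _ x Y).1 (hY.2.weaken h0 le_rfl m1 (min_le_left _ _))
    refine (h2.weaken (by positivity) le_rfl m2 (min_le_left _ _)).mono (le_of_eq ?_)
    rw [hk]; ring
  have hπw : ∀ (x : S2) (Y : Fk (Q + 1)), NL Q (1 / 4) a₂ C₂ x Y →
      QL Q (α / 2) (min a₃ a₂) p x Y := by
    intro x Y hY
    refine (hY.2.weaken (by positivity) (by linarith) m2 (min_le_right _ _)).mono ?_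
    rw [hp]
    gcongr
    exact le_abs_self _
  have qA := hA y X hX
  have qB := hA y' X' hX'
  have q1 := hπw y π hπ
  have q2 := hπw y' π' hπ'
  have gap := hP.toGap (PD_proj _ _)
  have fA := Kd.filt_ann hf le_rfl gap hP.kill X
  have fB := Kd.filt_ann hf le_rfl gap hP.kill X'
  have e1 := ((H₅ Q hQ1 _ _ y y' _ _ qA.1.ev qA.2).1 qB.2.star).1.1
  have e2 := ((H₅ Q hQ1 _ _ y y' _ _ hπ.1.ev q1).1 qB.2.star).1.1
  have e2' := ((H₅ Q hQ1 _ _ y y' _ _ qA.1.ev qA.2).1 q2).1.1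
  have e3 := ((H₅ Q hQ1 _ _ y y' _ _ hπ.1.ev q1).1 q2).1.1
  have hPp := PD_proj Q (T + S)
  have e4 : ‖PD Q (y ::ₘ (T + S)) * PD Q (y' ::ₘ (T + S)) -
      PD Q (y' ::ₘ (T + S)) * PD Q (y ::ₘ (T + S))‖ ≤ K₅ * p * p * wt (α / 2) a₅ (dq Q y y') := by
    have e : PD Q (y ::ₘ (T + S)) * PD Q (y' ::ₘ (T + S)) -
        PD Q (y' ::ₘ (T + S)) * PD Q (y ::ₘ (T + S)) = (π * π' - π' * π) * PD Q (T + S) := by
      rw [sub_mul, mul_assoc, mul_assoc, eπ, eπ']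
      congr 1
      · rw [← eπ, mul_assoc, (PD_mul_of_le (Multiset.le_cons_self (T + S) y')).1]
      · rw [← eπ', mul_assoc, (PD_mul_of_le (Multiset.le_cons_self (T + S) y)).1]
    rw [e]
    exact (norm_mul_le _ _).trans ((mul_le_of_le_one_right (norm_nonneg _) hPp.norm_le).trans e3)
  have e5 := H₃ Q (le_of_max_le_right (le_of_max_le_right hQ)) T S y y' (hT.mono l3 le_rfl)
    (hS.mono l3 le_rfl) _ e4
  have h := Kd.cnt_block (e2 := K₅ * p * (k * B) * wt (α / 2) a₅ (dq Q y y')) hPp (PD_proj _ _)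
    (PD_proj _ _) (PD_proj Q (y' ::ₘ y ::ₘ (T + S))) eπ eπ'
    (PD_mul_of_le ((Multiset.le_cons_self _ _).trans (Multiset.le_cons_self _ _))).1
    fA.1 fB.1 fA.2 fB.2 qA.2.1 qB.2.1 e1 e2 (e2'.trans (le_of_eq (by ring))) e5
  exact h.trans (le_of_eq (by ring))

theorem c68_sec {n : ℕ} {s E F G p X Y : Fk n} (hs : IsStarProjection s) (cF : Commute s F)
    (cG : Commute s G) (cp : Commute s p) (cX : Commute s X) (cY : Commute s Y) :
    ‖E * s * X * (p * s) * Y * (F * s) - E * s * Y * (G * s) * X * (F * s)‖ ≤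
      ‖E * X * p * Y * F - E * Y * G * X * F‖ := by
  have e : E * s * X * (p * s) * Y * (F * s) - E * s * Y * (G * s) * X * (F * s) =
      (E * X * p * Y * F - E * Y * G * X * F) * s := by
    simp only [sub_mul, mul_assoc, cF.left_comm, cG.left_comm, cp.left_comm, cX.left_comm,
      cY.left_comm, hs.isIdempotentElem.eq]
  rw [e]
  exact (norm_mul_le _ _).trans (mul_le_of_le_one_right (norm_nonneg _) hs.norm_le)

theorem c68_zero {Q N : ℕ} {D : Multiset S2} (hN : 1 ≤ N) (h : nfree Q D N < 0) :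
    PD Q D * secP (Q + 1) N = 0 := by
  refine Matrix.ext_of_mulVec_single fun j => ?_
  rw [zero_mulVec]
  refine InZ.eq_zero (D := D) ⟨?_, ?_⟩ hN h
  · rw [mulVec_mulVec, ← mul_assoc, (commute_secP (PD_nc Q D) N).eq, mul_assoc,
      (secP_proj _ _).isIdempotentElem.eq]
  · rw [← mulVec_mulVec]
    exact PD_mulVec_mem _ _

open Classical in
theorem cnt_sum' {α a : ℝ} (h0 : 0 < α) (h1 : α ≤ 1 / 2) (ha : 0 < a) :
    ∃ (R₀ C : ℝ) (Q₀ : ℕ), 0 ≤ C ∧ ∀ Q, Q₀ ≤ Q → ∀ (T : Multiset S2) (S : Finset S2),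
      AdmT Q R₀ T → Sep Q R₀ S.val → ∀ (N : ℕ) (v : FV Q), 1 ≤ N → InZ Q T N v →
        ∀ (B : ℝ) (X : S2 → Fk (Q + 1)), (∀ w ∈ S, NL Q α a B w (X w)) →
          ∑ w ∈ S, nq ((PD Q (w ::ₘ T) * X w) *ᵥ v) ≤ C * B ^ 2 * nfree Q T N * nq v := by
  obtain ⟨R₁, a', κ, Q₀, ha', hκ, H⟩ := c68_block h0 h1 ha
  obtain ⟨ρ, hρ, Hρ⟩ := tail_sum (α := α / 2) (a := a') (K := 1) (δ := 1) (by positivity) ha'
    zero_le_one one_pos
  refine ⟨max R₁ ρ, 1 + κ, Q₀, by positivity, fun Q hQ T S hT hS N v hN hv B X hX => ?_⟩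
  obtain ⟨hQ1, HB⟩ := H Q hQ
  by_cases hn : nfree Q T N < 0
  · rw [hv.eq_zero hN hn]
    simp [nq]
  obtain ⟨m, hm⟩ : ∃ m : ℕ, (m : ℝ) = nfree Q T N := by
    have e : nfree Q T N = (((Q : ℤ) - 3 * ((N : ℤ) - 1) - T.card : ℤ) : ℝ) := by
      rw [nfree]; push_cast; ring
    rw [e] at hn ⊢
    have h2 : (0 : ℤ) ≤ (Q : ℤ) - 3 * ((N : ℤ) - 1) - T.card := by exact_mod_cast not_lt.mp hn
    exact ⟨_, by exact_mod_cast congrArg (fun z : ℤ => (z : ℝ)) (Int.toNat_of_nonneg h2)⟩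
  set s := secP (Q + 1) N with hs
  have ps : IsStarProjection s := secP_proj _ _
  have cP : ∀ D, Commute s (PD Q D) := fun D => commute_secP (PD_nc Q D) N
  have cX : ∀ w ∈ S, Commute s (X w) := fun w hw => commute_secP (hX w hw).1 N
  have cX' : ∀ w ∈ S, Commute s (star (X w)) := fun w hw => by
    have := (cX w hw).star_star
    rwa [ps.isSelfAdjoint.star_eq] at this
  have w0 : ∀ y y', 0 ≤ wt (α / 2) a' (dq Q y y') := fun _ _ => (Real.exp_pos _).le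
  have main := Kd.cnt_abstract S (fun U => PD Q (T + U.val) * s) X
    (fun y y' => κ * B ^ 2 * wt (α / 2) a' (dq Q y y')) (K := B) (c := κ * B ^ 2) m (by positivity)
    (fun U _ => (PD_proj _ _).mul ps (cP _).symm) (fun y hy => (hX y hy).2.1)
    (fun y y' => by rw [dq_symm]) (fun y y' => by have := w0 y y'; positivity)
    (fun y hy => by
      rw [← Finset.mul_sum]
      refine mul_le_of_le_one_right (by positivity) (le_trans ?_ (Hρ ρ le_rfl Q hQ1 S y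
        fun b hb c hc hne => hρ.trans ((le_max_right _ _).trans (hS b hb c hc hne))))
      refine le_trans (Finset.sum_le_sum fun y' hy' => ?_) (Finset.sum_le_sum_of_subset_of_nonneg
        (Finset.erase_subset y S) fun b _ _ => ?_)
      · have h2 := Finset.mem_erase.mp hy'
        rw [if_pos ((le_max_right _ _).trans (hS y hy y' h2.2 h2.1.symm)), one_mul]
      · have := w0 y b
        split_ifs <;> positivity)
    (fun U hU y hy y' hy' hne => by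
      obtain ⟨hy1, hy2⟩ := Finset.mem_sdiff.mp hy
      obtain ⟨hy1', hy2'⟩ := Finset.mem_sdiff.mp hy'
      have hy3 : y' ∉ insert y U := by simp [hy2', hne.symm]
      have hadm : AdmS Q R₁ (y' ::ₘ y ::ₘ U.val) := by
        rw [← Finset.insert_val_of_notMem hy2, ← Finset.insert_val_of_notMem hy3]
        refine AdmS.mono (T := S.val) ⟨hS, S.nodup⟩ (le_max_left _ _) (Finset.val_le_iff.mpr ?_)
        exact Finset.insert_subset hy1' (Finset.insert_subset hy1 hU)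
      have hb := HB T U.val y y' (hT.mono (le_max_left _ _) le_rfl) hadm B _ _ (hX y hy1) (hX y' hy1')
      simp only [Finset.insert_val_of_notMem hy3, Finset.insert_val_of_notMem hy2,
        Finset.insert_val_of_notMem hy2', Multiset.add_cons]
      exact (c68_sec ps (cP _) (cP _) (cP _) (cX y hy1) (cX' y' hy1')).trans hb)
    (fun U _ hU => c68_zero hN (by
      have h2 : (m : ℝ) < U.card := by exact_mod_cast hU
      rw [hm, nfree] at h2
      rw [nfree, Multiset.card_add, Finset.card_val]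
      push_cast
      linarith))
  have hv0 : (PD Q T * s) *ᵥ v = v := by
    rw [← mulVec_mulVec, hv.1, PD_mulVec_iff.mpr hv.2]
  have hp0 : IsStarProjection (PD Q T * s) := (PD_proj _ _).mul ps (cP _).symm
  have e : ∑ w ∈ S, nq ((PD Q (w ::ₘ T) * X w) *ᵥ v) =
      (star v ⬝ᵥ (∑ y ∈ S, PD Q (T + (∅ : Finset S2).val) * s * star (X y) *
        (PD Q (T + ({y} : Finset S2).val) * s) * X y * (PD Q (T + (∅ : Finset S2).val) * s)) *ᵥ v).re := by
    rw [sum_mulVec, dotProduct_sum, Complex.re_sum]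
    refine Finset.sum_congr rfl fun y hy => ?_
    have e1 : T + ({y} : Finset S2).val = y ::ₘ T := by
      rw [Finset.singleton_val, add_comm, Multiset.singleton_add]
    have e2 : PD Q T * s * star (X y) * (PD Q (y ::ₘ T) * s) * X y * (PD Q T * s) =
        star (PD Q T * s) * (star (PD Q (y ::ₘ T) * X y) * (PD Q (y ::ₘ T) * X y * (PD Q T * s))) := by
      rw [hp0.isSelfAdjoint.star_eq, star_mul, (PD_proj _ _).isSelfAdjoint.star_eq]
      have i1 : ∀ Z, PD Q (y ::ₘ T) * (PD Q (y ::ₘ T) * Z) = PD Q (y ::ₘ T) * Z := fun Z => by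
        rw [← mul_assoc, (PD_proj _ _).isIdempotentElem.eq]
      simp only [mul_assoc, i1, (cX y hy).left_comm, (cP T).left_comm, ps.isIdempotentElem.eq]
    rw [Finset.empty_val, add_zero, e1, e2, ← mulVec_mulVec v (star (PD Q T * s)), ← Filt.g71_adj,
      hv0, ← mulVec_mulVec v (star (PD Q (y ::ₘ T) * X y)), ← Filt.g71_adj,
      ← mulVec_mulVec v (PD Q (y ::ₘ T) * X y), hv0, nq]
  rw [e]
  refine (le_abs_self _).trans ((Filt.abs_re_dot_le _ _).trans ?_)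
  refine (mul_le_mul_of_nonneg_right main (Filt.ga_re_nonneg v)).trans (le_of_eq ?_)
  rw [hm, nq]
  ring

end Crest.Agent.R340.Pin
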