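import Mathlib
import Crest.Prelude.Def_Laughlin

/-! Row 340 (Laughlin gap): real fermionic Fock space on `Finset (Fin n)`. -/

set_option autoImplicit false

namespace Crest.Agent.R340

open Matrix Crest.MathPhysics.Laughlin

/-- Jordan-Wigner sign. -/
def sgn {n : ℕ} (j : Fin n) (S : Finset (Fin n)) : ℝ := (-1) ^ (S.filter (· < j)).card

/-- Annihilation operator `c_j` on the real Fock space `Finset (Fin n) → ℝ`. -/
def ann {n : ℕ} (j : Fin n) : Matrix (Finset (Fin n)) (Finset (Fin n)) ℝ :=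
  Matrix.of fun S T => if j ∉ S ∧ T = insert j S then sgn j S else 0

/-- Pair annihilation operator `B_p = Σ_{i,j} (w_p(i,j)/√2) c_j c_i`. -/
noncomputable def Bop (Q : ℕ) (p : Fin (2 * Q - 1)) :
    Matrix (Finset (Fin (Q + 1))) (Finset (Fin (Q + 1))) ℝ :=
  ∑ i : Fin (Q + 1), ∑ j : Fin (Q + 1), (pairVec Q p i j / Real.sqrt 2) • (ann j * ann i)

/-- The second-quantised Hamiltonian `Σ_p B_p^T B_p`. -/
noncomputable def Hf (Q : ℕ) : Matrix (Finset (Fin (Q + 1))) (Finset (Fin (Q + 1))) ℝ :=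
  ∑ p : Fin (2 * Q - 1), (Bop Q p)ᵀ * Bop Q p

/-- `H² ≥ γ H` on the whole Fock space. -/
def FockGap (Q : ℕ) (γ : ℝ) : Prop :=
  ∀ Φ : Finset (Fin (Q + 1)) → ℝ,
    γ * (Φ ⬝ᵥ (Hf Q *ᵥ Φ)) ≤ (Hf Q *ᵥ Φ) ⬝ᵥ (Hf Q *ᵥ Φ)

/-- The first-quantised statement for one flux value. -/
def TensorGap (Q : ℕ) (γ : ℝ) : Prop :=
  ∀ N : ℕ, ∀ ψ : (Fin N → Fin (Q + 1)) → ℂ, IsAntisymmetric ψ →
    γ * (star ψ ⬝ᵥ (interaction Q N).mulVec ψ).re ≤
      (star ψ ⬝ᵥ (interaction Q N).mulVec ((interaction Q N).mulVec ψ)).re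

end Crest.Agent.R340
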