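import Crest.Agent.R340.F2Dbar
import Crest.Agent.R340.FiltGS

/-! # F2: the regularised pseudo-inverse -/

set_option autoImplicit false

namespace Crest.Agent.R340.F2

open Matrix
open scoped Matrix.Norms.L2Operator MatrixOrder ComplexOrder

variable {n : Type} [Fintype n] [DecidableEq n]

/-! ### part A: the Euclidean norm -/

theorem en_nonneg (φ : n → ℂ) : 0 ≤ en φ := norm_nonneg _

theorem en_sq (φ : n → ℂ) : en φ ^ 2 = (star φ ⬝ᵥ φ).re := by
  unfold en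
  rw [← inner_self_eq_norm_sq (𝕜 := ℂ), EuclideanSpace.inner_toLp_toLp, dotProduct_comm]
  rfl

theorem en_zero : en (0 : n → ℂ) = 0 := by
  simp [en]

theorem en_eq_zero {φ : n → ℂ} (h : en φ = 0) : φ = 0 := by
  unfold en at h
  simpa using h

theorem en_add_le (φ ψ : n → ℂ) : en (φ + ψ) ≤ en φ + en ψ := by
  unfold en
  rw [WithLp.toLp_add]
  exact norm_add_le _ _

theorem en_sub_le (φ ψ : n → ℂ) : en (φ - ψ) ≤ en φ + en ψ := by
  unfold en
  rw [WithLp.toLp_sub]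
  exact norm_sub_le _ _

theorem en_smul (z : ℂ) (φ : n → ℂ) : en (z • φ) = ‖z‖ * en φ := by
  unfold en
  rw [WithLp.toLp_smul, norm_smul]

theorem en_mulVec_le (A : Matrix n n ℂ) (φ : n → ℂ) : en (A *ᵥ φ) ≤ ‖A‖ * en φ := by
  exact Matrix.l2_opNorm_mulVec A (WithLp.toLp 2 φ)

theorem norm_dot_le (φ ψ : n → ℂ) : ‖star φ ⬝ᵥ ψ‖ ≤ en φ * en ψ := by
  have := norm_inner_le_norm (𝕜 := ℂ) (WithLp.toLp 2 φ : EuclideanSpace ℂ n) (WithLp.toLp 2 ψ)
  rwa [EuclideanSpace.inner_toLp_toLp, dotProduct_comm] at this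

theorem en_proj_le {P : Matrix n n ℂ} (hP : IsStarProjection P) (φ : n → ℂ) :
    en (P *ᵥ φ) ≤ en φ := by
  refine (en_mulVec_le P φ).trans ?_
  exact mul_le_of_le_one_left (en_nonneg φ) hP.norm_le

theorem en_sub_proj_le {P : Matrix n n ℂ} (hP : IsStarProjection P) (φ : n → ℂ) :
    en (φ - P *ᵥ φ) ≤ en φ := by
  have := en_proj_le hP.one_sub φ
  rwa [sub_mulVec, one_mulVec] at this

/-- the expectation value as a continuous linear map -/
theorem exists_expect (v : n → ℂ) :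
    ∃ L : Matrix n n ℂ →L[ℂ] ℂ, ∀ A, L A = star v ⬝ᵥ A *ᵥ v := by
  let L : Matrix n n ℂ →ₗ[ℂ] ℂ :=
    { toFun := fun A => star v ⬝ᵥ A *ᵥ v
      map_add' := fun A B => by rw [add_mulVec, dotProduct_add]
      map_smul' := fun z A => by rw [smul_mulVec, dotProduct_smul, RingHom.id_apply] }
  exact ⟨LinearMap.toContinuousLinearMap L, fun _ => rfl⟩

/-! ### part B: the resolvent -/

/-- `(c^* c + ε)⁻¹` -/
noncomputable def res (c : Matrix n n ℂ) (ε : ℝ) : Matrix n n ℂ :=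
  Ring.inverse (star c * c + (ε : ℂ) • 1)

variable {c c' P Pw : Matrix n n ℂ} {ε a : ℝ}

theorem h30_G (c : Matrix n n ℂ) (x : n → ℂ) :
    (star x ⬝ᵥ (star c * c) *ᵥ x).re = en (c *ᵥ x) ^ 2 := by
  rw [en_sq, ← mulVec_mulVec, dotProduct_mulVec, star_mulVec, star_eq_conjTranspose]

theorem h30_quad (c : Matrix n n ℂ) (ε : ℝ) (x : n → ℂ) :
    (star x ⬝ᵥ (star c * c + (ε : ℂ) • 1) *ᵥ x).re = en (c *ᵥ x) ^ 2 + ε * en x ^ 2 := by
  rw [add_mulVec, dotProduct_add, Complex.add_re, h30_G, smul_mulVec, one_mulVec,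
    dotProduct_smul, smul_eq_mul, Complex.re_ofReal_mul, en_sq x]

theorem isUnit_res (c : Matrix n n ℂ) (hε : 0 < ε) : IsUnit (star c * c + (ε : ℂ) • 1) := by
  rw [← Matrix.mulVec_injective_iff_isUnit]
  intro x y hxy
  have h0 : (star c * c + (ε : ℂ) • 1) *ᵥ (x - y) = 0 := by
    rw [mulVec_sub]; exact sub_eq_zero.2 hxy
  have h1 := h30_quad c ε (x - y)
  rw [h0, dotProduct_zero, Complex.zero_re] at h1
  have h2 : en (x - y) ^ 2 ≤ 0 := by
    by_contra h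
    nlinarith [sq_nonneg (en (c *ᵥ (x - y))), mul_pos hε (not_le.1 h)]
  exact sub_eq_zero.1 (en_eq_zero (pow_eq_zero_iff two_ne_zero |>.1
    (le_antisymm h2 (sq_nonneg _))))

theorem res_mul (c : Matrix n n ℂ) (hε : 0 < ε) :
    res c ε * (star c * c) = 1 - (ε : ℂ) • res c ε := by
  have h := Ring.inverse_mul_cancel _ (isUnit_res c hε)
  rw [mul_add, mul_smul_comm, mul_one] at h
  exact eq_sub_of_add_eq h

theorem mul_res (c : Matrix n n ℂ) (hε : 0 < ε) :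
    star c * c * res c ε = 1 - (ε : ℂ) • res c ε := by
  have h := Ring.mul_inverse_cancel _ (isUnit_res c hε)
  rw [add_mul, smul_mul_assoc, one_mul] at h
  exact eq_sub_of_add_eq h

theorem res_sa (c : Matrix n n ℂ) (hε : 0 < ε) : IsSelfAdjoint (res c ε) := by
  have _ := hε
  unfold IsSelfAdjoint res
  rw [← Ring.inverse_star, star_add, star_mul, star_star, star_smul, star_one]
  simp

theorem h30_dec (c : Matrix n n ℂ) (hε : 0 < ε) (v : n → ℂ) :
    (star c * c) *ᵥ (res c ε *ᵥ v) + (ε : ℂ) • (res c ε *ᵥ v) = v := by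
  rw [mulVec_mulVec, mul_res c hε, sub_mulVec, one_mulVec, smul_mulVec, sub_add_cancel]

theorem h30_re_symm (x y : n → ℂ) : (star x ⬝ᵥ y).re = (star y ⬝ᵥ x).re := by
  rw [star_dotProduct, Complex.star_def, Complex.conj_re]

theorem h30_re (c : Matrix n n ℂ) (hε : 0 < ε) (v : n → ℂ) :
    (star v ⬝ᵥ res c ε *ᵥ v).re =
      en (c *ᵥ (res c ε *ᵥ v)) ^ 2 + ε * en (res c ε *ᵥ v) ^ 2 := by
  rw [h30_re_symm, ← h30_quad, add_mulVec, smul_mulVec, one_mulVec, h30_dec c hε]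

theorem h30_sq (c : Matrix n n ℂ) (hε : 0 < ε) (v : n → ℂ) :
    en v ^ 2 = en ((star c * c) *ᵥ (res c ε *ᵥ v)) ^ 2 +
      2 * ε * en (c *ᵥ (res c ε *ᵥ v)) ^ 2 + ε ^ 2 * en (res c ε *ᵥ v) ^ 2 := by
  set x := res c ε *ᵥ v with hx
  have h : (star c * c) *ᵥ x + (ε : ℂ) • x = v := h30_dec c hε v
  have h1 := h30_G c x
  have h2 := h30_re_symm ((star c * c) *ᵥ x) x
  conv_lhs => rw [← h]
  rw [en_sq, en_sq ((star c * c) *ᵥ x), en_sq x, star_add, add_dotProduct, dotProduct_add,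
    dotProduct_add, star_smul, dotProduct_smul, smul_dotProduct, smul_dotProduct,
    dotProduct_smul]
  simp only [Complex.star_def, Complex.conj_ofReal, smul_eq_mul, Complex.add_re,
    Complex.re_ofReal_mul]
  rw [h2, h1]
  ring

theorem h30_comm (c : Matrix n n ℂ) (hε : 0 < ε) (v : n → ℂ) :
    (res c ε * (star c * c)) *ᵥ v = (star c * c) *ᵥ (res c ε *ᵥ v) := by
  rw [mulVec_mulVec, res_mul c hε, mul_res c hε]

theorem res_nonneg (c : Matrix n n ℂ) (hε : 0 < ε) (v : n → ℂ) :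
    0 ≤ (star v ⬝ᵥ res c ε *ᵥ v).re := by
  have h := h30_re c hε v
  have := sq_nonneg (en (c *ᵥ (res c ε *ᵥ v)))
  have := sq_nonneg (en (res c ε *ᵥ v))
  rw [h]
  positivity

theorem res_G_nonneg (c : Matrix n n ℂ) (hε : 0 < ε) (v : n → ℂ) :
    0 ≤ (star v ⬝ᵥ (res c ε * (star c * c)) *ᵥ v).re := by
  have h1 := h30_re c hε v
  have h2 := h30_sq c hε v
  rw [res_mul c hε, sub_mulVec, one_mulVec, dotProduct_sub, Complex.sub_re, ← en_sq, smul_mulVec,
    dotProduct_smul, smul_eq_mul, Complex.re_ofReal_mul, h1, h2]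
  have := mul_nonneg hε.le (sq_nonneg (en (c *ᵥ (res c ε *ᵥ v))))
  nlinarith [sq_nonneg (en ((star c * c) *ᵥ (res c ε *ᵥ v)))]

theorem en_eps_res_le (c : Matrix n n ℂ) (hε : 0 < ε) (v : n → ℂ) :
    en (((ε : ℂ) • res c ε) *ᵥ v) ≤ en v := by
  have h2 := h30_sq c hε v
  rw [smul_mulVec, en_smul, Complex.norm_real, Real.norm_of_nonneg hε.le]
  refine (pow_le_pow_iff_left₀ (mul_nonneg hε.le (en_nonneg _)) (en_nonneg _) two_ne_zero).1 ?_
  have := mul_nonneg hε.le (sq_nonneg (en (c *ᵥ (res c ε *ᵥ v))))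
  nlinarith [sq_nonneg (en ((star c * c) *ᵥ (res c ε *ᵥ v)))]

theorem en_res_G_le (c : Matrix n n ℂ) (hε : 0 < ε) (v : n → ℂ) :
    en ((res c ε * (star c * c)) *ᵥ v) ≤ en v := by
  have h2 := h30_sq c hε v
  rw [h30_comm c hε]
  refine (pow_le_pow_iff_left₀ (en_nonneg _) (en_nonneg _) two_ne_zero).1 ?_
  have := mul_nonneg hε.le (sq_nonneg (en (c *ᵥ (res c ε *ᵥ v))))
  nlinarith [sq_nonneg (ε * en (res c ε *ᵥ v))]

/-- `c` vanishes off `ran P` and on `ran Pw`, and is bounded below on `ran (P - Pw)` -/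
structure Gp (c P Pw : Matrix n n ℂ) (a : ℝ) : Prop where
  pos : 0 < a
  hP : IsStarProjection P
  hPw : IsStarProjection Pw
  le : P * Pw = Pw
  cP : c * P = c
  cPw : c * Pw = 0
  gap : ∀ u, P *ᵥ u = u → a * en (u - Pw *ᵥ u) ^ 2 ≤ en (c *ᵥ u) ^ 2

theorem h12_adj (A : Matrix n n ℂ) (x y : n → ℂ) :
    star (A *ᵥ x) ⬝ᵥ y = star x ⬝ᵥ star A *ᵥ y := by
  rw [star_mulVec, dotProduct_mulVec, star_eq_conjTranspose]

theorem h12_comm (c : Matrix n n ℂ) (hε : 0 < ε) {Q : Matrix n n ℂ}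
    (hQ : Q * (star c * c) = star c * c * Q) : Q * res c ε = res c ε * Q := by
  have h1 : res c ε * (star c * c + (ε : ℂ) • 1) = 1 := by
    rw [mul_add, res_mul c hε, mul_smul_comm, mul_one, sub_add_cancel]
  have h2 : (star c * c + (ε : ℂ) • 1) * res c ε = 1 := by
    rw [add_mul, mul_res c hε, smul_mul_assoc, one_mul, sub_add_cancel]
  have h3 : Q * (star c * c + (ε : ℂ) • 1) = (star c * c + (ε : ℂ) • 1) * Q := by
    rw [mul_add, add_mul, hQ, mul_smul_comm, smul_mul_assoc, mul_one, one_mul]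
  calc Q * res c ε = res c ε * (star c * c + (ε : ℂ) • 1) * Q * res c ε := by rw [h1, one_mul]
    _ = res c ε * (Q * ((star c * c + (ε : ℂ) • 1) * res c ε)) := by
        rw [mul_assoc (res c ε), ← h3]; simp only [mul_assoc]
    _ = res c ε * Q := by rw [h2, mul_one]

theorem Gp.h12_GPw (h : Gp c P Pw a) : star c * c * Pw = 0 := by rw [mul_assoc, h.cPw, mul_zero]

theorem Gp.h12_P (h : Gp c P Pw a) (hε : 0 < ε) : P * res c ε = res c ε * P := by
  apply h12_comm c hε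
  have e : P * star c = star c := by
    have := congrArg star h.cP
    rwa [star_mul, h.hP.isSelfAdjoint.star_eq] at this
  rw [← mul_assoc, e, mul_assoc, h.cP]

theorem Gp.h12_Pw (h : Gp c P Pw a) (hε : 0 < ε) : Pw * res c ε = res c ε * Pw := by
  apply h12_comm c hε
  have e : Pw * star c = 0 := by
    have := congrArg star h.cPw
    rwa [star_mul, h.hPw.isSelfAdjoint.star_eq, star_zero] at this
  rw [← mul_assoc, e, zero_mul, h.h12_GPw]

theorem Gp.h12_eps (h : Gp c P Pw a) (hε : 0 < ε) : (ε : ℂ) • res c ε * Pw = Pw := by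
  have := congrArg (· * Pw) (res_mul c hε)
  simp only [mul_assoc (res c ε), h.h12_GPw, mul_zero, sub_mul, one_mul] at this
  exact (sub_eq_zero.1 this.symm).symm

theorem Gp.h12_Pw0 (h : Gp c P Pw a) (u : n → ℂ) : Pw *ᵥ (u - Pw *ᵥ u) = 0 := by
  rw [mulVec_sub, mulVec_mulVec, h.hPw.isIdempotentElem.eq, sub_self]

theorem Gp.h12_key (h : Gp c P Pw a) (hε : 0 < ε) {u : n → ℂ} (hu : P *ᵥ u = u) :
    en (res c ε *ᵥ (u - Pw *ᵥ u)) ≤ en (u - Pw *ᵥ u) / a ∧
      en (c *ᵥ (res c ε *ᵥ (u - Pw *ᵥ u))) ^ 2 ≤ en (u - Pw *ᵥ u) ^ 2 / a := by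
  set z := u - Pw *ᵥ u with hz
  set x := res c ε *ᵥ z with hx
  have ha := h.pos
  have Pz : P *ᵥ z = z := by rw [hz, mulVec_sub, hu, mulVec_mulVec, h.le]
  have Px : P *ᵥ x = x := by rw [hx, mulVec_mulVec, h.h12_P hε, ← mulVec_mulVec, Pz]
  have Pwx : Pw *ᵥ x = 0 := by
    rw [hx, mulVec_mulVec, h.h12_Pw hε, ← mulVec_mulVec, h.h12_Pw0, mulVec_zero]
  have g := h.gap x Px
  rw [Pwx, sub_zero] at g
  have e1 : (star c * c) *ᵥ x = z - (ε : ℂ) • x := by
    rw [hx, mulVec_mulVec, mul_res c hε, sub_mulVec, one_mulVec, smul_mulVec]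
  have e2 : en (c *ᵥ x) ^ 2 = (star x ⬝ᵥ z).re - ε * en x ^ 2 := by
    rw [en_sq, h12_adj, mulVec_mulVec, e1, dotProduct_sub, dotProduct_smul, Complex.sub_re, en_sq x,
      smul_eq_mul, Complex.re_ofReal_mul]
  have e3 : (star x ⬝ᵥ z).re ≤ en x * en z := (Complex.re_le_norm _).trans (norm_dot_le x z)
  have x0 := en_nonneg x
  have z0 := en_nonneg z
  have e4 : en (c *ᵥ x) ^ 2 ≤ en x * en z := by nlinarith [mul_nonneg hε.le (sq_nonneg (en x))]
  have e5 : en x ≤ en z / a := by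
    rw [le_div_iff₀ ha]
    rcases x0.eq_or_lt with h0 | h0
    · rw [← h0, zero_mul]; exact z0
    · nlinarith
  refine ⟨e5, e4.trans ?_⟩
  calc en x * en z ≤ en z / a * en z := mul_le_mul_of_nonneg_right e5 z0
    _ = en z ^ 2 / a := by ring

theorem Gp.res_sub (h : Gp c P Pw a) (hε : 0 < ε) {u : n → ℂ} (hu : P *ᵥ u = u) :
    en (((ε : ℂ) • res c ε) *ᵥ u - Pw *ᵥ u) ≤ ε / a * en u := by
  have e : ((ε : ℂ) • res c ε) *ᵥ u - Pw *ᵥ u = (ε : ℂ) • (res c ε *ᵥ (u - Pw *ᵥ u)) := by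
    rw [← smul_mulVec, mulVec_sub, mulVec_mulVec, h.h12_eps hε]
  rw [e, en_smul, Complex.norm_real, Real.norm_of_nonneg hε.le]
  have h1 := (h.h12_key hε hu).1
  have h2 := en_sub_proj_le h.hPw u
  have ha := h.pos
  calc ε * en (res c ε *ᵥ (u - Pw *ᵥ u)) ≤ ε * (en u / a) := by
        gcongr
        exact h1.trans (by gcongr)
    _ = ε / a * en u := by ring

theorem Gp.c_res (h : Gp c P Pw a) (hε : 0 < ε) {u : n → ℂ} (hu : P *ᵥ u = u) :
    en ((c * res c ε) *ᵥ u) ≤ en (c *ᵥ u) / a := by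
  have e : (c * res c ε) *ᵥ u = c *ᵥ (res c ε *ᵥ (u - Pw *ᵥ u)) := by
    rw [mulVec_mulVec, mulVec_sub, mulVec_mulVec, mul_assoc c, ← h.h12_Pw hε, ← mul_assoc, h.cPw,
      zero_mul, zero_mulVec, sub_zero]
  have ha := h.pos
  rw [e]
  refine (pow_le_pow_iff_left₀ (en_nonneg _) (div_nonneg (en_nonneg _) ha.le) two_ne_zero).1 ?_
  refine (h.h12_key hε hu).2.trans ?_
  have g := h.gap u hu
  rw [div_pow, div_le_div_iff₀ ha (by positivity)]
  nlinarith

theorem Gp.res_G (h : Gp c P Pw a) (hε : 0 < ε) (u : n → ℂ) :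
    en ((res c ε * (star c * c)) *ᵥ u) ≤ en (u - Pw *ᵥ u) := by
  have e : (res c ε * (star c * c)) *ᵥ u = (res c ε * (star c * c)) *ᵥ (u - Pw *ᵥ u) := by
    rw [mulVec_sub, mulVec_mulVec, mul_assoc (res c ε), h.h12_GPw, mul_zero, zero_mulVec, sub_zero]
  rw [e]
  exact en_res_G_le c hε _

theorem Gp.diag (h : Gp c P Pw a) (hε : 0 < ε) {v : n → ℂ} (hv : P *ᵥ v = v) :
    (star v ⬝ᵥ ((ε : ℂ) • res c ε) *ᵥ v).re ≤ en (Pw *ᵥ v) ^ 2 + ε / a * en v ^ 2 := by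
  have e : star v ⬝ᵥ ((ε : ℂ) • res c ε) *ᵥ v = star (Pw *ᵥ v) ⬝ᵥ Pw *ᵥ v +
      star v ⬝ᵥ (((ε : ℂ) • res c ε) *ᵥ v - Pw *ᵥ v) := by
    rw [h12_adj, h.hPw.isSelfAdjoint.star_eq, mulVec_mulVec, h.hPw.isIdempotentElem.eq,
      dotProduct_sub, add_sub_cancel]
  rw [e, Complex.add_re, ← en_sq]
  have h1 := (Complex.re_le_norm _).trans (norm_dot_le v (((ε : ℂ) • res c ε) *ᵥ v - Pw *ᵥ v))
  have h2 := mul_le_mul_of_nonneg_left (h.res_sub hε hv) (en_nonneg v)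
  nlinarith

theorem h12_cross (c c' : Matrix n n ℂ) (hε : 0 < ε) (v y : n → ℂ) :
    star v ⬝ᵥ ((ε : ℂ) • res c ε * star c' * c * res c ε) *ᵥ y =
      star (c' *ᵥ (((ε : ℂ) • res c ε) *ᵥ v)) ⬝ᵥ (c * res c ε) *ᵥ y := by
  have e : star ((ε : ℂ) • res c ε) = (ε : ℂ) • res c ε := by
    rw [star_smul, (res_sa c hε).star_eq, Complex.star_def, Complex.conj_ofReal]
  rw [h12_adj, h12_adj, e, mulVec_mulVec, mulVec_mulVec]
  simp only [mul_assoc]

theorem Gp.cross_bound (h : Gp c P Pw a) (hε : 0 < ε) (v : n → ℂ) {y : n → ℂ} (hy : P *ᵥ y = y) :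
    ‖star v ⬝ᵥ ((ε : ℂ) • res c ε * star c' * c * res c ε) *ᵥ y‖ ≤
      ‖c'‖ * en v * (en (c *ᵥ y) / a) := by
  rw [h12_cross c c' hε]
  refine (norm_dot_le _ _).trans (mul_le_mul ?_ (h.c_res hε hy) (en_nonneg _)
    (mul_nonneg (norm_nonneg _) (en_nonneg _)))
  exact (en_mulVec_le _ _).trans (mul_le_mul_of_nonneg_left (en_eps_res_le c hε v) (norm_nonneg _))

theorem Gp.cross_le (h : Gp c P Pw a) (hε : 0 < ε) {v u y : n → ℂ} (hv : P *ᵥ v = v)
    (hu : P *ᵥ u = u) (hy : P *ᵥ y = y) (e : c *ᵥ u = c' *ᵥ (Pw *ᵥ v)) :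
    ‖star v ⬝ᵥ ((ε : ℂ) • res c ε * star c' * c * res c ε) *ᵥ y -
        star (u - Pw *ᵥ u) ⬝ᵥ (y - Pw *ᵥ y)‖ ≤
      ε / a * (‖c'‖ * en v * (‖c‖ * en y / a) + en u * en y) := by
  have _ := hu
  have ha := h.pos
  set r := ((ε : ℂ) • res c ε) *ᵥ v - Pw *ᵥ v with hr
  set s := ((ε : ℂ) • res c ε) *ᵥ y - Pw *ᵥ y with hs
  have e1 : c' *ᵥ (((ε : ℂ) • res c ε) *ᵥ v) = c *ᵥ u + c' *ᵥ r := by
    rw [e, ← mulVec_add, hr, add_sub_cancel]
  have e2 : star (c *ᵥ u) ⬝ᵥ (c * res c ε) *ᵥ y = star u ⬝ᵥ (y - Pw *ᵥ y) - star u ⬝ᵥ s := by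
    rw [h12_adj, mulVec_mulVec, ← mul_assoc, mul_res c hε, sub_mulVec, one_mulVec, ← dotProduct_sub,
      hs, sub_sub_sub_cancel_right]
  have e3 : star (u - Pw *ᵥ u) ⬝ᵥ (y - Pw *ᵥ y) = star u ⬝ᵥ (y - Pw *ᵥ y) := by
    rw [star_sub, sub_dotProduct, h12_adj, h.hPw.isSelfAdjoint.star_eq, h.h12_Pw0, dotProduct_zero,
      sub_zero]
  have e4 : star v ⬝ᵥ ((ε : ℂ) • res c ε * star c' * c * res c ε) *ᵥ y -
      star (u - Pw *ᵥ u) ⬝ᵥ (y - Pw *ᵥ y) =
      star (c' *ᵥ r) ⬝ᵥ (c * res c ε) *ᵥ y - star u ⬝ᵥ s := by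
    rw [h12_cross c c' hε, e1, star_add, add_dotProduct, e2, e3]; ring
  rw [e4]
  have b1 : en r ≤ ε / a * en v := h.res_sub hε hv
  have b2 : en s ≤ ε / a * en y := h.res_sub hε hy
  have b3 : en ((c * res c ε) *ᵥ y) ≤ ‖c‖ * en y / a :=
    (h.c_res hε hy).trans (div_le_div_of_nonneg_right (en_mulVec_le c y) ha.le)
  have b4 : en (c' *ᵥ r) ≤ ‖c'‖ * (ε / a * en v) :=
    (en_mulVec_le _ _).trans (mul_le_mul_of_nonneg_left b1 (norm_nonneg _))
  have v0 := en_nonneg v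
  calc _ ≤ en (c' *ᵥ r) * en ((c * res c ε) *ᵥ y) + en u * en s :=
        (norm_sub_le _ _).trans (add_le_add (norm_dot_le _ _) (norm_dot_le _ _))
    _ ≤ ‖c'‖ * (ε / a * en v) * (‖c‖ * en y / a) + en u * (ε / a * en y) :=
        add_le_add (mul_le_mul b4 b3 (en_nonneg _) (by positivity))
          (mul_le_mul_of_nonneg_left b2 (en_nonneg _))
    _ = _ := by ring

/-! ### part C: the `dbar` identity -/

private theorem h38_c1 {c : ℂ → Matrix n n ℂ} (hc : Differentiable ℂ c) : ContDiff ℝ 1 c :=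
  (hc.contDiff (n := 1)).restrict_scalars ℝ

private theorem h38_G {c : ℂ → Matrix n n ℂ} (hc : Differentiable ℂ c) (ε : ℝ) :
    ContDiff ℝ 1 fun z => star (c z) * c z + (ε : ℂ) • (1 : Matrix n n ℂ) :=
  ((contDiff_star (h38_c1 hc)).mul (h38_c1 hc)).add contDiff_const

private theorem h38_R {c : ℂ → Matrix n n ℂ} (hc : Differentiable ℂ c) (hε : 0 < ε) :
    ContDiff ℝ 1 fun z => res (c z) ε :=
  contDiff_inverse (h38_G hc ε) fun z => isUnit_res (c z) hε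

theorem contDiff_Xi {c Xi F : ℂ → Matrix n n ℂ} (hc : Differentiable ℂ c)
    (hX : Differentiable ℂ Xi) (hF : ContDiff ℝ 1 F) (hε : 0 < ε) :
    ContDiff ℝ 1 fun z => F z + res (c z) ε * star (c z) * (Xi z - c z * F z) :=
  hF.add (((h38_R hc hε).mul (contDiff_star (h38_c1 hc))).mul
    ((h38_c1 hX).sub ((h38_c1 hc).mul hF)))

theorem dbar_Xi {c Xi F : ℂ → Matrix n n ℂ} (hc : Differentiable ℂ c)
    (hX : Differentiable ℂ Xi) (hF : ContDiff ℝ 1 F) (hε : 0 < ε) (w : ℂ) {v y : n → ℂ}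
    (hy : (Xi w - c w * F w) *ᵥ v = c w *ᵥ y) :
    dbar (fun z => F z + res (c z) ε * star (c z) * (Xi z - c z * F z)) w *ᵥ v =
      ((ε : ℂ) • res (c w) ε * dbar F w) *ᵥ v +
        ((ε : ℂ) • res (c w) ε * star (deriv c w) * c w * res (c w) ε) *ᵥ y := by
  have dc := (h38_c1 hc).differentiable one_ne_zero w
  have dX := (h38_c1 hX).differentiable one_ne_zero w
  have dF := hF.differentiable one_ne_zero w
  have dS := (contDiff_star (h38_c1 hc)).differentiable one_ne_zero w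
  have dR := (h38_R hc hε).differentiable one_ne_zero w
  have eS : dbar (fun z => star (c z)) w = star (deriv c w) := dbar_star (hc w).hasDerivAt
  have eG : dbar (fun z => star (c z) * c z + (ε : ℂ) • (1 : Matrix n n ℂ)) w =
      star (deriv c w) * c w := by
    rw [dbar_add (f := fun z => star (c z) * c z) (dS.mul dc) (differentiableAt_const _),
      dbar_const, dbar_mul dS dc, eS, dbar_holo (hc w), mul_zero, add_zero, add_zero]
  have eR : dbar (fun z => res (c z) ε) w =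
      -(res (c w) ε * (star (deriv c w) * c w) * res (c w) ε) := by
    rw [← eG]
    exact dbar_inverse (h38_G hc ε) (fun z => isUnit_res (c z) hε) w
  have eW : dbar (fun z => Xi z - c z * F z) w = -(c w * dbar F w) := by
    rw [dbar_sub (g := fun z => c z * F z) dX (dc.mul dF), dbar_mul dc dF, dbar_holo (hc w),
      dbar_holo (hX w), zero_mul, zero_add, zero_sub]
  have e : dbar (fun z => F z + res (c z) ε * star (c z) * (Xi z - c z * F z)) w =
      (1 - res (c w) ε * (star (c w) * c w)) * dbar F w +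
        (res (c w) ε * star (deriv c w) -
          res (c w) ε * star (deriv c w) * c w * res (c w) ε * star (c w)) *
            (Xi w - c w * F w) := by
    rw [dbar_add (g := fun z => res (c z) ε * star (c z) * (Xi z - c z * F z)) dF
        ((dR.mul dS).mul (dX.sub (dc.mul dF))),
      dbar_mul (f := fun z => res (c z) ε * star (c z)) (g := fun z => Xi z - c z * F z)
        (dR.mul dS) (dX.sub (dc.mul dF)),
      dbar_mul (f := fun z => res (c z) ε) (g := fun z => star (c z)) dR dS, eR, eS, eW]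
    noncomm_ring
  have e2 : (res (c w) ε * star (deriv c w) -
      res (c w) ε * star (deriv c w) * c w * res (c w) ε * star (c w)) * c w =
        res (c w) ε * star (deriv c w) * c w * (1 - res (c w) ε * (star (c w) * c w)) := by
    noncomm_ring
  rw [e, add_mulVec, ← mulVec_mulVec v _ (Xi w - c w * F w), hy, mulVec_mulVec, e2,
    res_mul _ hε, sub_sub_cancel]
  simp only [smul_mul_assoc, mul_smul_comm]

end Crest.Agent.R340.F2
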