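import Crest.Agent.R340.F2Stokes
import Crest.Agent.R340.F2Res

/-! # F2: the abstract inequality -/

set_option autoImplicit false

namespace Crest.Agent.R340.F2

open Matrix MeasureTheory Filter
open scoped Matrix.Norms.L2Operator MatrixOrder ComplexOrder

variable {n : Type} [Fintype n] [DecidableEq n]

/-- the data of the abstract argument -/
structure Dat (E : Finset ℂ) (P : Matrix n n ℂ) (Pw c Xi F : ℂ → Matrix n n ℂ) (v : n → ℂ)
    (u y : ℂ → n → ℂ) (a k m : ℝ) : Prop where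
  hc : Differentiable ℂ c
  hX : Differentiable ℂ Xi
  hF : ContDiff ℝ 1 F
  hk : 0 ≤ k
  gp : ∀ w ∉ E, Gp (c w) P (Pw w) a
  hv : P *ᵥ v = v
  hu : ∀ w ∉ E, P *ᵥ u w = u w
  hy : ∀ w ∉ E, P *ᵥ y w = y w
  dF : ∀ w ∉ E, ∃ b : ℝ, 0 ≤ b ∧
    dbar F w *ᵥ v = ((k * om w : ℝ) : ℂ) • v - (b : ℂ) • (star (c w) * c w) *ᵥ v
  eu : ∀ w ∉ E, c w *ᵥ u w = deriv c w *ᵥ (Pw w *ᵥ v)
  ey : ∀ w ∉ E, (Xi w - c w * F w) *ᵥ v = c w *ᵥ (y w - (∑ e ∈ E, (w - e)⁻¹) • v)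
  infF : Tendsto (fun w => w * (star v ⬝ᵥ F w *ᵥ v)) (cocompact ℂ) (nhds ((m * en v ^ 2 : ℝ) : ℂ))
  infy : Tendsto (fun w => ‖w‖ * en (y w - Pw w *ᵥ y w)) (cocompact ℂ) (nhds 0)

/-- the regularised `F` -/
noncomputable def Fe (E : Finset ℂ) (F : ℂ → Matrix n n ℂ) (ε : ℝ) (w : ℂ) : Matrix n n ℂ :=
  F w - (∑ e ∈ E, psi ε (w - e)) • (1 : Matrix n n ℂ)

/-- the test function -/
noncomputable def hh (E : Finset ℂ) (c Xi F : ℂ → Matrix n n ℂ) (v : n → ℂ) (ε : ℝ) (w : ℂ) : ℂ :=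
  star v ⬝ᵥ (Fe E F ε w + res (c w) ε * star (c w) * (Xi w - c w * Fe E F ε w)) *ᵥ v

/-- the regularised `y` -/
noncomputable def ye (E : Finset ℂ) (y : ℂ → n → ℂ) (v : n → ℂ) (ε : ℝ) (w : ℂ) : n → ℂ :=
  y w - (∑ e ∈ E, ((w - e)⁻¹ - psi ε (w - e))) • v

variable {E : Finset ℂ} {P : Matrix n n ℂ} {Pw c Xi F : ℂ → Matrix n n ℂ} {v : n → ℂ}
  {u y : ℂ → n → ℂ} {a k m ε : ℝ}

theorem h77_contDiff_sum (E : Finset ℂ) (hε : 0 < ε) :
    ContDiff ℝ 1 fun w : ℂ => ∑ e ∈ E, psi ε (w - e) :=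
  ContDiff.sum fun _ _ => (contDiff_psi hε).comp (contDiff_id.sub contDiff_const)

theorem Dat.contDiff_Fe (h : Dat E P Pw c Xi F v u y a k m) (hε : 0 < ε) :
    ContDiff ℝ 1 (Fe E F ε) := by
  exact h.hF.sub ((h77_contDiff_sum E hε).smul contDiff_const)

theorem Dat.contDiff_hh (h : Dat E P Pw c Xi F v u y a k m) (hε : 0 < ε) :
    ContDiff ℝ 1 (hh E c Xi F v ε) := by
  obtain ⟨L, hL⟩ := exists_expect v
  have h1 := contDiff_Xi h.hc h.hX (h.contDiff_Fe hε) hε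
  have e : hh E c Xi F v ε = fun z => L (Fe E F ε z + res (c z) ε * star (c z) *
      (Xi z - c z * Fe E F ε z)) := funext fun w => (hL _).symm
  rw [e]
  exact (L.restrictScalars ℝ).contDiff.comp h1

theorem Dat.eye (h : Dat E P Pw c Xi F v u y a k m) (ε : ℝ) {w : ℂ} (hw : w ∉ E) :
    (Xi w - c w * Fe E F ε w) *ᵥ v = c w *ᵥ ye E y v ε w := by
  have e1 : Xi w - c w * Fe E F ε w = (Xi w - c w * F w) + (∑ e ∈ E, psi ε (w - e)) • c w := by
    unfold Fe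
    rw [mul_sub, mul_smul_comm, mul_one]; abel
  rw [e1, add_mulVec, h.ey w hw, smul_mulVec, ← mulVec_smul, ← mulVec_add]
  unfold ye
  rw [Finset.sum_sub_distrib, sub_smul]
  congr 1
  abel

theorem Dat.h77_dbar_Fe (h : Dat E P Pw c Xi F v u y a k m) (hε : 0 < ε) (w : ℂ) :
    dbar (Fe E F ε) w = dbar F w -
      ((∑ e ∈ E, ε / (‖w - e‖ ^ 2 + ε) ^ 2 : ℝ) : ℂ) • (1 : Matrix n n ℂ) := by
  have hS := (h77_contDiff_sum E hε).differentiable one_ne_zero w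
  have h1 : DifferentiableAt ℝ (fun z : ℂ => (∑ e ∈ E, psi ε (z - e)) • (1 : Matrix n n ℂ)) w :=
    hS.smul (differentiableAt_const _)
  have h2 := dbar_sub (h.hF.differentiable one_ne_zero w) h1
  have h3 := dbar_smul (f := fun _ : ℂ => (1 : Matrix n n ℂ)) hS (differentiableAt_const _)
  have h4 : dbar (fun z : ℂ => ∑ e ∈ E, psi ε (z - e)) w =
      ((∑ e ∈ E, ε / (‖w - e‖ ^ 2 + ε) ^ 2 : ℝ) : ℂ) := by
    rw [dbar_sum E (f := fun e z => psi ε (z - e)) fun e _ =>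
      ((contDiff_psi hε).comp (contDiff_id.sub contDiff_const)).differentiable one_ne_zero w,
      Complex.ofReal_sum]
    exact Finset.sum_congr rfl fun e _ => by rw [dbar_shift, dbar_psi hε]
  rw [dbar_const, smul_zero, add_zero, h4] at h3
  rw [h3] at h2
  exact h2

theorem Dat.dbar_le (h : Dat E P Pw c Xi F v u y a k m) (hε : 0 < ε) {w : ℂ} (hw : w ∉ E) :
    (dbar (hh E c Xi F v ε) w).re ≤ k * om w * (star v ⬝ᵥ ((ε : ℂ) • res (c w) ε) *ᵥ v).re +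
      (star v ⬝ᵥ ((ε : ℂ) • res (c w) ε * star (deriv c w) * c w * res (c w) ε) *ᵥ
        ye E y v ε w).re := by
  obtain ⟨L, hL⟩ := exists_expect v
  obtain ⟨b, hb, hF⟩ := h.dF w hw
  have h1 := contDiff_Xi h.hc h.hX (h.contDiff_Fe hε) hε
  have e : hh E c Xi F v ε = fun z => L (Fe E F ε z + res (c z) ε * star (c z) *
      (Xi z - c z * Fe E F ε z)) := funext fun w => (hL _).symm
  have hs : 0 ≤ ∑ e ∈ E, ε / (‖w - e‖ ^ 2 + ε) ^ 2 := Finset.sum_nonneg fun _ _ => by positivity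
  have r1 := res_nonneg (c w) hε v
  have r2 := res_G_nonneg (c w) hε v
  rw [e, dbar_clm L (h1.differentiable one_ne_zero w), hL,
    dbar_Xi h.hc h.hX (h.contDiff_Fe hε) hε w (h.eye ε hw), dotProduct_add, Complex.add_re,
    h.h77_dbar_Fe hε w]
  refine add_le_add ?_ le_rfl
  set s := ∑ e ∈ E, ε / (‖w - e‖ ^ 2 + ε) ^ 2
  have e2 : ((ε : ℂ) • res (c w) ε * (dbar F w - (s : ℂ) • (1 : Matrix n n ℂ))) *ᵥ v =
      ((k * om w : ℝ) : ℂ) • ((ε : ℂ) • res (c w) ε) *ᵥ v -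
        ((b * ε : ℝ) : ℂ) • (res (c w) ε * (star (c w) * c w)) *ᵥ v -
        ((s * ε : ℝ) : ℂ) • res (c w) ε *ᵥ v := by
    rw [← mulVec_mulVec, sub_mulVec, hF, smul_mulVec (s : ℂ), one_mulVec, mulVec_sub, mulVec_sub,
      mulVec_smul, mulVec_smul, mulVec_smul, ← mulVec_mulVec v (res (c w) ε)]
    simp only [smul_mulVec, smul_smul, Complex.ofReal_mul]
  rw [e2, dotProduct_sub, dotProduct_sub, dotProduct_smul, dotProduct_smul, dotProduct_smul]
  simp only [smul_eq_mul, Complex.sub_re, Complex.re_ofReal_mul]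
  have := mul_nonneg (mul_nonneg hb hε.le) r2
  have := mul_nonneg (mul_nonneg hs hε.le) r1
  linarith

theorem h89_D (hε : 0 < ε) {w : ℂ} (hw : w ∉ E) :
    ‖∑ e ∈ E, ((w - e)⁻¹ - psi ε (w - e))‖ ≤ ε * ∑ e ∈ E, ‖(w - e)⁻¹‖ ^ 3 := by
  rw [Finset.mul_sum]
  refine norm_sum_le_of_le _ fun e he => ?_
  have : w - e ≠ 0 := sub_ne_zero.2 fun h => hw (h ▸ he)
  refine (norm_inv_sub_psi_le hε this).trans (le_of_eq ?_)
  rw [norm_inv, inv_pow, div_eq_mul_inv]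

theorem h89_inv (e : ℂ) : Tendsto (fun w : ℂ => (w - e)⁻¹) (cocompact ℂ) (nhds 0) := by
  rw [tendsto_zero_iff_norm_tendsto_zero]
  simp only [norm_inv]
  exact tendsto_inv_atTop_zero.comp (tendsto_atTop_mono (fun w => norm_sub_norm_le w e)
    (tendsto_atTop_add_const_right _ (-‖e‖) tendsto_norm_cocompact_atTop))

theorem h89_notMem (E : Finset ℂ) : ∀ᶠ w in cocompact ℂ, w ∉ E :=
  E.finite_toSet.isCompact.compl_mem_cocompact

theorem h89_one (e : ℂ) : Tendsto (fun w : ℂ => w * (w - e)⁻¹) (cocompact ℂ) (nhds 1) := by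
  have h := ((h89_inv e).const_mul e).const_add 1
  rw [mul_zero, add_zero] at h
  refine h.congr' ?_
  filter_upwards [h89_notMem {e}] with w hw
  have : w - e ≠ 0 := sub_ne_zero.2 (by simpa using hw)
  field_simp
  ring

omit [DecidableEq n] in
theorem h89_sub (Q : Matrix n n ℂ) (E : Finset ℂ) (y : ℂ → n → ℂ) (v : n → ℂ) (ε : ℝ) (w : ℂ) :
    ye E y v ε w - Q *ᵥ ye E y v ε w =
      (y w - Q *ᵥ y w) - (∑ e ∈ E, ((w - e)⁻¹ - psi ε (w - e))) • (v - Q *ᵥ v) := by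
  simp only [ye, mulVec_sub, mulVec_smul, smul_sub]
  abel

theorem h89_P (h : Dat E P Pw c Xi F v u y a k m) (ε : ℝ) {w : ℂ} (hw : w ∉ E) :
    P *ᵥ ye E y v ε w = ye E y v ε w := by
  simp only [ye, mulVec_sub, mulVec_smul, h.hv, h.hy w hw]

theorem h89_Fe (E : Finset ℂ) (F : ℂ → Matrix n n ℂ) (v : n → ℂ) (ε : ℝ) (w : ℂ) :
    Fe E F ε w *ᵥ v = F w *ᵥ v - (∑ e ∈ E, psi ε (w - e)) • v := by
  simp only [Fe, sub_mulVec, smul_mulVec, one_mulVec]

omit [DecidableEq n] in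
theorem h89_vv (v : n → ℂ) : star v ⬝ᵥ v = ((en v ^ 2 : ℝ) : ℂ) := by
  classical
  rw [en_sq]
  refine Complex.ext (by simp) ?_
  rw [Complex.ofReal_im]
  exact (Complex.nonneg_iff.1 (dotProduct_star_self_nonneg v)).2.symm

theorem h89_om (w : ℂ) : 0 ≤ om w ∧ om w ≤ 1 := by
  unfold om
  exact ⟨by positivity, inv_le_one_of_one_le₀ (one_le_pow₀ (by nlinarith [sq_nonneg ‖w‖]))⟩

theorem Dat.tail (h : Dat E P Pw c Xi F v u y a k m) : ∀ η > 0, ∃ R : ℝ, ∀ ε : ℝ, 0 < ε → ε ≤ 1 →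
    ∀ w : ℂ, R ≤ ‖w‖ → ‖w * hh E c Xi F v ε w - (((m - E.card) * en v ^ 2 : ℝ) : ℂ)‖ ≤ η := by
  intro η hη
  have t1 : Tendsto (fun w => ‖w * (star v ⬝ᵥ F w *ᵥ v) - ((m * en v ^ 2 : ℝ) : ℂ)‖)
      (cocompact ℂ) (nhds 0) := tendsto_iff_norm_sub_tendsto_zero.1 h.infF
  have t2 : Tendsto (fun w : ℂ => ‖∑ e ∈ E, w * (w - e)⁻¹ - (E.card : ℂ)‖) (cocompact ℂ)
      (nhds 0) := by
    refine tendsto_iff_norm_sub_tendsto_zero.1 ?_
    simpa using tendsto_finsetSum E fun e _ => h89_one e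
  have t3 : Tendsto (fun w : ℂ => ‖w‖ * ∑ e ∈ E, ‖(w - e)⁻¹‖ ^ 3) (cocompact ℂ) (nhds 0) := by
    have := tendsto_finsetSum E fun e _ => (h89_one e).norm.mul ((h89_inv e).norm.pow 2)
    simp only [norm_zero, ne_eq, OfNat.ofNat_ne_zero, not_false_eq_true, zero_pow, mul_zero,
      Finset.sum_const_zero] at this
    refine this.congr fun w => ?_
    rw [Finset.mul_sum]
    refine Finset.sum_congr rfl fun e _ => ?_
    rw [norm_mul]; ring
  have t4 := (t1.add ((t2.add t3).mul_const (en v ^ 2))).add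
    ((h.infy.add (t3.mul_const (en v))).const_mul (en v))
  simp only [add_zero, zero_mul, mul_zero] at t4
  obtain ⟨K, hK, hsub⟩ := mem_cocompact.1 ((t4.eventually (ge_mem_nhds hη)).and (h89_notMem E))
  obtain ⟨r, hr⟩ := hK.isBounded.subset_closedBall 0
  refine ⟨r + 1, fun ε hε hε1 w hw => ?_⟩
  obtain ⟨hb, hwE⟩ := hsub (show w ∈ Kᶜ from fun hwK => by
    have := mem_closedBall_zero_iff.1 (hr hwK); linarith)
  refine le_trans ?_ hb
  have hv0 := en_nonneg v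
  have hT : 0 ≤ ∑ e ∈ E, ‖(w - e)⁻¹‖ ^ 3 := by positivity
  have hD : ‖∑ e ∈ E, ((w - e)⁻¹ - psi ε (w - e))‖ ≤ ∑ e ∈ E, ‖(w - e)⁻¹‖ ^ 3 :=
    (h89_D hε hwE).trans (by nlinarith)
  have g := h.gp w hwE
  have e1 : w * hh E c Xi F v ε w - (((m - E.card) * en v ^ 2 : ℝ) : ℂ) =
      (w * (star v ⬝ᵥ F w *ᵥ v) - ((m * en v ^ 2 : ℝ) : ℂ)) +
        (-(∑ e ∈ E, w * (w - e)⁻¹ - (E.card : ℂ)) +
          w * ∑ e ∈ E, ((w - e)⁻¹ - psi ε (w - e))) * ((en v ^ 2 : ℝ) : ℂ) +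
        w * (star v ⬝ᵥ (res (c w) ε * (star (c w) * c w)) *ᵥ ye E y v ε w) := by
    rw [hh, add_mulVec, ← mulVec_mulVec, h.eye ε hwE, mulVec_mulVec, mul_assoc, h89_Fe,
      dotProduct_add, dotProduct_sub, dotProduct_smul, h89_vv, Finset.sum_sub_distrib,
      ← Finset.mul_sum, smul_eq_mul]
    push_cast
    ring
  have k1 : en (ye E y v ε w - Pw w *ᵥ ye E y v ε w) ≤
      en (y w - Pw w *ᵥ y w) + (∑ e ∈ E, ‖(w - e)⁻¹‖ ^ 3) * en v := by
    rw [h89_sub]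
    refine (en_sub_le _ _).trans (add_le_add le_rfl ?_)
    rw [en_smul]
    exact mul_le_mul hD (en_sub_proj_le g.hPw v) (en_nonneg _) hT
  have k2 := (norm_dot_le v _).trans
    (mul_le_mul_of_nonneg_left ((g.res_G hε (ye E y v ε w)).trans k1) hv0)
  rw [e1]
  refine (norm_add_le _ _).trans (add_le_add ((norm_add_le _ _).trans (add_le_add le_rfl ?_)) ?_)
  · rw [norm_mul, Complex.norm_real, Real.norm_of_nonneg (by positivity)]
    refine mul_le_mul_of_nonneg_right ((norm_add_le _ _).trans (add_le_add ?_ ?_)) (by positivity)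
    · rw [norm_neg]
    · rw [norm_mul]
      exact mul_le_mul_of_nonneg_left hD (norm_nonneg _)
  · rw [norm_mul]
    refine (mul_le_mul_of_nonneg_left k2 (norm_nonneg w)).trans (le_of_eq ?_)
    ring

theorem Dat.dom (h : Dat E P Pw c Xi F v u y a k m) (R : ℝ) : ∃ b : ℂ → ℝ,
    IntegrableOn b (Metric.closedBall 0 R) ∧ ∀ ε : ℝ, 0 < ε → ∀ w ∉ E, ‖w‖ ≤ R →
      (dbar (hh E c Xi F v ε) w).re ≤ b w := by
  have c1 : Continuous c := h.hc.continuous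
  have c2 : Continuous (deriv c) := (h.hc.contDiff (n := 1)).continuous_deriv le_rfl
  have c3 : Continuous Xi := h.hX.continuous
  have c4 : Continuous F := h.hF.continuous
  refine ⟨fun w => (k * en v ^ 2 +
      ‖deriv c w‖ * en v * ((‖Xi w‖ * en v + ‖c w‖ * (‖F w‖ * en v)) / a)) +
    (‖deriv c w‖ * en v * (‖c w‖ * en v / a)) * ∑ e ∈ E, ‖w - e‖⁻¹, ?_, fun ε hε w hw _ => ?_⟩
  · refine Integrable.add ?_ ?_
    · exact (Continuous.continuousOn (by fun_prop)).integrableOn_compact (isCompact_closedBall 0 R)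
    · exact IntegrableOn.continuousOn_mul (Continuous.continuousOn (by fun_prop))
        (integrable_finsetSum E fun e _ => locallyIntegrable_inv e R) (isCompact_closedBall 0 R)
  · have g := h.gp w hw
    have ha := g.pos
    have hv0 := en_nonneg v
    have k1 : (star v ⬝ᵥ ((ε : ℂ) • res (c w) ε) *ᵥ v).re ≤ en v * en v :=
      (Complex.re_le_norm _).trans ((norm_dot_le v _).trans
        (mul_le_mul_of_nonneg_left (en_eps_res_le _ hε v) hv0))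
    have k2 : k * om w * (star v ⬝ᵥ ((ε : ℂ) • res (c w) ε) *ᵥ v).re ≤ k * en v ^ 2 := by
      have h0 := h89_om w
      refine (mul_le_mul_of_nonneg_left k1 (mul_nonneg h.hk h0.1)).trans ?_
      rw [mul_assoc, ← sq]
      exact mul_le_mul_of_nonneg_left (mul_le_of_le_one_left (sq_nonneg _) h0.2) h.hk
    have k3 := (Complex.re_le_norm _).trans (g.cross_bound (c' := deriv c w) hε v (h89_P h ε hw))
    have k4 : en (c w *ᵥ ye E y v ε w) ≤
        ‖Xi w‖ * en v + ‖c w‖ * (‖F w‖ * en v + (∑ e ∈ E, ‖w - e‖⁻¹) * en v) := by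
      rw [← h.eye ε hw, sub_mulVec, ← mulVec_mulVec, h89_Fe]
      refine (en_sub_le _ _).trans (add_le_add (en_mulVec_le _ _) ((en_mulVec_le _ _).trans
        (mul_le_mul_of_nonneg_left ((en_sub_le _ _).trans (add_le_add (en_mulVec_le _ _) ?_))
          (norm_nonneg _))))
      rw [en_smul]
      exact mul_le_mul_of_nonneg_right (norm_sum_le_of_le _ fun e _ => norm_psi_le hε _) hv0
    have k5 := k3.trans (mul_le_mul_of_nonneg_left (div_le_div_of_nonneg_right k4 ha.le)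
      (mul_nonneg (norm_nonneg _) hv0))
    refine ((h.dbar_le hε hw).trans (add_le_add k2 k5)).trans (le_of_eq ?_)
    ring

theorem Dat.lim (h : Dat E P Pw c Xi F v u y a k m) {w : ℂ} (hw : w ∉ E) : ∀ η > 0, ∃ ε₀ > 0,
    ∀ ε : ℝ, 0 < ε → ε ≤ ε₀ → (dbar (hh E c Xi F v ε) w).re ≤ k * om w * en (Pw w *ᵥ v) ^ 2 +
      (star (u w - Pw w *ᵥ u w) ⬝ᵥ (y w - Pw w *ᵥ y w)).re + η := by
  intro η hη
  have g := h.gp w hw
  have ha := g.pos
  have hv0 := en_nonneg v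
  have hu0 := en_nonneg (u w)
  have hy0 := en_nonneg (y w)
  have hk := h.hk
  have ho := (h89_om w).1
  obtain ⟨T, hT⟩ : ∃ T, T = ∑ e ∈ E, ‖(w - e)⁻¹‖ ^ 3 := ⟨_, rfl⟩
  have hT0 : 0 ≤ T := by rw [hT]; positivity
  obtain ⟨C, hC⟩ : ∃ C, C = k * om w * (en v ^ 2 / a) + T * (en (u w) * en v) +
    (‖deriv c w‖ * en v * (‖c w‖ * (en (y w) + T * en v) / a) +
      en (u w) * (en (y w) + T * en v)) / a := ⟨_, rfl⟩
  have hC0 : 0 ≤ C := by rw [hC]; positivity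
  refine ⟨min 1 (η / (C + 1)), lt_min one_pos (by positivity), fun ε hε hε0 => ?_⟩
  have hε1 : ε ≤ 1 := hε0.trans (min_le_left _ _)
  have hε2 : ε * (C + 1) ≤ η := (le_div_iff₀ (by positivity)).1 (hε0.trans (min_le_right _ _))
  have hD := h89_D hε hw
  rw [← hT] at hD
  have k0 : en (ye E y v ε w) ≤ en (y w) + T * en v := by
    refine (en_sub_le _ _).trans (add_le_add le_rfl ?_)
    rw [en_smul]
    exact mul_le_mul_of_nonneg_right (hD.trans (by nlinarith)) hv0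
  have k1 := mul_le_mul_of_nonneg_left (g.diag hε h.hv) (mul_nonneg hk ho)
  have k2 := (Complex.re_le_norm _).trans ((g.cross_le (c' := deriv c w) hε h.hv (h.hu w hw)
    (h89_P h ε hw) (h.eu w hw)).trans (show _ ≤ ε / a *
      (‖deriv c w‖ * en v * (‖c w‖ * (en (y w) + T * en v) / a) +
        en (u w) * (en (y w) + T * en v)) by gcongr))
  have k3 : ‖(∑ e ∈ E, ((w - e)⁻¹ - psi ε (w - e))) *
      (star (u w - Pw w *ᵥ u w) ⬝ᵥ (v - Pw w *ᵥ v))‖ ≤ ε * T * (en (u w) * en v) := by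
    rw [norm_mul]
    exact mul_le_mul hD ((norm_dot_le _ _).trans (mul_le_mul (en_sub_proj_le g.hPw _)
      (en_sub_proj_le g.hPw _) (en_nonneg _) hu0)) (norm_nonneg _) (by positivity)
  have k4 := (abs_le.1 ((Complex.abs_re_le_norm _).trans k3)).1
  rw [h89_sub, dotProduct_sub, dotProduct_smul, smul_eq_mul, Complex.sub_re, Complex.sub_re] at k2
  have k5 := h.dbar_le hε hw
  have e : ε * C = k * om w * (ε / a * en v ^ 2) + ε * T * (en (u w) * en v) + ε / a *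
      (‖deriv c w‖ * en v * (‖c w‖ * (en (y w) + T * en v) / a) +
        en (u w) * (en (y w) + T * en v)) := by
    rw [hC]; ring
  linarith

theorem f2_abs (h : Dat E P Pw c Xi F v u y a k m) (hm : (E.card : ℝ) ≤ m) {g : ℂ → ℝ}
    (ig : Integrable g) (g0 : ∀ w, 0 ≤ g w)
    (hg : ∀ w ∉ E, k * om w * en (Pw w *ᵥ v) ^ 2 +
      (star (u w - Pw w *ᵥ u w) ⬝ᵥ (y w - Pw w *ᵥ y w)).re ≤ g w) :
    Real.pi / 4 * ((m - E.card) * en v ^ 2) ≤ ∫ w, g w := by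
  have hE : ∀ᵐ w : ℂ, w ∉ E := by
    have : (volume : Measure ℂ) (E : Set ℂ) = 0 := E.finite_toSet.measure_zero _
    exact measure_eq_zero_iff_ae_notMem.mp this
  have hp : ∀ j : ℕ, (0 : ℝ) < 1 / ((j : ℝ) + 1) := fun j => by positivity
  refine stokes_le (h := fun j => hh E c Xi F v (1 / ((j : ℝ) + 1)))
    (mul_nonneg (sub_nonneg.2 hm) (sq_nonneg _)) ig g0 (fun j => h.contDiff_hh (hp j)) ?_ ?_ ?_
  · intro η hη
    obtain ⟨R, hR⟩ := h.tail η hη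
    refine ⟨R, fun j w hw => hR _ (hp j) ?_ w hw⟩
    rw [div_le_one (by positivity)]
    linarith [(Nat.cast_nonneg j : (0 : ℝ) ≤ j)]
  · intro R
    obtain ⟨b, hb, hR⟩ := h.dom R
    exact ⟨b, hb, fun j => hE.mono fun w hw hwR => hR _ (hp j) w hw hwR⟩
  · refine hE.mono fun w hw η hη => ?_
    obtain ⟨ε₀, h0, hl⟩ := h.lim hw η hη
    have ht : ∀ᶠ j : ℕ in atTop, 1 / ((j : ℝ) + 1) < ε₀ :=
      tendsto_one_div_add_atTop_nhds_zero_nat.eventually (gt_mem_nhds h0)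
    exact ht.mono fun j hj => (hl _ (hp j) hj.le).trans (by linarith [hg w hw])

end Crest.Agent.R340.F2
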