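import Crest.Agent.R340.F2Inst

/-! # F2: small balls in the chart -/

set_option autoImplicit false

namespace Crest.Agent.R340.F2

open Matrix MeasureTheory Crest.MathPhysics.Laughlin Crest.Agent.R340.Pin
open scoped ComplexConjugate ENNReal

theorem nuC_eq (Q : ℕ) : nuC Q = volume.withDensity fun w =>
    ENNReal.ofReal (((Q : ℝ) + 1) / Real.pi * om w) := by
  unfold nuC om
  congr 1
  funext w
  rw [← div_div, div_eq_mul_inv (_ / _)]

private theorem h94_meas (Q : ℕ) :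
    Measurable fun w : ℂ => ENNReal.ofReal (((Q : ℝ) + 1) / Real.pi * om w) := by
  unfold om
  fun_prop

private theorem h94_smul (Q : ℕ) (f : ℂ → ℝ) :
    (fun w => (ENNReal.ofReal (((Q : ℝ) + 1) / Real.pi * om w)).toReal • f w) =
      fun w => ((Q : ℝ) + 1) / Real.pi * (om w * f w) := by
  funext w
  have := Real.pi_pos
  rw [ENNReal.toReal_ofReal (by unfold om; positivity), smul_eq_mul, mul_assoc]

theorem integral_nuC (Q : ℕ) (f : ℂ → ℝ) :
    ∫ w, f w ∂nuC Q = ((Q : ℝ) + 1) / Real.pi * ∫ w, om w * f w := by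
  rw [nuC_eq, integral_withDensity_eq_integral_toReal_smul (h94_meas Q)
    (Filter.Eventually.of_forall fun _ => ENNReal.ofReal_lt_top), h94_smul, integral_const_mul]

theorem integrable_nuC (Q : ℕ) {f : ℂ → ℝ} (hf : Integrable f (nuC Q)) :
    Integrable fun w => om w * f w := by
  rw [nuC_eq, integrable_withDensity_iff_integrable_smul' (h94_meas Q)
    (Filter.Eventually.of_forall fun _ => ENNReal.ofReal_lt_top), h94_smul] at hf
  have := Real.pi_pos
  have hc : ((Q : ℝ) + 1) / Real.pi ≠ 0 := by positivity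
  exact (integrable_const_mul_iff hc.isUnit _).1 hf

theorem nuC_ac (Q : ℕ) : nuC Q ≪ volume := withDensity_absolutelyContinuous _ _

theorem lintegral_om_far {L : ℝ} (hL : 1 ≤ L) :
    ∫⁻ w in {w : ℂ | L ≤ 1 + ‖w‖ ^ 2}, ENNReal.ofReal (om w) ≤ ENNReal.ofReal (4 * Real.pi / L) := by
  have hpi := Real.pi_pos
  have hs : Real.sqrt (L - 1) ^ 2 = L - 1 := Real.sq_sqrt (by linarith)
  have hsub : {w : ℂ | L ≤ 1 + ‖w‖ ^ 2} ⊆ {w : ℂ | Real.sqrt (L - 1) ≤ ‖w‖} := fun w hw =>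
    Real.sqrt_le_iff.2 ⟨norm_nonneg _, by have : L ≤ 1 + ‖w‖ ^ 2 := hw; linarith⟩
  have hf : (fun w : ℂ => ENNReal.ofReal (om w)) =
      fun w => ENNReal.ofReal (Real.pi / (Real.pi * (1 + ‖w‖ ^ 2) ^ 2)) := by
    funext w
    rw [om, div_mul_cancel_left₀ hpi.ne']
  refine (lintegral_mono_set hsub).trans ?_
  rw [hf, h10_tailR _ hpi.le (Real.sqrt_nonneg _), hs]
  refine ENNReal.ofReal_le_ofReal ?_
  rw [add_sub_cancel, ← div_eq_mul_inv]
  exact div_le_div_of_nonneg_right (by linarith) (by linarith)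

private theorem h94_lip {x y d : ℝ} (hx : 0 ≤ x) (hd : 0 ≤ d) (h : x ≤ y + d) :
    Real.sqrt (1 + x ^ 2) ≤ Real.sqrt (1 + y ^ 2) + d := by
  have h1 : y ≤ Real.sqrt (1 + y ^ 2) := Real.le_sqrt_of_sq_le (by linarith)
  have h2 : Real.sqrt (1 + y ^ 2) ^ 2 = 1 + y ^ 2 := Real.sq_sqrt (by positivity)
  have h3 : x ^ 2 ≤ (y + d) ^ 2 := pow_le_pow_left₀ hx h 2
  refine Real.sqrt_le_iff.2 ⟨by positivity, ?_⟩
  nlinarith [mul_le_mul_of_nonneg_right h1 hd]

private theorem h94_near {b : ℂ × ℂ} (hb : IsUnitSp b) {τ : ℝ} (hτ : 0 ≤ τ)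
    (ha : 2 * τ < ‖b.1‖) {w : ℂ} (hw : ‖b.1 * w - b.2‖ ≤ τ * Real.sqrt (1 + ‖w‖ ^ 2)) :
    ‖w - b.2 / b.1‖ ≤ 2 * τ / ‖b.1‖ ^ 2 ∧ om w ≤ 81 / 16 * ‖b.1‖ ^ 4 := by
  have ha0 : 0 < ‖b.1‖ := by linarith
  have hb1 : b.1 ≠ 0 := norm_pos_iff.1 ha0
  have hb' : ‖b.1‖ ^ 2 + ‖b.2‖ ^ 2 = 1 := hb
  have h0 : Real.sqrt (1 + ‖b.2 / b.1‖ ^ 2) = ‖b.1‖⁻¹ := by
    rw [Real.sqrt_eq_iff_mul_self_eq (by positivity) (by positivity), norm_div]
    field_simp
    linarith
  have h1 : ‖b.1 * w - b.2‖ = ‖b.1‖ * ‖w - b.2 / b.1‖ := by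
    rw [← norm_mul]
    congr 1
    field_simp
  have h2 := h94_lip (y := ‖b.2 / b.1‖) (norm_nonneg w) (norm_nonneg (w - b.2 / b.1))
    (by linarith [norm_sub_norm_le w (b.2 / b.1)])
  have h3 := h94_lip (y := ‖w‖) (norm_nonneg (b.2 / b.1)) (norm_nonneg (w - b.2 / b.1))
    (by linarith [norm_sub_norm_le (b.2 / b.1) w, norm_sub_rev (b.2 / b.1) w])
  have h4 : Real.sqrt (1 + ‖w‖ ^ 2) ^ 2 = 1 + ‖w‖ ^ 2 := Real.sq_sqrt (by positivity)
  have hs0 : 0 < Real.sqrt (1 + ‖w‖ ^ 2) := Real.sqrt_pos.2 (by positivity)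
  rw [h0] at h2 h3
  rw [h1] at hw
  rw [om, ← h4]
  generalize Real.sqrt (1 + ‖w‖ ^ 2) = s at *
  have hd := norm_nonneg (w - b.2 / b.1)
  generalize ‖w - b.2 / b.1‖ = d at *
  generalize ‖b.1‖ = a at *
  have hi : a * a⁻¹ = 1 := mul_inv_cancel₀ ha0.ne'
  have hi0 : 0 < a⁻¹ := inv_pos.2 ha0
  constructor
  · rw [le_div_iff₀ (by positivity)]
    have e1 : a * d ≤ τ * a⁻¹ + τ * d := by nlinarith [mul_le_mul_of_nonneg_left h2 hτ]
    have e2 : τ * d ≤ a / 2 * d := mul_le_mul_of_nonneg_right (by linarith) hd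
    have e3 : a * d ≤ 2 * (τ * a⁻¹) := by linarith
    have e4 := mul_le_mul_of_nonneg_left e3 ha0.le
    have e5 : a * (2 * (τ * a⁻¹)) = 2 * τ := by rw [mul_left_comm, mul_left_comm a, hi, mul_one]
    nlinarith
  · have e1 : τ * s ≤ a / 2 * s := mul_le_mul_of_nonneg_right (by linarith) hs0.le
    have e2 : d ≤ s / 2 := le_of_mul_le_mul_left (by linarith : a * d ≤ a * (s / 2)) ha0
    have e3 : 1 ≤ 3 / 2 * (a * s) := by
      nlinarith [mul_le_mul_of_nonneg_left (by linarith : a⁻¹ ≤ 3 / 2 * s) ha0.le]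
    have e4 : (1 : ℝ) ≤ (3 / 2 * (a * s)) ^ 4 := one_le_pow₀ e3
    rw [inv_le_iff_one_le_mul₀ (by positivity)]
    calc (1 : ℝ) ≤ _ := e4
      _ = _ := by ring

theorem lintegral_om_ball {b : ℂ × ℂ} (hb : IsUnitSp b) {τ : ℝ} (hτ : 0 ≤ τ) :
    ∫⁻ w in {w : ℂ | ‖b.1 * w - b.2‖ ≤ τ * Real.sqrt (1 + ‖w‖ ^ 2)}, ENNReal.ofReal (om w) ≤
      ENNReal.ofReal (64 * Real.pi * τ ^ 2) := by
  have hpi := Real.pi_pos
  have hb' : ‖b.1‖ ^ 2 + ‖b.2‖ ^ 2 = 1 := hb
  rcases le_or_gt (1 / 4) τ with h4 | h4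
  · refine (lintegral_mono_set fun w _ => ?_).trans ((lintegral_om_far le_rfl).trans
      (ENNReal.ofReal_le_ofReal ?_))
    · exact (le_add_of_nonneg_right (sq_nonneg ‖w‖) : (1 : ℝ) ≤ 1 + ‖w‖ ^ 2)
    · have : (1 / 4 : ℝ) ^ 2 ≤ τ ^ 2 := pow_le_pow_left₀ (by norm_num) h4 2
      nlinarith
  rcases le_or_gt ‖b.1‖ (2 * τ) with ha | ha
  · have key : ∀ w : ℂ, ‖b.1 * w - b.2‖ ≤ τ * Real.sqrt (1 + ‖w‖ ^ 2) →
        1 ≤ 12 * τ ^ 2 * (1 + ‖w‖ ^ 2) := by
      intro w hw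
      have h1 : ‖w‖ ≤ Real.sqrt (1 + ‖w‖ ^ 2) := Real.le_sqrt_of_sq_le (by linarith)
      have h2 : Real.sqrt (1 + ‖w‖ ^ 2) ^ 2 = 1 + ‖w‖ ^ 2 := Real.sq_sqrt (by positivity)
      have h3 : ‖b.2‖ ≤ ‖b.1‖ * ‖w‖ + ‖b.1 * w - b.2‖ := by
        rw [← norm_mul]
        linarith [norm_sub_norm_le b.2 (b.1 * w), norm_sub_rev b.2 (b.1 * w)]
      have h5 : ‖b.1‖ * ‖w‖ ≤ 2 * τ * Real.sqrt (1 + ‖w‖ ^ 2) :=
        mul_le_mul ha h1 (norm_nonneg _) (by linarith)
      have h6 : ‖b.2‖ ^ 2 ≤ (3 * τ * Real.sqrt (1 + ‖w‖ ^ 2)) ^ 2 :=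
        pow_le_pow_left₀ (norm_nonneg _) (by linarith) 2
      have h7 : ‖b.1‖ ^ 2 ≤ (1 / 2) ^ 2 := pow_le_pow_left₀ (norm_nonneg _) (by linarith) 2
      rw [mul_pow, h2] at h6
      nlinarith
    rcases hτ.eq_or_lt with h0 | h0
    · have he : {w : ℂ | ‖b.1 * w - b.2‖ ≤ τ * Real.sqrt (1 + ‖w‖ ^ 2)} = ∅ :=
        Set.eq_empty_of_forall_notMem fun w hw => by
          have := key w hw
          rw [← h0] at this
          norm_num at this
      rw [he, Measure.restrict_empty, lintegral_zero_measure]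
      exact bot_le
    · have h12 : 0 < 12 * τ ^ 2 := by positivity
      refine (lintegral_mono_set fun w hw => ?_).trans
        ((lintegral_om_far (L := 1 / (12 * τ ^ 2)) ?_).trans (ENNReal.ofReal_le_ofReal ?_))
      · exact (div_le_iff₀' h12).2 (key w hw)
      · rw [le_div_iff₀ h12]
        nlinarith
      · rw [div_div_eq_mul_div, div_one]
        nlinarith [mul_pos hpi h12]
  · have ha0 : 0 < ‖b.1‖ := by linarith
    refine (setLIntegral_mono (g := fun _ => ENNReal.ofReal (81 / 16 * ‖b.1‖ ^ 4)) measurable_const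
      fun w hw => ENNReal.ofReal_le_ofReal (h94_near hb hτ ha hw).2).trans ?_
    rw [setLIntegral_const]
    have hsub : {w : ℂ | ‖b.1 * w - b.2‖ ≤ τ * Real.sqrt (1 + ‖w‖ ^ 2)} ⊆
        Metric.closedBall (b.2 / b.1) (2 * τ / ‖b.1‖ ^ 2) := fun w hw =>
      mem_closedBall_iff_norm.2 (h94_near hb hτ ha hw).1
    refine (mul_le_mul_right (measure_mono hsub) _).trans ?_
    rw [Complex.volume_closedBall, ← ENNReal.ofReal_pow (by positivity),
      ← ENNReal.ofReal_coe_nnreal, ← ENNReal.ofReal_mul (by positivity),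
      ← ENNReal.ofReal_mul (by positivity), NNReal.coe_real_pi]
    refine ENNReal.ofReal_le_ofReal ?_
    have : 81 / 16 * ‖b.1‖ ^ 4 * ((2 * τ / ‖b.1‖ ^ 2) ^ 2 * Real.pi) = 81 / 4 * (Real.pi * τ ^ 2) := by
      field_simp
      ring
    rw [this]
    nlinarith [mul_nonneg hpi.le (sq_nonneg τ)]

theorem nuC_ball {Q : ℕ} (hQ : 1 ≤ Q) (b : S2) {r : ℝ} (hr : 0 ≤ r) :
    nuC Q {w | dq Q b (ster w) ≤ r} ≤ ENNReal.ofReal (128 * r ^ 2) := by
  have q0 : (0 : ℝ) < Q := by exact_mod_cast hQ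
  have q1 : (1 : ℝ) ≤ Q := by exact_mod_cast hQ
  refine (measure_mono fun w hw => ?_).trans ((h10_cap Q b (t := r ^ 2 / Q) (by positivity)).trans
    (ENNReal.ofReal_le_ofReal ?_))
  · have h := pow_le_pow_left₀ (dq_nonneg _ _ _) (show dq Q b (ster w) ≤ r from hw) 2
    rw [dq_sq, tS_symm] at h
    exact (le_div_iff₀' q0).2 h
  · rw [← mul_div_assoc, ← mul_div_assoc, div_le_iff₀ q0]
    nlinarith [mul_le_mul_of_nonneg_left q1 (sq_nonneg r), sq_nonneg r]

theorem lintegral_inv_dq {Q : ℕ} (hQ : 1 ≤ Q) (b : S2) {δ : ℝ} (hδ : 0 < δ) :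
    ∫⁻ w in {w | dq Q b (ster w) < δ}, ENNReal.ofReal (dq Q b (ster w))⁻¹ ∂nuC Q ≤
      ENNReal.ofReal (512 * δ) := by
  have ms : ∀ r : ℝ, MeasurableSet {w | dq Q b (ster w) ≤ r} := fun r =>
    measurableSet_le ((h54_meas_dq Q b).comp continuous_ster.measurable) measurable_const
  have pt : ∀ w ∈ {w | dq Q b (ster w) < δ}, ENNReal.ofReal (dq Q b (ster w))⁻¹ ≤
      ∑' k : ℕ, {w | dq Q b (ster w) ≤ δ * (1 / 2) ^ k}.indicator
        (fun _ => ENNReal.ofReal (δ * (1 / 2) ^ (k + 1))⁻¹) w := by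
    intro w hw
    rcases (dq_nonneg Q b (ster w)).eq_or_lt with h | h
    · rw [← h, _root_.inv_zero, ENNReal.ofReal_zero]; exact zero_le
    obtain ⟨k, k1, k2⟩ := exists_nat_pow_near_of_lt_one (x := dq Q b (ster w) / δ) (y := 1 / 2)
      (by positivity) ((div_le_one hδ).2 (le_of_lt hw)) (by norm_num) (by norm_num)
    refine le_trans ?_ (ENNReal.le_tsum k)
    rw [Set.indicator_of_mem (show w ∈ {w | dq Q b (ster w) ≤ δ * (1 / 2) ^ k} from
      (div_le_iff₀' hδ).1 k2)]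
    exact ENNReal.ofReal_le_ofReal (inv_anti₀ (by positivity) ((lt_div_iff₀' hδ).1 k1).le)
  refine (setLIntegral_mono (Measurable.tsum fun k => measurable_const.indicator (ms _))
    pt).trans ((setLIntegral_le_lintegral _ _).trans ?_)
  rw [lintegral_tsum fun k => (measurable_const.indicator (ms _)).aemeasurable]
  have e : 512 * δ = ∑' k : ℕ, 256 * δ * (1 / 2) ^ k := by
    rw [tsum_mul_left, tsum_geometric_two]; ring
  rw [e, ENNReal.ofReal_tsum_of_nonneg (fun k => by positivity)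
    (summable_geometric_two.mul_left _)]
  refine ENNReal.tsum_le_tsum fun k => ?_
  rw [lintegral_indicator_const (ms _)]
  refine (mul_le_mul_right (nuC_ball hQ b (by positivity)) _).trans ?_
  rw [← ENNReal.ofReal_mul (by positivity)]
  refine ENNReal.ofReal_le_ofReal (le_of_eq ?_)
  field_simp
  ring

/-- the weight near the pins -/
noncomputable def rd (Q : ℕ) (T : Multiset S2) (δ : ℝ) (w : ℂ) : ℝ :=
  if md Q T (ster w) < δ then (δ * md Q T (ster w))⁻¹ else 0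

theorem measurable_rd (Q : ℕ) (T : Multiset S2) (δ : ℝ) : Measurable (rd Q T δ) := by
  have h : Measurable fun w => md Q T (ster w) := ((continuous_md Q T).comp continuous_ster).measurable
  exact Measurable.ite (measurableSet_lt h measurable_const) (h.const_mul δ).inv measurable_const

theorem sites_chart : ∃ G : ℝ, ∀ Q : ℕ, 1 ≤ Q → Sites Q G (nuC Q) ster ∧
    ∀ T : Multiset S2, Sep Q 1 T → ∀ δ : ℝ, 0 < δ → δ ≤ 1 →
      Sites Q G ((nuC Q).withDensity fun w => ENNReal.ofReal (rd Q T δ w)) ster := by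
  classical
  obtain ⟨G, hG⟩ := sites_nuC
  obtain ⟨G', hG'⟩ := card_ball_le
  refine ⟨max G (2048 * |G'|), fun Q hQ => ⟨⟨(hG Q hQ).fin, (hG Q hQ).meas, fun u r hr =>
    ((hG Q hQ).growth u r hr).trans (mul_le_mul_of_nonneg_right (le_max_left _ _) (sq_nonneg _))⟩,
    fun T hT δ d0 d1 => ?_⟩⟩
  have md : ∀ b, Measurable fun w => dq Q b (ster w) := fun b =>
    (h54_meas_dq Q b).comp continuous_ster.measurable
  have key : ∀ u r, 0 ≤ r → (nuC Q).withDensity (fun w => ENNReal.ofReal (rd Q T δ w))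
      {w | dq Q (ster w) u ≤ r} ≤ ENNReal.ofReal (2048 * |G'| * (1 + r) ^ 2) := by
    intro u r hr
    have ms : MeasurableSet {w | dq Q (ster w) u ≤ r} := by
      simpa only [dq_symm Q u] using measurableSet_le (md u) measurable_const
    set S := T.toFinset.filter fun b => dq Q b u ≤ r + 1 with hS
    have mi : ∀ b, Measurable ({w | dq Q b (ster w) < δ}.indicator
        fun w => ENNReal.ofReal δ⁻¹ * ENNReal.ofReal (dq Q b (ster w))⁻¹) := fun b =>
      ((md b).inv.ennreal_ofReal.const_mul _).indicator (measurableSet_lt (md b) measurable_const)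
    have pt : ∀ w ∈ {w | dq Q (ster w) u ≤ r}, ENNReal.ofReal (rd Q T δ w) ≤
        ∑ b ∈ S, {w | dq Q b (ster w) < δ}.indicator
          (fun w => ENNReal.ofReal δ⁻¹ * ENNReal.ofReal (dq Q b (ster w))⁻¹) w := by
      intro w hw
      unfold rd
      split_ifs with h
      · rcases md_cases Q T (ster w) with h1 | ⟨b, hb, h1⟩
        · linarith
        rw [h1] at h ⊢
        have t := dq_tri Q b (ster w) u
        refine le_trans ?_ (Finset.single_le_sum (fun _ _ => zero_le) (show b ∈ S from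
          Finset.mem_filter.2 ⟨Multiset.mem_toFinset.2 hb, by
            linarith [show dq Q (ster w) u ≤ r from hw]⟩))
        rw [Set.indicator_of_mem (show w ∈ {w | dq Q b (ster w) < δ} from h), mul_inv,
          ENNReal.ofReal_mul (by positivity)]
      · rw [ENNReal.ofReal_zero]; exact zero_le
    rw [withDensity_apply _ ms]
    refine (setLIntegral_mono (Finset.measurable_sum _ fun b _ => mi b) pt).trans
      ((setLIntegral_le_lintegral _ _).trans ?_)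
    rw [lintegral_finsetSum _ fun b _ => mi b]
    have one : ∀ b ∈ S, ∫⁻ w, {w | dq Q b (ster w) < δ}.indicator
        (fun w => ENNReal.ofReal δ⁻¹ * ENNReal.ofReal (dq Q b (ster w))⁻¹) w ∂nuC Q ≤
        ENNReal.ofReal 512 := by
      intro b _
      rw [lintegral_indicator (measurableSet_lt (md b) measurable_const),
        lintegral_const_mul' _ _ ENNReal.ofReal_ne_top]
      refine (mul_le_mul_right (lintegral_inv_dq hQ b d0) _).trans ?_
      rw [← ENNReal.ofReal_mul (by positivity)]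
      exact ENNReal.ofReal_le_ofReal (le_of_eq (by field_simp))
    refine (Finset.sum_le_card_nsmul _ _ _ one).trans ?_
    rw [nsmul_eq_mul, ← ENNReal.ofReal_natCast, ← ENNReal.ofReal_mul (by positivity)]
    refine ENNReal.ofReal_le_ofReal ?_
    have h := hG' Q hQ 1 T.toFinset le_rfl (fun a ha b hb => hT a (by simpa using ha) b
      (by simpa using hb)) u (r + 1) (by positivity)
    rw [div_one] at h
    have h2 : G' * (1 + (r + 1)) ^ 2 ≤ |G'| * (4 * (1 + r) ^ 2) :=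
      mul_le_mul (le_abs_self _) (by nlinarith) (sq_nonneg _) (abs_nonneg _)
    linarith
  refine ⟨⟨?_⟩, continuous_ster.measurable, fun u r hr => ?_⟩
  · have h := key (ster 0) (Real.sqrt Q) (Real.sqrt_nonneg _)
    rw [Set.eq_univ_of_forall (s := {w | dq Q (ster w) (ster 0) ≤ Real.sqrt Q})
      fun w => dq_le Q _ _] at h
    exact h.trans_lt ENNReal.ofReal_lt_top
  · exact (ENNReal.toReal_le_of_le_ofReal (by positivity) (key u r hr)).trans
      (mul_le_mul_of_nonneg_right (le_max_right _ _) (sq_nonneg _))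

end Crest.Agent.R340.F2
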