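import Crest.Agent.R340.GeoDefs

/-! # GEO: algebra of coherent vectors (helper55, task 5730) -/

set_option autoImplicit false

namespace Crest.Agent.R340

open Matrix
open scoped ComplexConjugate

variable {q : ℕ}

theorem a55_sq (q j : ℕ) :
    (Real.sqrt (q.choose j) : ℂ) * (Real.sqrt (q.choose j) : ℂ) = (q.choose j : ℂ) := by
  rw [← Complex.ofReal_mul, Real.mul_self_sqrt (Nat.cast_nonneg _)]; simp

theorem a55_ne (j : Fin (q + 1)) : (Real.sqrt (q.choose j) : ℂ) ≠ 0 := by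
  have : 0 < q.choose j := Nat.choose_pos (Nat.lt_succ_iff.1 j.2)
  exact Complex.ofReal_ne_zero.2 (Real.sqrt_pos.2 (by exact_mod_cast this)).ne'

theorem a55_star_kv (q : ℕ) (u : ℂ × ℂ) (j : Fin (q + 1)) :
    star (kv q u) j = (Real.sqrt (q.choose j) : ℂ) * (u.1 ^ (q - j) * u.2 ^ (j : ℕ)) := by
  simp only [Pi.star_apply, kv, star_mul', Complex.star_def, Complex.conj_ofReal,
    Complex.conj_conj]

theorem a55_kv_dot (q : ℕ) (u v : ℂ × ℂ) :
    star (kv q u) ⬝ᵥ kv q v = (u.1 * conj v.1 + u.2 * conj v.2) ^ q := by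
  rw [add_comm (u.1 * conj v.1), add_pow, ← Fin.sum_univ_eq_sum_range
    (fun m => (u.2 * conj v.2) ^ m * (u.1 * conj v.1) ^ (q - m) * (q.choose m : ℂ)) (q + 1)]
  refine Finset.sum_congr rfl fun j _ => ?_
  rw [a55_star_kv, kv, ← a55_sq, map_mul, map_pow, map_pow, mul_pow, mul_pow]
  ring

theorem a55_kv_smul (q : ℕ) (z : ℂ) (u : ℂ × ℂ) : kv q (z • u) = conj z ^ q • kv q u := by
  funext j
  have hj : q = (q - j) + j := (Nat.sub_add_cancel (Nat.lt_succ_iff.1 j.2)).symm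
  have hz : conj z ^ q = conj z ^ (q - j) * conj z ^ (j : ℕ) := by rw [← pow_add, ← hj]
  simp only [kv, Pi.smul_apply, Prod.smul_fst, Prod.smul_snd, smul_eq_mul, map_mul, map_pow,
    mul_pow]
  rw [hz]
  ring

open Polynomial in
theorem a55_homog (a b c d x y : ℂ) (m k : ℕ) :
    ∑ j ∈ Finset.range (m + k + 1),
      ((C a + C b * X) ^ m * (C c + C d * X) ^ k).coeff j * (x ^ (m + k - j) * y ^ j) =
      (a * x + b * y) ^ m * (c * x + d * y) ^ k := by
  set P : ℂ[X] := (C a + C b * X) ^ m * (C c + C d * X) ^ k with hP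
  have hl : ∀ s t : ℂ, (C s + C t * X : ℂ[X]).natDegree ≤ 1 := fun s t => by
    rw [add_comm]; exact natDegree_linear_le
  have hdeg : P.natDegree < m + k + 1 := by
    refine Nat.lt_succ_of_le (natDegree_mul_le.trans (add_le_add ?_ ?_))
    · simpa using natDegree_pow_le_of_le m (hl a b)
    · simpa using natDegree_pow_le_of_le k (hl c d)
  have key : ∀ x : ℂ, x ≠ 0 → ∑ j ∈ Finset.range (m + k + 1),
      P.coeff j * (x ^ (m + k - j) * y ^ j) = (a * x + b * y) ^ m * (c * x + d * y) ^ k := by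
    intro x hx
    have h1 := eval_eq_sum_range' hdeg (y / x)
    have h2 : P.eval (y / x) = (a + b * (y / x)) ^ m * (c + d * (y / x)) ^ k := by
      simp [hP]
    have h3 : a * x + b * y = x * (a + b * (y / x)) := by field_simp
    have h4 : c * x + d * y = x * (c + d * (y / x)) := by field_simp
    rw [h3, h4, mul_pow, mul_pow, mul_mul_mul_comm, ← pow_add, ← h2, h1, Finset.mul_sum]
    refine Finset.sum_congr rfl fun j hj => ?_
    have hj' : j ≤ m + k := Nat.lt_succ_iff.1 (Finset.mem_range.1 hj)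
    have hx' : x ^ (m + k) = x ^ (m + k - j) * x ^ j := by rw [← pow_add, Nat.sub_add_cancel hj']
    rw [hx', div_pow]
    field_simp
  have hc1 : Continuous fun x : ℂ => ∑ j ∈ Finset.range (m + k + 1),
      P.coeff j * (x ^ (m + k - j) * y ^ j) := by fun_prop
  have hc2 : Continuous fun x : ℂ => (a * x + b * y) ^ m * (c * x + d * y) ^ k := by fun_prop
  exact congrFun (Continuous.ext_on (dense_compl_singleton (0 : ℂ)) hc1 hc2
    fun x hx => key x hx) x

theorem a55_kv_dot_rho (q : ℕ) (z u : ℂ × ℂ) (k : Fin (q + 1)) :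
    star (kv q z) ⬝ᵥ (fun j => rho q u j k) = (Real.sqrt (q.choose k) : ℂ) *
      ((conj u.1 * z.1 + conj u.2 * z.2) ^ (q - k) * (-u.2 * z.1 + u.1 * z.2) ^ (k : ℕ)) := by
  have hk : q - k + k = q := Nat.sub_add_cancel (Nat.lt_succ_iff.1 k.2)
  have h := a55_homog (conj u.1) (conj u.2) (-u.2) u.1 z.1 z.2 (q - k) k
  rw [hk] at h
  rw [← h, Finset.sum_range, Finset.mul_sum]
  refine Finset.sum_congr rfl fun j _ => ?_
  have hj := a55_ne j
  rw [a55_star_kv]
  simp only [rho, Matrix.of_apply, Complex.ofReal_div]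
  field_simp

theorem a55_vand {f : Fin (q + 1) → ℂ}
    (h : ∀ i : Fin (q + 1), ∑ j : Fin (q + 1),
      (Real.sqrt (q.choose j) : ℂ) * f j * ((i : ℕ) : ℂ) ^ (j : ℕ) = 0) : f = 0 := by
  have hinj : Function.Injective fun i : Fin (q + 1) => ((i : ℕ) : ℂ) := fun i j hij =>
    Fin.ext (Nat.cast_injective (R := ℂ) hij)
  have := Matrix.eq_zero_of_forall_index_sum_mul_pow_eq_zero hinj
    (v := fun j : Fin (q + 1) => (Real.sqrt (q.choose j) : ℂ) * f j) h
  funext j
  exact (mul_eq_zero.1 (congrFun this j)).resolve_left (a55_ne j)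

theorem a55_eq_zero_of_kv {f : Fin (q + 1) → ℂ}
    (h : ∀ w : ℂ, star (kv q (1, w)) ⬝ᵥ f = 0) : f = 0 := by
  refine a55_vand fun i => ?_
  rw [← h ((i : ℕ) : ℂ)]
  refine Finset.sum_congr rfl fun j _ => ?_
  rw [a55_star_kv]
  simp only [one_pow]
  ring

theorem a55_mat_ext_kv {m : Type} {A B : Matrix m (Fin (q + 1)) ℂ}
    (h : ∀ w : ℂ, A *ᵥ kv q (1, w) = B *ᵥ kv q (1, w)) : A = B := by
  ext i j
  have h0 : star (A i - B i) = 0 := by
    refine a55_eq_zero_of_kv fun w => ?_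
    have h1 : A i ⬝ᵥ kv q (1, w) = B i ⬝ᵥ kv q (1, w) := congrFun (h w) i
    rw [star_dotProduct_star, sub_dotProduct, h1, sub_self, star_zero]
  have h2 : A i - B i = 0 := star_eq_zero.1 h0
  exact congrFun (sub_eq_zero.1 h2) j

theorem a55_exists_kv_span (f : Fin (q + 1) → ℂ) :
    ∃ (a : Fin (q + 1) → ℂ) (z : Fin (q + 1) → ℂ × ℂ), (∀ i, IsUnitSp (z i)) ∧
      f = ∑ i, a i • kv q (z i) := by
  classical
  let c : Fin (q + 1) → ℝ := fun i => (Real.sqrt (1 + ((i : ℕ) : ℝ) ^ 2))⁻¹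
  have hc : ∀ i, 0 < c i := fun i => inv_pos.2 (Real.sqrt_pos.2 (by positivity))
  let z : Fin (q + 1) → ℂ × ℂ := fun i => (c i : ℂ) • ((1 : ℂ), ((i : ℕ) : ℂ))
  let M : Matrix (Fin (q + 1)) (Fin (q + 1)) ℂ := Matrix.of fun j i => kv q (z i) j
  have hdet : M.det ≠ 0 := by
    intro h0
    obtain ⟨v, hv, hvM⟩ := Matrix.exists_vecMul_eq_zero_iff.2 h0
    refine hv (a55_vand fun i => ?_)
    have h1 : ∑ j, v j * kv q (z i) j = 0 := congrFun hvM i
    have hne : conj (c i : ℂ) ^ q ≠ 0 := by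
      rw [Complex.conj_ofReal]; exact pow_ne_zero _ (Complex.ofReal_ne_zero.2 (hc i).ne')
    refine (mul_eq_zero.1 ?_).resolve_left hne
    rw [← h1, Finset.mul_sum]
    refine Finset.sum_congr rfl fun j _ => ?_
    simp only [z]
    rw [a55_kv_smul]
    simp only [kv, Pi.smul_apply, smul_eq_mul, one_pow, one_mul, map_pow, map_natCast]
    ring
  have hU : IsUnit M := (Matrix.isUnit_iff_isUnit_det M).2 (isUnit_iff_ne_zero.2 hdet)
  obtain ⟨a, ha⟩ := Matrix.mulVec_surjective_iff_isUnit.2 hU f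
  refine ⟨a, z, fun i => ?_, ?_⟩
  · have hs : 0 < 1 + ((i : ℕ) : ℝ) ^ 2 := by positivity
    have hc2 : c i ^ 2 = (1 + ((i : ℕ) : ℝ) ^ 2)⁻¹ := by
      simp only [c]; rw [inv_pow, Real.sq_sqrt hs.le]
    simp only [IsUnitSp, z, Prod.smul_fst, Prod.smul_snd, smul_eq_mul, mul_one, norm_mul,
      Complex.norm_real, Complex.norm_natCast, Real.norm_eq_abs, mul_pow, sq_abs, hc2]
    field_simp
  · rw [← ha]
    funext j
    simp only [Matrix.mulVec, dotProduct, M, Matrix.of_apply, Finset.sum_apply, Pi.smul_apply,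
      smul_eq_mul]
    exact Finset.sum_congr rfl fun i _ => mul_comm _ _

end Crest.Agent.R340
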