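import Crest.Agent.R340.GeoDefs
import Crest.Agent.R340.GeoRhoA55

/-! # GEO: the representation `rho`, spinors over the sphere, overlaps -/

set_option autoImplicit false

namespace Crest.Agent.R340

open Matrix MeasureTheory Crest.MathPhysics.Laughlin
open scoped ComplexConjugate

variable {q : ℕ} {u v : ℂ × ℂ}

/-! ### part A: algebra -/

theorem kv_dot (q : ℕ) (u v : ℂ × ℂ) :
    star (kv q u) ⬝ᵥ kv q v = (u.1 * conj v.1 + u.2 * conj v.2) ^ q := by
  exact a55_kv_dot q u v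

theorem kv_smul (q : ℕ) (z : ℂ) (u : ℂ × ℂ) : kv q (z • u) = conj z ^ q • kv q u := by
  exact a55_kv_smul q z u

/-- evaluation of the `k`-th column of `rho` at the spinor `z` -/
theorem kv_dot_rho (q : ℕ) (z u : ℂ × ℂ) (k : Fin (q + 1)) :
    star (kv q z) ⬝ᵥ (fun j => rho q u j k) = (Real.sqrt (q.choose k) : ℂ) *
      ((conj u.1 * z.1 + conj u.2 * z.2) ^ (q - k) * (-u.2 * z.1 + u.1 * z.2) ^ (k : ℕ)) := by
  exact a55_kv_dot_rho q z u k

/-- coherent vectors span -/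
theorem eq_zero_of_kv {f : Fin (q + 1) → ℂ} (h : ∀ w : ℂ, star (kv q (1, w)) ⬝ᵥ f = 0) :
    f = 0 := by
  exact a55_eq_zero_of_kv h

theorem mat_ext_kv {m : Type} {A B : Matrix m (Fin (q + 1)) ℂ}
    (h : ∀ w : ℂ, A *ᵥ kv q (1, w) = B *ᵥ kv q (1, w)) : A = B := by
  exact a55_mat_ext_kv h

theorem exists_kv_span (f : Fin (q + 1) → ℂ) :
    ∃ (a : Fin (q + 1) → ℂ) (z : Fin (q + 1) → ℂ × ℂ), (∀ i, IsUnitSp (z i)) ∧
      f = ∑ i, a i • kv q (z i) := by
  exact a55_exists_kv_span f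

theorem g29_ext {f g : Fin (q + 1) → ℂ}
    (h : ∀ w : ℂ, star (kv q (1, w)) ⬝ᵥ f = star (kv q (1, w)) ⬝ᵥ g) : f = g :=
  sub_eq_zero.1 (eq_zero_of_kv fun w => by rw [dotProduct_sub, h, sub_self])

theorem g29_sq (m : ℕ) : (Real.sqrt m : ℂ) * (Real.sqrt m : ℂ) = m := by
  rw [← Complex.ofReal_mul, Real.mul_self_sqrt (Nat.cast_nonneg m), Complex.ofReal_natCast]

theorem g29_assoc (u v w : ℂ × ℂ) : act u (act v w) = act (act u v) w := by
  simp only [act, map_add, map_sub, map_mul, Complex.conj_conj, Prod.mk.injEq]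
  constructor <;> ring

theorem g29_norm (u v : ℂ × ℂ) : ‖(act u v).1‖ ^ 2 + ‖(act u v).2‖ ^ 2 =
    (‖u.1‖ ^ 2 + ‖u.2‖ ^ 2) * (‖v.1‖ ^ 2 + ‖v.2‖ ^ 2) := by
  simp only [act, Complex.sq_norm, Complex.normSq_apply, Complex.sub_re, Complex.sub_im,
    Complex.add_re, Complex.add_im, Complex.mul_re, Complex.mul_im, Complex.conj_re,
    Complex.conj_im]
  ring

theorem g29_unit (hu : IsUnitSp u) : conj u.1 * u.1 + conj u.2 * u.2 = 1 := by
  rw [Complex.conj_mul', Complex.conj_mul']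
  exact_mod_cast congrArg (fun t : ℝ => (t : ℂ)) hu

open Polynomial in
theorem g29_mul {f g : ℂ × ℂ → ℂ[X]} (hf : ∀ j, Continuous fun u => (f u).coeff j)
    (hg : ∀ j, Continuous fun u => (g u).coeff j) (j : ℕ) :
    Continuous fun u => (f u * g u).coeff j := by
  simp only [coeff_mul]
  exact continuous_finsetSum _ fun p _ => (hf _).mul (hg _)

open Polynomial in
theorem g29_pow {f : ℂ × ℂ → ℂ[X]} (hf : ∀ j, Continuous fun u => (f u).coeff j) (m : ℕ) :
    ∀ j, Continuous fun u => (f u ^ m).coeff j := by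
  induction m with
  | zero => intro j; simp only [pow_zero]; exact continuous_const
  | succ m ih => simp only [pow_succ]; exact g29_mul ih hf

open Polynomial in
theorem g29_lin {a b : ℂ × ℂ → ℂ} (ha : Continuous a) (hb : Continuous b) (j : ℕ) :
    Continuous fun u => (C (a u) + C (b u) * X).coeff j := by
  simp only [coeff_add, coeff_C_mul, coeff_C]
  refine Continuous.add ?_ (hb.mul continuous_const)
  split_ifs
  · exact ha
  · exact continuous_const

theorem g29_id {f : ℂ → ℂ} (hf : Differentiable ℂ f) (h : ∀ x : ℝ, f x = 0) (z : ℂ) :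
    f z = 0 := by
  have h1 : Filter.Tendsto (fun x : ℝ => (x : ℂ)) (nhdsWithin 0 {0}ᶜ) (nhdsWithin 0 {0}ᶜ) := by
    refine tendsto_nhdsWithin_iff.2 ⟨?_, ?_⟩
    · simpa using (Complex.continuous_ofReal.tendsto 0).mono_left nhdsWithin_le_nhds
    · filter_upwards [self_mem_nhdsWithin] with x hx
      simpa using hx
  have := (hf.differentiableOn.analyticOnNhd isOpen_univ).eq_of_frequently_eq
    (g := fun _ => 0) analyticOnNhd_const
    (h1.frequently (Filter.Eventually.of_forall h).frequently)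
  exact congrFun this z

theorem rho_mulVec_kv (q : ℕ) (u v : ℂ × ℂ) : rho q u *ᵥ kv q v = kv q (act u v) := by
  refine g29_ext fun w => ?_
  generalize ((1, w) : ℂ × ℂ) = z
  rw [kv_dot, dotProduct_mulVec]
  have e : z.1 * conj (act u v).1 + z.2 * conj (act u v).2 =
      (-u.2 * z.1 + u.1 * z.2) * conj v.2 + (conj u.1 * z.1 + conj u.2 * z.2) * conj v.1 := by
    simp only [act, map_add, map_sub, map_mul, Complex.conj_conj]
    ring
  rw [e, add_pow, Finset.sum_range, dotProduct]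
  refine Finset.sum_congr rfl fun k _ => ?_
  have := kv_dot_rho q z u k
  change (star (kv q z) ⬝ᵥ fun j => rho q u j k) * _ = _
  rw [this, kv, ← g29_sq, map_mul, map_pow, map_pow, mul_pow, mul_pow]
  ring

theorem rho_mul (q : ℕ) (u v : ℂ × ℂ) : rho q u * rho q v = rho q (act u v) := by
  refine mat_ext_kv fun w => ?_
  rw [← mulVec_mulVec, rho_mulVec_kv, rho_mulVec_kv, rho_mulVec_kv, g29_assoc]

theorem rho_one (q : ℕ) : rho q (1, 0) = 1 := by
  refine mat_ext_kv fun w => ?_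
  rw [rho_mulVec_kv, one_mulVec]
  simp [act]

theorem star_rho (q : ℕ) (u : ℂ × ℂ) : star (rho q u) = rho q (spInv u) := by
  refine mat_ext_kv fun w => g29_ext fun w' => ?_
  generalize ((1, w) : ℂ × ℂ) = y
  generalize ((1, w') : ℂ × ℂ) = z
  rw [rho_mulVec_kv, kv_dot, star_eq_conjTranspose, dotProduct_mulVec, ← star_mulVec,
    rho_mulVec_kv, kv_dot]
  congr 1
  simp only [act, spInv, map_add, map_sub, map_mul, map_neg, Complex.conj_conj]
  ring

theorem IsUnitSp.act (hu : IsUnitSp u) (hv : IsUnitSp v) : IsUnitSp (act u v) := by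
  unfold IsUnitSp at *
  rw [g29_norm, hu, hv, one_mul]

theorem IsUnitSp.inv (hu : IsUnitSp u) : IsUnitSp (spInv u) := by
  unfold IsUnitSp at *
  simpa [spInv] using hu

theorem rho_unitary (q : ℕ) (hu : IsUnitSp u) :
    rho q u ∈ unitary (Matrix (Fin (q + 1)) (Fin (q + 1)) ℂ) := by
  have h := g29_unit hu
  have h1 : act (spInv u) u = (1, 0) := by
    simp only [act, spInv, map_neg, Complex.conj_conj, Prod.mk.injEq]
    exact ⟨by linear_combination h, by ring⟩
  have h2 : act u (spInv u) = (1, 0) := by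
    simp only [act, spInv, Prod.mk.injEq]
    exact ⟨by linear_combination h, by ring⟩
  rw [Unitary.mem_iff, star_rho, rho_mul, rho_mul, h1, h2, rho_one]
  exact ⟨rfl, rfl⟩

theorem rho_col_zero (q : ℕ) (u : ℂ × ℂ) : (fun j => rho q u j 0) = kv q u := by
  refine g29_ext fun w => ?_
  rw [kv_dot_rho, kv_dot]
  simp [mul_comm]

theorem rho_diag (q : ℕ) (z : ℂ) :
    rho q (z, 0) = diagonal fun k : Fin (q + 1) => conj z ^ (q - k) * z ^ (k : ℕ) := by
  refine mat_ext_kv fun w => ?_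
  rw [rho_mulVec_kv]
  funext j
  simp only [mulVec_diagonal, kv, act, map_mul, map_pow, map_zero, map_one, Complex.conj_conj,
    mul_one, zero_mul, sub_zero, zero_add, one_pow, one_mul, mul_pow]
  ring

theorem continuous_kv (q : ℕ) : Continuous (kv q) := by
  refine continuous_pi fun j => ?_
  exact continuous_const.mul (Complex.continuous_conj.comp (by fun_prop))

theorem continuous_rho (q : ℕ) : Continuous (rho q) := by
  refine continuous_matrix fun j k => ?_
  refine continuous_const.mul (g29_mul (g29_pow (g29_lin ?_ ?_) _) (g29_pow (g29_lin ?_ ?_) _) _)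
  · exact Complex.continuous_conj.comp continuous_fst
  · exact Complex.continuous_conj.comp continuous_snd
  · exact continuous_snd.neg
  · exact continuous_fst

/-- a matrix is determined by its symbol -/
theorem symbol_inj' {M : Matrix (Fin (q + 1)) (Fin (q + 1)) ℂ}
    (h : ∀ w : ℂ, star (kv q (1, w)) ⬝ᵥ M *ᵥ kv q (1, w) = 0) : M = 0 := by
  set P : ℂ → ℂ → ℂ := fun a b => ∑ j : Fin (q + 1), (Real.sqrt (q.choose j) : ℂ) * a ^ (j : ℕ) *
    ∑ k : Fin (q + 1), M j k * ((Real.sqrt (q.choose k) : ℂ) * b ^ (k : ℕ)) with hP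
  have e : ∀ a b : ℂ, star (kv q (1, a)) ⬝ᵥ M *ᵥ kv q (1, b) = P a (conj b) := by
    intro a b
    simp [hP, dotProduct, mulVec, kv]
  have h1 : ∀ (t : ℝ) (s : ℂ), P (s + Complex.I * t) (s - Complex.I * t) = 0 := by
    intro t
    refine g29_id (by simp only [hP]; fun_prop) fun s => ?_
    have := h (s + Complex.I * t)
    rw [e] at this
    simpa [sub_eq_add_neg] using this
  have h2 : ∀ s t : ℂ, P (s + Complex.I * t) (s - Complex.I * t) = 0 := fun s =>
    g29_id (f := fun t => P (s + Complex.I * t) (s - Complex.I * t))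
      (by simp only [hP]; fun_prop) fun t => h1 t s
  refine mat_ext_kv fun b => ?_
  rw [zero_mulVec]
  refine eq_zero_of_kv fun a => ?_
  have := h2 ((a + conj b) / 2) (-Complex.I * (a - conj b) / 2)
  rw [e]
  convert this using 2
  · linear_combination (a - conj b) / 2 * Complex.I_mul_I
  · linear_combination -(a - conj b) / 2 * Complex.I_mul_I

/-! ### part B: the sphere -/

theorem geoB_norm (x : S2) : (x : EuclideanSpace ℝ (Fin 3)) 0 ^ 2 +
    (x : EuclideanSpace ℝ (Fin 3)) 1 ^ 2 + (x : EuclideanSpace ℝ (Fin 3)) 2 ^ 2 = 1 := by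
  have h : ‖(x : EuclideanSpace ℝ (Fin 3))‖ = 1 := by simp
  have h2 := EuclideanSpace.real_norm_sq_eq (x : EuclideanSpace ℝ (Fin 3))
  rw [h, Fin.sum_univ_three] at h2
  linarith

theorem geoB_pos (x : S2) (h : (x : EuclideanSpace ℝ (Fin 3)) 2 ≠ -1) :
    0 < (1 + (x : EuclideanSpace ℝ (Fin 3)) 2) / 2 := by
  have h1 := geoB_norm x
  have h2 : -1 ≤ (x : EuclideanSpace ℝ (Fin 3)) 2 := by
    nlinarith [sq_nonneg ((x : EuclideanSpace ℝ (Fin 3)) 0),
      sq_nonneg ((x : EuclideanSpace ℝ (Fin 3)) 1),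
      sq_nonneg ((x : EuclideanSpace ℝ (Fin 3)) 2 + 1)]
  have h3 := lt_of_le_of_ne h2 (Ne.symm h)
  linarith

theorem geoB_sq0 (x : S2) : ‖(spin x).1‖ ^ 2 = (1 + (x : EuclideanSpace ℝ (Fin 3)) 2) / 2 := by
  unfold spin
  split_ifs with h
  · simp [h]
  · have hp := geoB_pos x h
    rw [Complex.norm_real, Real.norm_eq_abs, sq_abs, Real.sq_sqrt hp.le]

theorem geoB_sq1 (x : S2) : ‖(spin x).2‖ ^ 2 = (1 - (x : EuclideanSpace ℝ (Fin 3)) 2) / 2 := by
  unfold spin
  split_ifs with h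
  · rw [h]; simp
  · have hp := geoB_pos x h
    have hn := geoB_norm x
    have h2 : ‖(2 : ℂ)‖ = 2 := by simp
    rw [norm_div, div_pow, norm_mul, mul_pow, Complex.norm_real, Real.norm_eq_abs, sq_abs,
      Real.sq_sqrt hp.le, Complex.sq_norm, Complex.normSq_add_mul_I, h2,
      div_eq_iff (by positivity)]
    nlinarith

theorem geoB_inner (a b c d : ℂ) : ‖conj a * c + conj b * d‖ ^ 2 =
    ‖a‖ ^ 2 * ‖c‖ ^ 2 + ‖b‖ ^ 2 * ‖d‖ ^ 2 + 2 * ((conj a * b) * conj (conj c * d)).re := by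
  simp only [Complex.sq_norm, Complex.normSq_apply, Complex.add_re, Complex.add_im,
    Complex.mul_re, Complex.mul_im, Complex.conj_re, Complex.conj_im]
  ring

theorem geoB_wedge (a b c d : ℂ) : ‖-b * c + a * d‖ ^ 2 =
    ‖b‖ ^ 2 * ‖c‖ ^ 2 + ‖a‖ ^ 2 * ‖d‖ ^ 2 - 2 * ((conj a * b) * conj (conj c * d)).re := by
  simp only [Complex.sq_norm, Complex.normSq_apply, Complex.add_re, Complex.add_im,
    Complex.mul_re, Complex.mul_im, Complex.conj_re, Complex.conj_im, Complex.neg_re,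
    Complex.neg_im]
  ring

theorem geoB_re (a b c d : ℝ) :
    ((((a : ℂ) + b * Complex.I) / 2) * conj (((c : ℂ) + d * Complex.I) / 2)).re =
      (a * c + b * d) / 4 := by
  have e : ∀ a b : ℝ, ((a : ℂ) + b * Complex.I) / 2 =
      ((a / 2 : ℝ) : ℂ) + ((b / 2 : ℝ) : ℂ) * Complex.I := by
    intro a b; push_cast; ring
  rw [e, e]
  simp only [Complex.add_re, Complex.add_im, Complex.mul_re, Complex.mul_im, Complex.conj_re,
    Complex.conj_im, Complex.ofReal_re, Complex.ofReal_im, Complex.I_re, Complex.I_im]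
  ring

theorem geoB_tS (x y : S2) : tS x y = (1 - ((x : EuclideanSpace ℝ (Fin 3)) 0 *
    (y : EuclideanSpace ℝ (Fin 3)) 0 + (x : EuclideanSpace ℝ (Fin 3)) 1 *
    (y : EuclideanSpace ℝ (Fin 3)) 1 + (x : EuclideanSpace ℝ (Fin 3)) 2 *
    (y : EuclideanSpace ℝ (Fin 3)) 2)) / 2 := by
  have hx := geoB_norm x
  have hy := geoB_norm y
  unfold tS
  rw [EuclideanSpace.real_norm_sq_eq, Fin.sum_univ_three]
  simp only [PiLp.sub_apply]
  nlinarith

theorem geoB_mul_conj (a : ℂ) : conj a * a = ((‖a‖ ^ 2 : ℝ) : ℂ) := by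
  rw [Complex.conj_mul', Complex.ofReal_pow]

theorem spin_unit (x : S2) : IsUnitSp (spin x) := by
  unfold IsUnitSp
  rw [geoB_sq0, geoB_sq1]
  ring

theorem measurable_spin : Measurable spin := by
  have hc : ∀ i : Fin 3, Measurable fun x : S2 => (x : EuclideanSpace ℝ (Fin 3)) i := by
    intro i
    have : Continuous fun x : S2 => (x : EuclideanSpace ℝ (Fin 3)) i := by fun_prop
    exact this.measurable
  have hs : Measurable fun x : S2 =>
      ((Real.sqrt ((1 + (x : EuclideanSpace ℝ (Fin 3)) 2) / 2) : ℝ) : ℂ) :=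
    Complex.measurable_ofReal.comp
      (Real.continuous_sqrt.measurable.comp (((hc 2).const_add 1).div_const 2))
  unfold spin
  refine Measurable.ite (measurableSet_eq_fun (hc 2) measurable_const) measurable_const ?_
  refine hs.prodMk (Measurable.div ?_ (hs.const_mul 2))
  exact (Complex.measurable_ofReal.comp (hc 0)).add
    ((Complex.measurable_ofReal.comp (hc 1)).mul_const _)

theorem spin_sq0 (x : S2) : ‖(spin x).1‖ ^ 2 = (1 + (x : EuclideanSpace ℝ (Fin 3)) 2) / 2 := by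
  exact geoB_sq0 x

theorem spin_sq1 (x : S2) : ‖(spin x).2‖ ^ 2 = (1 - (x : EuclideanSpace ℝ (Fin 3)) 2) / 2 := by
  exact geoB_sq1 x

theorem spin_cross (x : S2) : conj (spin x).1 * (spin x).2 =
    ((x : EuclideanSpace ℝ (Fin 3)) 0 + (x : EuclideanSpace ℝ (Fin 3)) 1 * Complex.I) / 2 := by
  unfold spin
  split_ifs with h
  · have hn := geoB_norm x
    rw [h] at hn
    have h0 : (x : EuclideanSpace ℝ (Fin 3)) 0 = 0 := by
      nlinarith [sq_nonneg ((x : EuclideanSpace ℝ (Fin 3)) 0),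
        sq_nonneg ((x : EuclideanSpace ℝ (Fin 3)) 1)]
    have h1 : (x : EuclideanSpace ℝ (Fin 3)) 1 = 0 := by
      nlinarith [sq_nonneg ((x : EuclideanSpace ℝ (Fin 3)) 0),
        sq_nonneg ((x : EuclideanSpace ℝ (Fin 3)) 1)]
    simp [h0, h1]
  · have hp := geoB_pos x h
    have hs : ((Real.sqrt ((1 + (x : EuclideanSpace ℝ (Fin 3)) 2) / 2) : ℝ) : ℂ) ≠ 0 :=
      Complex.ofReal_ne_zero.mpr (Real.sqrt_pos.mpr hp).ne'
    rw [Complex.conj_ofReal]
    field_simp

/-- every unit spinor is a phase times `spin x` -/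
theorem exists_spin (hu : IsUnitSp u) : ∃ (x : S2) (θ : ℂ), ‖θ‖ = 1 ∧ u = θ • spin x := by
  obtain ⟨a, b⟩ := u
  have hu' : ‖a‖ ^ 2 + ‖b‖ ^ 2 = 1 := hu
  have hab : (conj a * b).re ^ 2 + (conj a * b).im ^ 2 = ‖a‖ ^ 2 * ‖b‖ ^ 2 := by
    simp only [Complex.sq_norm, Complex.normSq_apply, Complex.mul_re, Complex.mul_im,
      Complex.conj_re, Complex.conj_im]
    ring
  let p : EuclideanSpace ℝ (Fin 3) :=
    !₂[2 * (conj a * b).re, 2 * (conj a * b).im, ‖a‖ ^ 2 - ‖b‖ ^ 2]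
  have p0 : p 0 = 2 * (conj a * b).re := rfl
  have p1 : p 1 = 2 * (conj a * b).im := rfl
  have p2 : p 2 = ‖a‖ ^ 2 - ‖b‖ ^ 2 := rfl
  have hp : p ∈ Metric.sphere (0 : EuclideanSpace ℝ (Fin 3)) 1 := by
    rw [mem_sphere_zero_iff_norm]
    have h2 := EuclideanSpace.real_norm_sq_eq p
    rw [Fin.sum_univ_three, p0, p1, p2] at h2
    have h3 : ‖p‖ ^ 2 = 1 := by
      rw [h2]
      have : (‖a‖ ^ 2 + ‖b‖ ^ 2) ^ 2 = 1 := by rw [hu']; norm_num
      nlinarith
    exact (sq_eq_sq₀ (norm_nonneg _) zero_le_one).mp (by rw [h3]; norm_num)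
  let x : S2 := ⟨p, hp⟩
  have s0 : ‖(spin x).1‖ ^ 2 = ‖a‖ ^ 2 := by
    rw [spin_sq0]
    change (1 + p 2) / 2 = _
    rw [p2]; linarith
  have s1 : ‖(spin x).2‖ ^ 2 = ‖b‖ ^ 2 := by
    rw [spin_sq1]
    change (1 - p 2) / 2 = _
    rw [p2]; linarith
  have sc : conj (spin x).1 * (spin x).2 = conj a * b := by
    rw [spin_cross]
    change (((p 0 : ℝ) : ℂ) + ((p 1 : ℝ) : ℂ) * Complex.I) / 2 = _
    rw [p0, p1]
    have := Complex.re_add_im (conj a * b)
    push_cast
    linear_combination this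
  have sc' : (spin x).1 * conj (spin x).2 = a * conj b := by
    have := congrArg conj sc
    simpa using this
  have c0 : conj (spin x).1 * (spin x).1 = conj a * a := by
    rw [geoB_mul_conj, geoB_mul_conj, s0]
  have c1 : conj (spin x).2 * (spin x).2 = conj b * b := by
    rw [geoB_mul_conj, geoB_mul_conj, s1]
  have c2 : conj a * a + conj b * b = 1 := by
    rw [geoB_mul_conj, geoB_mul_conj, ← Complex.ofReal_add, hu', Complex.ofReal_one]
  have e0 : a = (conj (spin x).1 * a + conj (spin x).2 * b) * (spin x).1 := by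
    linear_combination (-a) * c0 - b * sc' - a * c2
  have e1 : b = (conj (spin x).1 * a + conj (spin x).2 * b) * (spin x).2 := by
    linear_combination (-b) * c1 - a * sc - b * c2
  refine ⟨x, conj (spin x).1 * a + conj (spin x).2 * b, ?_, Prod.ext e0 e1⟩
  have n0 := congrArg (fun z : ℂ => ‖z‖ ^ 2) e0
  have n1 := congrArg (fun z : ℂ => ‖z‖ ^ 2) e1
  simp only [norm_mul, mul_pow, s0, s1] at n0 n1
  have h3 : ‖conj (spin x).1 * a + conj (spin x).2 * b‖ ^ 2 = 1 := by
    have : ‖conj (spin x).1 * a + conj (spin x).2 * b‖ ^ 2 * (‖a‖ ^ 2 + ‖b‖ ^ 2) =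
        ‖a‖ ^ 2 + ‖b‖ ^ 2 := by linarith
    rw [hu'] at this
    linarith
  exact (sq_eq_sq₀ (norm_nonneg _) zero_le_one).mp (by rw [h3]; norm_num)

theorem spin_inner_sq (x y : S2) :
    ‖conj (spin y).1 * (spin x).1 + conj (spin y).2 * (spin x).2‖ ^ 2 = 1 - tS x y := by
  rw [geoB_inner, spin_cross, spin_cross, geoB_re, spin_sq0, spin_sq0, spin_sq1, spin_sq1,
    geoB_tS]
  ring

theorem spin_wedge_sq (x y : S2) :
    ‖-(spin y).2 * (spin x).1 + (spin y).1 * (spin x).2‖ ^ 2 = tS x y := by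
  rw [geoB_wedge, spin_cross, spin_cross, geoB_re, spin_sq0, spin_sq0, spin_sq1, spin_sq1,
    geoB_tS]
  ring

theorem tS_mem (x y : S2) : 0 ≤ tS x y ∧ tS x y ≤ 1 := by
  constructor
  · rw [← spin_wedge_sq]; positivity
  · have := spin_inner_sq x y
    have h2 := sq_nonneg ‖conj (spin y).1 * (spin x).1 + conj (spin y).2 * (spin x).2‖
    linarith

theorem tS_symm (x y : S2) : tS x y = tS y x := by
  unfold tS
  rw [norm_sub_rev]

theorem dq_sq (q : ℕ) (x y : S2) : dq q x y ^ 2 = q * tS x y := by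
  unfold dq tS
  rw [div_pow, mul_pow, Real.sq_sqrt (Nat.cast_nonneg q)]
  ring

theorem dq_nonneg (q : ℕ) (x y : S2) : 0 ≤ dq q x y := by
  unfold dq
  positivity

theorem dq_self (q : ℕ) (x : S2) : dq q x x = 0 := by
  simp [dq]

theorem dq_symm (q : ℕ) (x y : S2) : dq q x y = dq q y x := by
  unfold dq
  rw [norm_sub_rev]

theorem dq_tri (q : ℕ) (x y z : S2) : dq q x z ≤ dq q x y + dq q y z := by
  unfold dq
  have h := norm_sub_le_norm_sub_add_norm_sub (x : EuclideanSpace ℝ (Fin 3))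
    (y : EuclideanSpace ℝ (Fin 3)) (z : EuclideanSpace ℝ (Fin 3))
  have h2 := mul_le_mul_of_nonneg_left h (Real.sqrt_nonneg (q : ℝ))
  linarith

theorem dq_le (q : ℕ) (x y : S2) : dq q x y ≤ Real.sqrt q := by
  unfold dq
  have hx : ‖(x : EuclideanSpace ℝ (Fin 3))‖ = 1 := by simp
  have hy : ‖(y : EuclideanSpace ℝ (Fin 3))‖ = 1 := by simp
  have h := norm_sub_le (x : EuclideanSpace ℝ (Fin 3)) (y : EuclideanSpace ℝ (Fin 3))
  rw [hx, hy] at h
  have h2 := mul_le_mul_of_nonneg_left h (Real.sqrt_nonneg (q : ℝ))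
  linarith

theorem continuous_dq (q : ℕ) : Continuous fun p : S2 × S2 => dq q p.1 p.2 := by
  unfold dq
  fun_prop

theorem symbol_inj {M : Matrix (Fin (q + 1)) (Fin (q + 1)) ℂ}
    (h : ∀ x : S2, star (coh q x) ⬝ᵥ M *ᵥ coh q x = 0) : M = 0 := by
  refine symbol_inj' fun w => ?_
  have hr : 0 < 1 + ‖w‖ ^ 2 := by positivity
  have hs : 0 < Real.sqrt (1 + ‖w‖ ^ 2) := Real.sqrt_pos.mpr hr
  have hu : IsUnitSp ((((Real.sqrt (1 + ‖w‖ ^ 2))⁻¹ : ℝ) : ℂ) • ((1, w) : ℂ × ℂ)) := by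
    unfold IsUnitSp
    simp only [Prod.smul_mk, smul_eq_mul, mul_one, norm_mul, mul_pow, Complex.norm_real,
      Real.norm_eq_abs, sq_abs, inv_pow, Real.sq_sqrt hr.le]
    field_simp
  obtain ⟨x, θ, -, hx⟩ := exists_spin hu
  have e : ((1, w) : ℂ × ℂ) = (((Real.sqrt (1 + ‖w‖ ^ 2) : ℝ) : ℂ) * θ) • spin x := by
    rw [mul_smul, ← hx, smul_smul, ← Complex.ofReal_mul, mul_inv_cancel₀ hs.ne',
      Complex.ofReal_one, one_smul]
  have hx0 := h x
  unfold coh at hx0
  rw [e, kv_smul, star_smul, mulVec_smul, smul_dotProduct, dotProduct_smul, hx0, smul_zero,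
    smul_zero]

theorem orb_zero (q : ℕ) (x : S2) : orb q x 0 = coh q x := by
  exact rho_col_zero q (spin x)

theorem orb_dot (q : ℕ) (x : S2) (j k : Fin (q + 1)) :
    star (orb q x j) ⬝ᵥ orb q x k = if j = k then 1 else 0 := by
  have h0 := Unitary.star_mul_self_of_mem (rho_unitary q (spin_unit x))
  have h : (star (rho q (spin x)) * rho q (spin x)) j k =
      (1 : Matrix (Fin (q + 1)) (Fin (q + 1)) ℂ) j k := by rw [h0]
  rw [Matrix.mul_apply, Matrix.one_apply] at h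
  rw [← h]
  simp only [dotProduct, orb, Pi.star_apply, star_apply]

theorem sum_orb (q : ℕ) (x : S2) : ∑ k, vecMulVec (orb q x k) (star (orb q x k)) = 1 := by
  ext i l
  have h0 := Unitary.mul_star_self_of_mem (rho_unitary q (spin_unit x))
  have h : (rho q (spin x) * star (rho q (spin x))) i l =
      (1 : Matrix (Fin (q + 1)) (Fin (q + 1)) ℂ) i l := by rw [h0]
  rw [Matrix.mul_apply] at h
  rw [← h, Matrix.sum_apply]
  simp only [vecMulVec_apply, orb, Pi.star_apply, star_apply]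

theorem measurable_coh (q : ℕ) : Measurable (coh q) := by
  exact (continuous_kv q).measurable.comp measurable_spin

theorem measurable_orb (q : ℕ) (k : Fin (q + 1)) : Measurable fun x => orb q x k := by
  refine measurable_pi_lambda _ fun j => ?_
  exact ((continuous_rho q).matrix_elem j k).measurable.comp measurable_spin

/-! ### part C: overlaps -/

theorem orb_overlap_sq (q : ℕ) (x y : S2) (k : Fin (q + 1)) :
    ‖star (coh q x) ⬝ᵥ orb q y k‖ ^ 2 =
      q.choose k * (1 - tS x y) ^ (q - k) * tS x y ^ (k : ℕ) := by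
  have h := kv_dot_rho q (spin x) (spin y) k
  change star (coh q x) ⬝ᵥ orb q y k = _ at h
  rw [h, norm_mul, norm_mul, norm_pow, norm_pow, mul_pow, mul_pow, ← pow_mul, ← pow_mul,
    mul_comm (q - k) 2, mul_comm (k : ℕ) 2, pow_mul, pow_mul, spin_inner_sq, spin_wedge_sq,
    Complex.norm_real, Real.norm_eq_abs, sq_abs, Real.sq_sqrt (Nat.cast_nonneg _), mul_assoc]

/-- Chernoff bound for the binomial distribution -/
theorem binom_le {t : ℝ} (h0 : 0 ≤ t) (h1 : t ≤ 1) (q k : ℕ) (hk : k ≤ q) :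
    (q.choose k : ℝ) * (1 - t) ^ (q - k) * t ^ k ≤
      Real.exp (-(Real.sqrt k - Real.sqrt (q * t)) ^ 2) := by
  have h1' : 0 ≤ 1 - t := sub_nonneg.2 h1
  have hl : 0 ≤ (q : ℝ) * t := by positivity
  rcases Nat.eq_zero_or_pos k with rfl | hkpos
  · simp only [Nat.choose_zero_right, Nat.cast_one, Nat.sub_zero, one_mul, pow_zero, mul_one,
      Nat.cast_zero, Real.sqrt_zero, zero_sub, neg_sq, Real.sq_sqrt hl]
    have h2 : 1 - t ≤ Real.exp (-t) := by linarith [Real.add_one_le_exp (-t)]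
    refine (pow_le_pow_left₀ h1' h2 q).trans (le_of_eq ?_)
    rw [← Real.exp_nat_mul, mul_neg]
  rcases h0.eq_or_lt with rfl | ht
  · rw [zero_pow hkpos.ne', mul_zero]
    exact (Real.exp_pos _).le
  have hkR : (0 : ℝ) < k := by exact_mod_cast hkpos
  have hqR : (0 : ℝ) < q := by exact_mod_cast hkpos.trans_le hk
  set a := Real.sqrt k with ha
  set b := Real.sqrt (q * t) with hb
  have a0 : 0 < a := Real.sqrt_pos.2 hkR
  have b0 : 0 < b := Real.sqrt_pos.2 (by positivity)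
  have a2 : a ^ 2 = k := Real.sq_sqrt hkR.le
  have b2 : b ^ 2 = q * t := Real.sq_sqrt hl
  set s := t * (a / b) ^ 2 with hs
  have s0 : 0 ≤ s := by positivity
  have h2 : s ^ k * (1 - t) ^ (q - k) * (q.choose k : ℝ) ≤ (s + (1 - t)) ^ q := by
    rw [add_pow]
    exact Finset.single_le_sum (f := fun m => s ^ m * (1 - t) ^ (q - m) * (q.choose m : ℝ))
      (fun m _ => by positivity) (Finset.mem_range.2 (Nat.lt_succ_of_le hk))
  have h3 : (s + (1 - t)) ^ q ≤ Real.exp (a ^ 2 - b ^ 2) := by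
    have h4 : s + (1 - t) ≤ Real.exp (s - t) := by linarith [Real.add_one_le_exp (s - t)]
    refine (pow_le_pow_left₀ (by positivity) h4 q).trans (le_of_eq ?_)
    rw [← Real.exp_nat_mul]
    congr 1
    rw [mul_sub, hs, ← mul_assoc, ← b2]
    field_simp
  have h5 : ((b / a) ^ 2) ^ k ≤ Real.exp (2 * a * b - 2 * a ^ 2) := by
    have h6 : b / a ≤ Real.exp (b / a - 1) := by linarith [Real.add_one_le_exp (b / a - 1)]
    rw [← pow_mul]
    refine (pow_le_pow_left₀ (by positivity) h6 _).trans (le_of_eq ?_)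
    rw [← Real.exp_nat_mul]
    congr 1
    push_cast
    rw [← a2]
    field_simp
  have h7 : t = s * (b / a) ^ 2 := by
    rw [hs]
    field_simp
  calc (q.choose k : ℝ) * (1 - t) ^ (q - k) * t ^ k
      = s ^ k * (1 - t) ^ (q - k) * (q.choose k : ℝ) * ((b / a) ^ 2) ^ k := by
        have : t ^ k = s ^ k * ((b / a) ^ 2) ^ k := by rw [← mul_pow, ← h7]
        rw [this]
        ring
    _ ≤ Real.exp (a ^ 2 - b ^ 2) * Real.exp (2 * a * b - 2 * a ^ 2) :=
        mul_le_mul (h2.trans h3) h5 (by positivity) (Real.exp_pos _).le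
    _ = Real.exp (-(a - b) ^ 2) := by
        rw [← Real.exp_add]
        congr 1
        ring

theorem orb_overlap_le (q : ℕ) (x y : S2) (k : Fin (q + 1)) :
    ‖star (coh q x) ⬝ᵥ orb q y k‖ ≤ Real.exp (-(Real.sqrt k - dq q x y) ^ 2 / 2) := by
  have h := binom_le (tS_mem x y).1 (tS_mem x y).2 q k (Nat.lt_succ_iff.1 k.isLt)
  rw [← orb_overlap_sq, ← dq_sq, Real.sqrt_sq (dq_nonneg q x y)] at h
  rw [← sq_le_sq₀ (norm_nonneg _) (Real.exp_pos _).le, ← Real.exp_nat_mul]
  refine h.trans (le_of_eq ?_)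
  congr 1
  push_cast
  ring

theorem coh_overlap_le (q : ℕ) (x y : S2) :
    ‖star (coh q x) ⬝ᵥ coh q y‖ ≤ Real.exp (-dq q x y ^ 2 / 2) := by
  have h := orb_overlap_le q x y 0
  rw [orb_zero] at h
  simpa using h

theorem h19_hopf (x : S2) {θ : ℂ} (hθ : ‖θ‖ = 1) {z : ℂ × ℂ} (hz : z = θ • spin x) :
    (x : EuclideanSpace ℝ (Fin 3)) 0 = 2 * (z.1.re * z.2.re + z.1.im * z.2.im) ∧
      (x : EuclideanSpace ℝ (Fin 3)) 1 = 2 * (z.1.re * z.2.im - z.1.im * z.2.re) ∧
      (x : EuclideanSpace ℝ (Fin 3)) 2 =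
        z.1.re ^ 2 + z.1.im ^ 2 - (z.2.re ^ 2 + z.2.im ^ 2) := by
  have hθ2 : θ.re ^ 2 + θ.im ^ 2 = 1 := by
    have := Complex.sq_norm θ
    rw [hθ, Complex.normSq_apply] at this
    linarith
  have h0 := spin_sq0 x
  have h1 := spin_sq1 x
  rw [Complex.sq_norm, Complex.normSq_apply] at h0 h1
  have h2 := congrArg Complex.re (spin_cross x)
  have h3 := congrArg Complex.im (spin_cross x)
  simp only [Complex.mul_re, Complex.mul_im, Complex.conj_re, Complex.conj_im,
    Complex.div_ofNat_re, Complex.div_ofNat_im, Complex.add_re, Complex.add_im, Complex.ofReal_re,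
    Complex.ofReal_im, Complex.I_re, Complex.I_im] at h2 h3
  subst hz
  simp only [Prod.smul_fst, Prod.smul_snd, smul_eq_mul, Complex.mul_re, Complex.mul_im]
  generalize (spin x).1.re = p at *
  generalize (spin x).1.im = r at *
  generalize (spin x).2.re = s at *
  generalize (spin x).2.im = t at *
  refine ⟨?_, ?_, ?_⟩
  · linear_combination (-2) * h2 - 2 * (p * s + r * t) * hθ2
  · linear_combination (-2) * h3 - 2 * (p * t - r * s) * hθ2
  · linear_combination h1 - h0 - (p ^ 2 + r ^ 2 - s ^ 2 - t ^ 2) * hθ2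

/-- the rotation matrix of the spinor `(a + b i, c + d i)` -/
def h19_rotM (a b c d : ℝ) : Matrix (Fin 3) (Fin 3) ℝ :=
  !![a ^ 2 - b ^ 2 - c ^ 2 + d ^ 2, 2 * a * b - 2 * c * d, 2 * (a * c + b * d);
    -2 * a * b - 2 * c * d, a ^ 2 - b ^ 2 + c ^ 2 - d ^ 2, 2 * (a * d - b * c);
    -2 * (a * c - b * d), -2 * (a * d + b * c), a ^ 2 + b ^ 2 - c ^ 2 - d ^ 2]

/-- rotations of the sphere -/
theorem exists_rotS (hu : IsUnitSp u) :
    ∃ R : EuclideanSpace ℝ (Fin 3) ≃ₗᵢ[ℝ] EuclideanSpace ℝ (Fin 3), ∀ x y : S2,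
      (y : EuclideanSpace ℝ (Fin 3)) = R x → ∃ θ : ℂ, ‖θ‖ = 1 ∧ act u (spin x) = θ • spin y := by
  have hu' : u.1.re ^ 2 + u.1.im ^ 2 + u.2.re ^ 2 + u.2.im ^ 2 = 1 := by
    have := hu
    rw [IsUnitSp, Complex.sq_norm, Complex.sq_norm, Complex.normSq_apply,
      Complex.normSq_apply] at this
    linarith
  set L : EuclideanSpace ℝ (Fin 3) →ₗ[ℝ] EuclideanSpace ℝ (Fin 3) :=
    Matrix.toLpLin 2 2 (h19_rotM u.1.re u.1.im u.2.re u.2.im) with hL
  have hL0 : ∀ (x : EuclideanSpace ℝ (Fin 3)) (i : Fin 3), L x i =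
      h19_rotM u.1.re u.1.im u.2.re u.2.im i 0 * x 0 +
        h19_rotM u.1.re u.1.im u.2.re u.2.im i 1 * x 1 +
        h19_rotM u.1.re u.1.im u.2.re u.2.im i 2 * x 2 := by
    intro x i
    simp [hL, Matrix.toLpLin_apply, Matrix.mulVec, dotProduct, Fin.sum_univ_three]
  have hn : ∀ x, ‖L x‖ = ‖x‖ := by
    intro x
    rw [← sq_eq_sq₀ (norm_nonneg _) (norm_nonneg _), EuclideanSpace.real_norm_sq_eq,
      EuclideanSpace.real_norm_sq_eq, Fin.sum_univ_three, Fin.sum_univ_three, hL0, hL0, hL0]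
    simp only [h19_rotM, Matrix.of_apply, Matrix.cons_val', Matrix.cons_val_zero,
      Matrix.cons_val_one, Matrix.cons_val_two, Matrix.cons_val_fin_one, Matrix.head_cons,
      Matrix.tail_cons, Matrix.head_fin_const, Matrix.empty_val', Nat.succ_eq_add_one,
      Nat.reduceAdd]
    linear_combination (x 0 ^ 2 + x 1 ^ 2 + x 2 ^ 2) *
      (u.1.re ^ 2 + u.1.im ^ 2 + u.2.re ^ 2 + u.2.im ^ 2 + 1) * hu'
  refine ⟨(⟨L, hn⟩ : EuclideanSpace ℝ (Fin 3) →ₗᵢ[ℝ] EuclideanSpace ℝ (Fin 3)).toLinearIsometryEquiv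
    rfl, fun x y hy => ?_⟩
  have hy' : (y : EuclideanSpace ℝ (Fin 3)) = L x := hy
  obtain ⟨y', θ, hθ, e⟩ := exists_spin (hu.act (spin_unit x))
  obtain ⟨a0, a1, a2⟩ := h19_hopf x norm_one (one_smul ℂ (spin x)).symm
  obtain ⟨b0, b1, b2⟩ := h19_hopf y' hθ e
  have hyy : y' = y := by
    apply Subtype.ext
    rw [hy']
    ext i
    rw [hL0, a0, a1, a2]
    simp only [act, Complex.mul_re, Complex.mul_im, Complex.conj_re, Complex.conj_im,
      Complex.add_re, Complex.add_im, Complex.sub_re, Complex.sub_im] at b0 b1 b2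
    fin_cases i
    · refine b0.trans ?_
      simp [h19_rotM]
      ring
    · refine b1.trans ?_
      simp [h19_rotM]
      ring
    · refine b2.trans ?_
      simp [h19_rotM]
      ring
  exact ⟨θ, hθ, hyy ▸ e⟩

end Crest.Agent.R340
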