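import Crest.Agent.R340.F2Dbar
import Crest.Agent.R340.GeoRho
import Crest.Agent.R340.GeoGam

/-! # F2: one-body identities -/

set_option autoImplicit false

namespace Crest.Agent.R340.F2

open Matrix
open scoped ComplexConjugate Matrix.Norms.L2Operator

variable {q : ℕ} {u v : ℂ × ℂ}

/-! ### part A: the chart -/

theorem sg_pos (w : ℂ) : 0 < sg w := by
  unfold sg
  positivity

theorem sg_sq (w : ℂ) : sg w ^ 2 = (1 + ‖w‖ ^ 2)⁻¹ := by
  unfold sg
  rw [inv_pow, Real.sq_sqrt (by positivity)]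

theorem om_eq (w : ℂ) : om w = sg w ^ 4 := by
  rw [show sg w ^ 4 = (sg w ^ 2) ^ 2 by ring, sg_sq, om, inv_pow]

theorem sw_unit (w : ℂ) : IsUnitSp (sw w) := by
  unfold IsUnitSp sw
  simp only [norm_mul, Complex.norm_real, Real.norm_eq_abs, mul_pow, sq_abs, sg_sq]
  have : (1 + ‖w‖ ^ 2) ≠ 0 := by positivity
  field_simp

theorem kv_sw (q : ℕ) (w : ℂ) : kv q (sw w) = ((sg w ^ q : ℝ) : ℂ) • kv q (1, w) := by
  have h : sw w = (sg w : ℂ) • ((1, w) : ℂ × ℂ) := by simp [sw]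
  rw [h, kv_smul, Complex.conj_ofReal, Complex.ofReal_pow]

theorem h10_ev (q : ℕ) (z : ℂ) (f : Fin (q + 1) → ℂ) :
    star (kv q (1, z)) ⬝ᵥ f = ∑ j : Fin (q + 1), (Real.sqrt (q.choose j) : ℂ) * z ^ (j : ℕ) * f j := by
  simp [dotProduct, kv]

theorem h10_sqrt_ne (q : ℕ) (j : Fin (q + 1)) : (Real.sqrt (q.choose j) : ℂ) ≠ 0 := by
  have h : 0 < q.choose j := Nat.choose_pos (Nat.lt_succ_iff.1 j.2)
  exact_mod_cast (Real.sqrt_pos.2 (by exact_mod_cast h)).ne'

/-- evaluation of `Dm` -/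
theorem ev_Dm (q : ℕ) (w z : ℂ) (f : Fin (q + 1) → ℂ) :
    (z - w) * (star (kv q (1, z)) ⬝ᵥ Dm q w *ᵥ f) =
      star (kv q (1, z)) ⬝ᵥ f - star (kv q (1, w)) ⬝ᵥ f := by
  have key : ∀ k : Fin (q + 1), (z - w) * ∑ i : Fin (q + 1),
      (Real.sqrt (q.choose i) : ℂ) * z ^ (i : ℕ) * Dm q w i k =
      (Real.sqrt (q.choose k) : ℂ) * (z ^ (k : ℕ) - w ^ (k : ℕ)) := by
    intro k
    have h1 : ∀ i : Fin (q + 1), (Real.sqrt (q.choose i) : ℂ) * z ^ (i : ℕ) * Dm q w i k =
        (Real.sqrt (q.choose k) : ℂ) *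
          (if (i : ℕ) < k then z ^ (i : ℕ) * w ^ ((k : ℕ) - 1 - i) else 0) := by
      intro i
      have := h10_sqrt_ne q i
      simp only [Dm, Matrix.of_apply]
      split_ifs
      · push_cast
        field_simp
      · simp
    simp only [h1]
    rw [← Finset.mul_sum, Fin.sum_univ_eq_sum_range
      (fun i => if i < (k : ℕ) then z ^ i * w ^ ((k : ℕ) - 1 - i) else 0) (q + 1),
      ← Finset.sum_filter]
    have h2 : (Finset.range (q + 1)).filter (· < (k : ℕ)) = Finset.range k := by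
      ext i
      have := k.2
      simp only [Finset.mem_filter, Finset.mem_range]
      omega
    rw [h2, mul_left_comm, (Commute.all z w).mul_geom_sum₂]
  rw [h10_ev, h10_ev, h10_ev, ← Finset.sum_sub_distrib]
  simp only [Matrix.mulVec, dotProduct, Finset.mul_sum]
  rw [Finset.sum_comm]
  refine Finset.sum_congr rfl fun k _ => ?_
  have := congrArg (· * f k) (key k)
  simp only [Finset.mul_sum, Finset.sum_mul] at this
  rw [show (Real.sqrt (q.choose k) : ℂ) * z ^ (k : ℕ) * f k -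
    (Real.sqrt (q.choose k) : ℂ) * w ^ (k : ℕ) * f k =
    (Real.sqrt (q.choose k) : ℂ) * (z ^ (k : ℕ) - w ^ (k : ℕ)) * f k by ring, ← this]
  exact Finset.sum_congr rfl fun i _ => by ring

/-- two vectors whose evaluations agree off one point are equal -/
theorem ext_ev {f g : Fin (q + 1) → ℂ} (w : ℂ)
    (h : ∀ z, z ≠ w → star (kv q (1, z)) ⬝ᵥ f = star (kv q (1, z)) ⬝ᵥ g) : f = g := by
  have hc : ∀ f : Fin (q + 1) → ℂ, Continuous fun z : ℂ => star (kv q (1, z)) ⬝ᵥ f := fun f => by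
    simp only [h10_ev]
    fun_prop
  have h1 := Continuous.ext_on (dense_compl_singleton w) (hc f) (hc g) fun z hz => h z hz
  exact g29_ext fun z => congrFun h1 z

theorem h10_N (w : ℂ) : ((1 + ‖w‖ ^ 2 : ℝ) : ℂ) = 1 + conj w * w := by
  rw [geoB_mul_conj]
  push_cast
  ring

theorem h10_N_ne (w : ℂ) : ((1 + ‖w‖ ^ 2 : ℝ) : ℂ) ≠ 0 := by
  have : (1 + ‖w‖ ^ 2 : ℝ) ≠ 0 := by positivity
  exact_mod_cast this

theorem h10_proj (q : ℕ) (w z : ℂ) (f : Fin (q + 1) → ℂ) :
    star (kv q (1, z)) ⬝ᵥ ((1 - pw q w) *ᵥ f) = star (kv q (1, z)) ⬝ᵥ f -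
      ((1 + conj w * z) / ((1 + ‖w‖ ^ 2 : ℝ) : ℂ)) ^ q * (star (kv q (1, w)) ⬝ᵥ f) := by
  rw [Matrix.sub_mulVec, Matrix.one_mulVec, dotProduct_sub, pw, Matrix.smul_mulVec,
    Matrix.vecMulVec_mulVec, dotProduct_smul, dotProduct_smul, kv_dot]
  simp only [smul_eq_mul, MulOpposite.smul_eq_mul_unop, MulOpposite.unop_op, map_one, one_mul]
  rw [div_pow, mul_comm z]
  push_cast
  ring

theorem ev_Aw (q : ℕ) (w z : ℂ) (f : Fin (q + 1) → ℂ) :
    (z - w) * (star (kv q (1, z)) ⬝ᵥ Aw q w *ᵥ f) = (1 + conj w * z) / ((1 + ‖w‖ ^ 2 : ℝ) : ℂ) *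
      (star (kv q (1, z)) ⬝ᵥ f -
        ((1 + conj w * z) / ((1 + ‖w‖ ^ 2 : ℝ) : ℂ)) ^ q * (star (kv q (1, w)) ⬝ᵥ f)) := by
  have hN := h10_N_ne w
  have h0 : star (kv q (1, w)) ⬝ᵥ ((1 - pw q w) *ᵥ f) = 0 := by
    rw [h10_proj, ← h10_N, div_self hN, one_pow, one_mul, sub_self]
  rw [← h10_proj, Aw, ← Matrix.mulVec_mulVec, Matrix.add_mulVec, dotProduct_add, mul_add, ev_Dm,
    h0, Matrix.smul_mulVec, Matrix.one_mulVec, dotProduct_smul, smul_eq_mul, sb]
  generalize star (kv q (1, z)) ⬝ᵥ ((1 - pw q w) *ᵥ f) = a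
  have h1 := h10_N w
  generalize ((1 + ‖w‖ ^ 2 : ℝ) : ℂ) = N at hN h1 ⊢
  field_simp
  rw [h1]
  ring

theorem h10_col (q : ℕ) (w z : ℂ) (k : Fin (q + 1)) :
    star (kv q (1, z)) ⬝ᵥ (fun j => rho q (sw w) j k) = (Real.sqrt (q.choose k) : ℂ) *
      (sg w : ℂ) ^ q * ((1 + conj w * z) ^ (q - k) * (z - w) ^ (k : ℕ)) := by
  rw [kv_dot_rho]
  have hk : (k : ℕ) ≤ q := Nat.lt_succ_iff.1 k.2
  have h1 : conj (sw w).1 * ((1, z) : ℂ × ℂ).1 + conj (sw w).2 * ((1, z) : ℂ × ℂ).2 =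
      (sg w : ℂ) * (1 + conj w * z) := by
    simp only [sw, map_mul, Complex.conj_ofReal]
    ring
  have h2 : -(sw w).2 * ((1, z) : ℂ × ℂ).1 + (sw w).1 * ((1, z) : ℂ × ℂ).2 =
      (sg w : ℂ) * (z - w) := by
    simp only [sw]
    ring
  have h3 : (sg w : ℂ) ^ q = (sg w : ℂ) ^ (q - k) * (sg w : ℂ) ^ (k : ℕ) := by
    rw [← pow_add, Nat.sub_add_cancel hk]
  rw [h1, h2, mul_pow, mul_pow, h3]
  ring

theorem h10_mul (q : ℕ) (w : ℂ) :
    Aw q w * rho q (sw w) = ((sg w ^ 2 : ℝ) : ℂ) • (rho q (sw w) * Am q) := by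
  have hN := h10_N_ne w
  have hs : ((sg w ^ 2 : ℝ) : ℂ) = (((1 + ‖w‖ ^ 2 : ℝ) : ℂ))⁻¹ := by
    rw [sg_sq, Complex.ofReal_inv]
  have key : ∀ k : Fin (q + 1), Aw q w *ᵥ (fun j => rho q (sw w) j k) =
      ((sg w ^ 2 : ℝ) : ℂ) • fun j => (rho q (sw w) * Am q) j k := by
    intro k
    refine ext_ev w fun z hz => mul_left_cancel₀ (sub_ne_zero.2 hz) ?_
    rw [ev_Aw, h10_col, h10_col, dotProduct_smul, smul_eq_mul, hs]
    obtain ⟨k, hk⟩ := k
    rcases k with _ | k
    · have h0 : (fun j => (rho q (sw w) * Am q) j ⟨0, hk⟩) = 0 := by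
        funext j
        simp [Matrix.mul_apply, Am]
      rw [h0, ← h10_N, div_pow]
      have := pow_ne_zero q hN
      simp only [Nat.sub_zero, pow_zero, dotProduct_zero, mul_zero]
      field_simp
      ring
    · have hk' : k < q + 1 := by omega
      have h0 : (fun j => (rho q (sw w) * Am q) j ⟨k + 1, hk⟩) =
          ((Real.sqrt (q.choose (k + 1)) / Real.sqrt (q.choose k) : ℝ) : ℂ) •
            fun j => rho q (sw w) j ⟨k, hk'⟩ := by
        funext j
        rw [Matrix.mul_apply, Finset.sum_eq_single (⟨k, hk'⟩ : Fin (q + 1))]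
        · simp [Am, mul_comm]
        · intro i _ hi
          have : ¬ k = (i : ℕ) := fun h => hi (Fin.ext h.symm)
          simp [Am, this]
        · simp
      rw [h0, dotProduct_smul, h10_col, smul_eq_mul]
      have h1 := h10_sqrt_ne q ⟨k, hk'⟩
      have h2 : q - k = q - (k + 1) + 1 := by omega
      simp only [sub_self, ne_eq, Nat.add_eq_zero_iff, one_ne_zero, and_false, not_false_eq_true,
        zero_pow, mul_zero, sub_zero, h2] at h1 ⊢
      push_cast at h1 hN ⊢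
      field_simp
      ring
  ext j k
  exact congrFun (key k) j

/-- covariance -/
theorem Aw_eq (q : ℕ) (w : ℂ) : Aw q w = ((sg w ^ 2 : ℝ) : ℂ) • Ah q (sw w) := by
  have hu := (rho_unitary q (sw_unit w)).2
  rw [Ah, ← smul_mul_assoc, ← h10_mul, mul_assoc, hu, mul_one]

theorem pw_eq (q : ℕ) (w : ℂ) : pw q w = vecMulVec (kv q (sw w)) (star (kv q (sw w))) := by
  have h : (((1 + ‖w‖ ^ 2) ^ q)⁻¹ : ℝ) = sg w ^ q * sg w ^ q := by
    rw [← mul_pow, ← sq, sg_sq, inv_pow]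
  rw [pw, kv_sw, h]
  ext i j
  simp only [Matrix.smul_apply, vecMulVec_apply, Pi.smul_apply, Pi.star_apply, smul_eq_mul,
    star_mul', Complex.star_def, Complex.conj_ofReal]
  push_cast
  ring

/-! ### part B: smoothness and `dbar` -/

theorem h9_sum {m : ℕ} (M : ℂ → Matrix (Fin m) (Fin m) ℂ) :
    M = fun w => ∑ i, ∑ k, M w i k • Matrix.single i k (1 : ℂ) := by
  funext w
  conv_lhs => rw [Matrix.matrix_eq_sum_single (M w)]
  simp only [Matrix.smul_single, smul_eq_mul, mul_one]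

theorem h9_cd {m : ℕ} {M : ℂ → Matrix (Fin m) (Fin m) ℂ}
    (h : ∀ i k, ContDiff ℝ 1 fun w => M w i k) : ContDiff ℝ 1 M := by
  rw [h9_sum M]
  exact ContDiff.sum fun i _ => ContDiff.sum fun k _ => (h i k).smul contDiff_const

theorem h9_ne (w : ℂ) : ((1 + ‖w‖ ^ 2 : ℝ) : ℂ) ≠ 0 :=
  Complex.ofReal_ne_zero.2 (by positivity)

theorem h9_a (w z : ℂ) : (1 + conj w * z) / ((1 + ‖w‖ ^ 2 : ℝ) : ℂ) = 1 + (z - w) * sb w := by
  have h := h9_ne w
  have e : ((1 + ‖w‖ ^ 2 : ℝ) : ℂ) = 1 + conj w * w := by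
    rw [Complex.conj_mul']
    push_cast
    rfl
  rw [sb, div_eq_iff h, add_mul, mul_assoc, div_mul_cancel₀ _ h, e]
  ring

theorem h9_inv (q : ℕ) (w : ℂ) :
    ((((1 + ‖w‖ ^ 2) ^ q)⁻¹ : ℝ) : ℂ) = (1 + (0 - w) * sb w) ^ q := by
  rw [← h9_a, mul_zero, add_zero, one_div, inv_pow, Complex.ofReal_inv, Complex.ofReal_pow]

theorem h9_Dm (q : ℕ) (i k : Fin (q + 1)) : ContDiff ℂ 1 fun w => Dm q w i k := by
  simp only [Dm, Matrix.of_apply]
  split_ifs
  · exact contDiff_const.mul (contDiff_id.pow _)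
  · exact contDiff_const

theorem h9_kv (q : ℕ) (j : Fin (q + 1)) : ContDiff ℝ 1 fun w : ℂ => kv q (1, w) j :=
  contDiff_const.mul (Complex.conjCLE.contDiff.comp
    (show ContDiff ℝ 1 fun w : ℂ => (1 : ℂ) ^ (q - j) * w ^ (j : ℕ) from
      contDiff_const.mul (contDiff_id.pow _)))

theorem h9_pw (q : ℕ) (i k : Fin (q + 1)) : ContDiff ℝ 1 fun w => pw q w i k := by
  simp only [pw, h9_inv, Matrix.smul_apply, vecMulVec_apply, smul_eq_mul, Pi.star_apply]
  exact ((contDiff_const.add ((contDiff_const.sub contDiff_id).mul contDiff_sb)).pow _).mul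
    ((h9_kv q i).mul (Complex.conjCLE.contDiff.comp (h9_kv q k)))

theorem differentiable_Dm (q : ℕ) : Differentiable ℂ (Dm q) := by
  rw [h9_sum (Dm q)]
  exact Differentiable.fun_sum fun i _ => Differentiable.fun_sum fun k _ =>
    ((h9_Dm q i k).differentiable one_ne_zero).smul_const _

theorem contDiff_pw (q : ℕ) : ContDiff ℝ 1 (pw q) := by
  exact h9_cd (h9_pw q)

theorem contDiff_Aw (q : ℕ) : ContDiff ℝ 1 (Aw q) := by
  refine h9_cd fun i k => ?_
  simp only [Aw, Matrix.mul_apply, Matrix.add_apply, Matrix.sub_apply, Matrix.smul_apply, smul_eq_mul]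
  exact ContDiff.sum fun j _ => (((h9_Dm q i j).restrict_scalars ℝ).add
    (contDiff_sb.mul contDiff_const)).mul (contDiff_const.sub (h9_pw q j k))

theorem h9_mul {a b : ℂ → ℂ} {w : ℂ} (ha : DifferentiableAt ℝ a w) (hb : DifferentiableAt ℝ b w) :
    dbar (fun z => a z * b z) w = dbar a w * b w + a w * dbar b w :=
  dbar_smul ha hb

theorem h9_pow {a : ℂ → ℂ} {w : ℂ} (ha : DifferentiableAt ℝ a w) (m : ℕ) :
    dbar (fun z => a z ^ (m + 1)) w = ((m : ℂ) + 1) * a w ^ m * dbar a w := by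
  induction m with
  | zero => simp
  | succ m ih =>
    have e : (fun z => a z ^ (m + 1 + 1)) = fun z => a z ^ (m + 1) * a z := by
      funext z; rw [pow_succ]
    rw [e, h9_mul (ha.fun_pow (m + 1)) ha, ih]
    push_cast
    ring

theorem h9_ev (q : ℕ) (f : Fin (q + 1) → ℂ) :
    Differentiable ℂ fun w : ℂ => star (kv q (1, w)) ⬝ᵥ f := by
  simp only [dotProduct, kv, Pi.star_apply, star_mul', Complex.star_def, Complex.conj_conj]
  fun_prop

theorem h9_L (q : ℕ) (g f : Fin (q + 1) → ℂ) :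
    ∃ L : Matrix (Fin (q + 1)) (Fin (q + 1)) ℂ →L[ℂ] ℂ, ∀ M, L M = g ⬝ᵥ M *ᵥ f :=
  ⟨LinearMap.toContinuousLinearMap
    { toFun := fun M => g ⬝ᵥ M *ᵥ f
      map_add' := fun M M' => by rw [Matrix.add_mulVec, dotProduct_add]
      map_smul' := fun c M => by rw [Matrix.smul_mulVec, dotProduct_smul]; rfl }, fun _ => rfl⟩

theorem dbar_Aw (q : ℕ) (w : ℂ) :
    dbar (Aw q) w = (om w : ℂ) • (1 - ((q : ℂ) + 1) • pw q w) := by
  refine Matrix.mulVec_injective (funext fun f => ext_ev w fun z hz => ?_)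
  obtain ⟨L, hL⟩ := h9_L q (star (kv q (1, z))) f
  have h1 := dbar_clm L ((contDiff_Aw q).differentiable one_ne_zero w)
  have hsb : DifferentiableAt ℝ sb w := contDiff_sb.differentiable one_ne_zero w
  have hzw : DifferentiableAt ℂ (fun y : ℂ => z - y) w := by fun_prop
  have hi : DifferentiableAt ℂ (fun y : ℂ => (z - y)⁻¹) w := hzw.fun_inv (sub_ne_zero.2 hz)
  have hF := h9_ev q f w
  have ha : DifferentiableAt ℝ (fun y => 1 + (z - y) * sb y) w :=
    (differentiableAt_const _).fun_add ((hzw.restrictScalars ℝ).fun_mul hsb)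
  have da : dbar (fun y => 1 + (z - y) * sb y) w = (z - w) * om w := by
    rw [dbar_add (differentiableAt_const _) ((hzw.restrictScalars ℝ).fun_mul hsb), dbar_const,
      h9_mul (hzw.restrictScalars ℝ) hsb, dbar_holo hzw, dbar_sb]
    ring
  have h2 : (fun y => L (Aw q y)) =ᶠ[nhds w] fun y => (z - y)⁻¹ *
      ((1 + (z - y) * sb y) * (star (kv q (1, z)) ⬝ᵥ f) -
        (1 + (z - y) * sb y) ^ (q + 1) * (star (kv q (1, y)) ⬝ᵥ f)) := by
    filter_upwards [isOpen_ne.mem_nhds hz.symm] with y hy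
    have h3 := ev_Aw q y z f
    rw [h9_a] at h3
    rw [hL, eq_inv_mul_iff_mul_eq₀ (sub_ne_zero.2 hy.symm), h3]
    ring
  have d1 := ha.fun_mul (differentiableAt_const (star (kv q (1, z)) ⬝ᵥ f))
  have d2 := (ha.fun_pow (q + 1)).fun_mul (hF.restrictScalars ℝ)
  rw [dbar_congr h2, h9_mul (hi.restrictScalars ℝ) (d1.fun_sub d2), dbar_holo hi, dbar_sub d1 d2,
    h9_mul ha (differentiableAt_const _), h9_mul (ha.fun_pow (q + 1)) (hF.restrictScalars ℝ),
    dbar_const, dbar_holo hF, h9_pow ha, da, hL] at h1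
  show star (kv q (1, z)) ⬝ᵥ dbar (Aw q) w *ᵥ f = _
  rw [← h1, Matrix.smul_mulVec, Matrix.sub_mulVec, Matrix.one_mulVec, Matrix.smul_mulVec, pw,
    Matrix.smul_mulVec, vecMulVec_mulVec, dotProduct_smul, dotProduct_sub, dotProduct_smul,
    dotProduct_smul, dotProduct_smul, kv_dot, ← h9_a]
  have h4 := sub_ne_zero.2 hz
  have h5 := h9_ne w
  simp only [smul_eq_mul, map_one, MulOpposite.smul_eq_mul_unop, MulOpposite.unop_op, div_pow,
    Complex.ofReal_inv, Complex.ofReal_pow]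
  field_simp
  ring

theorem exists_dG_clm (n : ℕ) : ∃ L : Matrix (Fin n) (Fin n) ℂ →L[ℂ] Fk n, ∀ A, L A = dG A := by
  exact ⟨LinearMap.toContinuousLinearMap
    { toFun := dG
      map_add' := dG_add
      map_smul' := dG_smul }, fun _ => rfl⟩

/-! ### part C: Fock space -/

private theorem h21_cw (q : ℕ) (w : ℂ) : cw q w =
    ∑ j : Fin (q + 1), ((Real.sqrt (q.choose j) : ℂ) * w ^ (j : ℕ)) • annC j := by
  unfold cw cC kv
  refine Finset.sum_congr rfl fun j _ => ?_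
  simp

theorem hasDerivAt_cw (q : ℕ) (w : ℂ) : HasDerivAt (cw q) (cw' q w) w := by
  have e : cw q = fun w => ∑ j : Fin (q + 1),
      ((Real.sqrt (q.choose j) : ℂ) * w ^ (j : ℕ)) • annC j := funext (h21_cw q)
  rw [e]
  unfold cw'
  exact HasDerivAt.fun_sum fun j _ => ((hasDerivAt_pow (j : ℕ) w).const_mul _).smul_const _

theorem ck_zero (q : ℕ) (u : ℂ × ℂ) : ck q u 0 = cC (kv q u) := by
  unfold ck
  rw [dif_pos (Nat.succ_pos q), ← rho_col_zero]
  rfl

theorem ck_sw_zero (q : ℕ) (w : ℂ) : ck q (sw w) 0 = ((sg w ^ q : ℝ) : ℂ) • cw q w := by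
  rw [ck_zero, kv_sw, cC_smul, Complex.conj_ofReal]
  rfl

private theorem h21_cC_sub {n : ℕ} (f g : Fin n → ℂ) : cC (f - g) = cC f - cC g := by
  rw [eq_sub_iff_add_eq, ← cC_add, sub_add_cancel]

private theorem h21_der (q : ℕ) (z a : ℂ) :
    ∑ j : Fin (q + 1), ((Real.sqrt (q.choose j) : ℂ) * z ^ (j : ℕ)) *
      ((Real.sqrt (q.choose j) : ℂ) * (((j : ℕ) : ℂ) * a ^ ((j : ℕ) - 1))) =
      (q : ℂ) * (1 + z * a) ^ (q - 1) * z := by
  have h1 : HasDerivAt (fun a : ℂ => ∑ j : Fin (q + 1), ((Real.sqrt (q.choose j) : ℂ) * z ^ (j : ℕ)) *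
      ((Real.sqrt (q.choose j) : ℂ) * a ^ (j : ℕ)))
      (∑ j : Fin (q + 1), ((Real.sqrt (q.choose j) : ℂ) * z ^ (j : ℕ)) *
      ((Real.sqrt (q.choose j) : ℂ) * (((j : ℕ) : ℂ) * a ^ ((j : ℕ) - 1)))) a :=
    HasDerivAt.fun_sum fun j _ => ((hasDerivAt_pow (j : ℕ) a).const_mul _).const_mul _
  have h2 : HasDerivAt (fun a : ℂ => (1 + z * a) ^ q) ((q : ℂ) * (1 + z * a) ^ (q - 1) * z) a := by
    have := (((hasDerivAt_id a).const_mul z).const_add 1).fun_pow q
    simpa using this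
  have e : (fun a : ℂ => ∑ j : Fin (q + 1), ((Real.sqrt (q.choose j) : ℂ) * z ^ (j : ℕ)) *
      ((Real.sqrt (q.choose j) : ℂ) * a ^ (j : ℕ))) = fun a : ℂ => (1 + z * a) ^ q := by
    funext a
    have := kv_dot q (1, z) (1, conj a)
    simp only [map_one, mul_one, Complex.conj_conj] at this
    rw [← this]
    unfold dotProduct kv
    refine Finset.sum_congr rfl fun j _ => ?_
    simp
  rw [e] at h1
  exact h1.unique h2

theorem ck_sw_one (q : ℕ) (w : ℂ) : ((Real.sqrt q * sg w ^ 2 : ℝ) : ℂ) • ck q (sw w) 1 =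
    ((sg w ^ q : ℝ) : ℂ) • (cw' q w - ((q : ℂ) * sb w) • cw q w) := by
  rcases Nat.eq_zero_or_pos q with rfl | hq
  · simp [cw']
  have hq1 : 1 < q + 1 := by omega
  let g : Fin (q + 1) → ℂ := fun j =>
    (Real.sqrt (q.choose j) : ℂ) * (((j : ℕ) : ℂ) * conj w ^ ((j : ℕ) - 1))
  have hg : cw' q w = cC g := by
    unfold cw' cC
    refine Finset.sum_congr rfl fun j _ => ?_
    simp [g]
  have key : ((Real.sqrt q * sg w ^ 2 : ℝ) : ℂ) • (fun j => rho q (sw w) j ⟨1, hq1⟩) =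
      ((sg w ^ q : ℝ) : ℂ) • (g - conj ((q : ℂ) * sb w) • kv q (1, w)) := by
    refine g29_ext fun z => ?_
    have hgz : star (kv q (1, z)) ⬝ᵥ g = (q : ℂ) * (1 + z * conj w) ^ (q - 1) * z := by
      rw [← h21_der]
      unfold dotProduct kv
      refine Finset.sum_congr rfl fun j _ => ?_
      simp [g]
    rw [dotProduct_smul, dotProduct_smul, dotProduct_sub, dotProduct_smul, kv_dot_rho, kv_dot, hgz]
    obtain ⟨m, rfl⟩ : ∃ m, q = m + 1 := ⟨q - 1, by omega⟩
    have hs : ((sg w : ℂ)) ^ 2 * (1 + w * conj w) = 1 := by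
      rw [Complex.mul_conj, Complex.normSq_eq_norm_sq]
      have := sg_sq w
      have h0 : (1 + ‖w‖ ^ 2) ≠ 0 := by positivity
      have h2 : sg w ^ 2 * (1 + ‖w‖ ^ 2) = 1 := by rw [this]; field_simp
      exact_mod_cast h2
    have hb : conj (sb w) = w * (sg w : ℂ) ^ 2 := by
      unfold sb
      rw [map_div₀, Complex.conj_conj, Complex.conj_ofReal, div_eq_mul_inv]
      congr 1
      have := sg_sq w
      exact_mod_cast this.symm
    have hq2 := g29_sq (m + 1)
    simp only [sw, smul_eq_mul, map_mul, Complex.conj_ofReal, Complex.conj_natCast, hb, map_one,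
      mul_one, Nat.choose_one_right, Nat.add_sub_cancel, pow_one]
    rw [show (sg w : ℂ) + (sg w : ℂ) * conj w * z = sg w * (1 + z * conj w) by ring, mul_pow]
    push_cast at hq2 ⊢
    linear_combination
      ((sg w : ℂ) ^ 2 * ((sg w : ℂ) ^ m * (1 + z * conj w) ^ m *
        (-((sg w : ℂ) * w) + (sg w : ℂ) * z))) * hq2 +
      ((m : ℂ) + 1) * (sg w : ℂ) ^ (m + 1) * (1 + z * conj w) ^ m * z * hs
  have h := congrArg cC key
  rw [cC_smul, cC_smul, h21_cC_sub, cC_smul, Complex.conj_ofReal, Complex.conj_ofReal,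
    Complex.conj_conj] at h
  unfold ck
  rw [dif_pos hq1, hg]
  exact h

private theorem h21_col (q : ℕ) (u : ℂ × ℂ) (k : Fin (q + 1)) :
    (fun j => rho q u j k) = rho q u *ᵥ Pi.single k 1 := by
  funext j
  simp

theorem norm_ck_le (hu : IsUnitSp u) (k : ℕ) : ‖ck q u k‖ ≤ 1 := by
  unfold ck
  split_ifs with h
  · refine (norm_cC_le _).trans ?_
    have h0 := Unitary.star_mul_self_of_mem (rho_unitary q hu)
    have h1 := congrFun (congrFun h0 ⟨k, h⟩) ⟨k, h⟩
    have h2 : star (fun j => rho q u j ⟨k, h⟩) ⬝ᵥ (fun j => rho q u j ⟨k, h⟩) = 1 := by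
      rw [Matrix.one_apply_eq] at h1
      rw [← h1, Matrix.mul_apply]
      rfl
    rw [h2]
    simp
  · simp

theorem ck_conj (hu : IsUnitSp u) (v : ℂ × ℂ) (k : ℕ) :
    Gam (rho q u) * ck q v k * star (Gam (rho q u)) = ck q (act u v) k := by
  unfold ck
  split_ifs with h
  · rw [Gam_conj_cC (rho_unitary q hu), h21_col, h21_col, mulVec_mulVec, rho_mul]
  · simp

theorem dG_Ah_conj (hu : IsUnitSp u) (v : ℂ × ℂ) :
    Gam (rho q u) * dG (Ah q v) * star (Gam (rho q u)) = dG (Ah q (act u v)) := by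
  have h1 := Unitary.star_mul_self_of_mem (rho_unitary q hu)
  have h : rho q u * Ah q v = Ah q (act u v) * rho q u := by
    unfold Ah
    rw [← rho_mul, star_mul]
    simp only [Matrix.mul_assoc, h1, Matrix.mul_one]
  rw [Gam_mul_dG h, mul_assoc, Unitary.mul_star_self_of_mem (Gam_unitary (rho_unitary q hu)),
    mul_one]

theorem ck_one (k : Fin (q + 1)) : ck q (1, 0) k = annC k := by
  unfold ck
  rw [dif_pos k.isLt, h21_col, rho_one, one_mulVec, cC_single]

theorem Ah_one (q : ℕ) : Ah q (1, 0) = Am q := by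
  unfold Ah
  rw [rho_one]
  simp

theorem norm_dG_Ah (hu : IsUnitSp u) : ‖dG (Ah q u)‖ = ‖dG (Am q)‖ := by
  have h := dG_Ah_conj (q := q) hu (1, 0)
  have e : act u (1, 0) = u := by simp [act]
  have hU := Gam_unitary (rho_unitary q hu)
  rw [e, Ah_one] at h
  rw [← h, CStarRing.norm_mul_mem_unitary _ (Unitary.star_mem hU),
    CStarRing.norm_mem_unitary_mul _ hU]

private theorem h21_sAm_zero (y : Fin (q + 1) → ℂ) : (star (Am q) *ᵥ y) 0 = 0 := by
  simp [mulVec, dotProduct, Am]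

private theorem h21_sAm_succ (y : Fin (q + 1) → ℂ) (k : Fin q) : (star (Am q) *ᵥ y) k.succ =
    ((Real.sqrt (q.choose (k + 1)) / Real.sqrt (q.choose k) : ℝ) : ℂ) * y k.castSucc := by
  unfold mulVec dotProduct
  rw [Finset.sum_eq_single k.castSucc]
  · simp [Am]
  · intro b _ hb
    have : ¬ (k : ℕ) = b := fun h => hb (Fin.ext (by simp [h]))
    simp [Am, this]
  · simp

private theorem h21_sqrt_ne (k : ℕ) (hk : k ≤ q) : (Real.sqrt (q.choose k) : ℂ) ≠ 0 := by
  have : (0 : ℝ) < q.choose k := by exact_mod_cast Nat.choose_pos hk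
  exact_mod_cast (Real.sqrt_pos.2 this).ne'

private theorem h21_sAh (hu : IsUnitSp u) (y : Fin (q + 1) → ℂ) :
    star (Ah q u) *ᵥ (rho q u *ᵥ y) = rho q u *ᵥ (star (Am q) *ᵥ y) := by
  have h1 := Unitary.star_mul_self_of_mem (rho_unitary q hu)
  unfold Ah
  rw [mulVec_mulVec, mulVec_mulVec, star_mul, star_mul, star_star]
  simp only [Matrix.mul_assoc, h1, Matrix.mul_one]

theorem ck_comm_dG (hu : IsUnitSp u) (k : ℕ) :
    (Real.sqrt (q.choose k) : ℂ) • (ck q u k * dG (Ah q u) - dG (Ah q u) * ck q u k) =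
      (Real.sqrt (q.choose (k + 1)) : ℂ) • ck q u (k + 1) := by
  unfold ck
  by_cases h : k < q + 1
  · rw [dif_pos h, cC_comm_dG, h21_col, h21_sAh hu]
    by_cases h' : k + 1 < q + 1
    · rw [dif_pos h', h21_col]
      have key : (Real.sqrt (q.choose k) : ℂ) • (star (Am q) *ᵥ Pi.single (⟨k, h⟩ : Fin (q + 1)) 1) =
          (Real.sqrt (q.choose (k + 1)) : ℂ) •
            (Pi.single (⟨k + 1, h'⟩ : Fin (q + 1)) 1 : Fin (q + 1) → ℂ) := by
        funext i
        refine Fin.cases ?_ (fun i => ?_) i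
        · rw [Pi.smul_apply, h21_sAm_zero, Pi.smul_apply, Pi.single_eq_of_ne]
          · simp
          · intro hh; simpa using congrArg Fin.val hh
        · rw [Pi.smul_apply, h21_sAm_succ, Pi.smul_apply]
          by_cases hi : (i : ℕ) = k
          · have e1 : i.castSucc = ⟨k, h⟩ := Fin.ext hi
            have e2 : i.succ = ⟨k + 1, h'⟩ := Fin.ext (by simp [hi])
            have := h21_sqrt_ne (q := q) k (by omega)
            rw [e1, e2, hi]
            simp only [Pi.single_eq_same, smul_eq_mul, mul_one]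
            push_cast
            field_simp
          · rw [Pi.single_eq_of_ne, Pi.single_eq_of_ne]
            · simp
            · intro hh; exact hi (by simpa using congrArg Fin.val hh)
            · intro hh; exact hi (by simpa using congrArg Fin.val hh)
      have h2 := congrArg (fun y => cC (rho q u *ᵥ y)) key
      simp only [mulVec_smul, cC_smul, Complex.conj_ofReal] at h2
      exact h2
    · rw [dif_neg h']
      have key : star (Am q) *ᵥ Pi.single (⟨k, h⟩ : Fin (q + 1)) 1 = 0 := by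
        funext i
        refine Fin.cases ?_ (fun i => ?_) i
        · rw [h21_sAm_zero]; rfl
        · rw [h21_sAm_succ, Pi.single_eq_of_ne]
          · simp
          · intro hh
            have h3 : (i : ℕ) = k := by simpa using congrArg Fin.val hh
            have := i.isLt
            omega
      rw [key, mulVec_zero, cC_zero]
      simp
  · rw [dif_neg h, dif_neg (by omega)]
    simp

theorem dG_Aw_cw (q : ℕ) (w : ℂ) :
    dG (Aw q w) * cw q w = dG (Dm q w) * cw q w + sb w • (numC (q + 1) * cw q w) := by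
  have h0 : cC (kv q (1, w)) * cC (kv q (1, w)) = 0 := by
    have h := cC_anticomm (kv q (1, w)) (kv q (1, w))
    rw [← two_smul ℂ] at h
    exact (smul_eq_zero.1 h).resolve_left two_ne_zero
  unfold Aw pw cw
  rw [Matrix.mul_sub, Matrix.mul_one, Matrix.mul_smul, Matrix.mul_vecMulVec, dG_sub, dG_smul,
    dG_vecMulVec, dG_add, dG_smul, dG_one, sub_mul, smul_mul_assoc, mul_assoc, h0, add_mul,
    smul_mul_assoc]
  simp

/-- `c(v) ∘ A_u` is a combination of `c(v)` and `c(u)`; `d = u ∧ v`, `s = ⟨u, v⟩` -/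
theorem ck_comm_dG_far (hu : IsUnitSp u) (v : ℂ × ℂ) :
    (-u.2 * v.1 + u.1 * v.2) • (ck q v 0 * dG (Ah q u) - dG (Ah q u) * ck q v 0) =
      (conj u.1 * v.1 + conj u.2 * v.2) •
        (ck q v 0 - (conj u.1 * v.1 + conj u.2 * v.2) ^ q • ck q u 0) := by
  have hv : kv q v = rho q u *ᵥ
      kv q (conj u.1 * v.1 + conj u.2 * v.2, -u.2 * v.1 + u.1 * v.2) := by
    rw [rho_mulVec_kv]
    have := g29_unit hu
    congr 1
    refine Prod.ext ?_ ?_
    · simp only [act]; linear_combination (-v.1) * this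
    · simp only [act]; linear_combination (-v.2) * this
  have hu0 : kv q u = rho q u *ᵥ Pi.single 0 1 := by rw [← h21_col, rho_col_zero]
  generalize conj u.1 * v.1 + conj u.2 * v.2 = s at hv ⊢
  generalize -u.2 * v.1 + u.1 * v.2 = d at hv ⊢
  have key : conj d • (star (Am q) *ᵥ kv q (s, d)) =
      conj s • (kv q (s, d) - conj (s ^ q) • (Pi.single 0 1 : Fin (q + 1) → ℂ)) := by
    funext i
    refine Fin.cases ?_ (fun i => ?_) i
    · rw [Pi.smul_apply, h21_sAm_zero]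
      simp [kv]
    · rw [Pi.smul_apply, h21_sAm_succ]
      have h1 := h21_sqrt_ne (q := q) i i.isLt.le
      have h2 : q - (i : ℕ) = q - (i + 1) + 1 := by have := i.isLt; omega
      simp only [kv, Pi.smul_apply, Pi.sub_apply, smul_eq_mul, Fin.val_succ, Fin.val_castSucc,
        Pi.single_eq_of_ne (Fin.succ_ne_zero i), h2, map_mul, map_pow]
      push_cast
      field_simp
      ring
  have h2 := congrArg (fun y => cC (rho q u *ᵥ y)) key
  simp only [mulVec_smul, mulVec_sub, cC_smul, h21_cC_sub, Complex.conj_conj] at h2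
  rw [ck_zero, ck_zero, cC_comm_dG, hu0, hv, h21_sAh hu]
  exact h2

end Crest.Agent.R340.F2
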