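import Crest.Agent.R340.F2Abs
import Crest.Agent.R340.F2One

/-! # F2: the exact inequality in the Fock space (no locality) -/

set_option autoImplicit false

namespace Crest.Agent.R340.F2

open Matrix MeasureTheory Filter
open scoped ComplexConjugate Matrix.Norms.L2Operator

/-- division of an entire function by its zeros -/
theorem exists_div {𝔈 : Type} [NormedAddCommGroup 𝔈] [NormedSpace ℂ 𝔈] [CompleteSpace 𝔈]
    (E : Finset ℂ) {f : ℂ → 𝔈} (hf : Differentiable ℂ f) (h0 : ∀ e ∈ E, f e = 0) :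
    ∃ g : ℂ → 𝔈, Differentiable ℂ g ∧ ∀ w, f w = (∏ e ∈ E, (w - e)) • g w := by
  classical
  induction E using Finset.induction_on generalizing f with
  | empty => exact ⟨f, hf, fun w => by simp⟩
  | insert e E he ih =>
    have hd : Differentiable ℂ (dslope f e) := differentiableOn_univ.1
      ((Complex.differentiableOn_dslope (f := f) (c := e) Filter.univ_mem).2 hf.differentiableOn)
    have hfe : ∀ w, f w = (w - e) • dslope f e w := fun w => by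
      rw [sub_smul_dslope, h0 e (Finset.mem_insert_self _ _), sub_zero]
    obtain ⟨g, hg, h⟩ := ih hd fun e' he' => by
      have h1 := hfe e'
      rw [h0 e' (Finset.mem_insert_of_mem he')] at h1
      have h2 : e' - e ≠ 0 := sub_ne_zero.2 fun h => he (h ▸ he')
      exact (smul_eq_zero.1 h1.symm).resolve_left h2
    refine ⟨g, hg, fun w => ?_⟩
    rw [Finset.prod_insert he, mul_smul, ← h, ← hfe]

theorem h79_prod (E : Finset ℂ) {w : ℂ} (hw : w ∉ E) :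
    HasDerivAt (fun z : ℂ => ∏ e ∈ E, (z - e))
      ((∑ e ∈ E, (w - e)⁻¹) * ∏ e ∈ E, (w - e)) w := by
  classical
  induction E using Finset.induction_on with
  | empty => simpa using hasDerivAt_const w (1 : ℂ)
  | insert e E he ih =>
    rw [Finset.mem_insert, not_or] at hw
    have h1 : w - e ≠ 0 := sub_ne_zero.2 hw.1
    simp only [Finset.prod_insert he, Finset.sum_insert he]
    refine (((hasDerivAt_id' w).sub_const e).fun_mul (ih hw.2)).congr_deriv ?_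
    field_simp

theorem h79_ne (E : Finset ℂ) {w : ℂ} (hw : w ∉ E) : ∏ e ∈ E, (w - e) ≠ 0 :=
  Finset.prod_ne_zero_iff.2 fun _ he => sub_ne_zero.2 fun h => hw (h ▸ he)

theorem deriv_div {𝔈 : Type} [NormedAddCommGroup 𝔈] [NormedSpace ℂ 𝔈] (E : Finset ℂ)
    {f g : ℂ → 𝔈} (hg : Differentiable ℂ g) (h : ∀ w, f w = (∏ e ∈ E, (w - e)) • g w) {w : ℂ}
    (hw : w ∉ E) {f' : 𝔈} (hf : HasDerivAt f f' w) :
    (∏ e ∈ E, (w - e)) • deriv g w = f' - (∑ e ∈ E, (w - e)⁻¹) • f w := by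
  have h1 := (h79_prod E hw).fun_smul (hg w).hasDerivAt
  rw [← funext h] at h1
  rw [hf.unique h1, h w, mul_smul, add_sub_cancel_right]

variable {q N : ℕ} {E : Finset ℂ} {P : Fk (q + 1)} {Pw : ℂ → Fk (q + 1)} {a : ℝ}

/-- the hypotheses: `P` = zero modes pinned at `E`, `Pw w` = one more pin at `w` -/
structure Core (q N : ℕ) (E : Finset ℂ) (P : Fk (q + 1)) (Pw : ℂ → Fk (q + 1)) (a : ℝ) :
    Prop where
  pos : 0 < a
  card : E.card ≤ q
  hP : IsStarProjection P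
  sec : secP (q + 1) N * P = P
  pin : ∀ e ∈ E, ck q (sw e) 0 * P = 0
  hPw : ∀ w ∉ E, IsStarProjection (Pw w)
  le : ∀ w ∉ E, P * Pw w = Pw w
  kill : ∀ w ∉ E, ck q (sw w) 0 * Pw w = 0
  gap : ∀ w ∉ E, ∀ u, P *ᵥ u = u →
    a * (∏ e ∈ E, tw w e) * en (u - Pw w *ᵥ u) ^ 2 ≤ en (ck q (sw w) 0 *ᵥ u) ^ 2
  range : ∀ w ∉ E, ∀ v, P *ᵥ v = v → ∃ u, P *ᵥ u = u ∧ ck q (sw w) 0 *ᵥ u =
    ((3 : ℂ) • dG (Ah q (sw w)) * ck q (sw w) 0 + (Real.sqrt q : ℂ) • ck q (sw w) 1) *ᵥ v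

/-- the right-hand side of the equation for `y` -/
noncomputable def Th (q : ℕ) (P : Fk (q + 1)) (u : ℂ × ℂ) : Fk (q + 1) :=
  (3 : ℂ) • ck q u 0 * (1 - P) * dG (Ah q u) - ((2 * Real.sqrt q : ℝ) : ℂ) • ck q u 1

/-- the long range part -/
noncomputable def F0 (q N : ℕ) (P : Fk (q + 1)) (w : ℂ) : Fk (q + 1) :=
  (3 : ℂ) • P * dG (Aw q w) * P + ((((q : ℝ) + 3 - 3 * N : ℝ) : ℂ) * sb w) • 1

theorem Core.exists_u (h : Core q N E P Pw a) {v : Finset (Fin (q + 1)) → ℂ} (hv : P *ᵥ v = v) :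
    ∃ u : ℂ → Finset (Fin (q + 1)) → ℂ, ∀ w ∉ E, P *ᵥ u w = u w ∧
      ck q (sw w) 0 *ᵥ u w = ((Real.sqrt q : ℂ) • ck q (sw w) 1) *ᵥ (Pw w *ᵥ v) := by
  have key : ∀ w, ∃ u, w ∉ E → P *ᵥ u = u ∧
      ck q (sw w) 0 *ᵥ u = ((Real.sqrt q : ℂ) • ck q (sw w) 1) *ᵥ (Pw w *ᵥ v) := fun w => by
    by_cases hw : w ∈ E
    · exact ⟨v, fun h' => (h' hw).elim⟩
    · obtain ⟨u, h1, h2⟩ := h.range w hw (Pw w *ᵥ v) (by rw [mulVec_mulVec, h.le w hw])
      refine ⟨u, fun _ => ⟨h1, ?_⟩⟩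
      rw [h2, add_mulVec, mulVec_mulVec, mul_assoc, h.kill w hw, mul_zero, zero_mulVec, zero_add]
  have _ := hv
  choose u hu using key
  exact ⟨u, hu⟩

theorem Core.exists_y (h : Core q N E P Pw a) {v : Finset (Fin (q + 1)) → ℂ} (hv : P *ᵥ v = v) :
    ∃ y : ℂ → Finset (Fin (q + 1)) → ℂ, ∀ w ∉ E, P *ᵥ y w = y w ∧
      ck q (sw w) 0 *ᵥ y w = Th q P (sw w) *ᵥ v := by
  have key : ∀ w, ∃ y, w ∉ E → P *ᵥ y = y ∧ ck q (sw w) 0 *ᵥ y = Th q P (sw w) *ᵥ v := fun w => by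
    by_cases hw : w ∈ E
    · exact ⟨v, fun h' => (h' hw).elim⟩
    · obtain ⟨u, h1, h2⟩ := h.range w hw v hv
      refine ⟨u - ((3 : ℂ) • (P * dG (Ah q (sw w)))) *ᵥ v, fun _ => ⟨?_, ?_⟩⟩
      · rw [mulVec_sub, h1, mulVec_mulVec, mul_smul_comm, ← mul_assoc, h.hP.isIdempotentElem.eq]
      · have h3 := ck_comm_dG (q := q) (sw_unit w) 0
        simp only [Nat.choose_zero_right, Nat.cast_one, Real.sqrt_one, Complex.ofReal_one,
          one_smul, zero_add, Nat.choose_one_right] at h3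
        rw [mulVec_sub, h2, mulVec_mulVec, ← sub_mulVec]
        congr 1
        rw [Th, Complex.ofReal_mul, mul_smul, Complex.coe_smul, ← Complex.coe_smul, ← h3]
        simp only [smul_mul_assoc, mul_smul_comm, mul_sub, sub_mul, mul_one, mul_assoc,
          Complex.ofReal_ofNat]
        module
  choose y hy using key
  exact ⟨y, hy⟩

theorem h79_clm (q : ℕ) (P : Fk (q + 1)) :
    ∃ L : Matrix (Fin (q + 1)) (Fin (q + 1)) ℂ →L[ℂ] Fk (q + 1),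
      ∀ A, L A = (3 : ℂ) • P * dG A * P := by
  exact ⟨LinearMap.toContinuousLinearMap
    { toFun := fun A => (3 : ℂ) • P * dG A * P
      map_add' := fun A B => by rw [dG_add, mul_add, add_mul]
      map_smul' := fun z A => by
        rw [dG_smul, mul_smul_comm, smul_mul_assoc z, RingHom.id_apply] }, fun _ => rfl⟩

theorem contDiff_F0 (q N : ℕ) (P : Fk (q + 1)) : ContDiff ℝ 1 (F0 q N P) := by
  obtain ⟨L, hL⟩ := h79_clm q P
  unfold F0
  simp only [← hL]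
  exact ((L.restrictScalars ℝ).contDiff.comp (contDiff_Aw q)).add
    ((contDiff_const.mul contDiff_sb).smul contDiff_const)

theorem h79_num (h : Core q N E P Pw a) {v : Finset (Fin (q + 1)) → ℂ} (hv : P *ᵥ v = v) :
    numC (q + 1) *ᵥ v = (N : ℂ) • v := by
  have h1 : secP (q + 1) N *ᵥ v = v := by rw [← hv, mulVec_mulVec, h.sec]
  rw [secP_mulVec_iff] at h1
  funext S
  rw [numC, mulVec_diagonal, Pi.smul_apply, smul_eq_mul]
  by_cases hS : S.card = N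
  · rw [hS]
  · rw [h1 S hS, mul_zero, mul_zero]

theorem Core.dbar_F0 (h : Core q N E P Pw a) {v : Finset (Fin (q + 1)) → ℂ} (hv : P *ᵥ v = v)
    (w : ℂ) : dbar (F0 q N P) w *ᵥ v = (((q + 3 : ℝ) * om w : ℝ) : ℂ) • v -
      ((3 * (q + 1) * om w * sg w ^ (2 * q) : ℝ) : ℂ) •
        (star (cw q w * P) * (cw q w * P)) *ᵥ v := by
  obtain ⟨L, hL⟩ := h79_clm q P
  have dA : DifferentiableAt ℝ (Aw q) w := (contDiff_Aw q).differentiable one_ne_zero w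
  have ds : DifferentiableAt ℝ sb w := contDiff_sb.differentiable one_ne_zero w
  have e0 : F0 q N P = fun z => L (Aw q z) +
      sb z • ((((q : ℝ) + 3 - 3 * N : ℝ) : ℂ) • (1 : Fk (q + 1))) := by
    funext z
    rw [F0, hL, smul_smul, mul_comm (sb z)]
  have dL : DifferentiableAt ℝ (fun z => L (Aw q z)) w :=
    (L.restrictScalars ℝ).differentiableAt.comp w dA
  have e1 : ((((1 + ‖w‖ ^ 2) ^ q)⁻¹ : ℝ) : ℂ) = (sg w : ℂ) ^ (2 * q) := by
    rw [← Complex.ofReal_pow, pow_mul, sg_sq, inv_pow]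
  rw [e0, dbar_add dL (ds.fun_smul (differentiableAt_const _)), dbar_clm L dA,
    dbar_smul ds (differentiableAt_const _), dbar_const, smul_zero, add_zero, dbar_sb, dbar_Aw, hL,
    dG_smul, dG_sub, dG_one, dG_smul, pw, dG_smul, dG_vecMulVec, e1, star_mul,
    h.hP.isSelfAdjoint.star_eq]
  simp only [add_mulVec, smul_mulVec, one_mulVec, ← mulVec_mulVec, sub_mulVec, hv, h79_num h hv,
    mulVec_smul, mulVec_sub, cw]
  push_cast
  module

theorem h11_wsg : Tendsto (fun w : ℂ => ‖w‖ * sg w ^ 2) (cocompact ℂ) (nhds 0) := by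
  have hn : Tendsto (fun w : ℂ => ‖w‖) (cocompact ℂ) atTop := tendsto_norm_cocompact_atTop
  refine squeeze_zero' (Eventually.of_forall fun w => by positivity) ?_
    (tendsto_inv_atTop_zero.comp hn)
  filter_upwards [hn.eventually (eventually_gt_atTop 0)] with w hw
  show ‖w‖ * sg w ^ 2 ≤ ‖w‖⁻¹
  rw [sg_sq, ← div_eq_mul_inv, div_le_iff₀ (by positivity), inv_mul_eq_div, le_div_iff₀ hw]
  nlinarith

open scoped ComplexOrder in
theorem h11_dot_self {n : Type} [Fintype n] [DecidableEq n] (v : n → ℂ) :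
    star v ⬝ᵥ v = ((en v ^ 2 : ℝ) : ℂ) := by
  have h := Complex.nonneg_iff.mp (dotProduct_star_self_nonneg v)
  rw [en_sq]
  exact Complex.ext (by simp) (by simp [← h.2])

theorem h11_dG_Aw (q : ℕ) (w : ℂ) (x : Finset (Fin (q + 1)) → ℂ) :
    dG (Aw q w) *ᵥ x = ((sg w ^ 2 : ℝ) : ℂ) • dG (Ah q (sw w)) *ᵥ x := by
  rw [Aw_eq, dG_smul, smul_mulVec]

theorem h11_en_dG (q : ℕ) (w : ℂ) (x : Finset (Fin (q + 1)) → ℂ) :
    en (dG (Ah q (sw w)) *ᵥ x) ≤ ‖dG (Am q)‖ * en x := by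
  rw [← norm_dG_Ah (sw_unit w)]
  exact en_mulVec_le _ _

theorem h11_en_ck (q : ℕ) (w : ℂ) (k : ℕ) (x : Finset (Fin (q + 1)) → ℂ) :
    en (ck q (sw w) k *ᵥ x) ≤ en x :=
  (en_mulVec_le _ _).trans (mul_le_of_le_one_left (en_nonneg _) (norm_ck_le (sw_unit w) k))

theorem Core.tendsto_F0 (h : Core q N E P Pw a) (v : Finset (Fin (q + 1)) → ℂ) :
    Tendsto (fun w => w * (star v ⬝ᵥ F0 q N P w *ᵥ v)) (cocompact ℂ)
      (nhds (((((q : ℝ) + 3 - 3 * N) * en v ^ 2 : ℝ)) : ℂ)) := by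
  have e : ∀ w, w * (star v ⬝ᵥ F0 q N P w *ᵥ v) =
      3 * (w * ((sg w ^ 2 : ℝ) : ℂ) * (star v ⬝ᵥ P *ᵥ (dG (Ah q (sw w)) *ᵥ (P *ᵥ v)))) +
        w * sb w * (((((q : ℝ) + 3 - 3 * N) * en v ^ 2 : ℝ)) : ℂ) := fun w => by
    rw [F0, add_mulVec, dotProduct_add, smul_mulVec, one_mulVec, dotProduct_smul, h11_dot_self,
      ← mulVec_mulVec, ← mulVec_mulVec, smul_mulVec, dotProduct_smul, h11_dG_Aw, mulVec_smul,
      dotProduct_smul]
    simp only [smul_eq_mul]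
    push_cast
    ring
  have t1 : Tendsto (fun w : ℂ => w * ((sg w ^ 2 : ℝ) : ℂ) *
      (star v ⬝ᵥ P *ᵥ (dG (Ah q (sw w)) *ᵥ (P *ᵥ v)))) (cocompact ℂ) (nhds 0) := by
    refine squeeze_zero_norm (a := fun w => ‖w‖ * sg w ^ 2 * (en v * (‖dG (Am q)‖ * en v)))
      (fun w => ?_) (by simpa using h11_wsg.mul_const (en v * (‖dG (Am q)‖ * en v)))
    rw [norm_mul, norm_mul, Complex.norm_real, Real.norm_of_nonneg (sq_nonneg _)]
    refine mul_le_mul_of_nonneg_left ((norm_dot_le _ _).trans ?_) (by positivity)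
    refine mul_le_mul_of_nonneg_left ((en_proj_le h.hP _).trans ((h11_en_dG q w _).trans ?_))
      (en_nonneg _)
    exact mul_le_mul_of_nonneg_left (en_proj_le h.hP _) (norm_nonneg _)
  simp only [e]
  have t2 := (t1.const_mul 3).add
    (tendsto_mul_sb.mul_const (((((q : ℝ) + 3 - 3 * N) * en v ^ 2 : ℝ)) : ℂ))
  rwa [mul_zero, zero_add, one_mul] at t2

theorem h11_Th (q : ℕ) (P : Fk (q + 1)) (u : ℂ × ℂ) (v : Finset (Fin (q + 1)) → ℂ) :
    Th q P u *ᵥ v = (3 : ℂ) • ck q u 0 *ᵥ (dG (Ah q u) *ᵥ v - P *ᵥ (dG (Ah q u) *ᵥ v)) -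
      ((2 * Real.sqrt q : ℝ) : ℂ) • ck q u 1 *ᵥ v := by
  rw [Th, sub_mulVec, smul_mulVec, ← mulVec_mulVec, ← mulVec_mulVec, smul_mulVec, sub_mulVec,
    one_mulVec]

theorem h11_tw {w e : ℂ} (h : 2 * ‖e‖ + 1 ≤ ‖w‖) : (8 * (1 + ‖e‖ ^ 2))⁻¹ ≤ tw w e := by
  have h1 := norm_sub_norm_le w e
  have h0 := norm_nonneg e
  have h2 : ‖w‖ / 2 ≤ ‖w - e‖ := by linarith
  have h3 : (‖w‖ / 2) ^ 2 ≤ ‖w - e‖ ^ 2 := pow_le_pow_left₀ (by positivity) h2 2
  have h4 : 1 + ‖w‖ ^ 2 ≤ 8 * ‖w - e‖ ^ 2 := by nlinarith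
  rw [tw, inv_eq_one_div, div_le_div_iff₀ (by positivity) (by positivity)]
  nlinarith [mul_le_mul_of_nonneg_right h4 (by positivity : (0 : ℝ) ≤ 1 + ‖e‖ ^ 2)]

theorem Core.tendsto_y (h : Core q N E P Pw a) {v : Finset (Fin (q + 1)) → ℂ}
    {y : ℂ → Finset (Fin (q + 1)) → ℂ}
    (hy : ∀ w ∉ E, P *ᵥ y w = y w ∧ ck q (sw w) 0 *ᵥ y w = Th q P (sw w) *ᵥ v) :
    Tendsto (fun w => ‖w‖ * (sg w ^ 2 * en (y w - Pw w *ᵥ y w))) (cocompact ℂ) (nhds 0) := by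
  have hn : Tendsto (fun w : ℂ => ‖w‖) (cocompact ℂ) atTop := tendsto_norm_cocompact_atTop
  set K := 3 * (‖dG (Am q)‖ * en v) + 2 * Real.sqrt q * en v with hK
  set T := a * ∏ e ∈ E, (8 * (1 + ‖e‖ ^ 2))⁻¹ with hT
  have hT0 : 0 < T := mul_pos h.pos (Finset.prod_pos fun e _ => by positivity)
  refine squeeze_zero' (g := fun w => ‖w‖ * sg w ^ 2 * Real.sqrt (K ^ 2 / T))
    (Eventually.of_forall fun w => mul_nonneg (norm_nonneg _)
      (mul_nonneg (sq_nonneg _) (en_nonneg _))) ?_ (by simpa using h11_wsg.mul_const _)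
  filter_upwards [(eventually_all_finset E).2 fun e _ =>
    hn.eventually (eventually_ge_atTop (2 * ‖e‖ + 1))] with w hw
  have hwE : w ∉ E := fun hh => by
    have := hw w hh
    linarith [norm_nonneg w]
  obtain ⟨h1, h2⟩ := hy w hwE
  have h3 := h.gap w hwE _ h1
  have h4 : en (Th q P (sw w) *ᵥ v) ≤ K := by
    rw [h11_Th]
    refine (en_sub_le _ _).trans (add_le_add ?_ ?_)
    · rw [en_smul, Complex.norm_ofNat]
      exact mul_le_mul_of_nonneg_left ((h11_en_ck q w 0 _).trans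
        ((en_sub_proj_le h.hP _).trans (h11_en_dG q w v))) (by norm_num)
    · rw [en_smul, Complex.norm_real, Real.norm_of_nonneg (by positivity)]
      exact mul_le_mul_of_nonneg_left (h11_en_ck q w 1 _) (by positivity)
  have h5 : T ≤ a * ∏ e ∈ E, tw w e :=
    mul_le_mul_of_nonneg_left (Finset.prod_le_prod (fun e _ => by positivity)
      fun e he => h11_tw (hw e he)) h.pos.le
  have h6 : en (y w - Pw w *ᵥ y w) ^ 2 ≤ K ^ 2 / T := by
    rw [le_div_iff₀ hT0, mul_comm]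
    refine (mul_le_mul_of_nonneg_right h5 (sq_nonneg _)).trans (h3.trans ?_)
    rw [h2]
    exact pow_le_pow_left₀ (en_nonneg _) h4 2
  rw [mul_assoc]
  exact mul_le_mul_of_nonneg_left (mul_le_mul_of_nonneg_left (Real.le_sqrt_of_sq_le h6)
    (sq_nonneg _)) (norm_nonneg _)

theorem Core.gp (h : Core q N E P Pw a) {c : ℂ → Fk (q + 1)}
    (hc : ∀ w, cw q w * P = (∏ e ∈ E, (w - e)) • c w) {w : ℂ} (hw : w ∉ E) :
    Gp (c w) P (Pw w) (a * ∏ e ∈ E, (1 + ‖e‖ ^ 2)⁻¹) := by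
  have h0 := h79_ne E hw
  have hs : ((sg w ^ q : ℝ) : ℂ) ≠ 0 := Complex.ofReal_ne_zero.2 (pow_pos (sg_pos w) q).ne'
  have hp : 0 < ∏ e ∈ E, (1 + ‖e‖ ^ 2)⁻¹ := Finset.prod_pos fun e _ => by positivity
  refine ⟨mul_pos h.pos hp, h.hP, h.hPw w hw, h.le w hw, ?_, ?_, fun u hu => ?_⟩
  · refine smul_right_injective _ h0 ?_
    simp only
    rw [← smul_mul_assoc, ← hc, mul_assoc, h.hP.isIdempotentElem.eq]
  · have h1 := h.kill w hw
    rw [ck_sw_zero, smul_mul_assoc, smul_eq_zero_iff_right hs] at h1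
    rw [← smul_eq_zero_iff_right h0, ← smul_mul_assoc, ← hc, mul_assoc, h.le w hw, h1]
  · have h1 := h.gap w hw u hu
    have h2 : cw q w *ᵥ u = (∏ e ∈ E, (w - e)) • c w *ᵥ u := by
      rw [← smul_mulVec, ← hc, ← mulVec_mulVec, hu]
    have h3 : ∏ e ∈ E, tw w e = ‖∏ e ∈ E, (w - e)‖ ^ 2 * (sg w ^ 2) ^ E.card *
        ∏ e ∈ E, (1 + ‖e‖ ^ 2)⁻¹ := by
      rw [norm_prod, ← Finset.prod_pow, ← Finset.prod_const, ← Finset.prod_mul_distrib,
        ← Finset.prod_mul_distrib]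
      refine Finset.prod_congr rfl fun e _ => ?_
      rw [tw, sg_sq, div_eq_mul_inv, mul_inv, mul_assoc]
    have h4 : (sg w ^ q) ^ 2 ≤ (sg w ^ 2) ^ E.card := by
      rw [← pow_mul, mul_comm, pow_mul]
      refine pow_le_pow_of_le_one (sq_nonneg _) ?_ h.card
      rw [sg_sq]
      exact inv_le_one_of_one_le₀ (le_add_of_nonneg_right (sq_nonneg _))
    rw [ck_sw_zero, smul_mulVec, h2, en_smul, en_smul, h3, Complex.norm_real,
      Real.norm_of_nonneg (pow_pos (sg_pos w) q).le, mul_pow, mul_pow] at h1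
    have h5 : 0 < ‖∏ e ∈ E, (w - e)‖ ^ 2 * (sg w ^ 2) ^ E.card :=
      mul_pos (pow_pos (norm_pos_iff.2 h0) 2) (pow_pos (pow_pos (sg_pos w) 2) _)
    refine le_of_mul_le_mul_left ?_ h5
    have h6 := mul_le_mul_of_nonneg_right h4
      (mul_nonneg (sq_nonneg ‖∏ e ∈ E, (w - e)‖) (sq_nonneg (en (c w *ᵥ u))))
    linarith

theorem h11_num {n N : ℕ} {v : Finset (Fin n) → ℂ} (h : secP n N *ᵥ v = v) :
    numC n *ᵥ v = (N : ℂ) • v := by
  funext S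
  rw [numC, mulVec_diagonal, Pi.smul_apply, smul_eq_mul]
  by_cases hS : S.card = N
  · rw [hS]
  · rw [(secP_mulVec_iff v).1 h S hS, mul_zero, mul_zero]

theorem h11_ck0 (q : ℕ) (w : ℂ) (x : Finset (Fin (q + 1)) → ℂ) :
    ck q (sw w) 0 *ᵥ x = (sg w : ℂ) ^ q • cw q w *ᵥ x := by
  rw [ck_sw_zero, smul_mulVec, Complex.ofReal_pow]

theorem h11_ck1 (q : ℕ) (w : ℂ) (x : Finset (Fin (q + 1)) → ℂ) :
    ((Real.sqrt q : ℂ) * (sg w : ℂ) ^ 2) • ck q (sw w) 1 *ᵥ x =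
      (sg w : ℂ) ^ q • (cw' q w *ᵥ x - ((q : ℂ) * sb w) • cw q w *ᵥ x) := by
  have := congrArg (· *ᵥ x) (ck_sw_one q w)
  simp only [smul_mulVec, sub_mulVec] at this
  push_cast at this
  exact this

theorem h11_key {w : ℂ} {v y : Finset (Fin (q + 1)) → ℂ} (hN : secP (q + 1) N *ᵥ v = v)
    (hy : ck q (sw w) 0 *ᵥ y = Th q P (sw w) *ᵥ v) :
    cw' q w *ᵥ v + (3 : ℂ) • dG (Dm q w) *ᵥ (cw q w *ᵥ v) -
      (3 * (sg w : ℂ) ^ 2) • cw q w *ᵥ (P *ᵥ (dG (Ah q (sw w)) *ᵥ v)) -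
      (((q : ℂ) + 3 - 3 * N) * sb w) • cw q w *ᵥ v = (sg w : ℂ) ^ 2 • cw q w *ᵥ y := by
  have ht : (sg w : ℂ) ^ q ≠ 0 := pow_ne_zero _ (by exact_mod_cast (sg_pos w).ne')
  refine smul_right_injective _ ht ?_
  have E1 := h11_ck1 q w v
  have E2 : (sg w : ℂ) ^ 2 • dG (Ah q (sw w)) *ᵥ (cw q w *ᵥ v) =
      dG (Dm q w) *ᵥ (cw q w *ᵥ v) + sb w • (((N : ℂ) - 1) • cw q w *ᵥ v) := by
    have := congrArg (· *ᵥ v) (dG_Aw_cw q w)
    simp only [add_mulVec, smul_mulVec, ← mulVec_mulVec] at this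
    rw [h11_dG_Aw, Complex.ofReal_pow] at this
    rw [this, mulVec_mulVec v (numC (q + 1)), cw, numC_mul_cC, sub_mulVec, ← mulVec_mulVec,
      h11_num hN, mulVec_smul, sub_smul, one_smul]
  have E3 : (sg w : ℂ) ^ q • cw q w *ᵥ (dG (Ah q (sw w)) *ᵥ v) -
      (sg w : ℂ) ^ q • dG (Ah q (sw w)) *ᵥ (cw q w *ᵥ v) =
        (Real.sqrt q : ℂ) • ck q (sw w) 1 *ᵥ v := by
    have := congrArg (· *ᵥ v) (ck_comm_dG (q := q) (sw_unit w) 0)
    simp only [sub_mulVec, smul_mulVec, ← mulVec_mulVec, Nat.choose_zero_right, Nat.cast_one,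
      Real.sqrt_one, Complex.ofReal_one, one_smul, zero_add, Nat.choose_one_right, h11_ck0,
      mulVec_smul] at this
    exact this
  have E5 := hy
  rw [h11_Th, h11_ck0, h11_ck0, mulVec_sub] at E5
  push_cast at E5
  show (sg w : ℂ) ^ q • _ = (sg w : ℂ) ^ q • _
  linear_combination (norm := module) -E1 - (3 * (sg w : ℂ) ^ q) • E2 + (sg w : ℂ) ^ 2 • E5.symm -
    (3 * (sg w : ℂ) ^ 2) • E3

theorem Core.dat (h : Core q N E P Pw a) {v : Finset (Fin (q + 1)) → ℂ} (hv : P *ᵥ v = v)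
    {u y : ℂ → Finset (Fin (q + 1)) → ℂ} {c : ℂ → Fk (q + 1)} (dc : Differentiable ℂ c)
    (hc : ∀ w, cw q w * P = (∏ e ∈ E, (w - e)) • c w)
    (hu : ∀ w ∉ E, P *ᵥ u w = u w ∧
      ck q (sw w) 0 *ᵥ u w = ((Real.sqrt q : ℂ) • ck q (sw w) 1) *ᵥ (Pw w *ᵥ v))
    (hy : ∀ w ∉ E, P *ᵥ y w = y w ∧ ck q (sw w) 0 *ᵥ y w = Th q P (sw w) *ᵥ v) :
    Dat E P Pw c (fun w => deriv c w + (3 : ℂ) • dG (Dm q w) * c w) (F0 q N P) v
      (fun w => ((sg w ^ 2 : ℝ) : ℂ) • u w) (fun w => ((sg w ^ 2 : ℝ) : ℂ) • y w)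
      (a * ∏ e ∈ E, (1 + ‖e‖ ^ 2)⁻¹) (q + 3) ((q : ℝ) + 3 - 3 * N) := by
  have hφ : ∀ w ∉ E, ∏ e ∈ E, (w - e) ≠ 0 := fun w hw =>
    Finset.prod_ne_zero_iff.2 fun e he => sub_ne_zero.2 fun h' => hw (h' ▸ he)
  have hcv : ∀ w x, (∏ e ∈ E, (w - e)) • c w *ᵥ x = cw q w *ᵥ (P *ᵥ x) := fun w x => by
    rw [← smul_mulVec, ← hc, mulVec_mulVec]
  have hdv : ∀ w ∉ E, ∀ x, (∏ e ∈ E, (w - e)) • deriv c w *ᵥ x =
      cw' q w *ᵥ (P *ᵥ x) - (∑ e ∈ E, (w - e)⁻¹) • cw q w *ᵥ (P *ᵥ x) := fun w hw x => by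
    rw [← smul_mulVec, deriv_div E (f := fun w => cw q w * P) dc hc hw
      ((hasDerivAt_cw q w).mul_const P), sub_mulVec, smul_mulVec, mulVec_mulVec, mulVec_mulVec]
  have hPP : ∀ x, P *ᵥ (P *ᵥ x) = P *ᵥ x := fun x => by
    rw [mulVec_mulVec, h.hP.isIdempotentElem.eq]
  have hN : secP (q + 1) N *ᵥ v = v := by
    rw [← hv, mulVec_mulVec, h.sec]
  refine ⟨dc, ?_, contDiff_F0 q N P, by positivity, fun w hw => h.gp hc hw, hv,
    fun w hw => by rw [mulVec_smul, (hu w hw).1], fun w hw => by rw [mulVec_smul, (hy w hw).1],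
    fun w hw => ?_, fun w hw => ?_, fun w hw => ?_, h.tendsto_F0 v, ?_⟩
  · obtain ⟨L, hL⟩ := exists_dG_clm (q + 1)
    have d1 : Differentiable ℂ (deriv c) :=
      differentiableOn_univ.1 (dc.differentiableOn.deriv isOpen_univ)
    have d2 : Differentiable ℂ fun w => dG (Dm q w) := by
      simp only [← hL]
      exact L.differentiable.comp (differentiable_Dm q)
    exact d1.add ((d2.const_smul (3 : ℂ)).mul dc)
  · have h0 : 0 ≤ om w := by rw [om_eq]; positivity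
    refine ⟨3 * (q + 1) * om w * sg w ^ (2 * q) * ‖∏ e ∈ E, (w - e)‖ ^ 2, ?_, ?_⟩
    · rw [pow_mul]; positivity
    · rw [h.dbar_F0 hv w, hc, star_smul, smul_mul_smul_comm, smul_mulVec, smul_smul,
        Complex.star_def, Complex.conj_mul']
      push_cast
      rfl
  · refine smul_right_injective _ (hφ w hw) ?_
    have ht : (sg w : ℂ) ^ q ≠ 0 := pow_ne_zero _ (by exact_mod_cast (sg_pos w).ne')
    have k0 : cw q w *ᵥ (Pw w *ᵥ v) = 0 := by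
      refine smul_right_injective _ ht ?_
      show (sg w : ℂ) ^ q • _ = (sg w : ℂ) ^ q • _
      rw [← h11_ck0, mulVec_mulVec, h.kill w hw, zero_mulVec, smul_zero]
    have k1 : P *ᵥ (Pw w *ᵥ v) = Pw w *ᵥ v := by rw [mulVec_mulVec, h.le w hw]
    show (∏ e ∈ E, (w - e)) • _ = (∏ e ∈ E, (w - e)) • _
    rw [hcv, hdv w hw, k1, k0, smul_zero, sub_zero, mulVec_smul, (hu w hw).1, mulVec_smul]
    refine smul_right_injective _ ht ?_
    have E1 := h11_ck1 q w (Pw w *ᵥ v)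
    have E2 := (hu w hw).2
    rw [k0, smul_zero, sub_zero] at E1
    rw [h11_ck0, smul_mulVec] at E2
    show (sg w : ℂ) ^ q • _ = (sg w : ℂ) ^ q • _
    push_cast
    linear_combination (norm := module) E1 + (sg w : ℂ) ^ 2 • E2
  · refine smul_right_injective _ (hφ w hw) ?_
    have key := h11_key hN (hy w hw).2
    have eF : P *ᵥ (F0 q N P w *ᵥ v) = (3 * (sg w : ℂ) ^ 2) • P *ᵥ (dG (Ah q (sw w)) *ᵥ v) +
        (((q : ℂ) + 3 - 3 * N) * sb w) • v := by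
      rw [F0, add_mulVec, smul_mulVec, one_mulVec, ← mulVec_mulVec, ← mulVec_mulVec, smul_mulVec, hv,
        h11_dG_Aw, mulVec_add, mulVec_smul, mulVec_smul, mulVec_smul, mulVec_smul, hPP, hv, smul_smul]
      push_cast
      rfl
    show (∏ e ∈ E, (w - e)) • _ = (∏ e ∈ E, (w - e)) • _
    rw [hcv, sub_mulVec, add_mulVec, smul_sub, smul_add, hdv w hw, ← mulVec_mulVec, ← mulVec_mulVec,
      hcv, eF, smul_mulVec, smul_comm (∏ e ∈ E, (w - e)), ← mulVec_smul _ (∏ e ∈ E, (w - e)), hcv, hv,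
      mulVec_sub, mulVec_smul, mulVec_smul, hv, (hy w hw).1, mulVec_sub, mulVec_add, mulVec_smul,
      mulVec_smul, mulVec_smul, mulVec_smul]
    push_cast
    linear_combination (norm := module) key
  · refine (h.tendsto_y hy).congr fun w => ?_
    rw [mulVec_smul, ← smul_sub, en_smul, Complex.norm_real, Real.norm_of_nonneg (sq_nonneg _)]

theorem f2_core (h : Core q N E P Pw a) (hj : (E.card : ℝ) ≤ (q : ℝ) + 3 - 3 * N)
    {v : Finset (Fin (q + 1)) → ℂ} (hv : P *ᵥ v = v) {g : ℂ → ℝ} (ig : Integrable g)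
    (g0 : ∀ w, 0 ≤ g w)
    (hg : ∀ w ∉ E, ∀ u y, P *ᵥ u = u → P *ᵥ y = y →
      ck q (sw w) 0 *ᵥ u = ((Real.sqrt q : ℂ) • ck q (sw w) 1) *ᵥ (Pw w *ᵥ v) →
      ck q (sw w) 0 *ᵥ y = Th q P (sw w) *ᵥ v →
      om w * ((q + 3) * en (Pw w *ᵥ v) ^ 2 + (star (u - Pw w *ᵥ u) ⬝ᵥ (y - Pw w *ᵥ y)).re) ≤ g w) :
    Real.pi / 4 * (((q : ℝ) + 3 - 3 * N - E.card) * en v ^ 2) ≤ ∫ w, g w := by
  obtain ⟨c, dc, hc⟩ := exists_div E (f := fun w => cw q w * P)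
    (fun w => ((hasDerivAt_cw q w).mul_const P).differentiableAt) fun e he => by
      have h1 := h.pin e he
      rwa [ck_sw_zero, smul_mul_assoc,
        smul_eq_zero_iff_right (Complex.ofReal_ne_zero.2 (pow_pos (sg_pos e) q).ne')] at h1
  obtain ⟨u, hu⟩ := h.exists_u hv
  obtain ⟨y, hy⟩ := h.exists_y hv
  refine f2_abs (h.dat hv dc hc hu hy) hj ig g0 fun w hw => ?_
  refine le_of_eq_of_le ?_ (hg w hw _ _ (hu w hw).1 (hy w hw).1 (hu w hw).2 (hy w hw).2)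
  simp only [mulVec_smul, ← smul_sub, star_smul, smul_dotProduct, dotProduct_smul, smul_eq_mul,
    Complex.star_def, Complex.conj_ofReal, Complex.re_ofReal_mul]
  rw [om_eq]
  ring

end Crest.Agent.R340.F2
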