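import Crest.Agent.R340.F2Defs

/-! # F2: calculus of `dbar` -/

set_option autoImplicit false

namespace Crest.Agent.R340.F2

open scoped ComplexConjugate

section
variable {E F : Type} [NormedAddCommGroup E] [NormedSpace ℂ E] [NormedAddCommGroup F]
  [NormedSpace ℂ F] {f g : ℂ → E} {w : ℂ}

theorem dbar_add (hf : DifferentiableAt ℝ f w) (hg : DifferentiableAt ℝ g w) :
    dbar (fun z => f z + g z) w = dbar f w + dbar g w := by
  unfold dbar
  rw [fderiv_fun_add hf hg]
  simp only [add_apply]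
  module

theorem dbar_sub (hf : DifferentiableAt ℝ f w) (hg : DifferentiableAt ℝ g w) :
    dbar (fun z => f z - g z) w = dbar f w - dbar g w := by
  unfold dbar
  rw [fderiv_fun_sub hf hg]
  simp only [sub_apply]
  module

theorem dbar_sum {ι : Type} (s : Finset ι) {f : ι → ℂ → E}
    (hf : ∀ i ∈ s, DifferentiableAt ℝ (f i) w) :
    dbar (fun z => ∑ i ∈ s, f i z) w = ∑ i ∈ s, dbar (f i) w := by
  unfold dbar
  rw [fderiv_fun_sum hf]
  simp only [sum_apply, Finset.smul_sum, ← Finset.sum_add_distrib]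

theorem dbar_const (c : E) (w : ℂ) : dbar (fun _ => c) w = 0 := by
  simp [dbar]

theorem dbar_smul {a : ℂ → ℂ} (ha : DifferentiableAt ℝ a w) (hf : DifferentiableAt ℝ f w) :
    dbar (fun z => a z • f z) w = dbar a w • f w + a w • dbar f w := by
  unfold dbar
  rw [fderiv_fun_smul ha hf]
  simp only [add_apply, smul_apply,
    ContinuousLinearMap.smulRight_apply, smul_eq_mul]
  module

theorem dbar_clm (L : E →L[ℂ] F) (hf : DifferentiableAt ℝ f w) :
    dbar (fun z => L (f z)) w = L (dbar f w) := by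
  have h := ((L.restrictScalars ℝ).hasFDerivAt.comp w hf.hasFDerivAt).fderiv
  unfold dbar
  rw [show (fun z => L (f z)) = (L.restrictScalars ℝ) ∘ f from rfl, h]
  simp

theorem dbar_holo (hf : DifferentiableAt ℂ f w) : dbar f w = 0 := by
  unfold dbar
  rw [(hf.hasDerivAt.hasFDerivAt.restrictScalars ℝ).fderiv]
  simp [smul_smul]

theorem dbar_congr (h : f =ᶠ[nhds w] g) : dbar f w = dbar g w := by
  unfold dbar
  rw [h.fderiv_eq]

theorem dbar_shift (f : ℂ → E) (e w : ℂ) : dbar (fun z => f (z - e)) w = dbar f (w - e) := by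
  unfold dbar
  rw [fderiv_comp_sub]

theorem continuous_dbar (hf : ContDiff ℝ 1 f) : Continuous (dbar f) := by
  have h := hf.continuous_fderiv one_ne_zero
  exact ((h.clm_apply continuous_const).add
    ((h.clm_apply continuous_const).const_smul Complex.I)).const_smul (1 / 2 : ℂ)

theorem norm_dbar_le (f : ℂ → E) (w : ℂ) : ‖dbar f w‖ ≤ ‖fderiv ℝ f w‖ := by
  have h1 := (fderiv ℝ f w).le_opNorm 1
  have h2 := (fderiv ℝ f w).le_opNorm Complex.I
  have h3 := norm_add_le (fderiv ℝ f w 1) (Complex.I • fderiv ℝ f w Complex.I)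
  rw [norm_smul] at h3
  unfold dbar
  rw [norm_smul]
  simp only [norm_one, Complex.norm_I, mul_one, one_mul, norm_div, Complex.norm_ofNat] at *
  linarith
end

section
variable {𝔄 : Type} [CStarAlgebra 𝔄] {f g : ℂ → 𝔄} {w : ℂ}

theorem dbar_mul (hf : DifferentiableAt ℝ f w) (hg : DifferentiableAt ℝ g w) :
    dbar (fun z => f z * g z) w = dbar f w * g w + f w * dbar g w := by
  unfold dbar
  rw [fderiv_fun_mul' hf hg]
  simp only [add_apply, smul_apply, smul_eq_mul,
    op_smul_eq_mul, smul_mul_assoc, mul_smul_comm, add_mul, mul_add]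
  module

theorem contDiff_star (hf : ContDiff ℝ 1 f) : ContDiff ℝ 1 fun z => star (f z) := by
  exact (starL' ℝ : 𝔄 ≃L[ℝ] 𝔄).contDiff.comp hf

theorem dbar_star {f' : 𝔄} (hf : HasDerivAt f f' w) : dbar (fun z => star (f z)) w = star f' := by
  have h := ((starL' ℝ : 𝔄 ≃L[ℝ] 𝔄).hasFDerivAt.comp w
    (hf.hasFDerivAt.restrictScalars ℝ)).fderiv
  unfold dbar
  rw [show (fun z => star (f z)) = (starL' ℝ : 𝔄 ≃L[ℝ] 𝔄) ∘ f from rfl, h]
  simp [smul_smul, ← two_smul ℂ]

theorem contDiff_inverse (hf : ContDiff ℝ 1 f) (hu : ∀ z, IsUnit (f z)) :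
    ContDiff ℝ 1 fun z => Ring.inverse (f z) := by
  refine contDiff_iff_contDiffAt.2 fun z => ?_
  obtain ⟨u, hz⟩ := hu z
  exact (hz ▸ contDiffAt_ringInverse ℝ u).comp z hf.contDiffAt

theorem dbar_inverse (hf : ContDiff ℝ 1 f) (hu : ∀ z, IsUnit (f z)) (w : ℂ) :
    dbar (fun z => Ring.inverse (f z)) w =
      -(Ring.inverse (f w) * dbar f w * Ring.inverse (f w)) := by
  have h := dbar_mul (hf.differentiable one_ne_zero w)
    ((contDiff_inverse hf hu).differentiable one_ne_zero w)
  rw [show (fun z => f z * Ring.inverse (f z)) = fun _ => (1 : 𝔄) from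
    funext fun z => Ring.mul_inverse_cancel _ (hu z), dbar_const] at h
  have h2 := congrArg (fun X => Ring.inverse (f w) * X) h
  simp only [mul_zero, mul_add, ← mul_assoc, Ring.inverse_mul_cancel _ (hu w), one_mul] at h2
  exact eq_neg_of_add_eq_zero_right h2.symm
end

/-! ### explicit scalar functions -/

private theorem h42_den (ε : ℝ) (w : ℂ) : ((‖w‖ ^ 2 + ε : ℝ) : ℂ) = w * conj w + ε := by
  rw [Complex.mul_conj']
  push_cast
  rfl

private theorem h42_ne {ε : ℝ} (hε : 0 < ε) (w : ℂ) : w * conj w + ε ≠ 0 := by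
  rw [← h42_den]
  exact Complex.ofReal_ne_zero.2 (by positivity)

private theorem h42_conj : ContDiff ℝ 1 fun w : ℂ => conj w := Complex.conjCLE.contDiff

private theorem h42_N (ε : ℝ) : ContDiff ℝ 1 fun w : ℂ => w * conj w + ε :=
  (contDiff_id.mul h42_conj).add contDiff_const

theorem contDiff_psi {ε : ℝ} (hε : 0 < ε) : ContDiff ℝ 1 (psi ε) := by
  have e : psi ε = fun w : ℂ => conj w * (w * conj w + ε)⁻¹ := by
    funext w
    rw [psi, h42_den, div_eq_mul_inv]
  rw [e]
  exact h42_conj.mul ((h42_N ε).inv (h42_ne hε))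

theorem dbar_psi {ε : ℝ} (hε : 0 < ε) (w : ℂ) :
    dbar (psi ε) w = ((ε / (‖w‖ ^ 2 + ε) ^ 2 : ℝ) : ℂ) := by
  have hc : dbar (fun z : ℂ => conj z) w = 1 := by
    have := dbar_star (𝔄 := ℂ) (hasDerivAt_id w)
    rw [star_one] at this
    exact this
  have d1 := h42_conj.differentiable one_ne_zero w
  have hN : dbar (fun z : ℂ => z * conj z + ε) w = w := by
    rw [dbar_add (differentiableAt_fun_id.fun_mul d1) (differentiableAt_const _), dbar_const,
      dbar_mul differentiableAt_fun_id d1, hc, dbar_holo differentiableAt_fun_id]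
    simp
  have h1 := dbar_mul ((contDiff_psi hε).differentiable one_ne_zero w)
    ((h42_N ε).differentiable one_ne_zero w)
  have e : (fun z : ℂ => psi ε z * (z * conj z + ε)) = fun z => conj z := by
    funext z
    rw [psi, h42_den, div_mul_cancel₀ _ (h42_ne hε z)]
  rw [e, hc, hN, psi, h42_den] at h1
  have h0 := h42_ne hε w
  rw [Complex.ofReal_div, Complex.ofReal_pow, h42_den, eq_div_iff (pow_ne_zero 2 h0)]
  field_simp at h1
  linear_combination -h1

theorem sb_eq_psi : sb = psi 1 := by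
  funext w
  rw [sb, psi, add_comm]

theorem contDiff_sb : ContDiff ℝ 1 sb := by
  rw [sb_eq_psi]
  exact contDiff_psi one_pos

theorem dbar_sb (w : ℂ) : dbar sb w = (om w : ℂ) := by
  rw [sb_eq_psi, dbar_psi one_pos, om, one_div, add_comm]

theorem norm_psi_le {ε : ℝ} (hε : 0 < ε) (w : ℂ) : ‖psi ε w‖ ≤ ‖w‖⁻¹ := by
  rw [psi, norm_div, Complex.norm_conj, Complex.norm_real, Real.norm_of_nonneg (by positivity)]
  rcases (norm_nonneg w).eq_or_lt with h | h
  · simp [← h]
  · rw [inv_eq_one_div, div_le_div_iff₀ (by positivity) h]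
    nlinarith

theorem norm_inv_sub_psi_le {ε : ℝ} (hε : 0 < ε) {w : ℂ} (hw : w ≠ 0) :
    ‖w⁻¹ - psi ε w‖ ≤ ε / ‖w‖ ^ 3 := by
  have h0 := h42_ne hε w
  have h : 0 < ‖w‖ := norm_pos_iff.2 hw
  have e : w⁻¹ - psi ε w = (ε : ℂ) / (w * ((‖w‖ ^ 2 + ε : ℝ) : ℂ)) := by
    rw [psi, h42_den]
    field_simp
    ring
  rw [e, norm_div, norm_mul, Complex.norm_real, Complex.norm_real, Real.norm_of_nonneg hε.le,
    Real.norm_of_nonneg (by positivity)]
  refine div_le_div_of_nonneg_left hε.le (by positivity) ?_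
  nlinarith [mul_pos h hε]

theorem tendsto_mul_sb : Filter.Tendsto (fun w => w * sb w) (Filter.cocompact ℂ) (nhds 1) := by
  have e : (fun w => w * sb w) = fun w : ℂ => 1 - (((‖w‖ ^ 2 + 1)⁻¹ : ℝ) : ℂ) := by
    funext w
    have h0 := h42_ne one_pos w
    rw [sb_eq_psi, psi, Complex.ofReal_inv, h42_den]
    field_simp
    simp
  have h1 : Filter.Tendsto (fun w : ℂ => (‖w‖ ^ 2 + 1)⁻¹) (Filter.cocompact ℂ) (nhds 0) :=
    (Filter.tendsto_atTop_add_const_right _ 1
      ((Filter.tendsto_pow_atTop two_ne_zero).comp (tendsto_norm_cocompact_atTop (E := ℂ)))).inv_tendsto_atTop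
  rw [e]
  simpa using ((Complex.continuous_ofReal.tendsto 0).comp h1).const_sub 1

theorem locallyIntegrable_inv (e : ℂ) (R : ℝ) :
    MeasureTheory.IntegrableOn (fun w : ℂ => ‖w - e‖⁻¹) (Metric.closedBall 0 R) := by
  have h0 : MeasureTheory.LocallyIntegrable (fun u : ℂ => ‖u‖⁻¹) := by
    refine MeasureTheory.locallyIntegrable_of_norm_le_rpow (C := 1) (α := 1) (by simp) (by simp)
      (Filter.Eventually.of_forall fun u => ?_) (Measurable.aestronglyMeasurable (by fun_prop))
    simp [Real.rpow_neg_one]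
  have h1 := h0.integrableOn_isCompact (isCompact_closedBall (-e) R)
  have h2 := (MeasureTheory.measurePreserving_sub_right MeasureTheory.volume e).integrableOn_comp_preimage
    (Homeomorph.subRight e).measurableEmbedding |>.2 h1
  refine h2.mono_set fun w hw => ?_
  simpa [dist_eq_norm] using hw

end Crest.Agent.R340.F2
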