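import Crest.Agent.R340.GeoDefs

/-! # Row 340, module F2 (`∫ Π_w ≥ c j`): definitions -/

set_option autoImplicit false

namespace Crest.Agent.R340.F2

open Matrix
open scoped ComplexConjugate

/-- `∂ / ∂ conj w` -/
noncomputable def dbar {E : Type} [NormedAddCommGroup E] [NormedSpace ℂ E] (f : ℂ → E) (w : ℂ) :
    E := (1 / 2 : ℂ) • (fderiv ℝ f w 1 + Complex.I • fderiv ℝ f w Complex.I)

/-- Euclidean norm -/
noncomputable def en {n : Type} [Fintype n] (φ : n → ℂ) : ℝ :=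
  ‖(WithLp.toLp 2 φ : EuclideanSpace ℂ n)‖

/-- the Fubini-Study density `(1 + |w|²)⁻²` -/
noncomputable def om (w : ℂ) : ℝ := ((1 + ‖w‖ ^ 2) ^ 2)⁻¹

/-- `conj w / (1 + |w|²)` -/
noncomputable def sb (w : ℂ) : ℂ := conj w / ((1 + ‖w‖ ^ 2 : ℝ) : ℂ)

/-- the regularisation `conj w / (|w|² + ε)` of `1 / w` -/
noncomputable def psi (ε : ℝ) (w : ℂ) : ℂ := conj w / ((‖w‖ ^ 2 + ε : ℝ) : ℂ)

/-- `(1 + |w|²)^(-1/2)` -/
noncomputable def sg (w : ℂ) : ℝ := (Real.sqrt (1 + ‖w‖ ^ 2))⁻¹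

/-- the unit spinor over the chart point `w` -/
noncomputable def sw (w : ℂ) : ℂ × ℂ := ((sg w : ℂ), (sg w : ℂ) * w)

/-- squared chordal distance in the chart -/
noncomputable def tw (w e : ℂ) : ℝ := ‖w - e‖ ^ 2 / ((1 + ‖w‖ ^ 2) * (1 + ‖e‖ ^ 2))

/-- division by `z` (the constant term is dropped) -/
noncomputable def Am (q : ℕ) : Matrix (Fin (q + 1)) (Fin (q + 1)) ℂ := Matrix.of fun i k =>
  if (k : ℕ) = i + 1 then ((Real.sqrt (q.choose k) / Real.sqrt (q.choose i) : ℝ) : ℂ) else 0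

/-- the rotated `Am` -/
noncomputable def Ah (q : ℕ) (u : ℂ × ℂ) : Matrix (Fin (q + 1)) (Fin (q + 1)) ℂ :=
  rho q u * Am q * star (rho q u)

/-- annihilator of the `k`-th orbital centred at the spinor `u` (zero for `k > q`) -/
noncomputable def ck (q : ℕ) (u : ℂ × ℂ) (k : ℕ) : Fk (q + 1) :=
  if h : k < q + 1 then cC fun j => rho q u j ⟨k, h⟩ else 0

/-- `f ↦ (f - f w) / (z - w)` -/
noncomputable def Dm (q : ℕ) (w : ℂ) : Matrix (Fin (q + 1)) (Fin (q + 1)) ℂ := Matrix.of fun i k =>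
  if (i : ℕ) < k then
    ((Real.sqrt (q.choose k) / Real.sqrt (q.choose i) : ℝ) : ℂ) * w ^ ((k : ℕ) - 1 - i) else 0

/-- projection on the coherent state at `w` -/
noncomputable def pw (q : ℕ) (w : ℂ) : Matrix (Fin (q + 1)) (Fin (q + 1)) ℂ :=
  ((((1 + ‖w‖ ^ 2) ^ q)⁻¹ : ℝ) : ℂ) • vecMulVec (kv q (1, w)) (star (kv q (1, w)))

/-- the covariant division by `z - w` -/
noncomputable def Aw (q : ℕ) (w : ℂ) : Matrix (Fin (q + 1)) (Fin (q + 1)) ℂ :=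
  (Dm q w + sb w • (1 : Matrix (Fin (q + 1)) (Fin (q + 1)) ℂ)) * (1 - pw q w)

/-- the holomorphic annihilator (evaluation at `w`) -/
noncomputable def cw (q : ℕ) (w : ℂ) : Fk (q + 1) := cC (kv q (1, w))

/-- its derivative -/
noncomputable def cw' (q : ℕ) (w : ℂ) : Fk (q + 1) :=
  ∑ j : Fin (q + 1), ((Real.sqrt (q.choose j) : ℂ) * (((j : ℕ) : ℂ) * w ^ ((j : ℕ) - 1))) • annC j

/-- the coefficient in `[B_p, dΓ(A)] = α_p B_{p+1} + κ_p c_{p+2} c_0` -/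
noncomputable def kap (q p : ℕ) : ℝ :=
  -((p + 3) * Real.sqrt (q.choose (p + 2)) /
    Real.sqrt (Crest.MathPhysics.Laughlin.pairNorm q (p + 1)))

end Crest.Agent.R340.F2
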