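import Crest.Agent.R340.IfKD

/-! # F2: the explicit form of the parent Hamiltonian (to be supplied by KD) -/

set_option autoImplicit false

namespace Crest.Agent.R340.Pin

open Matrix MeasureTheory Crest.MathPhysics.Laughlin
open scoped Matrix.Norms.L2Operator MatrixOrder ComplexOrder ComplexConjugate

open Classical in
/-- `K_S = H + ∑_{e ∈ S} a_e^* a_e`, `a_e = filt w H (ca e)`, acts on zero modes of `H` as
`∑ a_e^* c(e)` -/
theorem kd_parent_form : ∃ (R₀ g a C G : ℝ) (Q₀ : ℕ), 0 < g ∧ 0 < a ∧ ∀ Q, Q₀ ≤ Q →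
    ∀ S : Multiset S2, AdmS Q R₀ S → ∃ (K : Fk (Q + 1)) (A : S2 → Fk (Q + 1)),
      LocHam Q (1 / 2) a C G K ∧ Parent K (PD Q S) g ∧
        (∀ e, OL Q (1 / 2) a C e (A e) ∧ Low 1 (A e)) ∧
        ∀ η ∈ ZD Q 0, K *ᵥ η = ∑ e ∈ S.toFinset, (star (A e) * ca Q e) *ᵥ η := by
  obtain ⟨r, R, g, a, C, G, Q₀, hr, hR, hg, ha, H⟩ := units_parent
  obtain ⟨a', C', ha', hC', H'⟩ := unit_loc 0
  obtain ⟨Q₁, H₁⟩ := parent_H
  refine ⟨r, g, min a a', max (Real.exp a * C) (Real.exp a' * C'), G, max Q₀ Q₁, hg, lt_min ha ha',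
    fun Q hQ S hS => ?_⟩
  obtain ⟨hQ1, HU⟩ := H Q (le_of_max_le_left hQ)
  obtain ⟨-, hH⟩ := H₁ Q (le_of_max_le_right hQ)
  have hU : Units Q r R S.toFinset (fun _ => 0) id :=
    ⟨fun _ _ => Nat.zero_le _, fun c _ => by rw [id, dq_self]; linarith,
      fun c hc c' hc' hne => hS.1 c (Multiset.mem_toFinset.mp hc) c' (Multiset.mem_toFinset.mp hc') hne,
      fun c _ c' _ _ h => absurd rfl h⟩
  have hD : uD S.toFinset (fun _ => 0) id = S := by
    simp only [uD, unit, Multiset.replicate_zero, id, Multiset.cons_zero]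
    rw [Finset.sum_multiset_singleton, Multiset.toFinset_val, Multiset.dedup_eq_self.mpr hS.2]
  obtain ⟨h1, h2⟩ := HU _ _ _ hU
  rw [hD] at h2
  have h0 : (0 : ℝ) ≤ min a a' := (lt_min ha ha').le
  refine ⟨_, fun e => aF Q (coh Q e), h1.weaken (by norm_num) le_rfl h0 (min_le_left _ _)
    (le_max_left _ _) le_rfl, h2, fun e => ⟨?_, low_aF _⟩, fun η hη => ?_⟩
  · have h3 := (H' Q hQ1 e e 0 (Nat.zero_le _) (dq_self _ _).le).2.1 0
    have e1 : uv Q e 0 e 0 = coh Q e := by simp [uv, fo_zero]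
    rw [e1] at h3
    exact (h3.weaken (by norm_num) le_rfl h0 (min_le_right _ _)).mono (le_max_right _ _)
  · have hP := PD_mulVec_iff.mpr hη
    rw [KU, add_mulVec, mem_ZD_zero.mp hη, zero_add, sum_mulVec]
    refine Finset.sum_congr rfl fun e _ => ?_
    rw [VU_eq (Nat.zero_le _), VA, Finset.range_zero, Finset.sum_empty, zero_add, id, fo_zero, VF,
      ← hP, mulVec_mulVec, mulVec_mulVec, mul_assoc, mul_assoc, (aF_PD hH _).2]
    rfl

end Crest.Agent.R340.Pin
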