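import Crest.Agent.R340.IfLoc
import Crest.Agent.R340.FiltFun

/-! # F2: uniformly quasi-local families -/

set_option autoImplicit false

namespace Crest.Agent.R340.F2

open Matrix MeasureTheory Crest.MathPhysics.Laughlin Crest.Agent.R340.Pin
open scoped ComplexConjugate Matrix.Norms.L2Operator MatrixOrder ComplexOrder

variable {I : Type}

/-- uniformly quasi-local (even) -/
def UQ (Q : I → ℕ) (x : I → S2) (A : ∀ i, Fk (Q i + 1)) : Prop :=
  ∃ α a C : ℝ, 0 < α ∧ α ≤ 1 / 2 ∧ 0 < a ∧ 0 ≤ C ∧ ∀ i, QL (Q i) α a C (x i) (A i)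

/-- uniformly quasi-local (odd) -/
def UO (Q : I → ℕ) (x : I → S2) (A : ∀ i, Fk (Q i + 1)) : Prop :=
  ∃ α a C : ℝ, 0 < α ∧ α ≤ 1 / 2 ∧ 0 < a ∧ 0 ≤ C ∧ ∀ i, OL (Q i) α a C (x i) (A i)

/-- uniformly local Hamiltonians -/
def UH (Q : I → ℕ) (K : ∀ i, Fk (Q i + 1)) : Prop :=
  ∃ α a C G : ℝ, 0 < α ∧ α ≤ 1 ∧ 0 < a ∧ ∀ i, LocHam (Q i) α a C G (K i)

variable {Q : I → ℕ} {x : I → S2} {A B K : ∀ i, Fk (Q i + 1)}

theorem UQ.of {α a C : ℝ} (h0 : 0 < α) (ha : 0 < a) (h : ∀ i, QL (Q i) α a C (x i) (A i)) :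
    UQ Q x A := by
  exact ⟨min α (1 / 2), a, max (Real.exp a * C) 0, lt_min h0 one_half_pos, min_le_right _ _, ha,
    le_max_right _ _, fun i => ((h i).weaken (lt_min h0 one_half_pos) (min_le_left _ _) ha.le
      le_rfl).mono (le_max_left _ _)⟩

theorem UO.of {α a C : ℝ} (h0 : 0 < α) (ha : 0 < a) (h : ∀ i, OL (Q i) α a C (x i) (A i)) :
    UO Q x A := by
  exact ⟨min α (1 / 2), a, max (Real.exp a * C) 0, lt_min h0 one_half_pos, min_le_right _ _, ha,
    le_max_right _ _, fun i => ((h i).weaken (lt_min h0 one_half_pos) (min_le_left _ _) ha.le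
      le_rfl).mono (le_max_left _ _)⟩

theorem h75_QQ (h : UQ Q x A) (h' : UQ Q x B) : ∃ α a C C' : ℝ, 0 < α ∧ 0 < a ∧
    ∀ i, QL (Q i) α a C (x i) (A i) ∧ QL (Q i) α a C' (x i) (B i) := by
  obtain ⟨α, a, C, h0, -, ha, -, H⟩ := h
  obtain ⟨α', a', C', h0', -, ha', -, H'⟩ := h'
  exact ⟨min α α', min a a', _, _, lt_min h0 h0', lt_min ha ha', fun i =>
    ⟨(H i).weaken (lt_min h0 h0') (min_le_left _ _) (lt_min ha ha').le (min_le_left _ _),
      (H' i).weaken (lt_min h0 h0') (min_le_right _ _) (lt_min ha ha').le (min_le_right _ _)⟩⟩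

theorem h75_OO (h : UO Q x A) (h' : UO Q x B) : ∃ α a C C' : ℝ, 0 < α ∧ 0 < a ∧
    ∀ i, OL (Q i) α a C (x i) (A i) ∧ OL (Q i) α a C' (x i) (B i) := by
  obtain ⟨α, a, C, h0, -, ha, -, H⟩ := h
  obtain ⟨α', a', C', h0', -, ha', -, H'⟩ := h'
  exact ⟨min α α', min a a', _, _, lt_min h0 h0', lt_min ha ha', fun i =>
    ⟨(H i).weaken (lt_min h0 h0') (min_le_left _ _) (lt_min ha ha').le (min_le_left _ _),
      (H' i).weaken (lt_min h0 h0') (min_le_right _ _) (lt_min ha ha').le (min_le_right _ _)⟩⟩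

theorem h75_OQ (h : UO Q x A) (h' : UQ Q x B) : ∃ α a C C' : ℝ, 0 < α ∧ 0 < a ∧
    ∀ i, OL (Q i) α a C (x i) (A i) ∧ QL (Q i) α a C' (x i) (B i) := by
  obtain ⟨α, a, C, h0, -, ha, -, H⟩ := h
  obtain ⟨α', a', C', h0', -, ha', -, H'⟩ := h'
  exact ⟨min α α', min a a', _, _, lt_min h0 h0', lt_min ha ha', fun i =>
    ⟨(H i).weaken (lt_min h0 h0') (min_le_left _ _) (lt_min ha ha').le (min_le_left _ _),
      (H' i).weaken (lt_min h0 h0') (min_le_right _ _) (lt_min ha ha').le (min_le_right _ _)⟩⟩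

theorem UQ.add (h : UQ Q x A) (h' : UQ Q x B) : UQ Q x fun i => A i + B i := by
  obtain ⟨α, a, C, C', h0, ha, H⟩ := h75_QQ h h'
  exact UQ.of h0 ha fun i => (H i).1.add (H i).2

theorem UQ.smul (h : UQ Q x A) {z : I → ℂ} {M : ℝ} (hz : ∀ i, ‖z i‖ ≤ M) :
    UQ Q x fun i => z i • A i := by
  obtain ⟨α, a, C, h0, -, ha, hC, H⟩ := h
  exact UQ.of h0 ha fun i => ((H i).smul (z i)).mono (mul_le_mul_of_nonneg_right (hz i) hC)

theorem UQ.sub (h : UQ Q x A) (h' : UQ Q x B) : UQ Q x fun i => A i - B i := by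
  have := h.add (h'.smul (z := fun _ => -1) (M := 1) fun _ => by simp)
  simpa only [neg_one_smul, ← sub_eq_add_neg] using this

theorem UQ.star (h : UQ Q x A) : UQ Q x fun i => star (A i) := by
  obtain ⟨α, a, C, h0, -, ha, -, H⟩ := h
  exact UQ.of h0 ha fun i => (H i).star

theorem UO.star (h : UO Q x A) : UO Q x fun i => star (A i) := by
  obtain ⟨α, a, C, h0, -, ha, -, H⟩ := h
  exact UO.of h0 ha fun i => (H i).star

theorem UO.add (h : UO Q x A) (h' : UO Q x B) : UO Q x fun i => A i + B i := by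
  obtain ⟨α, a, C, C', h0, ha, H⟩ := h75_OO h h'
  exact UO.of h0 ha fun i => (H i).1.add (H i).2

theorem UO.smul (h : UO Q x A) {z : I → ℂ} {M : ℝ} (hz : ∀ i, ‖z i‖ ≤ M) :
    UO Q x fun i => z i • A i := by
  obtain ⟨α, a, C, h0, -, ha, hC, H⟩ := h
  exact UO.of h0 ha fun i => ((H i).smul (z i)).mono (mul_le_mul_of_nonneg_right (hz i) hC)

theorem UO.sub (h : UO Q x A) (h' : UO Q x B) : UO Q x fun i => A i - B i := by
  have := h.add (h'.smul (z := fun _ => -1) (M := 1) fun _ => by simp)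
  simpa only [neg_one_smul, ← sub_eq_add_neg] using this

theorem UQ.mul (h : UQ Q x A) (h' : UQ Q x B) : UQ Q x fun i => A i * B i := by
  obtain ⟨α, a, C, C', h0, ha, H⟩ := h75_QQ h h'
  exact UQ.of h0 ha fun i => (H i).1.mul (H i).2

theorem UO.mul (h : UO Q x A) (h' : UO Q x B) : UQ Q x fun i => A i * B i := by
  obtain ⟨α, a, C, C', h0, ha, H⟩ := h75_OO h h'
  exact UQ.of h0 ha fun i => (H i).1.mul (H i).2

theorem UO.mul_UQ (h : UO Q x A) (h' : UQ Q x B) : UO Q x fun i => A i * B i := by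
  obtain ⟨α, a, C, C', h0, ha, H⟩ := h75_OQ h h'
  exact UO.of h0 ha fun i => (H i).1.mul_QL (H i).2

theorem UO.ca (Q : I → ℕ) (x : I → S2) : UO Q x fun i => ca (Q i) (x i) := by
  obtain ⟨C, H⟩ := OL_orb 1 0
  refine UO.of (C := C) one_pos one_pos fun i => ?_
  have := H (Q i) (x i) 0 le_rfl
  rwa [orb_zero] at this

theorem UQ.filt (hQ : ∀ i, 1 ≤ Q i) (hK : UH Q K) (h : UQ Q x A) {w : ℝ → ℂ} {C c : ℝ}
    (hc : 0 < c) (iw : Integrable w) (dw : Filt.Decay C c w) :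
    UQ Q x fun i => Filt.filt w (K i) (A i) := by
  obtain ⟨α, a, C₁, G, h0, h1, ha, H⟩ := hK
  obtain ⟨α', a', C₂, h0', -, ha', -, H'⟩ := h
  obtain ⟨b, K', hb, -, F⟩ := filt_QL (α := min α α') (a := min a a') (C := Real.exp a * C₁) (G := G)
    (Cw := C) (lt_min h0 h0') ((min_le_left _ _).trans h1) (lt_min ha ha') hc
  exact UQ.of (half_pos (lt_min h0 h0')) hb fun i => (F (Q i) (hQ i) (K i)
    ((H i).weaken (lt_min h0 h0') (min_le_left _ _) (lt_min ha ha').le (min_le_left _ _) le_rfl le_rfl)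
    w iw dw _ (x i) (A i)).1
    ((H' i).weaken (lt_min h0 h0') (min_le_right _ _) (lt_min ha ha').le (min_le_right _ _))

theorem UQ.fcal (h : UQ Q x A) (sa : ∀ i, IsSelfAdjoint (A i)) {w : ℝ → ℂ} {C c : ℝ}
    (hc : 0 < c) (iw : Integrable w) (dw : Filt.Decay C c w) :
    UQ Q x fun i => Filt.fcal w (A i) := by
  obtain ⟨α, a, C₁, h0, -, ha, -, H⟩ := h
  have hw : Integrable fun t : ℝ => t * ‖w t‖ := by
    refine (Filt.Decay.integrable_pow (C := C) hc 1).mono'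
      (measurable_id.aestronglyMeasurable.mul iw.norm.aestronglyMeasurable)
      (Filter.Eventually.of_forall fun t => ?_)
    rw [norm_mul, norm_norm, Real.norm_eq_abs, pow_one]
    exact mul_le_mul_of_nonneg_left (dw t) (abs_nonneg t)
  exact UQ.of h0 ha fun i => (H i).fcal (sa i) iw hw

theorem UH.HC (hQ : ∀ i, 1 ≤ Q i) : UH Q fun i => HC (Q i) := by
  obtain ⟨C, G, H⟩ := locHam_HC 1
  exact ⟨1, 1, C, G, one_pos, le_rfl, one_pos, fun i => H (Q i) (hQ i)⟩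

/-! ### sums over separated pins -/

theorem sum_wt_le {α a : ℝ} (h0 : 0 < α) (ha : 0 < a) : ∃ V : ℝ, ∀ Q : ℕ, 1 ≤ Q →
    ∀ S : Finset S2, Sep Q 1 S.val → ∀ x, ∑ e ∈ S, wt α a (dq Q e x) ≤ V := by
  classical
  obtain ⟨G, hG⟩ := card_ball_le
  obtain ⟨V, -, hV⟩ := sites_vol h0 ha
  refine ⟨V * G, fun Q hQ S hS x => ?_⟩
  let _ : MeasurableSpace S := ⊤
  have hs : Sites Q G (Measure.count : Measure S) Subtype.val :=
    ⟨inferInstance, measurable_from_top, fun u r hr => by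
      have h := hG Q hQ 1 S le_rfl hS u r hr
      rw [div_one] at h
      refine le_of_eq_of_le ?_ h
      have e : {i : S | dq Q i u ≤ r} = (Finset.univ.filter fun i : S => dq Q i u ≤ r) := by simp
      rw [e, Measure.real, Measure.count_apply_finset, ENNReal.toReal_natCast,
        Finset.card_filter, Finset.card_filter, Finset.sum_coe_sort S
          fun i => if dq Q i u ≤ r then 1 else 0]⟩
  have h := (hV Q G S _ _ hs x).2
  rwa [integral_count, Finset.sum_coe_sort S fun e => wt α a (dq Q e x)] at h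

/-- `A e` localised at `e`, `T e` localised at `x` and small -/
theorem UQ.sum_pins (hQ : ∀ i, 1 ≤ Q i) {S : I → Finset S2} (hS : ∀ i, Sep (Q i) 1 (S i).val)
    {A T : ∀ i, S2 → Fk (Q i + 1)} {α a C : ℝ} (h0 : 0 < α) (h1 : α ≤ 1) (ha : 0 < a)
    (hA : ∀ i, ∀ e ∈ S i, OL (Q i) α a C e (A i e))
    (hT : ∀ i, ∀ e ∈ S i, OL (Q i) α a (C * wt α a (dq (Q i) e (x i))) (x i) (T i e)) :
    UQ Q x fun i => ∑ e ∈ S i, Star.star (A i e) * T i e := by
  classical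
  obtain ⟨V, hV⟩ := sum_wt_le h0 (half_pos ha)
  refine UQ.of (C := 2 * C ^ 2 * V) h0 (half_pos ha) fun i => ?_
  have weak : ∀ {c : ℝ} {y : S2} {Y : Fk (Q i + 1)}, OL (Q i) α a c y Y → OL (Q i) α (a / 2) c y Y :=
    fun h => ⟨h.1, fun z => (h.2 z).trans (mul_le_mul_of_nonneg_left
      (Ls.wt_anti (by linarith) (dq_nonneg _ _ _)) ((norm_nonneg _).trans h.1))⟩
  have one : ∀ e ∈ S i, QL (Q i) α (a / 2) (2 * C ^ 2 * wt α (a / 2) (dq (Q i) e (x i))) (x i)
      (Star.star (A i e) * T i e) := by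
    intro e he
    have h2 := (((weak (hA i e he)).shift h0 h1 (half_pos ha).le (le_refl (dq (Q i) e (x i)))).star).mul
      (weak (hT i e he))
    refine h2.mono (le_of_eq ?_)
    have : Real.exp (a / 2 * dq (Q i) e (x i) ^ α) * wt α a (dq (Q i) e (x i)) =
        wt α (a / 2) (dq (Q i) e (x i)) := by
      rw [wt, wt, ← Real.exp_add]; congr 1; ring
    rw [← this]; ring
  have all : ∀ s ⊆ S i, QL (Q i) α (a / 2) (∑ e ∈ s, 2 * C ^ 2 * wt α (a / 2) (dq (Q i) e (x i)))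
      (x i) (∑ e ∈ s, Star.star (A i e) * T i e) := by
    intro s hs
    induction s using Finset.induction_on with
    | empty => exact ⟨by simp, fun y => by simp [Fw.loc]⟩
    | insert e s he ih =>
      rw [Finset.sum_insert he, Finset.sum_insert he]
      exact (one e (hs (Finset.mem_insert_self _ _))).add
        (ih ((Finset.subset_insert _ _).trans hs))
  refine (all _ le_rfl).mono ?_
  rw [← Finset.mul_sum]
  exact mul_le_mul_of_nonneg_left (hV _ (hQ i) _ (hS i) _) (by positivity)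

theorem UQ.sum_comm (hQ : ∀ i, 1 ≤ Q i) {S : I → Finset S2} (hS : ∀ i, Sep (Q i) 1 (S i).val)
    {A : ∀ i, S2 → Fk (Q i + 1)} {α a C : ℝ} (h0 : 0 < α) (h1 : α ≤ 1) (ha : 0 < a)
    (hA : ∀ i, ∀ e ∈ S i, OL (Q i) α a C e (A i e)) (hB : UQ Q x B) (nc : ∀ i, NC (B i)) :
    UQ Q x fun i => ∑ e ∈ S i, Star.star (A i e) * (B i * ca (Q i) e - ca (Q i) e * B i) := by
  obtain ⟨β, b, D, hβ, hβ1, hb, hD, hB⟩ := hB
  have g0 : 0 < min α β := lt_min h0 hβ
  have g1 : min α β ≤ 1 := (min_le_left _ _).trans h1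
  obtain ⟨a', K, ha', hK, cm⟩ := comm_QL g0 g1 hb
  obtain ⟨C₀, hC₀, oc⟩ := OL_ca g0 g1 hb.le
  have c0 : 0 < min a a' := lt_min ha ha'
  refine UQ.sum_pins hQ hS (a := min a a')
    (C := max (Real.exp a * C) (Real.exp a' * (K * (Real.exp b * D) * C₀))) g0 g1 c0
    (fun i e he => ((hA i e he).weaken g0 (min_le_left _ _) c0.le (min_le_left _ _)).mono
      (le_max_left _ _)) fun i e _ => ?_
  have h2 := ((cm (Q i) (hQ i) _ C₀ (x i) e (B i) _ (nc i).ev
    ((hB i).weaken g0 (min_le_right _ _) hb.le le_rfl)).2 (oc (Q i) e).1).1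
  refine (h2.weaken g0 le_rfl c0.le (min_le_right _ _)).mono ?_
  rw [← mul_assoc, dq_symm (Q i) e]
  exact mul_le_mul (le_max_right _ _) (Ls.wt_anti (min_le_right _ _) (dq_nonneg _ _ _))
    (Ls.wt_pos _ _ _).le (le_max_of_le_right (by positivity))

theorem UQ.sum_gauss (hQ : ∀ i, 1 ≤ Q i) {S : I → Finset S2} (hS : ∀ i, Sep (Q i) 1 (S i).val)
    {A : ∀ i, S2 → Fk (Q i + 1)} {α a C : ℝ} (h0 : 0 < α) (h1 : α ≤ 1) (ha : 0 < a)
    (hA : ∀ i, ∀ e ∈ S i, OL (Q i) α a C e (A i e)) (hB : UO Q x B) {β : I → S2 → ℂ}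
    (hβ : ∀ i, ∀ e ∈ S i, ‖β i e‖ ≤ Real.exp (-dq (Q i) e (x i) ^ 2 / 2)) :
    UQ Q x fun i => ∑ e ∈ S i, Star.star (A i e) * (β i e • B i) := by
  obtain ⟨γ, b, D, hγ, -, hb, hD, hB⟩ := hB
  have g0 : 0 < min α γ := lt_min h0 hγ
  have g1 : min α γ ≤ 1 := (min_le_left _ _).trans h1
  have c0 : 0 < min a b := lt_min ha hb
  obtain ⟨C₀, hC₀, oc⟩ := OL_ca g0 g1 c0.le
  set c := min a b with hc
  refine UQ.sum_pins hQ hS (a := c)
    (C := max (Real.exp a * C) (Real.exp (c + c ^ 2 / 2) * (Real.exp b * D))) g0 g1 c0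
    (fun i e he => ((hA i e he).weaken g0 (min_le_left _ _) c0.le (min_le_left _ _)).mono
      (le_max_left _ _)) fun i e he => ?_
  refine (((hB i).weaken g0 (min_le_right _ _) c0.le (min_le_right _ _)).smul (β i e)).mono ?_
  have d0 := dq_nonneg (Q i) e (x i)
  have h2 : dq (Q i) e (x i) ^ min α γ ≤ 1 + dq (Q i) e (x i) := by
    rcases le_total (dq (Q i) e (x i)) 1 with h | h
    · linarith [Real.rpow_le_one d0 h g0.le]
    · have := Real.rpow_le_rpow_of_exponent_le h g1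
      rw [Real.rpow_one] at this
      linarith
  have h3 : ‖β i e‖ ≤ Real.exp (c + c ^ 2 / 2) * wt (min α γ) c (dq (Q i) e (x i)) := by
    refine (hβ i e he).trans ?_
    rw [wt, ← Real.exp_add]
    refine Real.exp_le_exp.2 ?_
    nlinarith [mul_le_mul_of_nonneg_left h2 c0.le, sq_nonneg (dq (Q i) e (x i) - c)]
  calc ‖β i e‖ * (Real.exp b * D)
      ≤ Real.exp (c + c ^ 2 / 2) * wt (min α γ) c (dq (Q i) e (x i)) * (Real.exp b * D) := by
        gcongr
    _ = Real.exp (c + c ^ 2 / 2) * (Real.exp b * D) * wt (min α γ) c (dq (Q i) e (x i)) := by ring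
    _ ≤ _ := mul_le_mul_of_nonneg_right (le_max_right _ _) (Ls.wt_pos _ _ _).le

end Crest.Agent.R340.F2
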