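import Crest.Agent.R340.KdDefs
import Crest.Agent.R340.GeoRho

/-! # Row 340, module KD: existence of the decomposition into units (helper84) -/

set_option autoImplicit false

namespace Crest.Agent.R340.Pin

open Crest.MathPhysics.Laughlin

variable {Q : ℕ} {r R R₀ : ℝ} {T S : Multiset S2}

open Classical in
theorem exists_units' (hr : 1 ≤ r) (hR : 2 * (r + 1) < R) (hR₀ : R + (r + 1) ≤ R₀)
    (hT : AdmT Q R₀ T) (hS : AdmS Q R₀ S) (J : S2 → S2 → Prop)
    (h1 : ∀ s ∈ S, ∀ b ∈ T, J s b → dq Q b s ≤ r + 1)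
    (h2 : ∀ s ∈ S, ∀ b ∈ T, ¬ J s b → r ≤ dq Q b s) :
    ∃ (Cn : Finset S2) (m : S2 → ℕ) (w : S2 → S2), Units Q r R Cn m w ∧ uD Cn m w = T + S ∧
      (∀ s ∈ S, (∀ b ∈ T, ¬ J s b) → s ∈ Cn ∧ m s = 0 ∧ w s = s) ∧
      ∀ s ∈ S, ∀ b ∈ T, J s b → b ∈ Cn ∧ m b = T.count b ∧ w b = s := by
  set w : S2 → S2 := fun c => if h : c ∈ T ∧ ∃ s ∈ S, J s c then h.2.choose else c with hw
  set m : S2 → ℕ := fun c => if c ∈ T ∧ ∃ s ∈ S, J s c then T.count c else T.count c - 1 with hm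
  set F : Finset S2 := S.toFinset.filter fun s => ∀ b ∈ T, ¬ J s b with hF
  have memF : ∀ s, s ∈ F ↔ s ∈ S ∧ ∀ b ∈ T, ¬ J s b := fun s => by
    simp only [hF, Finset.mem_filter, Multiset.mem_toFinset]
  have notT : ∀ s ∈ F, s ∉ T := fun s hs hsT => by
    have := h2 s ((memF s).1 hs).1 s hsT (((memF s).1 hs).2 s hsT)
    rw [dq_self] at this
    linarith
  have uS : ∀ b ∈ T, ∀ s ∈ S, ∀ s' ∈ S, J s b → J s' b → s = s' := fun b hb s hs s' hs' j j' => by
    by_contra hne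
    have a1 := hS.1 s hs s' hs' hne
    have a2 := dq_tri Q s b s'
    rw [dq_symm Q s b] at a2
    linarith [h1 s hs b hb j, h1 s' hs' b hb j']
  have uT : ∀ s ∈ S, ∀ b ∈ T, ∀ b' ∈ T, J s b → J s b' → b = b' := fun s hs b hb b' hb' j j' => by
    by_contra hne
    have a1 := hT.1 b hb b' hb' hne
    have a2 := dq_tri Q b s b'
    rw [dq_symm Q s b'] at a2
    linarith [h1 s hs b hb j, h1 s hs b' hb' j']
  have wA : ∀ c, (c ∈ T ∧ ∃ s ∈ S, J s c) → w c ∈ S ∧ J (w c) c := fun c h => by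
    simp only [hw, dif_pos h]
    exact h.2.choose_spec
  have wN : ∀ c, ¬ (c ∈ T ∧ ∃ s ∈ S, J s c) → w c = c := fun c h => by
    simp only [hw, dif_neg h]
  have mA : ∀ c, (c ∈ T ∧ ∃ s ∈ S, J s c) → m c = T.count c := fun c h => by
    simp only [hm, if_pos h]
  have mN : ∀ c, ¬ (c ∈ T ∧ ∃ s ∈ S, J s c) → m c = T.count c - 1 := fun c h => by
    simp only [hm, if_neg h]
  have memC : ∀ c, c ∈ T.toFinset ∪ F ↔ c ∈ T ∨ c ∈ F := fun c => by
    simp only [Finset.mem_union, Multiset.mem_toFinset]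
  refine ⟨T.toFinset ∪ F, m, w, ⟨fun c _ => ?_, fun c _ => ?_, fun c hc c' hc' hne => ?_,
    fun c hc c' hc' hne hwc => ?_⟩, ?_, fun s hs hf => ?_, fun s hs b hb j => ?_⟩
  · have := hT.2 c
    by_cases h : c ∈ T ∧ ∃ s ∈ S, J s c
    · rw [mA c h]; exact this
    · rw [mN c h]; omega
  · by_cases h : c ∈ T ∧ ∃ s ∈ S, J s c
    · exact h1 _ (wA c h).1 c h.1 (wA c h).2
    · rw [wN c h, dq_self]; linarith
  · rcases (memC c).1 hc with h | h <;> rcases (memC c').1 hc' with h' | h'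
    · linarith [hT.1 c h c' h' hne]
    · exact h2 c' ((memF c').1 h').1 c h (((memF c').1 h').2 c h)
    · rw [dq_symm]; exact h2 c ((memF c).1 h).1 c' h' (((memF c).1 h).2 c' h')
    · linarith [hS.1 c ((memF c).1 h).1 c' ((memF c').1 h').1 hne]
  · have h : c ∈ T ∧ ∃ s ∈ S, J s c := by
      by_contra h
      exact hwc (wN c h)
    rcases (memC c').1 hc' with h' | h'
    · linarith [hT.1 c h.1 c' h' hne]
    · have hne' : w c ≠ c' := fun e => ((memF c').1 h').2 c h.1 (e ▸ (wA c h).2)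
      have a1 := hS.1 (w c) (wA c h).1 c' ((memF c').1 h').1 hne'
      have a2 := dq_tri Q (w c) c c'
      rw [dq_symm Q (w c) c] at a2
      linarith [h1 _ (wA c h).1 c h.1 (wA c h).2]
  · have hdis : Disjoint T.toFinset F := Finset.disjoint_right.2 fun s hs h =>
      notT s hs (Multiset.mem_toFinset.1 h)
    have e1 : ∑ c ∈ T.toFinset, unit c (m c) (w c) = ∑ c ∈ T.toFinset,
        (T.count c • ({c} : Multiset S2) +
          if c ∈ T ∧ ∃ s ∈ S, J s c then ({w c} : Multiset S2) else 0) := by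
      refine Finset.sum_congr rfl fun c hc => ?_
      rw [Multiset.nsmul_singleton]
      by_cases h : c ∈ T ∧ ∃ s ∈ S, J s c
      · rw [if_pos h, mA c h, unit, add_comm, Multiset.singleton_add]
      · have hpos : 0 < T.count c := Multiset.count_pos.2 (Multiset.mem_toFinset.1 hc)
        rw [if_neg h, mN c h, wN c h, unit, add_zero, ← Multiset.replicate_succ]
        congr 1
        omega
    have e2 : ∑ c ∈ F, unit c (m c) (w c) = ∑ c ∈ F, ({c} : Multiset S2) := by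
      refine Finset.sum_congr rfl fun c hc => ?_
      have h : ¬ (c ∈ T ∧ ∃ s ∈ S, J s c) := fun h => notT c hc h.1
      rw [mN c h, wN c h, Multiset.count_eq_zero.2 (notT c hc), unit]
      rfl
    have e3 : ∑ c ∈ T.toFinset.filter (fun c => c ∈ T ∧ ∃ s ∈ S, J s c), ({w c} : Multiset S2) =
        ∑ s ∈ S.toFinset.filter (fun s => ¬ ∀ b ∈ T, ¬ J s b), ({s} : Multiset S2) := by
      refine Finset.sum_bij (fun c _ => w c) (fun c hc => ?_) (fun c hc c' hc' e => ?_)
        (fun s hs => ?_) (fun _ _ => rfl)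
      · have h := (Finset.mem_filter.1 hc).2
        exact Finset.mem_filter.2 ⟨Multiset.mem_toFinset.2 (wA c h).1,
          fun h' => h' c h.1 (wA c h).2⟩
      · have h := (Finset.mem_filter.1 hc).2
        have h' := (Finset.mem_filter.1 hc').2
        exact uT (w c) (wA c h).1 c h.1 c' h'.1 (wA c h).2 (by rw [e]; exact (wA c' h').2)
      · obtain ⟨hs1, hs2⟩ := Finset.mem_filter.1 hs
        have hs1' := Multiset.mem_toFinset.1 hs1
        simp only [not_forall, not_not] at hs2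
        obtain ⟨b, hb, j⟩ := hs2
        have h : b ∈ T ∧ ∃ s ∈ S, J s b := ⟨hb, s, hs1', j⟩
        exact ⟨b, Finset.mem_filter.2 ⟨Multiset.mem_toFinset.2 hb, h⟩,
          uS b hb _ (wA b h).1 s hs1' (wA b h).2 j⟩
    have e4 : ∑ s ∈ S.toFinset, ({s} : Multiset S2) = S := by
      rw [Finset.sum_multiset_singleton, Multiset.toFinset_val, hS.2.dedup]
    rw [uD, Finset.sum_union hdis, e1, e2, Finset.sum_add_distrib, ← Finset.sum_filter, e3,
      Multiset.toFinset_sum_count_nsmul_eq, add_assoc, add_comm _ (∑ c ∈ F, _), hF,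
      Finset.sum_filter_add_sum_filter_not, e4]
  · have hsF : s ∈ F := (memF s).2 ⟨hs, hf⟩
    have h : ¬ (s ∈ T ∧ ∃ s' ∈ S, J s' s) := fun h => notT s hsF h.1
    exact ⟨(memC s).2 (Or.inr hsF), by rw [mN s h, Multiset.count_eq_zero.2 (notT s hsF)],
      wN s h⟩
  · have h : b ∈ T ∧ ∃ s ∈ S, J s b := ⟨hb, s, hs, j⟩
    exact ⟨(memC b).2 (Or.inl hb), mA b h, uS b hb _ (wA b h).1 s hs (wA b h).2 j⟩

end Crest.Agent.R340.Pin
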