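import Crest.Agent.R340.KdDefs
import Crest.Agent.R340.GeoRho
import Crest.Agent.R340.KdExA

/-! # Row 340, module KD: decomposition into units (architect helper68) -/

set_option autoImplicit false

namespace Crest.Agent.R340.Pin

open Matrix MeasureTheory Crest.MathPhysics.Laughlin
open scoped Matrix.Norms.L2Operator MatrixOrder ComplexOrder ComplexConjugate

variable {Q : ℕ} {r R R₀ : ℝ} {T S : Multiset S2}

/-! ### part A -/

open Classical in
/-- Centres: the points of `T` and the points of `S` attached to no point of `T`.  For `b ∈ T` with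
an attached `s ∈ S` (unique, as is `b` for given `s`): `m b = count b T`, `w b = s`; otherwise
`m b = count b T - 1`, `w b = b`.  For a free `s` (not in `T` since `0 < r`): `m s = 0`, `w s = s`.
Compare counts (`Multiset.ext`) or sum over the two parts. -/
theorem exists_units (hr : 1 ≤ r) (hR : 2 * (r + 1) < R) (hR₀ : R + (r + 1) ≤ R₀)
    (hT : AdmT Q R₀ T) (hS : AdmS Q R₀ S) (J : S2 → S2 → Prop)
    (h1 : ∀ s ∈ S, ∀ b ∈ T, J s b → dq Q b s ≤ r + 1)
    (h2 : ∀ s ∈ S, ∀ b ∈ T, ¬ J s b → r ≤ dq Q b s) :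
    ∃ (Cn : Finset S2) (m : S2 → ℕ) (w : S2 → S2), Units Q r R Cn m w ∧ uD Cn m w = T + S ∧
      (∀ s ∈ S, (∀ b ∈ T, ¬ J s b) → s ∈ Cn ∧ m s = 0 ∧ w s = s) ∧
      ∀ s ∈ S, ∀ b ∈ T, J s b → b ∈ Cn ∧ m b = T.count b ∧ w b = s :=
  exists_units' hr hR hR₀ hT hS J h1 h2

/-! ### part B: one extra pin -/

open Classical in
theorem h87_unit_self {c : S2} (hc : c ∈ T) :
    unit c (T.count c - 1) c = T.count c • ({c} : Multiset S2) := by
  have h1 : 1 ≤ T.count c := Multiset.one_le_count_iff_mem.2 hc
  rw [Multiset.nsmul_singleton, unit, ← Multiset.replicate_succ]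
  congr 1
  omega

open Classical in
theorem units_free (hr : 1 ≤ r) (hR₀ : r ≤ R₀) (hT : AdmT Q R₀ T) {u : S2}
    (hu : ∀ b ∈ T, r ≤ dq Q b u) :
    u ∉ T.toFinset ∧
    Units Q r R (insert u T.toFinset) (fun c => T.count c - 1) id ∧
      uD (insert u T.toFinset) (fun c => T.count c - 1) id = u ::ₘ T := by
  have hu0 : u ∉ T.toFinset := by
    intro h
    have h1 := hu u (Multiset.mem_toFinset.1 h)
    rw [dq_self] at h1
    linarith
  have huT : u ∉ T := fun h => hu0 (Multiset.mem_toFinset.2 h)
  refine ⟨hu0, ⟨fun c _ => ?_, fun c _ => ?_, fun c hc c' hc' hne => ?_,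
    fun c _ c' _ _ h => absurd rfl h⟩, ?_⟩
  · have := hT.2 c
    show T.count c - 1 ≤ 3
    omega
  · show dq Q c c ≤ r + 1
    rw [dq_self]; linarith
  · rw [Finset.mem_insert] at hc hc'
    rcases hc with rfl | hc
    · rcases hc' with rfl | hc'
      · exact absurd rfl hne
      · rw [dq_symm]; exact hu c' (Multiset.mem_toFinset.1 hc')
    · rcases hc' with rfl | hc'
      · exact hu c (Multiset.mem_toFinset.1 hc)
      · exact hR₀.trans (hT.1 c (Multiset.mem_toFinset.1 hc) c' (Multiset.mem_toFinset.1 hc') hne)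
  · unfold uD
    rw [Finset.sum_insert hu0]
    have e1 : unit u (T.count u - 1) (id u) = {u} := by
      simp [unit, Multiset.count_eq_zero_of_notMem huT]
    have e2 : ∑ x ∈ T.toFinset, unit x ((fun c => T.count c - 1) x) (id x)
        = ∑ x ∈ T.toFinset, T.count x • ({x} : Multiset S2) :=
      Finset.sum_congr rfl (fun c hc => h87_unit_self (Multiset.mem_toFinset.1 hc))
    rw [e1, e2, Multiset.toFinset_sum_count_nsmul_eq]
    rfl

open Classical in
theorem units_att (hr : 1 ≤ r) (hR : r ≤ R) (hR₀ : R ≤ R₀) (hT : AdmT Q R₀ T) {b u : S2}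
    (hb : b ∈ T) (hu : dq Q b u ≤ r + 1) :
    Units Q r R T.toFinset (fun c => if c = b then T.count c else T.count c - 1)
        (fun c => if c = b then u else c) ∧
      uD T.toFinset (fun c => if c = b then T.count c else T.count c - 1)
        (fun c => if c = b then u else c) = u ::ₘ T := by
  refine ⟨⟨fun c _ => ?_, fun c _ => ?_, fun c hc c' hc' hne => ?_,
    fun c hc c' hc' hne _ => ?_⟩, ?_⟩
  · have := hT.2 c
    show (if c = b then T.count c else T.count c - 1) ≤ 3
    split_ifs <;> omega
  · show dq Q c (if c = b then u else c) ≤ r + 1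
    split_ifs with h
    · rw [h]; exact hu
    · rw [dq_self]; linarith
  · exact (hR.trans hR₀).trans
      (hT.1 c (Multiset.mem_toFinset.1 hc) c' (Multiset.mem_toFinset.1 hc') hne)
  · exact hR₀.trans (hT.1 c (Multiset.mem_toFinset.1 hc) c' (Multiset.mem_toFinset.1 hc') hne)
  · unfold uD
    have hb' : b ∈ T.toFinset := Multiset.mem_toFinset.2 hb
    have e : ∀ c ∈ T.toFinset, unit c (if c = b then T.count c else T.count c - 1)
        (if c = b then u else c) = (if c = b then {u} else 0) + T.count c • ({c} : Multiset S2) := by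
      intro c hc
      split_ifs with h
      · simp [unit, Multiset.nsmul_singleton]
      · rw [zero_add]; exact h87_unit_self (Multiset.mem_toFinset.1 hc)
    rw [Finset.sum_congr rfl e, Finset.sum_add_distrib, Finset.sum_ite_eq' , if_pos hb',
      Multiset.toFinset_sum_count_nsmul_eq]
    rfl

end Crest.Agent.R340.Pin
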