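import Crest.Agent.R340.KdGap
import Crest.Agent.R340.KdEx

/-! # Row 340, module KD: the interface theorems (architect helper68) -/

set_option autoImplicit false

namespace Crest.Agent.R340.Pin

open Matrix MeasureTheory Crest.MathPhysics.Laughlin
open scoped Matrix.Norms.L2Operator MatrixOrder ComplexOrder ComplexConjugate

/-! ### part A -/

/-- `units_parent`, `exists_units` with `J s b := dq Q b s < r` -/
theorem kd_parent' : ∃ (R₀ g a C G : ℝ) (Q₀ : ℕ), 0 < g ∧ 0 < a ∧ ∀ Q, Q₀ ≤ Q →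
    ∀ T S : Multiset S2, AdmT Q R₀ T → AdmS Q R₀ S →
      ∃ K, LocHam Q (1 / 2) a C G K ∧ Parent K (PD Q (T + S)) g := by
  obtain ⟨r, R, g, a, C, G, Q₀, hr, hR, hg, ha, H⟩ := units_parent
  refine ⟨R + (r + 1), g, a, C, G, Q₀, hg, ha, fun Q hQ T S hT hS => ?_⟩
  obtain ⟨Cn, m, w, hU, hD, -, -⟩ := exists_units hr hR le_rfl hT hS (fun s b => dq Q b s < r)
    (fun s _ b _ h => by linarith) fun s _ b _ h => not_lt.1 h
  exact ⟨KU Q Cn m w, hD ▸ (H Q hQ).2 Cn m w hU⟩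

theorem k23_sand {Q : ℕ} {g : ℝ} (hQ : 1 ≤ Q) {Cn : Finset S2} {m : S2 → ℕ} {w' : S2 → S2}
    {D : Multiset S2} {c₀ w : S2} (hc : c₀ ∈ Cn) (hw : w' c₀ = w) (hD : uD Cn m w' = w ::ₘ D)
    (h : g • (PD Q 0 - PD Q (uD Cn m w')) ≤ PD Q 0 * (∑ c ∈ Cn, nU Q c (m c) (w' c)) * PD Q 0) :
    g • (PD Q D - PD Q (w ::ₘ D)) ≤
      PD Q D * (star (cC (fo Q c₀ (m c₀) w)) * cC (fo Q c₀ (m c₀) w)) * PD Q D := by
  classical
  have e1 : Multiset.replicate (m c₀) c₀ + ∑ c ∈ Cn.erase c₀, unit c (m c) (w' c) = D := by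
    rw [uD, ← Finset.add_sum_erase _ _ hc, hw, unit, Multiset.cons_add] at hD
    exact (Multiset.cons_inj_right w).1 hD
  have h1 : nA Q c₀ (m c₀) * PD Q D = 0 := nA_kill (e1 ▸ Multiset.le_add_right _ _)
  have h2 : ∀ c ∈ Cn.erase c₀, nU Q c (m c) (w' c) * PD Q D = 0 := fun c hc' =>
    nU_kill hQ (e1 ▸ (Finset.single_le_sum (f := fun c => unit c (m c) (w' c))
      (fun _ _ => Multiset.zero_le _) hc').trans (Multiset.le_add_left _ _))
  have h3 : (∑ c ∈ Cn, nU Q c (m c) (w' c)) * PD Q D =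
      star (cC (fo Q c₀ (m c₀) w)) * cC (fo Q c₀ (m c₀) w) * PD Q D := by
    rw [← Finset.add_sum_erase _ _ hc, add_mul, Finset.sum_mul, Finset.sum_eq_zero h2, add_zero, hw,
      nU, add_mul, h1, zero_add]
  obtain ⟨a1, a2⟩ := PD_mul_of_le (Q := Q) (Multiset.zero_le D)
  obtain ⟨b1, b2⟩ := PD_mul_of_le (Q := Q) (Multiset.le_cons_self D w)
  have h4 := (PD_proj Q D).isSelfAdjoint.conjugate_le_conjugate h
  rw [hD, mul_smul_comm, smul_mul_assoc, mul_sub, sub_mul, a2, b1, b2,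
    (PD_proj Q D).isIdempotentElem.eq] at h4
  refine h4.trans (le_of_eq ?_)
  calc _ = PD Q D * PD Q 0 * ((∑ c ∈ Cn, nU Q c (m c) (w' c)) * (PD Q 0 * PD Q D)) := by
        simp only [mul_assoc]
    _ = _ := by rw [a1, a2, h3, mul_assoc (PD Q D)]

open Classical in
/-- `units_gap`, `exists_units` for `(T, w ::ₘ S)` with `J s b' := if s = w then False (resp. b' = b)
else dq Q b' s < r`; sandwich with `PD Q (T + S)`: the other units are `≤ T + S` (`nU_kill`), and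
`nA_kill`, `fo_zero` for the unit of `w` -/
theorem kd_add' : ∃ (r₀ R₀ g : ℝ) (Q₀ : ℕ), 1 ≤ r₀ ∧ 4 * (r₀ + 1) ≤ R₀ ∧ 0 < g ∧ ∀ Q, Q₀ ≤ Q →
    ∀ (T S : Multiset S2) (w : S2), AdmT Q R₀ T → AdmS Q R₀ (w ::ₘ S) →
      ((∀ b ∈ T, r₀ ≤ dq Q b w) → g • (PD Q (T + S) - PD Q (w ::ₘ (T + S))) ≤
        PD Q (T + S) * nx Q w * PD Q (T + S)) ∧
      ∀ b ∈ T, dq Q b w ≤ r₀ + 1 → g • (PD Q (T + S) - PD Q (w ::ₘ (T + S))) ≤
        PD Q (T + S) * (star (cC (fo Q b (T.count b) w)) * cC (fo Q b (T.count b) w)) *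
          PD Q (T + S) := by
  obtain ⟨r, R, g, Q₀, hr, hR, hg, H⟩ := units_gap
  refine ⟨r, max (R + (r + 1)) (4 * (r + 1)), g, max Q₀ 1, hr, le_max_right _ _, hg,
    fun Q hQ T S w hT hS => ⟨fun hw => ?_, fun b hb hw => ?_⟩⟩
  · obtain ⟨Cn, m, w', hU, hD, h1, -⟩ := exists_units hr hR (le_max_left _ _) hT hS
      (fun s b => s ≠ w ∧ dq Q b s < r) (fun s _ b _ h => by linarith [h.2]) fun s _ b hb h => by
        by_cases hs : s = w
        · rw [hs]; exact hw b hb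
        · exact not_lt.1 fun h' => h ⟨hs, h'⟩
    obtain ⟨h2, h3, h4⟩ := h1 w (Multiset.mem_cons_self _ _) fun b _ h => h.1 rfl
    have := k23_sand ((le_max_right _ _).trans hQ) h2 h4 (hD.trans (Multiset.add_cons _ _ _))
      (H Q ((le_max_left _ _).trans hQ) Cn m w' hU)
    rwa [h3, fo_zero] at this
  · obtain ⟨Cn, m, w', hU, hD, -, h1⟩ := exists_units hr hR (le_max_left _ _) hT hS
      (fun s b' => if s = w then b' = b else dq Q b' s < r)
      (fun s _ b' _ h => by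
        by_cases hs : s = w
        · rw [if_pos hs] at h
          rw [hs, h]; exact hw
        · rw [if_neg hs] at h
          linarith)
      fun s _ b' hb' h => by
        by_cases hs : s = w
        · rw [if_pos hs] at h
          have e1 := (le_max_right _ _).trans (hT.1 b' hb' b hb h)
          have e2 := dq_tri Q b' w b
          rw [dq_symm Q w b] at e2
          rw [hs]
          linarith
        · rw [if_neg hs] at h
          exact not_lt.1 h
    obtain ⟨h2, h3, h4⟩ := h1 w (Multiset.mem_cons_self _ _) b hb (by rw [if_pos rfl])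
    have := k23_sand ((le_max_right _ _).trans hQ) h2 h4 (hD.trans (Multiset.add_cons _ _ _))
      (H Q ((le_max_left _ _).trans hQ) Cn m w' hU)
    rwa [h3] at this

/-! ### part B -/

/-- the detector: `A = filt w K (cC f)` (filter of gap `g`, `ex_filt`), `π = fcal w' (star A * A)`
(filter of gap `g'`); `Kd.filt_ann`, `PD_cC_PD`, `Kd.fcal_pin`, `filt_QL`, `OL.mul`, `QL.fcal` -/
theorem pi_of_gap {g g' a C G Cf : ℝ} (hg : 0 < g) (hg' : 0 < g') (ha : 0 < a) :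
    ∃ a' C', 0 < a' ∧ ∀ Q, 1 ≤ Q → ∀ (D D' : Multiset S2) (K : Fk (Q + 1)) (x : S2)
      (f : Fin (Q + 1) → ℂ), LocHam Q (1 / 2) a C G K → Parent K (PD Q D) g → D ≤ D' →
      OL Q 1 a Cf x (cC f) → cC f * PD Q D' = 0 →
      g' • (PD Q D - PD Q D') ≤ PD Q D * (star (cC f) * cC f) * PD Q D →
      ∃ π : Fk (Q + 1), NL Q (1 / 4) a' C' x π ∧ IsSelfAdjoint π ∧
        π * PD Q D = PD Q D' ∧ PD Q D * π = PD Q D' := by
  obtain ⟨w, W, Cw, cw, -, hcw, hf, hd, -, -, -⟩ := ex_filt hg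
  obtain ⟨w', W', Cw', cw', -, hcw', hf', hd', -, mw', -⟩ := ex_filt hg'
  obtain ⟨a', K', ha', -, hK'⟩ := filt_QL (α := 1 / 2) (a := a) (C := C) (G := G) (Cw := Cw)
    (cw := cw) (by norm_num) (by norm_num) ha hcw
  have hi : Integrable fun t : ℝ => t * ‖w' t‖ := by
    refine (Filt.Decay.integrable_pow (C := Cw') hcw' 1).mono'
      (measurable_id.mul mw'.norm).aestronglyMeasurable (Filter.Eventually.of_forall fun t => ?_)
    rw [Real.norm_eq_abs, abs_mul, abs_norm, pow_one]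
    exact mul_le_mul_of_nonneg_left (hd' t) (abs_nonneg _)
  refine ⟨a', (∫ t, ‖w' t‖) + (∫ t, |t| * ‖w' t‖) *
    (2 * (K' * (Real.exp a * Cf)) * (K' * (Real.exp a * Cf))), ha', ?_⟩
  intro Q hQ D D' K x f hK hP hD hO hk hle
  have hA := (hK' Q hQ K hK w hf.int_w hd _ x (cC f)).2
    (hO.weaken (α' := 1 / 2) (a' := a) (by norm_num) (by norm_num) ha.le le_rfl)
  rw [show (1 / 2 / 2 : ℝ) = 1 / 4 by norm_num] at hA
  have pP := PD_proj Q D
  obtain ⟨cA, eA⟩ := Kd.filt_ann hf le_rfl (hP.toGap pP) hP.kill (cC f)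
  rw [PD_cC_PD] at eA
  set A := Filt.filt w K (cC f) with hAdef
  have hV : IsSelfAdjoint (star A * A) := IsSelfAdjoint.star_mul_self A
  have cA' : Commute (PD Q D) (star A) := by
    have := congrArg star cA.eq
    rw [star_mul, star_mul, pP.isSelfAdjoint.star_eq] at this
    exact this.symm
  have pG := (PD_mul_of_le (Q := Q) hD).1
  have vG : star A * A * PD Q D' = 0 := by
    rw [← pG, mul_assoc, ← mul_assoc A, eA, mul_assoc, pG, hk, mul_zero]
  have eV : PD Q D * (star A * A) * PD Q D = PD Q D * (star (cC f) * cC f) * PD Q D := by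
    have e1 : ∀ X : Fk (Q + 1), PD Q D * (star X * X) * PD Q D =
        star (X * PD Q D) * (X * PD Q D) := fun X => by
      rw [star_mul, pP.isSelfAdjoint.star_eq]
      simp only [mul_assoc]
    rw [e1, e1, eA]
  obtain ⟨h1, h2, h3⟩ := Kd.fcal_pin hf' le_rfl pP hV (cA'.mul_right cA) (PD_proj Q D') pG vG
    (by rw [eV]; exact hle)
  have lA : Low 1 A := Low.filt hK.nc (low_cC f) w
  exact ⟨Filt.fcal w' (star A * A), ⟨(lA.nc lA).fcal w', (hA.star.mul hA).fcal hV hf'.int_w hi⟩,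
    h3, h1, h2.eq.trans h1⟩

/-- `kd_parent'`, `kd_add'`, `pi_of_gap` with `f = fo Q b m w` (`b = w`, `m = 0` in the free case,
`fo_zero`), `OL_fo_w`, `fo_kill` -/
theorem kd_pi' : ∃ (R₀ a C : ℝ) (Q₀ : ℕ), 0 < a ∧ ∀ Q, Q₀ ≤ Q →
    ∀ (T S : Multiset S2) (w : S2), AdmT Q R₀ T → AdmS Q R₀ (w ::ₘ S) →
      ∃ π : Fk (Q + 1), NL Q (1 / 4) a C w π ∧ IsSelfAdjoint π ∧
        π * PD Q (T + S) = PD Q (w ::ₘ (T + S)) ∧ PD Q (T + S) * π = PD Q (w ::ₘ (T + S)) := by
  classical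
  obtain ⟨R₁, g, a, C, G, Q₁, hg, ha, hpar⟩ := kd_parent'
  obtain ⟨r₀, R₂, g', Q₂, hr, -, hg', hadd⟩ := kd_add'
  obtain ⟨Cf, hfo⟩ := OL_fo_w (r₀ + 1) a
  obtain ⟨a', C', ha', hpi⟩ := pi_of_gap (C := C) (G := G) (Cf := Cf) hg hg' ha
  refine ⟨max R₁ R₂, a', C', max (max Q₁ Q₂) 1, ha', ?_⟩
  intro Q hQ T S w hT hS
  have hQ1 : 1 ≤ Q := (le_max_right _ _).trans hQ
  have hQ₁ : Q₁ ≤ Q := ((le_max_left _ _).trans (le_max_left _ _)).trans hQ
  have hQ₂ : Q₂ ≤ Q := ((le_max_right _ _).trans (le_max_left _ _)).trans hQ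
  obtain ⟨K, hK, hP⟩ := hpar Q hQ₁ T S (hT.mono (le_max_left _ _) le_rfl)
    (hS.mono (le_max_left _ _) (Multiset.le_cons_self _ _))
  obtain ⟨h1, h2⟩ := hadd Q hQ₂ T S w (hT.mono (le_max_right _ _) le_rfl)
    (hS.mono (le_max_right _ _) le_rfl)
  by_cases hc : ∀ b ∈ T, r₀ ≤ dq Q b w
  · refine hpi Q hQ1 (T + S) (w ::ₘ (T + S)) K w (fo Q w 0 w) hK hP (Multiset.le_cons_self _ _)
      (hfo Q hQ1 w w 0 (by norm_num) (by rw [dq_self]; linarith))
      (fo_kill hQ1 (Multiset.cons_le_cons w (by simp))) ?_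
    rw [fo_zero]
    exact h1 hc
  · push Not at hc
    obtain ⟨b, hb, hbw⟩ := hc
    refine hpi Q hQ1 (T + S) (w ::ₘ (T + S)) K w (fo Q b (T.count b) w) hK hP
      (Multiset.le_cons_self _ _) (hfo Q hQ1 b w _ (hT.2 b) (by linarith))
      (fo_kill hQ1 (Multiset.cons_le_cons w ?_)) (h2 b hb (by linarith))
    exact (Multiset.le_count_iff_replicate_le.1 le_rfl).trans (Multiset.le_add_right _ _)

/-! ### part C -/

/-- `units_parent`; if some `b ∈ T` has `dq b w < r` or `dq b w' < r` use `units_att` for both points,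
otherwise `units_free` (`b = w`, `m = 0`, `fo_zero`); `VU_eq` -/
theorem move_pair : ∃ (r R₀ g a C G : ℝ) (Q₀ : ℕ), 0 < g ∧ 0 < a ∧ ∀ Q, Q₀ ≤ Q → 1 ≤ Q ∧
    ∀ (T : Multiset S2) (w w' : S2), AdmT Q R₀ T → dq Q w w' ≤ 1 →
      ∃ (K₀ : Fk (Q + 1)) (b : S2) (m : ℕ), dq Q b w ≤ r ∧ dq Q b w' ≤ r ∧
        LocHam Q (1 / 2) a C G (K₀ + VF Q (fo Q b m w)) ∧
        Parent (K₀ + VF Q (fo Q b m w)) (PD Q (w ::ₘ T)) g ∧
        Parent (K₀ + VF Q (fo Q b m w')) (PD Q (w' ::ₘ T)) g := by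
  classical
  obtain ⟨r, R, g, a, C, G, Q₀, hr, hR, hg, ha, H⟩ := units_parent
  refine ⟨r + 1, R, g, a, C, G, Q₀, hg, ha, fun Q hQ => ⟨(H Q hQ).1, fun T w w' hT hww => ?_⟩⟩
  have H' := (H Q hQ).2
  have hrR : r ≤ R := by linarith
  by_cases hc : ∃ b ∈ T, dq Q b w < r ∨ dq Q b w' < r
  · obtain ⟨b, hb, hbw⟩ := hc
    have hw : dq Q b w ≤ r + 1 ∧ dq Q b w' ≤ r + 1 := by
      have t1 := dq_tri Q b w w'
      have t2 := dq_tri Q b w' w
      rw [dq_symm Q w' w] at t2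
      rcases hbw with h | h <;> constructor <;> linarith
    have key : ∀ u, dq Q b u ≤ r + 1 →
        LocHam Q (1 / 2) a C G ((HC Q + ∑ c ∈ T.toFinset.erase b, VU Q c (T.count c - 1) c +
          VA Q b (T.count b)) + VF Q (fo Q b (T.count b) u)) ∧
        Parent ((HC Q + ∑ c ∈ T.toFinset.erase b, VU Q c (T.count c - 1) c +
          VA Q b (T.count b)) + VF Q (fo Q b (T.count b) u)) (PD Q (u ::ₘ T)) g := by
      intro u hu
      obtain ⟨h1, h2⟩ := units_att hr hrR le_rfl hT hb hu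
      have h3 := H' _ _ _ h1
      rw [h2] at h3
      have hb' : b ∈ T.toFinset := Multiset.mem_toFinset.2 hb
      have hm : T.count b ≤ 3 := by convert hT.2 b
      have e : KU Q T.toFinset (fun c => if c = b then T.count c else T.count c - 1)
          (fun c => if c = b then u else c) =
          (HC Q + ∑ c ∈ T.toFinset.erase b, VU Q c (T.count c - 1) c +
            VA Q b (T.count b)) + VF Q (fo Q b (T.count b) u) := by
        rw [KU, ← Finset.sum_erase_add _ _ hb']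
        simp only [if_true]
        rw [VU_eq hm, Finset.sum_congr rfl (g := fun c => VU Q c (T.count c - 1) c)
          (fun c hc => by rw [if_neg (Finset.ne_of_mem_erase hc), if_neg (Finset.ne_of_mem_erase hc)])]
        abel
      rw [← e]
      convert h3
    exact ⟨_, b, T.count b, hw.1, hw.2, (key w hw.1).1, (key w hw.1).2, (key w' hw.2).2⟩
  · push Not at hc
    have key : ∀ u, (∀ b ∈ T, r ≤ dq Q b u) →
        LocHam Q (1 / 2) a C G ((HC Q + ∑ c ∈ T.toFinset, VU Q c (T.count c - 1) c) +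
          VF Q (fo Q w 0 u)) ∧
        Parent ((HC Q + ∑ c ∈ T.toFinset, VU Q c (T.count c - 1) c) + VF Q (fo Q w 0 u))
          (PD Q (u ::ₘ T)) g := by
      intro u hu
      obtain ⟨h0, h1, h2⟩ := units_free hr hrR hT hu
      have h3 := H' _ _ _ h1
      rw [h2] at h3
      have h0' : u ∉ T.toFinset := by convert h0
      have hm : T.count u = 0 := Multiset.count_eq_zero.2 fun h => h0' (Multiset.mem_toFinset.2 h)
      have e : KU Q (insert u T.toFinset) (fun c => T.count c - 1) id =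
          (HC Q + ∑ c ∈ T.toFinset, VU Q c (T.count c - 1) c) + VF Q (fo Q w 0 u) := by
        rw [KU, Finset.sum_insert h0']
        simp only [id, hm, Nat.zero_sub]
        rw [VU_eq (Nat.zero_le 3), fo_zero, fo_zero, VA, Finset.sum_range_zero]
        abel
      rw [← e]
      convert h3
    have k1 := key w fun b hb => (hc b hb).1
    have k2 := key w' fun b hb => (hc b hb).2
    exact ⟨_, w, 0, by rw [dq_self]; linarith, by linarith, k1.1, k1.2, k2.2⟩

end Crest.Agent.R340.Pin
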