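import Crest.Agent.R340.GeoSU
import Crest.Agent.R340.LcVol
import Crest.Agent.R340.PinDefs

/-! # Bridge `SU(2)` / sphere: measures and locality classes -/

set_option autoImplicit false

namespace Crest.Agent.R340

open Matrix MeasureTheory Set Crest.MathPhysics.Laughlin
open scoped ComplexConjugate Matrix.Norms.L2Operator MatrixOrder ComplexOrder ENNReal

variable {Q : ℕ}

theorem continuous_hopf : Continuous Loc.hopf := by
  refine Continuous.subtype_mk ?_ _
  refine (PiLp.continuous_toLp 2 _).comp (continuous_pi fun i => ?_)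
  fin_cases i <;> simp <;> fun_prop

theorem spg_mul (g h : Loc.SU) : spg (g * h) = act (spg g) (spg h) := by
  simp [spg, act, Loc.SU.mul_a, Loc.SU.mul_b]

theorem exists_iso (g : Loc.SU) :
    ∃ R : EuclideanSpace ℝ (Fin 3) ≃ₗᵢ[ℝ] EuclideanSpace ℝ (Fin 3), ∀ x : S2,
      Loc.hopf (g * toSU x) = (⟨R x, by simp⟩ : S2) := by
  obtain ⟨R, hR⟩ := exists_rotS (spg_unit g)
  refine ⟨R, fun x => ?_⟩
  obtain ⟨θ, hθ, h⟩ := hR x ⟨R x, by simp⟩ rfl
  exact hopf_of_phase hθ (by rw [spg_mul, spg_toSU, h])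

theorem sigS_univ : sigS univ = ENNReal.ofReal (4 * Real.pi) := by
  have x : S2 := ⟨EuclideanSpace.single 0 1, by simp⟩
  have m : Measurable (tS x) := by unfold tS; fun_prop
  have := congrArg (fun μ : Measure ℝ => μ univ) (map_tS x)
  simpa [Measure.map_apply m MeasurableSet.univ] using this

theorem sigS_eq : sigS = ENNReal.ofReal (4 * Real.pi) • Loc.haar.map Loc.hopf := by
  ext s hs
  have mh := continuous_hopf.measurable
  have m : Measurable fun p : Loc.SU × S2 => Loc.hopf (p.1 * toSU p.2) :=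
    mh.comp (measurable_fst.mul (measurable_toSU.comp measurable_snd))
  have h1 := Measure.prod_apply (μ := Loc.haar) (ν := sigS) (m hs)
  have h2 := Measure.prod_apply_symm (μ := Loc.haar) (ν := sigS) (m hs)
  have e1 : ∀ g : Loc.SU, sigS (Prod.mk g ⁻¹'
      ((fun p : Loc.SU × S2 => Loc.hopf (p.1 * toSU p.2)) ⁻¹' s)) = sigS s := by
    intro g
    obtain ⟨R, hR⟩ := exists_iso g
    rw [← (sigS_preserving R).measure_preimage hs.nullMeasurableSet]
    congr 1
    ext x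
    simp only [mem_preimage, hR]
  have e2 : ∀ x : S2, Loc.haar ((fun g => (g, x)) ⁻¹'
      ((fun p : Loc.SU × S2 => Loc.hopf (p.1 * toSU p.2)) ⁻¹' s)) = Loc.haar (Loc.hopf ⁻¹' s) :=
    fun x => measure_preimage_mul_right Loc.haar (toSU x) (Loc.hopf ⁻¹' s)
  simp only [e1, lintegral_const, measure_univ, mul_one] at h1
  simp only [e2, lintegral_const, sigS_univ] at h2
  rw [← h1, h2, Measure.smul_apply, Measure.map_apply mh hs, smul_eq_mul, mul_comm]

theorem map_hopf (Q : ℕ) : (Loc.mu Q).map Loc.hopf = muq Q := by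
  rw [muq, sigS_eq, smul_smul, ← ENNReal.ofReal_mul (by positivity),
    div_mul_cancel₀ _ (by positivity), Loc.mu, Measure.map_smul]
  congr 1
  rw [← ENNReal.ofReal_natCast]
  push_cast
  rfl

theorem hopf_preserving (Q : ℕ) : MeasurePreserving Loc.hopf (Loc.mu Q) (muq Q) :=
  ⟨continuous_hopf.measurable, map_hopf Q⟩

theorem integral_hopf {E : Type} [NormedAddCommGroup E] [NormedSpace ℝ E] (Q : ℕ) {f : S2 → E}
    (hf : AEStronglyMeasurable f (muq Q)) :
    ∫ g, f (Loc.hopf g) ∂Loc.mu Q = ∫ x, f x ∂muq Q := by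
  rw [← map_hopf] at hf ⊢
  exact (integral_map continuous_hopf.measurable.aemeasurable hf).symm

theorem ell_ko_odd {Y : Fk (Q + 1)} (hY : Loc.par (Q + 1) * Y = -(Y * Loc.par (Q + 1)))
    (g : Loc.SU) : Loc.ell Y (Loc.ko Q g) = Fw.gloc (ca Q) Y (Loc.hopf g) := by
  obtain ⟨θ, hθ, h⟩ := ko_eq_phase Q g
  rw [h, Loc.ell_smul_right, hθ, one_mul, Loc.ell_of_odd hY]
  rfl

theorem isLoc_iff_pinQL {A : Fk (Q + 1)} (hA : Loc.Ev A) (g : Loc.SU) (α a K : ℝ) :
    Loc.IsLoc Q α a K g A ↔ Pin.QL Q α a K (Loc.hopf g) A := by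
  refine and_congr_right fun _ => ⟨fun h y => ?_, fun h u => ?_⟩
  · have := h (toSU y)
    rwa [ell_ko hA, dst_eq_dq, hopf_toSU] at this
  · rw [ell_ko hA, dst_eq_dq]
    exact h _

theorem isLoc_iff_pinOL {Y : Fk (Q + 1)} (hY : Loc.par (Q + 1) * Y = -(Y * Loc.par (Q + 1)))
    (g : Loc.SU) (α a K : ℝ) : Loc.IsLoc Q α a K g Y ↔ Pin.OL Q α a K (Loc.hopf g) Y := by
  refine and_congr_right fun _ => ⟨fun h y => ?_, fun h u => ?_⟩
  · have := h (toSU y)
    rwa [ell_ko_odd hY, dst_eq_dq, hopf_toSU] at this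
  · rw [ell_ko_odd hY, dst_eq_dq]
    exact h _

theorem pinQL_iff {A : Fk (Q + 1)} (hA : Loc.Ev A) (x : S2) (α a K : ℝ) :
    Pin.QL Q α a K x A ↔ Loc.IsLoc Q α a K (toSU x) A := by
  rw [isLoc_iff_pinQL hA, hopf_toSU]

theorem pinOL_iff {Y : Fk (Q + 1)} (hY : Loc.par (Q + 1) * Y = -(Y * Loc.par (Q + 1))) (x : S2)
    (α a K : ℝ) : Pin.OL Q α a K x Y ↔ Loc.IsLoc Q α a K (toSU x) Y := by
  rw [isLoc_iff_pinOL hY, hopf_toSU]

theorem pinQL_half {A : Fk (Q + 1)} (x : S2) (a K : ℝ) :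
    Pin.QL Q (1 / 2) a K x A ↔ Fw.QL (ca Q) (dq Q) A x a K := by
  simp only [Pin.QL, Fw.QL, Pin.wt, Real.sqrt_eq_rpow, neg_mul]

theorem Pin.Sites.toLoc {G : ℝ} {ι : Type} [MeasurableSpace ι] {ν : Measure ι} {x : ι → S2}
    (h : Pin.Sites Q G ν x) : Loc.Sites Q G ν fun i => toSU (x i) :=
  ⟨h.fin, measurable_toSU.comp h.meas, fun u r hr => by
    simpa only [dst_toSU] using h.growth (Loc.hopf u) r hr⟩

theorem Pin.SInter.toLoc {α a C G : ℝ} {ι : Type} [MeasurableSpace ι] {ν : Measure ι} {x : ι → S2}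
    {M : ι → Fk (Q + 1)} (h : Pin.SInter Q α a C G ν x M) :
    Loc.Inter Q α a C G ν (fun i => toSU (x i)) M :=
  ⟨h.sites.toLoc, h.int.1, fun i => Loc.ev_of_numC (h.loc i).1,
    fun i => (pinQL_iff (Loc.ev_of_numC (h.loc i).1) _ _ _ _).1 (h.loc i).2⟩

theorem pin_sites_muq (hQ : 1 ≤ Q) : Pin.Sites Q 2 (muq Q) id :=
  ⟨inferInstance, measurable_id, fun u r hr => by
    simpa only [dst_toSU, hopf_toSU, id] using (sites_muq hQ).growth (toSU u) r hr⟩

theorem ev_of_low {k : ℤ} {A : Fk (Q + 1)} (h : Pin.Low k A) :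
    Loc.par (Q + 1) * A = (-1 : ℂ) ^ k • (A * Loc.par (Q + 1)) := by
  ext S T
  have := congrFun (congrFun h S) T
  simp only [numC, Loc.par, Matrix.diagonal_mul, Matrix.mul_diagonal, Matrix.sub_apply,
    Matrix.smul_apply, smul_eq_mul] at this ⊢
  by_cases hA : A S T = 0
  · simp [hA]
  · have e : (T.card : ℂ) = S.card + k := by
      apply mul_right_cancel₀ hA
      linear_combination -this
    have e' : (T.card : ℤ) = S.card + k := by exact_mod_cast e
    have e2 : (-1 : ℂ) ^ T.card = (-1) ^ S.card * (-1) ^ k := by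
      rw [← zpow_natCast, e', zpow_add₀ (by norm_num), zpow_natCast]
    have e3 : (-1 : ℂ) ^ k * (-1) ^ k = 1 := by rw [← mul_zpow]; simp
    rw [e2]
    linear_combination (-((-1 : ℂ) ^ S.card * A S T)) * e3

theorem odd_of_low_one {A : Fk (Q + 1)} (h : Pin.Low 1 A) :
    Loc.par (Q + 1) * A = -(A * Loc.par (Q + 1)) := by
  simpa using ev_of_low h

end Crest.Agent.R340
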