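import Crest.Agent.R340.GeoFrame
import Crest.Agent.R340.GeoSU2

/-! # Lieb-Robinson bound for `H` acting on arbitrary (also odd) operators -/

set_option autoImplicit false

namespace Crest.Agent.R340

open Matrix MeasureTheory Set Crest.MathPhysics.Laughlin Filt
open scoped ComplexConjugate Matrix.Norms.L2Operator MatrixOrder ComplexOrder

variable {Q : ℕ}

theorem gloc_eq_loc_par (Y : Fk (Q + 1)) (z : S2) :
    Fw.gloc (ca Q) Y z = Fw.loc (ca Q) (Y * Loc.par (Q + 1)) z := by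
  have h1 : Y * Loc.par (Q + 1) * ca Q z - ca Q z * (Y * Loc.par (Q + 1)) =
      -((Y * ca Q z + ca Q z * Y) * Loc.par (Q + 1)) := by
    rw [mul_assoc, show Loc.par (Q + 1) * ca Q z = -(ca Q z * Loc.par (Q + 1)) from
      Loc.par_mul_cA _]
    noncomm_ring
  have h2 : Y * Loc.par (Q + 1) * star (ca Q z) - star (ca Q z) * (Y * Loc.par (Q + 1)) =
      -((Y * star (ca Q z) + star (ca Q z) * Y) * Loc.par (Q + 1)) := by
    rw [mul_assoc, show Loc.par (Q + 1) * star (ca Q z) = -(star (ca Q z) * Loc.par (Q + 1)) from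
      Loc.par_mul_star_cA _]
    noncomm_ring
  rw [Fw.loc, Fw.gloc, h1, h2, norm_neg, norm_neg, Loc.norm_mul_par, Loc.norm_mul_par]

theorem tau_mul_par {K : Fk (Q + 1)} (hK : Loc.Ev K) (t : ℝ) (Y : Fk (Q + 1)) :
    tau K t Y * Loc.par (Q + 1) = tau K t (Y * Loc.par (Q + 1)) := by
  rw [tau_mul, tau_of_commute hK.symm]

/-- LR for `HC` and every operator -/
theorem geo_lr_all : ∃ v : ℝ, 1 ≤ v ∧ ∀ q : ℕ, 1 ≤ q →
    Fw.LR (ca q) (dq q) 1 (HC q) v := by
  obtain ⟨C, hC, h⟩ := dcom_HC 2 zero_le_two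
  refine ⟨2 + 2 * (C * 4), by linarith, fun q hq => ?_⟩
  exact Fw.lr_of_kernel (μ := muq q) (C := C) (V := 4) (HC_sa q) (norm_ca_le q)
    (dq_nonneg q) (dq_symm q) (dq_tri q) ⟨_, dq_le q⟩ (h54_meas_dq q) hC
    (by norm_num) (fun x => by simpa using integral_exp_dq hq x one_pos) (h q hq) (by linarith)
    (by linarith)

theorem gloc_cC (f : Fin (Q + 1) → ℂ) (z : S2) :
    Fw.gloc (ca Q) (cC f) z = ‖star (coh Q z) ⬝ᵥ f‖ := by
  rw [Fw.gloc, ca, cC_anticomm, cC_car, norm_zero, zero_add, norm_smul, norm_one, mul_one,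
    ← norm_star, ← star_dotProduct_star, star_star]

/-- LR for odd operators (anticommutators) -/
theorem geo_lr_odd : ∃ v : ℝ, 1 ≤ v ∧ ∀ q : ℕ, 1 ≤ q → ∀ (Y : Fk (q + 1)) (x : S2) (κ : ℝ),
    (∀ z, Fw.gloc (ca q) Y z ≤ κ * Real.exp (-dq q x z)) → ∀ (t : ℝ) (z : S2),
      Fw.gloc (ca q) (tau (HC q) t Y) z ≤ v * κ * Real.exp (v * |t| - dq q x z) := by
  obtain ⟨v, hv, h⟩ := geo_lr_all
  refine ⟨v, hv, fun q hq Y x κ hY t z => ?_⟩
  rw [gloc_eq_loc_par, tau_mul_par (Loc.ev_of_numC (commute_numC_HC q))]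
  exact h q hq _ x κ (Commute.one_left _) (fun y => by rw [← gloc_eq_loc_par]; exact hY y) t z

/-- `LRoOut` of SELF-INST -/
theorem geo_lro : ∃ (v : ℝ) (Q₀ : ℕ), 1 ≤ v ∧ ∀ Q, Q₀ ≤ Q → ∀ (y : S2) (t : ℝ) (z : S2),
    Fw.gloc (ca Q) (tau (HC Q) t (ca Q y)) z ≤ v * Real.exp (v * |t| - dq Q y z) := by
  obtain ⟨v, hv, h⟩ := geo_lr_odd
  refine ⟨2 * v, 1, by linarith, fun Q hQ y t z => ?_⟩
  refine (h Q hQ (ca Q y) y 2 (fun z => ?_) t z).trans ?_
  · rw [ca, gloc_cC]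
    refine (coh_overlap_le Q z y).trans ?_
    rw [dq_symm Q z y]
    have h1 : Real.exp (-dq Q y z ^ 2 / 2) ≤ Real.exp (1 / 2) * Real.exp (-dq Q y z) := by
      rw [← Real.exp_add]
      exact Real.exp_le_exp.2 (by nlinarith [sq_nonneg (dq Q y z - 1)])
    have h2 : Real.exp (1 / 2) ≤ 2 := by
      have h3 : Real.exp (1 / 2) * Real.exp (1 / 2) ≤ 4 := by
        rw [← Real.exp_add]
        have := Real.exp_one_lt_d9
        norm_num at this ⊢
        linarith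
      nlinarith [Real.exp_pos (1 / 2)]
    exact h1.trans (by gcongr)
  · rw [mul_comm v 2]
    have := abs_nonneg t
    gcongr
    linarith

end Crest.Agent.R340
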