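import Crest.Agent.R340.PnDefs
import Crest.Agent.R340.FiltSpec

/-! # Row 340, module PIN: abstract linear algebra -/

set_option autoImplicit false

namespace Crest.Agent.R340.Pn

open Matrix Crest.MathPhysics.Laughlin Crest.Agent.R340.Pin
open scoped Matrix.Norms.L2Operator MatrixOrder ComplexOrder ComplexConjugate

variable {ι κ : Type} [Fintype ι] [DecidableEq ι] [Fintype κ] {K K' : Matrix ι ι ℂ} {g : ℝ}

/-! ### part A: `nq`, `qf` -/

omit [DecidableEq ι] in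
theorem nq_eq (v : ι → ℂ) : nq v = ∑ i, ‖v i‖ ^ 2 := by
  rw [nq, dotProduct, Complex.re_sum]
  refine Finset.sum_congr rfl fun i _ => ?_
  rw [Pi.star_apply, RCLike.star_def, Complex.conj_mul']
  norm_cast

omit [DecidableEq ι] in
theorem nq_nonneg (v : ι → ℂ) : 0 ≤ nq v := by
  rw [nq_eq]
  positivity

omit [DecidableEq ι] in
theorem nq_eq_zero {v : ι → ℂ} (h : nq v ≤ 0) : v = 0 := by
  rw [nq_eq] at h
  have h0 := le_antisymm h (by positivity)
  rw [Finset.sum_eq_zero_iff_of_nonneg fun i _ => by positivity] at h0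
  funext i
  exact norm_eq_zero.1 (pow_eq_zero_iff two_ne_zero |>.1 (h0 i (Finset.mem_univ i)))

omit [DecidableEq ι] in
theorem nq_smul (z : ℂ) (v : ι → ℂ) : nq (z • v) = ‖z‖ ^ 2 * nq v := by
  simp only [nq_eq, Pi.smul_apply, norm_smul, mul_pow, Finset.mul_sum]

omit [DecidableEq ι] in
theorem nq_add_le (u v : ι → ℂ) : nq (u + v) ≤ 2 * nq u + 2 * nq v := by
  simp only [nq_eq, Finset.mul_sum, ← Finset.sum_add_distrib]
  refine Finset.sum_le_sum fun i _ => ?_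
  have h := norm_add_le (u i) (v i)
  have h2 : ‖(u + v) i‖ ^ 2 ≤ (‖u i‖ + ‖v i‖) ^ 2 := pow_le_pow_left₀ (norm_nonneg _) h 2
  nlinarith [sq_nonneg (‖u i‖ - ‖v i‖)]

omit [DecidableEq ι] in
theorem nq_add_of_orth {u v : ι → ℂ} (h : star u ⬝ᵥ v = 0) : nq (u + v) = nq u + nq v := by
  have h' : star v ⬝ᵥ u = 0 := by
    rw [star_dotProduct, h, star_zero]
  simp only [nq, star_add, add_dotProduct, dotProduct_add, h, h', add_zero, zero_add,
    Complex.add_re]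

theorem nq_mulVec_le (A : Matrix ι ι ℂ) (v : ι → ℂ) : nq (A *ᵥ v) ≤ ‖A‖ ^ 2 * nq v := by
  have e : ∀ w : ι → ℂ, nq w = ‖(WithLp.toLp 2 w : EuclideanSpace ℂ ι)‖ ^ 2 := fun w => by
    rw [nq_eq, EuclideanSpace.norm_sq_eq]
  rw [e, e, ← mul_pow]
  exact pow_le_pow_left₀ (norm_nonneg _) (Matrix.l2_opNorm_mulVec A (WithLp.toLp 2 v)) 2

omit [DecidableEq ι] in
theorem nq_mulVec (A : Matrix κ ι ℂ) (v : ι → ℂ) : nq (A *ᵥ v) = qf (Aᴴ * A) v := by
  rw [nq, qf, star_mulVec, ← mulVec_mulVec, dotProduct_mulVec (star v)]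

omit [DecidableEq ι] in
theorem qf_star_mul (A : Matrix ι ι ℂ) (v : ι → ℂ) : qf (star A * A) v = nq (A *ᵥ v) :=
  (nq_mulVec A v).symm

theorem qf_one (v : ι → ℂ) : qf (1 : Matrix ι ι ℂ) v = nq v := by
  rw [qf, one_mulVec, nq]

omit [DecidableEq ι] in
theorem qf_add (A B : Matrix ι ι ℂ) (v : ι → ℂ) : qf (A + B) v = qf A v + qf B v := by
  rw [qf, add_mulVec, dotProduct_add, Complex.add_re, qf, qf]

omit [DecidableEq ι] in
theorem qf_sub (A B : Matrix ι ι ℂ) (v : ι → ℂ) : qf (A - B) v = qf A v - qf B v := by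
  rw [qf, sub_mulVec, dotProduct_sub, Complex.sub_re, qf, qf]

omit [DecidableEq ι] in
theorem qf_smul (c : ℝ) (A : Matrix ι ι ℂ) (v : ι → ℂ) : qf (c • A) v = c * qf A v := by
  rw [qf, smul_mulVec, dotProduct_smul, Complex.smul_re, qf, smul_eq_mul]

omit [DecidableEq ι] in
theorem qf_sum {α : Type} (s : Finset α) (A : α → Matrix ι ι ℂ) (v : ι → ℂ) :
    qf (∑ a ∈ s, A a) v = ∑ a ∈ s, qf (A a) v := by
  classical
  induction s using Finset.induction_on with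
  | empty => simp [qf]
  | insert a s ha ih => rw [Finset.sum_insert ha, Finset.sum_insert ha, qf_add, ih]

omit [DecidableEq ι] in
theorem qf_smul_vec (A : Matrix ι ι ℂ) (z : ℂ) (v : ι → ℂ) : qf A (z • v) = ‖z‖ ^ 2 * qf A v := by
  rw [qf, qf, mulVec_smul, star_smul, smul_dotProduct, dotProduct_smul, smul_smul, RCLike.star_def,
    Complex.conj_mul', smul_eq_mul, ← Complex.ofReal_pow, Complex.re_ofReal_mul]

theorem qf_mono (h : K ≤ K') (v : ι → ℂ) : qf K v ≤ qf K' v := by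
  have h1 : 0 ≤ qf (K' - K) v := (Matrix.le_iff.1 h).re_dotProduct_nonneg v
  rwa [qf_sub, sub_nonneg] at h1

theorem qf_nonneg (h : 0 ≤ K) (v : ι → ℂ) : 0 ≤ qf K v := by
  exact (Matrix.nonneg_iff_posSemidef.1 h).re_dotProduct_nonneg v

theorem le_of_qf (hK : IsSelfAdjoint K) (hK' : IsSelfAdjoint K') (h : ∀ v, qf K v ≤ qf K' v) :
    K ≤ K' := by
  have hs : (K' - K).IsHermitian := hK'.sub hK
  refine Matrix.le_iff.2 (Matrix.PosSemidef.of_dotProduct_mulVec_nonneg hs fun v => ?_)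
  refine Complex.nonneg_iff.2 ⟨?_, (hs.im_star_dotProduct_mulVec_self v).symm⟩
  have h1 : 0 ≤ qf (K' - K) v := by rw [qf_sub, sub_nonneg]; exact h v
  exact h1

theorem ker_of_qf (h : 0 ≤ K) {v : ι → ℂ} (hv : qf K v ≤ 0) : K *ᵥ v = 0 := by
  have hp := Matrix.nonneg_iff_posSemidef.1 h
  refine (hp.dotProduct_mulVec_zero_iff v).1 (Complex.ext ?_ ?_)
  · exact le_antisymm hv (qf_nonneg h v)
  · exact hp.isHermitian.im_star_dotProduct_mulVec_self v

/-- adding a kernel vector does not change the form -/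
theorem qf_add_ker (h : IsSelfAdjoint K) {z : ι → ℂ} (hz : K *ᵥ z = 0) (v : ι → ℂ) :
    qf K (z + v) = qf K v := by
  have h1 : star z ᵥ* K = 0 := by
    have h2 : Kᴴ = K := h
    rw [← h2, ← Matrix.star_mulVec, hz, star_zero]
  unfold qf
  rw [mulVec_add, hz, zero_add, star_add, add_dotProduct, dotProduct_mulVec (star z), h1,
    zero_dotProduct, zero_add]

/-! ### part B: similarity, conversions -/

omit [DecidableEq ι] in
theorem GK.mono (h : GK K g) {g' : ℝ} (hg : g' ≤ g) : GK K g' := by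
  intro χ
  obtain ⟨z, hz, h1⟩ := h χ
  exact ⟨z, hz, (mul_le_mul_of_nonneg_right hg (nq_nonneg _)).trans h1⟩

/-- bounded similarity: take `z` for `G χ`, use `G' z`; `χ - G' z = G' (G χ - z)` -/
theorem gk_sim {G G' : Matrix ι ι ℂ} {a c : ℝ} (hG : G' * G = 1)
    (hker : ∀ z, K *ᵥ z = 0 → K' *ᵥ (G' *ᵥ z) = 0) (ha : 0 < a) (hc : 0 < c) (hg : 0 ≤ g)
    (hG' : ∀ v, nq (G' *ᵥ v) ≤ a * nq v) (hE : ∀ χ, qf K (G *ᵥ χ) ≤ c * qf K' χ) (h : GK K g) :
    GK K' (g / (a * c)) := by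
  intro χ
  obtain ⟨z, hz, h1⟩ := h (G *ᵥ χ)
  refine ⟨G' *ᵥ z, hker z hz, ?_⟩
  have e : χ - G' *ᵥ z = G' *ᵥ (G *ᵥ χ - z) := by
    rw [mulVec_sub, mulVec_mulVec, hG, one_mulVec]
  rw [e]
  calc g / (a * c) * nq (G' *ᵥ (G *ᵥ χ - z)) ≤ g / (a * c) * (a * nq (G *ᵥ χ - z)) :=
        mul_le_mul_of_nonneg_left (hG' _) (by positivity)
    _ = g * nq (G *ᵥ χ - z) / c := by field_simp
    _ ≤ qf K' χ := by
      rw [div_le_iff₀ hc, mul_comm (qf K' χ)]
      exact h1.trans (hE χ)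

theorem gk_unitary {U : Matrix ι ι ℂ} (hU : U ∈ unitary (Matrix ι ι ℂ)) (hg : 0 ≤ g)
    (h : GK K g) : GK (U * K * star U) g := by
  have h1 : U * star U = 1 := Unitary.mul_star_self_of_mem hU
  have h2 : star U * U = 1 := Unitary.star_mul_self_of_mem hU
  have := gk_sim (K' := U * K * star U) (G := star U) (G' := U) (a := 1) (c := 1) h1
    (fun z hz => by
      rw [mulVec_mulVec, mul_assoc, h2, mul_one, ← mulVec_mulVec, hz, mulVec_zero])
    one_pos one_pos hg (fun v => by rw [← qf_star_mul, h2, qf_one, one_mul])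
    (fun χ => by
      unfold qf
      rw [one_mul, Matrix.star_mulVec, ← dotProduct_mulVec, mulVec_mulVec, mulVec_mulVec,
        ← star_eq_conjTranspose, star_star]) h
  simpa using this

theorem pnB_gap {𝔄 : Type} [CStarAlgebra 𝔄] [FiniteDimensional ℂ 𝔄] [PartialOrder 𝔄]
    [StarOrderedRing 𝔄] {H : 𝔄} {g : ℝ} (h0 : 0 ≤ H) (h : g • H ≤ H * H) :
    g • (1 - Filt.sp H 0) ≤ H := by
  have hH : IsSelfAdjoint H := IsSelfAdjoint.of_nonneg h0
  have e1 : g • H = cfc (fun x : ℝ => g * x) H := by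
    rw [cfc_const_mul g (fun x : ℝ => x) H (Filt.h54_cont H _), cfc_id' ℝ H]
  have e2 : H * H = cfc (fun x : ℝ => x * x) H := by
    rw [cfc_mul _ _ H (Filt.h54_cont H _) (Filt.h54_cont H _), cfc_id' ℝ H]
  rw [e1, e2, cfc_le_iff _ _ H (Filt.h54_cont H _) (Filt.h54_cont H _)] at h
  have e3 : g • (1 - Filt.sp H 0) =
      cfc (fun x : ℝ => g * (1 - if x = 0 then (1 : ℝ) else 0)) H := by
    rw [cfc_const_mul g _ H (Filt.h54_cont H _),
      cfc_sub _ _ H (Filt.h54_cont H _) (Filt.h54_cont H _), cfc_const_one ℝ H]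
    rfl
  rw [e3]
  conv_rhs => rw [← cfc_id' ℝ H]
  rw [cfc_le_iff _ _ H (Filt.h54_cont H _) (Filt.h54_cont H _)]
  intro x hx
  have h1 := h x hx
  have h2 : 0 ≤ x := spectrum_nonneg_of_nonneg h0 hx
  by_cases e : x = 0
  · simp [e]
  · rw [if_neg e, sub_zero, mul_one]
    exact le_of_mul_le_mul_right h1 (lt_of_le_of_ne h2 (Ne.symm e))

theorem pnB_qf_proj {P : Matrix ι ι ℂ} (hP : IsStarProjection P) (χ : ι → ℂ) :
    qf (1 - P) χ = nq (χ - P *ᵥ χ) := by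
  have h1 := hP.one_sub
  have e : χ - P *ᵥ χ = (1 - P) *ᵥ χ := by rw [sub_mulVec, one_mulVec]
  rw [e, ← qf_star_mul, h1.isSelfAdjoint.star_eq, h1.isIdempotentElem.eq]

/-- `exists_filt`, `gap_of_sq`: `p = fcal w K`, `z = p χ` (or the spectral theorem) -/
theorem gk_of_sq (h0 : 0 ≤ K) (hg : 0 < g) (h : g • K ≤ K * K) : GK K g := by
  have _ := hg
  intro χ
  refine ⟨Filt.sp K 0 *ᵥ χ, ?_, ?_⟩
  · rw [mulVec_mulVec, Filt.mul_sp (IsSelfAdjoint.of_nonneg h0)]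
    simp
  · rw [← pnB_qf_proj (Filt.sp_proj K 0), ← qf_smul]
    exact qf_mono (pnB_gap h0 h) χ

/-- `le_of_qf`; `qf (1 - P) χ = nq (χ - P χ) ≤ nq (χ - z)` for `z ∈ S` (Pythagoras) -/
theorem le_of_gk (h0 : 0 ≤ K) (hg : 0 ≤ g) {S : Submodule ℂ (ι → ℂ)}
    (hS : ∀ v, K *ᵥ v = 0 → v ∈ S) (h : GK K g) : g • (1 - projOf S) ≤ K := by
  have hP := projOf_proj S
  refine le_of_qf ((IsSelfAdjoint.all g).smul hP.one_sub.isSelfAdjoint)
    (IsSelfAdjoint.of_nonneg h0) fun χ => ?_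
  obtain ⟨z, hz, hle⟩ := h χ
  rw [qf_smul]
  refine le_trans (mul_le_mul_of_nonneg_left ?_ hg) hle
  have hz' : (1 - projOf S) *ᵥ z = 0 := by
    rw [sub_mulVec, one_mulVec, (projOf_mulVec_iff S z).2 (hS z hz), sub_self]
  have e : qf (1 - projOf S) χ = qf (1 - projOf S) (χ - z) := by
    rw [← qf_add_ker hP.one_sub.isSelfAdjoint hz' (χ - z), add_sub_cancel]
  rw [e, qf_sub, qf_one]
  have := qf_nonneg hP.nonneg (χ - z)
  linarith

/-- conjugate with `P₀` -/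
theorem sandwich {H A P₀ P : Matrix ι ι ℂ} (h0 : IsStarProjection P₀) (hH : H * P₀ = 0)
    (h1 : P₀ * P = P) (h2 : P * P₀ = P) (h : g • (1 - P) ≤ H + A) :
    g • (P₀ - P) ≤ P₀ * A * P₀ := by
  have := h0.isSelfAdjoint.conjugate_le_conjugate h
  rwa [mul_smul_comm, smul_mul_assoc, mul_sub, mul_one, sub_mul, h0.isIdempotentElem.eq, h1, h2,
    mul_add, add_mul, mul_assoc P₀ H, hH, mul_zero, zero_add] at this

/-! ### part C: perturbation and min-max -/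

theorem pert31_mem (S : Submodule ℂ (ι → ℂ)) (χ : ι → ℂ) : projOf S *ᵥ χ ∈ S := by
  rw [← projOf_mulVec_iff, mulVec_mulVec, (projOf_proj S).isIdempotentElem.eq]

theorem pert31_orth (S : Submodule ℂ (ι → ℂ)) {z y : ι → ℂ} (hz : z ∈ S)
    (hy : projOf S *ᵥ y = 0) : star z ⬝ᵥ y = 0 := by
  have h1 : (projOf S)ᴴ = projOf S := (projOf_proj S).isSelfAdjoint.star_eq
  rw [← (projOf_mulVec_iff S z).2 hz, star_mulVec, ← dotProduct_mulVec, h1, hy, dotProduct_zero]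

/-- If `g / 2 ≤ ε` take `z = 0`.  Otherwise let `W = ker K`, `W' = ker K'` (`Matrix.toLin'`),
`finrank W ≤ finrank W'` through `Γ`.  For `χ` let `z = projOf W' χ`, `v = χ - z ⊥ W'`, `v ≠ 0`.
`W' ⊔ span v` has dimension `> finrank W`, so it contains `y = z' + α v ≠ 0` orthogonal to `W`
(kernel of `projOf W` restricted).  `g nq y ≤ g nq (y - z₀) ≤ qf K y ≤ 2 |α|² qf K' χ + 2 ε nq y`
and `nq y = nq z' + |α|² nq v`; `α ≠ 0` since `y ≠ 0`. -/
theorem gk_pert {Γ : Matrix ι ι ℂ} {ε : ℝ} (h0 : 0 ≤ K') (hg : 0 ≤ g) (hε : 0 ≤ ε)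
    (hΓ : ∀ v, Γ *ᵥ v = 0 → v = 0) (hker : ∀ z, K *ᵥ z = 0 → K' *ᵥ (Γ *ᵥ z) = 0)
    (hE : ∀ y, qf K y ≤ 2 * qf K' y + 2 * ε * nq y) (h : GK K g) : GK K' (g / 2 - ε) := by
  intro χ
  have hq := qf_nonneg h0 χ
  rcases le_or_gt (g / 2 - ε) 0 with hle | hlt
  · refine ⟨0, mulVec_zero _, ?_⟩
    exact (mul_nonpos_of_nonpos_of_nonneg hle (nq_nonneg _)).trans hq
  have hsa : IsSelfAdjoint K' := IsSelfAdjoint.of_nonneg h0
  set W : Submodule ℂ (ι → ℂ) := LinearMap.ker K.mulVecLin with hW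
  set W' : Submodule ℂ (ι → ℂ) := LinearMap.ker K'.mulVecLin with hW'
  have hrk : Module.finrank ℂ W ≤ Module.finrank ℂ W' := by
    refine LinearMap.finrank_le_finrank_of_injective
      (f := Γ.mulVecLin.restrict (p := W) (q := W') fun z hz => hker z hz) ?_
    rw [injective_iff_map_eq_zero]
    intro z hz
    exact Subtype.ext (hΓ z (congrArg Subtype.val hz))
  set z := projOf W' *ᵥ χ with hz
  have hzW : z ∈ W' := pert31_mem W' χ
  refine ⟨z, hzW, ?_⟩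
  set v := χ - z with hv
  have hPv : projOf W' *ᵥ v = 0 := by
    rw [hv, mulVec_sub, (projOf_mulVec_iff W' z).2 hzW, sub_self]
  let L0 : W' × ℂ →ₗ[ℂ] (ι → ℂ) :=
    W'.subtype.coprod (LinearMap.toSpanSingleton ℂ (ι → ℂ) v)
  let L : W' × ℂ →ₗ[ℂ] W :=
    ((projOf W).mulVecLin.comp L0).codRestrict W fun p => pert31_mem W _
  have hlt' : Module.finrank ℂ W < Module.finrank ℂ (W' × ℂ) := by
    rw [Module.finrank_prod, Module.finrank_self]; omega
  obtain ⟨⟨z', α⟩, hp, hp0⟩ := (Submodule.ne_bot_iff _).1 (LinearMap.ker_ne_bot_of_finrank_lt (f := L) hlt')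
  have hy : projOf W *ᵥ ((z' : ι → ℂ) + α • v) = 0 := congrArg Subtype.val hp
  set y := (z' : ι → ℂ) + α • v with hydef
  have n1 : nq y = nq (z' : ι → ℂ) + ‖α‖ ^ 2 * nq v := by
    rw [hydef, nq_add_of_orth, nq_smul]
    rw [dotProduct_smul, pert31_orth W' z'.2 hPv, smul_zero]
  obtain ⟨z₀, hz₀, hgap⟩ := h y
  have n2 : nq y ≤ nq (y - z₀) := by
    have := nq_add_of_orth (pert31_orth W (W.neg_mem (show z₀ ∈ W from hz₀)) hy)
    rw [neg_add_eq_sub] at this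
    linarith [nq_nonneg (-z₀)]
  have q1 : qf K' y = ‖α‖ ^ 2 * qf K' χ := by
    have e1 : y = α • χ + ((z' : ι → ℂ) - α • z) := by
      rw [hydef, hv, smul_sub]; abel
    have e2 : K' *ᵥ ((z' : ι → ℂ) - α • z) = 0 := W'.sub_mem z'.2 (W'.smul_mem α hzW)
    rw [e1, add_comm, qf_add_ker hsa e2, qf_smul_vec]
  have main : (g - 2 * ε) * nq y ≤ 2 * (‖α‖ ^ 2 * qf K' χ) := by
    have := hE y
    have := mul_le_mul_of_nonneg_left n2 hg
    rw [← q1]
    linarith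
  have hα : α ≠ 0 := by
    rintro rfl
    have h1 : (g - 2 * ε) * nq (z' : ι → ℂ) ≤ 0 := by simpa [n1] using main
    have h2 : nq (z' : ι → ℂ) ≤ 0 := by
      by_contra hc
      have := mul_pos (show 0 < g - 2 * ε by linarith) (not_le.1 hc)
      linarith
    exact hp0 (Prod.ext (Subtype.ext (nq_eq_zero h2)) rfl)
  have hα2 : 0 < ‖α‖ ^ 2 := pow_pos (norm_pos_iff.2 hα) 2
  refine le_of_mul_le_mul_left ?_ hα2
  have := mul_nonneg (show 0 ≤ g - 2 * ε by linarith) (nq_nonneg (z' : ι → ℂ))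
  rw [n1] at main
  linarith

end Crest.Agent.R340.Pn
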