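import Crest.Agent.R340.PnDefs

/-! # Row 340, module PIN: elementary estimates -/

set_option autoImplicit false

namespace Crest.Agent.R340.Pn

open Matrix Crest.MathPhysics.Laughlin Crest.Agent.R340.Pin
open scoped Matrix.Norms.L2Operator MatrixOrder ComplexOrder ComplexConjugate

variable {B : ℝ}

/-! ### part A: the weights -/

theorem sB_pos (hB : 0 ≤ B) (j : ℕ) : 0 < sB B j := by
  exact Real.rpow_pos_of_pos (by positivity) _

theorem nuB_pos (hB : 0 ≤ B) (p : ℕ) : 0 < nuB B p := by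
  exact Real.rpow_pos_of_pos (by positivity) _

theorem pnA_s4 (hB : 0 ≤ B) (j : ℕ) : sB B j ^ 4 * (((j : ℝ) + 1) ^ 2 + B) = 1 := by
  have h : 0 < ((j : ℝ) + 1) ^ 2 + B := by positivity
  rw [sB, ← Real.rpow_natCast, ← Real.rpow_mul h.le,
    show -(1 / 4 : ℝ) * ((4 : ℕ) : ℝ) = -1 by norm_num, Real.rpow_neg_one, inv_mul_cancel₀ h.ne']

theorem pnA_n2 (hB : 0 ≤ B) (p : ℕ) : nuB B p ^ 2 * ((((p : ℝ) + 3) / 2) ^ 2 + B) = 1 := by
  have h : 0 < (((p : ℝ) + 3) / 2) ^ 2 + B := by positivity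
  rw [nuB, ← Real.rpow_natCast, ← Real.rpow_mul h.le,
    show -(1 / 2 : ℝ) * ((2 : ℕ) : ℝ) = -1 by norm_num, Real.rpow_neg_one, inv_mul_cancel₀ h.ne']

theorem pnA_e4 (hB : 0 ≤ B) (j : ℕ) : eB B j ^ 4 = 1 + B / ((j : ℝ) + 1) ^ 2 := by
  have h : 0 < (j : ℝ) + 1 := by positivity
  have h1 := pnA_s4 hB j
  have h2 := sB_pos hB j
  have h3 : Real.sqrt (j + 1) ^ 4 = ((j : ℝ) + 1) ^ 2 := by
    rw [show (4 : ℕ) = 2 * 2 from rfl, pow_mul, Real.sq_sqrt h.le]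
  rw [eB, dd, div_pow, inv_pow, h3]
  field_simp
  linarith

theorem pnA_e_pos (hB : 0 ≤ B) (j : ℕ) : 0 < eB B j :=
  div_pos (inv_pos.2 (Real.sqrt_pos.2 (by positivity))) (sB_pos hB j)

theorem pnA_pow4 {r : ℝ} (h0 : 0 ≤ r) (h : r ^ 4 ≤ 1) : r ^ 4 ≤ r ∧ r ≤ 1 := by
  have h1 : r ≤ 1 := (pow_le_one_iff_of_nonneg h0 (by norm_num)).1 h
  exact ⟨pow_le_of_le_one h0 h1 (by norm_num), h1⟩

theorem sB_zero_ge (hB : 0 ≤ B) : 1 / (1 + B) ≤ sB B 0 := by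
  have h1 := pnA_s4 hB 0
  have h2 := sB_pos hB 0
  have h3 : 1 / (1 + B) = sB B 0 ^ 4 := by
    rw [div_eq_iff (by positivity)]
    simpa using h1.symm
  rw [h3]
  refine (pnA_pow4 h2.le ?_).1
  rw [← h3, div_le_one (by positivity)]
  linarith

theorem one_le_eB (hB : 0 ≤ B) (j : ℕ) : 1 ≤ eB B j := by
  refine (one_le_pow_iff_of_nonneg (pnA_e_pos hB j).le (show (4 : ℕ) ≠ 0 by norm_num)).1 ?_
  rw [pnA_e4 hB]
  exact le_add_of_nonneg_right (by positivity)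

/-- `eB ^ 4 = 1 + B / (j+1)² ≤ exp (B / (j+1)²)`, `∑ 1 / (j+1)² ≤ 2` -/
theorem prod_eB (hB : 0 ≤ B) (n : ℕ) : ∏ j : Fin n, eB B j ≤ Real.exp B := by
  have h1 : ∀ j : ℕ, eB B j ≤ Real.exp (B / 4 * (1 / ((j : ℝ) + 1) ^ 2)) := by
    intro j
    refine (pow_le_pow_iff_left₀ (pnA_e_pos hB j).le (Real.exp_pos _).le
      (show (4 : ℕ) ≠ 0 by norm_num)).1 ?_
    rw [pnA_e4 hB, ← Real.exp_nat_mul, add_comm]
    refine (Real.add_one_le_exp _).trans_eq ?_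
    congr 1
    push_cast
    ring
  have h2 : ∀ n : ℕ, ∑ j ∈ Finset.range n, 1 / ((j : ℝ) + 1) ^ 2 ≤ 4 - 4 / ((n : ℝ) + 1) := by
    intro n
    induction n with
    | zero => simp
    | succ n ih =>
      rw [Finset.sum_range_succ]
      have : 1 / ((n : ℝ) + 1) ^ 2 ≤ 4 / ((n : ℝ) + 1) - 4 / ((n : ℝ) + 1 + 1) := by
        rw [div_sub_div _ _ (by positivity) (by positivity), div_le_div_iff₀ (by positivity)
          (by positivity)]
        have : (0 : ℝ) ≤ n := Nat.cast_nonneg n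
        nlinarith
      push_cast
      linarith
  refine (Finset.prod_le_prod (fun (j : Fin n) _ => (pnA_e_pos hB j).le) fun j _ => h1 j).trans ?_
  rw [← Real.exp_sum, ← Finset.mul_sum, Real.exp_le_exp,
    Fin.sum_univ_eq_sum_range (fun j => 1 / ((j : ℝ) + 1) ^ 2) n]
  have h3 : (0 : ℝ) ≤ 4 / ((n : ℝ) + 1) := by positivity
  nlinarith [h2 n]

/-- `kap_sq_ge`; `(p+1)(p+2) ≥ (2/9) (p+3)²`, `μ² / (μ² + B) ≥ 1 / (1 + B)` for `μ ≥ 1` -/
theorem kap_nu (hB : 0 ≤ B) {q : ℕ} (hq : 1 ≤ q) (p : ℕ) :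
    1 / (3 * (1 + B)) ≤ kap q p * nuB B p := by
  have h1 := kap_pos hq p
  have h2 := kap_sq_ge hq p
  have h3 := nuB_pos hB p
  have h4 := pnA_n2 hB p
  have hp : (0 : ℝ) ≤ p := Nat.cast_nonneg p
  obtain ⟨m, hm⟩ : ∃ m : ℝ, m = (((p : ℝ) + 3) / 2) ^ 2 := ⟨_, rfl⟩
  have h5 : 1 ≤ m := by rw [hm]; nlinarith
  have h6 : m ≤ 9 * kap q p ^ 2 := by rw [hm]; nlinarith
  rw [← hm] at h4
  rw [div_le_iff₀ (by positivity)]
  refine (one_le_pow_iff_of_nonneg (by positivity) (show (2 : ℕ) ≠ 0 by norm_num)).1 ?_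
  calc (1 : ℝ) = nuB B p ^ 2 * (m + B) := h4.symm
    _ ≤ nuB B p ^ 2 * (m * (1 + B) ^ 2) := by
        gcongr
        nlinarith [mul_nonneg hB (sub_nonneg.2 h5), mul_nonneg hB hB, mul_nonneg hB (zero_le_one.trans h5),
          mul_nonneg (mul_nonneg hB hB) (zero_le_one.trans h5)]
    _ ≤ nuB B p ^ 2 * (9 * kap q p ^ 2 * (1 + B) ^ 2) := by gcongr
    _ = _ := by ring

/-- `ρ = sB 0 / sB k ≥ 1`, `1 - 1/ρ ≤ ρ - 1 ≤ (ρ⁴ - 1) / 4`, `ρ⁴ - 1 = k (k+2) / (1 + B)` -/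
theorem sB_ratio (hB : 0 < B) (k : ℕ) : |1 - sB B k / sB B 0| ≤ ((k : ℝ) + 1) ^ 2 / B := by
  have h1 := pnA_s4 hB.le 0
  have h2 := pnA_s4 hB.le k
  have h3 := sB_pos hB.le 0
  have h4 := sB_pos hB.le k
  have hk : (1 : ℝ) ≤ ((k : ℝ) + 1) ^ 2 := one_le_pow₀ (le_add_of_nonneg_left (Nat.cast_nonneg k))
  simp only [Nat.cast_zero, zero_add, one_pow] at h1
  have h5 : (sB B k / sB B 0) ^ 4 = (1 + B) / (((k : ℝ) + 1) ^ 2 + B) := by
    rw [div_pow, div_eq_div_iff (by positivity) (by positivity), h2, mul_comm, h1]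
  obtain ⟨h6, h7⟩ := pnA_pow4 (div_pos h4 h3).le (by
    rw [h5, div_le_one (by positivity)]; linarith)
  rw [abs_of_nonneg (sub_nonneg.2 h7)]
  have h8 : 1 - (1 + B) / (((k : ℝ) + 1) ^ 2 + B) ≤ ((k : ℝ) + 1) ^ 2 / B := by
    rw [one_sub_div (by positivity), div_le_div_iff₀ (by positivity) hB]
    nlinarith
  linarith

/-! ### part B: the midpoint estimate -/

/-- `x = μ - t`, `y = μ + t`, `r⁴ = (μ²+B)² / ((x²+B)(y²+B))`,
`(x²+B)(y²+B) = (μ²+B)² - t² (2μ² - 2B - t²)`.  If `r ≥ 1`: `r - 1 ≤ (r⁴ - 1)/4`, `y² + B ≥ μ²`.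
If `r ≤ 1`: `1 - r ≤ 1/r - 1 ≤ (r⁻⁴ - 1)/4 ≤ t² / (2 (μ²+B))`. -/
theorem mid_bound (hB : 0 < B) {x y r : ℝ} (hx : 0 < x) (hxy : x ≤ y) (hr : 0 < r)
    (h : r ^ 4 * ((x ^ 2 + B) * (y ^ 2 + B)) = (((x + y) / 2) ^ 2 + B) ^ 2) :
    |r - 1| ≤ ((y - x) / 2) ^ 2 / (2 * (x ^ 2 + B)) := by
  obtain ⟨μ, hμ⟩ : ∃ μ, μ = (x + y) / 2 := ⟨_, rfl⟩
  obtain ⟨t, ht⟩ : ∃ t, t = (y - x) / 2 := ⟨_, rfl⟩
  rw [← hμ] at h
  rw [← ht]
  have t0 : 0 ≤ t := by linarith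
  have tμ : t ≤ μ := by linarith
  have xμ : x ≤ μ := by linarith
  have μy : μ ≤ y := by linarith
  have μ0 : 0 < μ := by linarith
  have hX : 0 < x ^ 2 + B := by positivity
  have hY : 0 < y ^ 2 + B := by positivity
  have hM : 0 < μ ^ 2 + B := by positivity
  have hP : (x ^ 2 + B) * (y ^ 2 + B) = (μ ^ 2 + B) ^ 2 - t ^ 2 * (2 * μ ^ 2 - 2 * B - t ^ 2) := by
    rw [hμ, ht]; ring
  have t2 : 0 ≤ t ^ 2 := sq_nonneg t
  rw [le_div_iff₀ (by positivity)]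
  rcases le_total 1 r with h1 | h1
  · rw [abs_of_nonneg (sub_nonneg.2 h1)]
    have a1 : 4 * (r - 1) ≤ r ^ 4 - 1 := by
      nlinarith [mul_nonneg (sq_nonneg (r - 1)) (show 0 ≤ r ^ 2 + 2 * r + 3 by positivity)]
    have a2 : μ ^ 2 ≤ y ^ 2 := by gcongr
    have a3 : (r ^ 4 - 1) * (x ^ 2 + B) * (y ^ 2 + B) ≤ 2 * t ^ 2 * (y ^ 2 + B) := by
      have : (r ^ 4 - 1) * (x ^ 2 + B) * (y ^ 2 + B) = t ^ 2 * (2 * μ ^ 2 - 2 * B - t ^ 2) := by
        linear_combination h - hP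
      rw [this]
      nlinarith [mul_le_mul_of_nonneg_left (show 2 * μ ^ 2 - 2 * B - t ^ 2 ≤ 2 * (y ^ 2 + B) by
        linarith) t2]
    have a4 := le_of_mul_le_mul_right a3 hY
    nlinarith [mul_le_mul_of_nonneg_right a1 hX.le]
  · rw [abs_of_nonpos (sub_nonpos.2 h1), neg_sub]
    have r4 : 0 < r ^ 4 := by positivity
    have a1 : 4 * r ^ 4 * (1 - r) ≤ 1 - r ^ 4 := by
      have b1 : r ^ 4 ≤ 1 := pow_le_one₀ hr.le h1
      have b2 : r ^ 4 ≤ r ^ 1 := pow_le_pow_of_le_one hr.le h1 (by norm_num)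
      have b3 : r ^ 4 ≤ r ^ 2 := pow_le_pow_of_le_one hr.le h1 (by norm_num)
      have b4 : r ^ 4 ≤ r ^ 3 := pow_le_pow_of_le_one hr.le h1 (by norm_num)
      have b5 : 4 * r ^ 4 ≤ 1 + r + r ^ 2 + r ^ 3 := by linarith [pow_one r]
      nlinarith [mul_le_mul_of_nonneg_right b5 (sub_nonneg.2 h1)]
    have a2 : t ^ 2 ≤ μ ^ 2 := by gcongr
    have a3 : (1 - r ^ 4) * (μ ^ 2 + B) ^ 2 ≤ r ^ 4 * (t ^ 2 * (2 * (μ ^ 2 + B))) := by
      have : (1 - r ^ 4) * (μ ^ 2 + B) ^ 2 = r ^ 4 * (t ^ 2 * (2 * B + t ^ 2 - 2 * μ ^ 2)) := by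
        linear_combination r ^ 4 * hP - h
      rw [this]
      gcongr
      nlinarith [sq_nonneg μ]
    have a4 : (r ^ 4 * (μ ^ 2 + B)) * ((1 - r) * (2 * (μ ^ 2 + B))) ≤
        (r ^ 4 * (μ ^ 2 + B)) * t ^ 2 := by
      nlinarith [mul_le_mul_of_nonneg_right a1 (sq_nonneg (μ ^ 2 + B))]
    have a5 := le_of_mul_le_mul_left a4 (by positivity)
    have a6 : x ^ 2 ≤ μ ^ 2 := by gcongr
    nlinarith [mul_le_mul_of_nonneg_left a6 (sub_nonneg.2 h1)]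

theorem h19_aux (hB : 0 < B) {x y b : ℝ} (hxy : x ≤ y) (hb : 0 < b) (hs : x + y = b + 2) :
    ((y - x) / 2) ^ 2 / (2 * (x ^ 2 + B)) ≤
      2 / (b ^ 2 + B) * (y - x) ^ 2 + 2 / (b ^ 4 * B) * (y - x) ^ 6 := by
  have d0 : 0 ≤ y - x := sub_nonneg.2 hxy
  have e : ((y - x) / 2) ^ 2 / (2 * (x ^ 2 + B)) = 1 / (8 * (x ^ 2 + B)) * (y - x) ^ 2 := by
    field_simp
    norm_num
  rw [e]
  rcases le_total (b / 4) x with h | h
  · refine le_add_of_le_of_nonneg (mul_le_mul_of_nonneg_right ?_ (sq_nonneg _)) (by positivity)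
    have h1 : (b / 4) ^ 2 ≤ x ^ 2 := by gcongr
    rw [div_le_div_iff₀ (by positivity) (by positivity)]
    nlinarith
  · refine le_add_of_nonneg_of_le (by positivity) ?_
    have h1 : (b / 2) ^ 4 ≤ (y - x) ^ 4 := by gcongr; linarith
    have h2 : 1 / (8 * (x ^ 2 + B)) ≤ 2 / (b ^ 4 * B) * (y - x) ^ 4 := by
      rw [div_mul_eq_mul_div, div_le_div_iff₀ (by positivity) (by positivity)]
      have h3 : (b / 2) ^ 4 * B ≤ (y - x) ^ 4 * (x ^ 2 + B) := by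
        gcongr
        linarith [sq_nonneg x]
      nlinarith
    calc 1 / (8 * (x ^ 2 + B)) * (y - x) ^ 2 ≤ 2 / (b ^ 4 * B) * (y - x) ^ 4 * (y - x) ^ 2 :=
          mul_le_mul_of_nonneg_right h2 (sq_nonneg _)
      _ = _ := by ring

theorem h19_sB4 (hB : 0 < B) (j : ℕ) : sB B j ^ 4 * (((j : ℝ) + 1) ^ 2 + B) = 1 := by
  have h : 0 < ((j : ℝ) + 1) ^ 2 + B := by positivity
  rw [sB, ← Real.rpow_natCast, ← Real.rpow_mul h.le]
  norm_num
  rw [Real.rpow_neg_one, inv_mul_cancel₀ h.ne']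

theorem h19_nu4 (hB : 0 < B) (p : ℕ) : nuB B p ^ 4 * ((((p : ℝ) + 3) / 2) ^ 2 + B) ^ 2 = 1 := by
  have h : 0 < (((p : ℝ) + 3) / 2) ^ 2 + B := by positivity
  have h2 : nuB B p ^ 2 * ((((p : ℝ) + 3) / 2) ^ 2 + B) = 1 := by
    rw [nuB, ← Real.rpow_natCast, ← Real.rpow_mul h.le]
    norm_num
    rw [Real.rpow_neg_one, inv_mul_cancel₀ h.ne']
  calc _ = (nuB B p ^ 2 * ((((p : ℝ) + 3) / 2) ^ 2 + B)) ^ 2 := by ring
    _ = 1 := by rw [h2, one_pow]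

theorem h19_r_le (hB : 0 < B) {p i j : ℕ} (h : i + j = p + 1) (hij : i ≤ j) :
    |sB B i * sB B j / nuB B p - 1| ≤ 2 / (((p : ℝ) + 1) ^ 2 + B) * ((j : ℝ) - i) ^ 2 +
      2 / (((p : ℝ) + 1) ^ 4 * B) * ((j : ℝ) - i) ^ 6 := by
  have hR : (i : ℝ) + j = p + 1 := by exact_mod_cast h
  have hij' : (i : ℝ) + 1 ≤ j + 1 := by exact_mod_cast Nat.succ_le_succ hij
  have hν := nuB_pos hB.le p
  have h1 := mid_bound hB (x := (i : ℝ) + 1) (y := (j : ℝ) + 1) (r := sB B i * sB B j / nuB B p)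
    (by positivity) hij' (div_pos (mul_pos (sB_pos hB.le i) (sB_pos hB.le j)) hν) (by
      have e : ((i : ℝ) + 1 + (j + 1)) / 2 = (p + 3) / 2 := by linarith
      rw [e, div_pow, div_mul_eq_mul_div, div_eq_iff (pow_pos hν 4).ne']
      have a1 := h19_sB4 hB i
      have a2 := h19_sB4 hB j
      have a3 := h19_nu4 hB p
      calc _ = (sB B i ^ 4 * (((i : ℝ) + 1) ^ 2 + B)) * (sB B j ^ 4 * (((j : ℝ) + 1) ^ 2 + B)) := by
            ring
        _ = 1 := by rw [a1, a2, one_mul]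
        _ = _ := by rw [← a3, mul_comm])
  have h2 := h19_aux hB hij' (b := (p : ℝ) + 1) (by positivity) (by linarith)
  rw [add_sub_add_right_eq_sub] at h1 h2
  exact h1.trans h2

/-- `mid_bound` with `x = min i j + 1`, `μ = (p+3)/2 ≥ (p+1)/2`; if `x ≥ μ/2` the first term
dominates, otherwise `|j - i| > μ` and the second does -/
theorem r_bound (hB : 0 < B) {p i j : ℕ} (h : i + j = p + 1) :
    |sB B i * sB B j / nuB B p - 1| ≤ 2 / (((p : ℝ) + 1) ^ 2 + B) * ((j : ℝ) - i) ^ 2 +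
      2 / (((p : ℝ) + 1) ^ 4 * B) * ((j : ℝ) - i) ^ 6 := by
  rcases le_total i j with hij | hij
  · exact h19_r_le hB h hij
  · have h1 := h19_r_le hB ((add_comm j i).trans h) hij
    have e2 : ((i : ℝ) - j) ^ 2 = ((j : ℝ) - i) ^ 2 := by ring
    have e6 : ((i : ℝ) - j) ^ 6 = ((j : ℝ) - i) ^ 6 := by ring
    rwa [e2, e6, mul_comm (sB B j)] at h1

/-! ### part C: sums -/

theorem h87_pos {s t : ℝ} (hs : 1 ≤ s) (ht : 0 ≤ t) :
    1 / (1 + t ^ 2 / s ^ 2) ≤ 2 * s * ((t + 1) / (s + |t + 1|) - (t - 1) / (s + |t - 1|)) := by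
  have hs0 : 0 < s := by linarith
  have e : 1 / (1 + t ^ 2 / s ^ 2) = s ^ 2 / (s ^ 2 + t ^ 2) := by field_simp
  rw [e, abs_of_nonneg (by linarith : 0 ≤ t + 1)]
  rcases le_total 1 t with h | h
  · rw [abs_of_nonneg (by linarith : 0 ≤ t - 1)]
    have h1 : 0 < s + (t - 1) := by linarith
    have h2 : 0 < s + (t + 1) := by linarith
    have e2 : 2 * s * ((t + 1) / (s + (t + 1)) - (t - 1) / (s + (t - 1))) =
        4 * s ^ 2 / ((s + (t + 1)) * (s + (t - 1))) := by field_simp; ring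
    rw [e2, div_le_div_iff₀ (by positivity) (mul_pos h2 h1)]
    have : (s + (t + 1)) * (s + (t - 1)) ≤ 4 * (s ^ 2 + t ^ 2) := by nlinarith [sq_nonneg (s - t)]
    nlinarith [sq_nonneg s]
  · rw [abs_of_nonpos (by linarith : t - 1 ≤ 0)]
    have h1 : s ^ 2 / (s ^ 2 + t ^ 2) ≤ 1 := div_le_one_of_le₀ (by nlinarith) (by positivity)
    have h2 : (t + 1) / (s + 2) ≤ (t + 1) / (s + (t + 1)) :=
      div_le_div_of_nonneg_left (by linarith) (by linarith) (by linarith)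
    have h3 : (1 - t) / (s + 2) ≤ (1 - t) / (s + -(t - 1)) :=
      div_le_div_of_nonneg_left (by linarith) (by linarith) (by linarith)
    have h4 : (t - 1) / (s + -(t - 1)) = -((1 - t) / (s + -(t - 1))) := by ring
    have h5 : (t + 1) / (s + 2) + (1 - t) / (s + 2) = 2 / (s + 2) := by ring
    have h6 : 1 ≤ 2 * s * (2 / (s + 2)) := by
      rw [← mul_div_assoc, le_div_iff₀ (by linarith)]; linarith
    have h7 : 2 * s * (2 / (s + 2)) ≤
        2 * s * ((t + 1) / (s + (t + 1)) - (t - 1) / (s + -(t - 1))) :=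
      mul_le_mul_of_nonneg_left (by linarith) (by linarith)
    linarith

theorem h87_all {s : ℝ} (hs : 1 ≤ s) (t : ℝ) :
    1 / (1 + t ^ 2 / s ^ 2) ≤ 2 * s * ((t + 1) / (s + |t + 1|) - (t - 1) / (s + |t - 1|)) := by
  rcases le_total 0 t with h | h
  · exact h87_pos hs h
  · have := h87_pos hs (neg_nonneg.2 h)
    rw [neg_sq, show -t + 1 = -(t - 1) by ring, show -t - 1 = -(t + 1) by ring, abs_neg, abs_neg,
      neg_div, neg_div] at this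
    linarith

/-- terms with `|b - 2 i| ≤ ⌈√b⌉` are `≤ 1`, the others `≤ b / (b - 2i)²` (telescope) -/
theorem wsum : ∃ C : ℝ, ∀ b : ℕ, 1 ≤ b →
    ∑ i ∈ Finset.range (b + 1), 1 / (1 + ((b : ℝ) - 2 * i) ^ 2 / b) ≤ C * Real.sqrt b := by
  refine ⟨4, fun b hb => ?_⟩
  have hb' : (1 : ℝ) ≤ b := by exact_mod_cast hb
  have hs : 1 ≤ Real.sqrt b := Real.one_le_sqrt.2 hb'
  set s := Real.sqrt b with hsd
  have hs2 : s ^ 2 = b := Real.sq_sqrt (by linarith)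
  set G : ℕ → ℝ := fun i => ((b : ℝ) - 2 * i + 1) / (s + |(b : ℝ) - 2 * i + 1|) with hG
  have hGb : ∀ i, |G i| ≤ 1 := fun i => by
    rw [hG, abs_div]
    refine div_le_one_of_le₀ ?_ (abs_nonneg _)
    rw [abs_of_nonneg (a := s + _) (by positivity)]
    linarith
  calc ∑ i ∈ Finset.range (b + 1), 1 / (1 + ((b : ℝ) - 2 * i) ^ 2 / b)
      ≤ ∑ i ∈ Finset.range (b + 1), 2 * s * (G i - G (i + 1)) := by
        refine Finset.sum_le_sum fun i _ => ?_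
        have h := h87_all hs ((b : ℝ) - 2 * i)
        rw [hs2] at h
        refine h.trans (le_of_eq ?_)
        simp only [hG]
        push_cast
        rw [show (b : ℝ) - 2 * (i + 1) + 1 = b - 2 * i - 1 by ring]
    _ = 2 * s * (G 0 - G (b + 1)) := by rw [← Finset.mul_sum, Finset.sum_range_sub']
    _ ≤ 4 * s := by
        have h1 := (abs_le.1 (hGb 0)).2
        have h2 := (abs_le.1 (hGb (b + 1))).1
        nlinarith

/-- dominated convergence (bound `2 (p+1)^(-3/2)`), or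
`((p+1)² + B)² ≥ ((p+1)²)^(15/8) B^(1/8)` -/
theorem tail {ε : ℝ} (hε : 0 < ε) : ∃ B₀ : ℝ, 1 ≤ B₀ ∧ ∀ B, B₀ ≤ B → ∀ P : ℕ,
    ∑ p ∈ Finset.range P, Real.sqrt (p + 1) *
      (((p : ℝ) + 1) ^ 2 / (((p : ℝ) + 1) ^ 2 + B) ^ 2 + 1 / (((p : ℝ) + 1) ^ 2 * B ^ 2)) ≤ ε := by
  set f : ℝ → ℕ → ℝ := fun B p => Real.sqrt (p + 1) *
    (((p : ℝ) + 1) ^ 2 / (((p : ℝ) + 1) ^ 2 + B) ^ 2 + 1 / (((p : ℝ) + 1) ^ 2 * B ^ 2)) with hf
  have hs : Summable fun p : ℕ => 2 * (1 / ((p : ℝ) + 1) ^ (3 / 2 : ℝ)) := by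
    have := (summable_nat_add_iff 1).2
      (Real.summable_one_div_nat_rpow.2 (show (1 : ℝ) < 3 / 2 by norm_num))
    push_cast at this
    exact this.mul_left 2
  have h0 : ∀ B p, 0 ≤ f B p := fun B p => by simp only [hf]; positivity
  have hb : ∀ B, 1 ≤ B → ∀ p, ‖f B p‖ ≤ 2 * (1 / ((p : ℝ) + 1) ^ (3 / 2 : ℝ)) := fun B hB p => by
    rw [Real.norm_of_nonneg (h0 B p)]
    have hx : (0 : ℝ) < (p : ℝ) + 1 := by positivity
    have e : 1 / ((p : ℝ) + 1) ^ (3 / 2 : ℝ) = Real.sqrt (p + 1) * (1 / ((p : ℝ) + 1) ^ 2) := by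
      rw [Real.sqrt_eq_rpow, mul_one_div, div_eq_div_iff (by positivity) (by positivity),
        ← Real.rpow_add hx, one_mul, ← Real.rpow_natCast]
      norm_num
    have h1 : ((p : ℝ) + 1) ^ 2 / (((p : ℝ) + 1) ^ 2 + B) ^ 2 ≤ 1 / ((p : ℝ) + 1) ^ 2 := by
      rw [div_le_div_iff₀ (by positivity) (by positivity)]
      nlinarith [sq_nonneg ((p : ℝ) + 1), mul_nonneg (sq_nonneg ((p : ℝ) + 1)) (zero_le_one.trans hB)]
    have h2 : 1 / (((p : ℝ) + 1) ^ 2 * B ^ 2) ≤ 1 / ((p : ℝ) + 1) ^ 2 :=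
      one_div_le_one_div_of_le (by positivity)
        (le_mul_of_one_le_right (sq_nonneg _) (one_le_pow₀ hB))
    rw [e, mul_left_comm]
    exact mul_le_mul_of_nonneg_left (by linarith) (Real.sqrt_nonneg _)
  have hl : ∀ p, Filter.Tendsto (fun B => f B p) Filter.atTop (nhds 0) := fun p => by
    have t1 : Filter.Tendsto (fun B : ℝ => ((p : ℝ) + 1) ^ 2 / (((p : ℝ) + 1) ^ 2 + B) ^ 2)
        Filter.atTop (nhds 0) :=
      Filter.Tendsto.const_div_atTop ((Filter.tendsto_pow_atTop two_ne_zero).comp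
        (Filter.tendsto_atTop_add_const_left _ _ Filter.tendsto_id)) _
    have t2 : Filter.Tendsto (fun B : ℝ => 1 / (((p : ℝ) + 1) ^ 2 * B ^ 2))
        Filter.atTop (nhds 0) :=
      Filter.Tendsto.const_div_atTop
        ((Filter.tendsto_pow_atTop two_ne_zero).const_mul_atTop (by positivity)) _
    have t3 := (t1.add t2).const_mul (Real.sqrt (p + 1))
    rw [add_zero, mul_zero] at t3
    exact t3
  have ht := tendsto_tsum_of_dominated_convergence hs hl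
    ((Filter.eventually_ge_atTop 1).mono hb)
  rw [tsum_zero] at ht
  obtain ⟨B₁, hB₁⟩ := Filter.eventually_atTop.1 (ht.eventually (ge_mem_nhds hε))
  refine ⟨max 1 B₁, le_max_left _ _, fun B hB P => le_trans ?_ (hB₁ B ((le_max_right _ _).trans hB))⟩
  exact (hs.of_norm_bounded (hb B ((le_max_left _ _).trans hB))).sum_le_tsum _ fun p _ => h0 B p

/-! ### part D: the vectors `fN` -/

theorem fN_zero (q : ℕ) (u : ℂ × ℂ) : fN q 0 u = kv q u := by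
  funext k
  simp [fN, kv]

/-- `C(q+1,k+1) = (q+1)/(k+1) C(q,k)` -/
theorem fN_succ {q : ℕ} (hq : 1 ≤ q) (m : ℕ) (u : ℂ × ℂ) : fN (q + 1) (m + 1) u =
    Fin.cons 0 fun k : Fin (q + 1) =>
      (((Real.sqrt q / Real.sqrt (q + 1)) ^ m * dd k : ℝ) : ℂ) * fN q m u k := by
  funext k
  refine Fin.cases ?_ (fun k => ?_) k
  · simp [fN]
  · have hq0 : (0 : ℝ) < Real.sqrt q := Real.sqrt_pos.2 (by exact_mod_cast hq)
    have hq1 : (0 : ℝ) < Real.sqrt (q + 1) := Real.sqrt_pos.2 (by positivity)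
    have hk1 : (0 : ℝ) < Real.sqrt ((k : ℕ) + 1) := Real.sqrt_pos.2 (by positivity)
    have h1 : Real.sqrt ((q + 1).choose (k + 1) : ℕ) * Real.sqrt ((k : ℕ) + 1) =
        Real.sqrt (q + 1) * Real.sqrt (q.choose k) := by
      rw [← Real.sqrt_mul (by positivity), ← Real.sqrt_mul (by positivity)]
      congr 1
      exact_mod_cast (Nat.add_one_mul_choose_eq q k).symm
    have h2 : Real.sqrt ((q + 1).choose (k + 1) : ℕ) / Real.sqrt ((q + 1 : ℕ) : ℝ) ^ (m + 1) =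
        ((Real.sqrt q / Real.sqrt (q + 1)) ^ m * dd k) *
          (Real.sqrt (q.choose k) / Real.sqrt q ^ m) := by
      have h3 : Real.sqrt ((q + 1).choose (k + 1) : ℕ) =
          Real.sqrt (q + 1) * Real.sqrt (q.choose k) / Real.sqrt ((k : ℕ) + 1) := by
        rw [eq_div_iff hk1.ne', h1]
      rw [h3, dd, Nat.cast_succ, div_pow]
      field_simp
      ring
    simp only [fN, Fin.cons_succ, Fin.val_succ, Nat.add_le_add_iff_right, Nat.add_sub_add_right]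
    split_ifs with h
    · rw [h2, Complex.ofReal_mul, map_mul, map_mul, map_mul, Complex.conj_ofReal,
        Complex.conj_ofReal, map_mul, Complex.conj_ofReal, map_mul]
      ring
    · simp

theorem tau_ge {q : ℕ} (hq : 1 ≤ q) (m : ℕ) :
    (1 / 2 : ℝ) ^ m ≤ (Real.sqrt q / Real.sqrt (q + 1)) ^ m := by
  have hq' : (1 : ℝ) ≤ q := by exact_mod_cast hq
  have hq1 : (0 : ℝ) < Real.sqrt (q + 1) := Real.sqrt_pos.2 (by positivity)
  refine pow_le_pow_left₀ (by norm_num) ?_ m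
  rw [le_div_iff₀ hq1]
  have h : Real.sqrt (q + 1) ≤ 2 * Real.sqrt q := by
    refine Real.sqrt_le_iff.2 ⟨by positivity, ?_⟩
    rw [mul_pow, Real.sq_sqrt (by positivity)]
    linarith
  linarith

theorem m81_sq {q : ℕ} (hq : 1 ≤ q) (m : ℕ) {u : ℂ × ℂ} (hu : IsUnitSp u) {R : ℝ}
    (hR : q * ‖u.2‖ ^ 2 ≤ R) (k : Fin (q + 1)) :
    ‖fN q m u k‖ ^ 2 ≤ max 1 R ^ (k : ℕ) / (k : ℕ).factorial := by
  have hT : (1 : ℝ) ≤ max 1 R := le_max_left _ _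
  have hq0 : (0 : ℝ) < q := by exact_mod_cast hq
  unfold fN
  split_ifs with hm
  · obtain ⟨l, hl⟩ := Nat.exists_eq_add_of_le hm
    have h1 : ‖u.1‖ ^ 2 ≤ 1 := by
      unfold IsUnitSp at hu
      nlinarith [sq_nonneg ‖u.2‖]
    have hc : (q.choose k : ℝ) ≤ (q : ℝ) ^ (k : ℕ) / (k : ℕ).factorial := Nat.choose_le_pow_div _ _
    have hs : (Real.sqrt (q.choose k) / Real.sqrt q ^ m) ^ 2 = q.choose k / (q : ℝ) ^ m := by
      rw [div_pow, Real.sq_sqrt (Nat.cast_nonneg _), ← pow_mul, mul_comm m 2, pow_mul,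
        Real.sq_sqrt hq0.le]
    rw [RCLike.norm_conj, norm_mul, norm_mul, norm_pow, norm_pow, Complex.norm_real,
      Real.norm_eq_abs, mul_pow, sq_abs, hs, mul_pow, ← pow_mul, ← pow_mul, mul_comm _ 2,
      mul_comm _ 2, pow_mul, pow_mul]
    have e : (k : ℕ) - m = l := by omega
    rw [e]
    have h2 : (‖u.1‖ ^ 2) ^ (q - k) ≤ 1 := pow_le_one₀ (sq_nonneg _) h1
    have h3 : (q * ‖u.2‖ ^ 2) ^ l ≤ max 1 R ^ (k : ℕ) :=
      (pow_le_pow_left₀ (by positivity) (hR.trans (le_max_right 1 R)) l).trans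
        (pow_le_pow_right₀ hT (by omega))
    calc (q.choose k : ℝ) / (q : ℝ) ^ m * ((‖u.1‖ ^ 2) ^ (q - k) * (‖u.2‖ ^ 2) ^ l)
        ≤ (q : ℝ) ^ (k : ℕ) / (k : ℕ).factorial / (q : ℝ) ^ m * (1 * (‖u.2‖ ^ 2) ^ l) := by
          gcongr
      _ = (q * ‖u.2‖ ^ 2) ^ l / (k : ℕ).factorial := by
          rw [mul_pow, show (q : ℝ) ^ (k : ℕ) = (q : ℝ) ^ m * (q : ℝ) ^ l by rw [← pow_add, ← hl]]
          field_simp
      _ ≤ max 1 R ^ (k : ℕ) / (k : ℕ).factorial := by gcongr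
  · rw [norm_zero, zero_pow two_ne_zero]
    positivity

/-- `‖fN k‖² ≤ (q ‖u.2‖²)^(k-m) / k! ≤ (max 1 R)^k / k!` (`Nat.choose_le_pow_div`), `k + 1 ≤ 2^k`,
`Real.sum_le_exp_of_nonneg` -/
theorem fN_mom {q : ℕ} (hq : 1 ≤ q) (m : ℕ) {u : ℂ × ℂ} (hu : IsUnitSp u) {R : ℝ}
    (hR : q * ‖u.2‖ ^ 2 ≤ R) :
    ∑ k : Fin (q + 1), (((k : ℕ) : ℝ) + 1) ^ 4 * ‖fN q m u k‖ ^ 2 ≤ Real.exp (16 * max 1 R) := by
  have hT : (0 : ℝ) ≤ max 1 R := zero_le_one.trans (le_max_left _ _)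
  refine le_trans ?_ (Real.sum_le_exp_of_nonneg (by positivity) (q + 1))
  rw [Finset.sum_range]
  refine Finset.sum_le_sum fun k _ => ?_
  have h1 : ((k : ℕ) : ℝ) + 1 ≤ 2 ^ (k : ℕ) := by
    exact_mod_cast Nat.succ_le_of_lt (Nat.lt_two_pow_self (n := (k : ℕ)))
  have h2 : (((k : ℕ) : ℝ) + 1) ^ 4 ≤ 16 ^ (k : ℕ) := by
    calc (((k : ℕ) : ℝ) + 1) ^ 4 ≤ (2 ^ (k : ℕ)) ^ 4 := pow_le_pow_left₀ (by positivity) h1 4
      _ = 16 ^ (k : ℕ) := by rw [← pow_mul, mul_comm, pow_mul]; norm_num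
  calc (((k : ℕ) : ℝ) + 1) ^ 4 * ‖fN q m u k‖ ^ 2
      ≤ 16 ^ (k : ℕ) * (max 1 R ^ (k : ℕ) / (k : ℕ).factorial) :=
        mul_le_mul h2 (m81_sq hq m hu hR k) (sq_nonneg _) (by positivity)
    _ = (16 * max 1 R) ^ (k : ℕ) / (k : ℕ).factorial := by rw [mul_pow, mul_div_assoc]

theorem fo_eq (Q : ℕ) (a : S2) (m : ℕ) (w : S2) :
    fo Q a m w = rho Q (spin a) *ᵥ fN Q m (act (spInv (spin a)) (spin w)) := by
  have h1 : (act (spInv (spin a)) (spin w)).1 =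
      conj (spin a).1 * (spin w).1 + conj (spin a).2 * (spin w).2 := by
    simp only [act, spInv, map_neg]
    ring
  have h2 : (act (spInv (spin a)) (spin w)).2 = wedge (spin a) (spin w) := by
    simp only [act, spInv, wedge, Complex.conj_conj]
    ring
  funext j
  simp only [fo, Finset.sum_apply, Matrix.mulVec, dotProduct, fN, h1, h2]
  refine Finset.sum_congr rfl fun k _ => ?_
  split_ifs
  · simp only [Pi.smul_apply, smul_eq_mul, orb]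
    ring
  · simp

/-- `spin_wedge_sq`, `dq_sq` -/
theorem act_snd_sq (Q : ℕ) (a w : S2) :
    Q * ‖(act (spInv (spin a)) (spin w)).2‖ ^ 2 = dq Q a w ^ 2 := by
  have h2 : (act (spInv (spin a)) (spin w)).2 =
      -(spin a).2 * (spin w).1 + (spin a).1 * (spin w).2 := by
    simp only [act, spInv, Complex.conj_conj]
  rw [h2, spin_wedge_sq, dq_sq, tS_symm]

end Crest.Agent.R340.Pn
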