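import Crest.Agent.R340.IfAlg
import Crest.Agent.R340.GeoLRo
import Crest.Agent.R340.PnNum
import Crest.Agent.R340.PnAbs

/-! # Row 340, KD: `fo` is localised and Lipschitz; moving one pin -/

set_option autoImplicit false

namespace Crest.Agent.R340.Pin

open Matrix MeasureTheory Crest.MathPhysics.Laughlin
open scoped Matrix.Norms.L2Operator MatrixOrder ComplexOrder ComplexConjugate

theorem km_fo_sum (Q : ℕ) (b : S2) (m : ℕ) (w : S2) :
    fo Q b m w = ∑ k, Pn.fN Q m (act (spInv (spin b)) (spin w)) k • orb Q b k := by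
  rw [Pn.fo_eq]
  funext j
  simp only [Finset.sum_apply, Matrix.mulVec, dotProduct, Pi.smul_apply, smul_eq_mul, orb,
    mul_comm]

theorem km_sum {q : ℕ} (hq : 1 ≤ q) (m : ℕ) {u : ℂ × ℂ} (hu : IsUnitSp u) {R : ℝ}
    (hR : q * ‖u.2‖ ^ 2 ≤ R) {e : ℝ} (he : 0 ≤ e) :
    ∑ k : Fin (q + 1), ‖Pn.fN q m u k‖ * e ^ (k : ℕ) ≤ Real.exp (2 * e ^ 2 * max 1 R) + 2 := by
  have hT : (0 : ℝ) ≤ max 1 R := zero_le_one.trans (le_max_left _ _)
  have h1 := Real.sum_le_exp_of_nonneg (x := 2 * e ^ 2 * max 1 R) (by positivity) (q + 1)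
  have h2 := sum_geometric_two_le (q + 1)
  refine le_trans ?_ (add_le_add h1 h2)
  rw [← Finset.sum_add_distrib, Finset.sum_range]
  refine Finset.sum_le_sum fun k _ => ?_
  have h3 := Pn.m81_sq hq m hu hR k
  have h4 : ∀ p l : ℝ, 0 < l → 0 ≤ p → p ≤ l * p ^ 2 + 1 / l := by
    intro p l hl hp
    rw [← sub_nonneg]
    have : l * p ^ 2 + 1 / l - p = ((l * p - 1) ^ 2 + l * p) / l := by field_simp; ring
    rw [this]
    positivity
  refine (h4 _ (2 ^ (k : ℕ)) (by positivity) (by positivity)).trans ?_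
  rw [_root_.one_div_pow]
  refine add_le_add ?_ le_rfl
  calc (2 : ℝ) ^ (k : ℕ) * (‖Pn.fN q m u k‖ * e ^ (k : ℕ)) ^ 2
      = (2 * e ^ 2) ^ (k : ℕ) * ‖Pn.fN q m u k‖ ^ 2 := by
        rw [mul_pow, mul_pow, ← pow_mul, ← pow_mul, mul_comm 2 (k : ℕ)]; ring
    _ ≤ (2 * e ^ 2) ^ (k : ℕ) * (max 1 R ^ (k : ℕ) / (k : ℕ).factorial) := by gcongr
    _ = _ := by rw [mul_pow (2 * e ^ 2), mul_div_assoc]

theorem OL_fo' (r a : ℝ) : ∃ C, ∀ Q, 1 ≤ Q → ∀ (b w : S2) (m : ℕ), m ≤ 3 → dq Q b w ≤ r →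
    OL Q 1 a C w (cC (fo Q b m w)) := by
  set A := |a| with hA
  have A0 : 0 ≤ A := abs_nonneg a
  set S := Real.exp (2 * Real.exp A ^ 2 * max 1 (r ^ 2)) + 2 with hS
  have S0 : 0 ≤ S := by positivity
  refine ⟨Real.exp (A ^ 2 / 2 + A * r) * S, fun Q hQ b w m _ hr => ?_⟩
  have d0 := dq_nonneg Q b w
  have r0 : 0 ≤ r := d0.trans hr
  have hu := (spin_unit b).inv.act (spin_unit w)
  have hR : Q * ‖(act (spInv (spin b)) (spin w)).2‖ ^ 2 ≤ r ^ 2 := by
    rw [Pn.act_snd_sq]; exact pow_le_pow_left₀ d0 hr 2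
  have hs := km_sum hQ m hu hR (Real.exp_pos A).le
  set c := Pn.fN Q m (act (spInv (spin b)) (spin w)) with hc
  have e1 : 1 ≤ Real.exp (A ^ 2 / 2 + A * r) := Real.one_le_exp (by positivity)
  refine ⟨?_, fun y => ?_⟩
  · rw [km_fo_sum, cC_sum]
    refine (norm_sum_le _ _).trans (le_trans (Finset.sum_le_sum fun k _ => ?_)
      (hs.trans (le_mul_of_one_le_left S0 e1)))
    rw [cC_smul, norm_smul, RCLike.norm_conj]
    exact mul_le_mul_of_nonneg_left ((norm_cC_orb_le Q b k).trans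
      (one_le_pow₀ (Real.one_le_exp A0))) (norm_nonneg _)
  · rw [gloc_cC, km_fo_sum, dotProduct_sum]
    refine (norm_sum_le _ _).trans ?_
    have W : 0 ≤ Real.exp (A ^ 2 / 2 + A * r) * wt 1 a (dq Q w y) :=
      mul_nonneg (Real.exp_pos _).le (Real.exp_pos _).le
    refine le_trans ?_ ((mul_le_mul_of_nonneg_left hs W).trans_eq (by ring))
    rw [Finset.mul_sum]
    refine Finset.sum_le_sum fun k _ => ?_
    rw [dotProduct_smul, norm_smul, mul_left_comm]
    refine mul_le_mul_of_nonneg_left ((orb_overlap_le Q y b k).trans ?_) (norm_nonneg _)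
    rw [wt, Real.rpow_one, ← Real.exp_nat_mul, ← Real.exp_add, ← Real.exp_add]
    refine Real.exp_le_exp.2 ?_
    have t := dq_tri Q w b y
    rw [dq_symm Q w b, dq_symm Q b y] at t
    have k1 : Real.sqrt k ≤ (k : ℕ) := by
      refine Real.sqrt_le_iff.2 ⟨by positivity, ?_⟩
      exact_mod_cast Nat.le_self_pow two_ne_zero _
    have h2 : a * dq Q w y ≤ A * dq Q w y :=
      mul_le_mul_of_nonneg_right (le_abs_self a) (dq_nonneg _ _ _)
    have h3 : A * dq Q w y ≤ A * (r + dq Q y b) := mul_le_mul_of_nonneg_left (by linarith) A0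
    have h4 := mul_le_mul_of_nonneg_left k1 A0
    nlinarith [sq_nonneg (Real.sqrt k - dq Q y b + A)]

theorem km_choose (n j m : ℕ) : (m + n).choose (m + j) ≤ (m + n) ^ m * n.choose j := by
  induction m with
  | zero => simp
  | succ m ih =>
    have h := Nat.add_one_mul_choose_eq (m + n) (m + j)
    have h2 : (m + n + 1).choose (m + j + 1) ≤ (m + n + 1) * (m + n).choose (m + j) := by
      rw [h]; exact Nat.le_mul_of_pos_right _ (Nat.succ_pos _)
    rw [show m + 1 + n = m + n + 1 by ring, show m + 1 + j = m + j + 1 by ring, pow_succ',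
      mul_assoc]
    refine h2.trans (Nat.mul_le_mul_left _ (ih.trans (Nat.mul_le_mul_right _ ?_)))
    exact Nat.pow_le_pow_left (Nat.le_succ _) _

theorem km_fN {m n : ℕ} (hq : 1 ≤ m + n) (u u' : ℂ × ℂ) (z : ℂ) :
    nq (Pn.fN (m + n) m u' - z • Pn.fN (m + n) m u) ≤ nq (kv n u' - z • kv n u) := by
  have hq0 : (0 : ℝ) < (m + n : ℕ) := by exact_mod_cast hq
  set X : ℕ → ℝ := fun j => ‖conj (u'.1 ^ (n - j) * u'.2 ^ j) - z * conj (u.1 ^ (n - j) * u.2 ^ j)‖ ^ 2
    with hX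
  set F : ℕ → ℝ := fun k => if m ≤ k then ((m + n).choose k : ℝ) / ((m + n : ℕ) : ℝ) ^ m * X (k - m)
    else 0 with hF
  have h1 : nq (Pn.fN (m + n) m u' - z • Pn.fN (m + n) m u) = ∑ k ∈ Finset.range (m + (n + 1)), F k := by
    rw [Pn.nq_eq, ← add_assoc, Finset.sum_range]
    refine Finset.sum_congr rfl fun k _ => ?_
    simp only [Pi.sub_apply, Pi.smul_apply, smul_eq_mul, Pn.fN, hF, hX]
    split_ifs with hm
    · have hs : (Real.sqrt ((m + n).choose k) / Real.sqrt (m + n : ℕ) ^ m) ^ 2 =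
          (m + n).choose k / ((m + n : ℕ) : ℝ) ^ m := by
        rw [div_pow, Real.sq_sqrt (Nat.cast_nonneg _), ← pow_mul, mul_comm m 2, pow_mul,
          Real.sq_sqrt hq0.le]
      rw [show n - ((k : ℕ) - m) = m + n - k by omega, ← hs, map_mul, map_mul (starRingEnd ℂ) _ (_ * _),
        Complex.conj_ofReal, mul_left_comm z, ← mul_sub, norm_mul, mul_pow, Complex.norm_real,
        Real.norm_eq_abs, sq_abs]
    · simp
  have h2 : nq (kv n u' - z • kv n u) = ∑ j ∈ Finset.range (n + 1), (n.choose j : ℝ) * X j := by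
    rw [Pn.nq_eq, Finset.sum_range]
    refine Finset.sum_congr rfl fun k _ => ?_
    simp only [Pi.sub_apply, Pi.smul_apply, smul_eq_mul, kv, hX]
    rw [mul_left_comm z, ← mul_sub, norm_mul, mul_pow, Complex.norm_real, Real.norm_eq_abs, sq_abs,
      Real.sq_sqrt (Nat.cast_nonneg _)]
  rw [h1, h2, Finset.sum_range_add, Finset.sum_eq_zero fun k hk => by
    simp only [hF]; exact if_neg (by simpa using hk), zero_add]
  refine Finset.sum_le_sum fun j _ => ?_
  simp only [hF]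
  rw [if_pos (Nat.le_add_right _ _), Nat.add_sub_cancel_left]
  refine mul_le_mul_of_nonneg_right ?_ (sq_nonneg _)
  rw [div_le_iff₀' (by positivity)]
  exact_mod_cast km_choose n j m

theorem km_proj {ι : Type} [Fintype ι] {p p' : ι → ℂ} (h : star p ⬝ᵥ p = 1)
    (h' : star p' ⬝ᵥ p' = 1) : nq (p' - (star p ⬝ᵥ p') • p) = 1 - ‖star p ⬝ᵥ p'‖ ^ 2 := by
  have e : star p' ⬝ᵥ p = star (star p ⬝ᵥ p') := by rw [← star_dotProduct_star, star_star]
  rw [nq, star_sub, star_smul, sub_dotProduct, dotProduct_sub, dotProduct_sub, smul_dotProduct,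
    smul_dotProduct, dotProduct_smul, dotProduct_smul, h, h', e]
  generalize star p ⬝ᵥ p' = z
  simp only [smul_eq_mul, mul_one, sub_self, sub_zero, RCLike.star_def, Complex.mul_conj']
  norm_cast

/-- `fo` is Lipschitz in `w` up to a scalar -/
theorem fo_lip {Q m : ℕ} (hQ : 1 ≤ Q) (hm : m ≤ Q) (b w w' : S2) :
    ∃ z : ℂ, nq (fo Q b m w' - z • fo Q b m w) ≤ dq Q w w' ^ 2 := by
  obtain ⟨n, rfl⟩ := Nat.exists_eq_add_of_le hm
  set u := act (spInv (spin b)) (spin w) with hu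
  set u' := act (spInv (spin b)) (spin w') with hu'
  have one : ∀ v : ℂ × ℂ, IsUnitSp v → star (kv n v) ⬝ᵥ kv n v = 1 := fun v hv => by
    rw [kv_dot, mul_comm v.1, mul_comm v.2, g29_unit hv, one_pow]
  refine ⟨star (kv n u) ⬝ᵥ kv n u', ?_⟩
  rw [Pn.fo_eq, Pn.fo_eq, ← mulVec_smul, ← mulVec_sub]
  refine (Pn.nq_mulVec_le _ _).trans ?_
  rw [CStarRing.norm_of_mem_unitary (rho_unitary _ (spin_unit b)), one_pow, one_mul]
  refine (km_fN hQ u u' _).trans ?_
  rw [km_proj (one _ ((spin_unit b).inv.act (spin_unit w)))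
    (one _ ((spin_unit b).inv.act (spin_unit w'))), kv_dot, norm_pow, ← pow_mul, mul_comm n 2,
    pow_mul]
  have e : u.1 * conj u'.1 + u.2 * conj u'.2 =
      conj (spin w').1 * (spin w).1 + conj (spin w').2 * (spin w).2 := by
    have := g29_unit (spin_unit b)
    simp only [hu, hu', act, spInv, map_sub, map_add, map_mul, map_neg, Complex.conj_conj]
    linear_combination (conj (spin w').1 * (spin w).1 + conj (spin w').2 * (spin w).2) * this
  rw [e, spin_inner_sq, dq_sq]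
  have t := tS_mem w w'
  have h1 := one_add_mul_le_pow (a := -tS w w') (by linarith [t.2]) n
  rw [← sub_eq_add_neg] at h1
  have h2 : (n : ℝ) * tS w w' ≤ (m + n : ℕ) * tS w w' :=
    mul_le_mul_of_nonneg_right (by exact_mod_cast Nat.le_add_left _ _) t.1
  linarith

theorem km_abs {𝔄 : Type} [CStarAlgebra 𝔄] [PartialOrder 𝔄] [StarOrderedRing 𝔄]
    {P E E' c y : 𝔄} {g d : ℝ} (hg : 0 < g) (hP : IsStarProjection P) (hE : IsStarProjection E)
    (hE' : IsStarProjection E') (pE : P * E = E) (h : g • (P - E') ≤ P * (star c * c) * P)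
    (hc : c * E = y * E) (hy : ‖y‖ ≤ d) : ‖E' * E - E‖ ≤ d / Real.sqrt g := by
  have sE := hE.isSelfAdjoint.star_eq
  have Ep : E * P = E := by
    simpa only [star_mul, sE, hP.isSelfAdjoint.star_eq] using congrArg star pE
  have h1 := star_left_conjugate_le_conjugate h E
  have e1 : star E * (g • (P - E')) * E = g • (star (E' * E - E) * (E' * E - E)) := by
    rw [mul_smul_comm, smul_mul_assoc, star_sub, star_mul, sE, hE'.isSelfAdjoint.star_eq]
    congr 1
    have a1 : E * E' * (E' * E) = E * E' * E := by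
      rw [← mul_assoc, mul_assoc E, hE'.isIdempotentElem.eq]
    rw [sub_mul, mul_sub, mul_sub, mul_sub, sub_mul, a1, Ep, ← mul_assoc]
    abel
  have e2 : star E * (P * (star c * c) * P) * E = star (y * E) * (y * E) := by
    rw [← hc, star_mul, sE]
    calc E * (P * (star c * c) * P) * E = E * P * (star c * c) * (P * E) := by noncomm_ring
      _ = _ := by rw [Ep, pE]; noncomm_ring
  rw [e1, e2] at h1
  have h2 := CStarAlgebra.norm_le_norm_of_nonneg_of_le
    (smul_nonneg hg.le (star_mul_self_nonneg _)) h1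
  rw [norm_smul, CStarRing.norm_star_mul_self, CStarRing.norm_star_mul_self,
    Real.norm_of_nonneg hg.le] at h2
  have h3 : ‖y * E‖ ≤ d :=
    (norm_mul_le _ _).trans ((mul_le_of_le_one_right (norm_nonneg _) hE.norm_le).trans hy)
  have d0 : 0 ≤ d := (norm_nonneg _).trans hy
  rw [le_div_iff₀ (Real.sqrt_pos.2 hg)]
  refine (pow_le_pow_iff_left₀ (by positivity) d0 two_ne_zero).1 ?_
  rw [mul_pow, Real.sq_sqrt hg.le]
  nlinarith [norm_nonneg (y * E)]

open Classical in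
theorem kd_lip_of_add (hadd : ∃ (r₀ R₀ g : ℝ) (Q₀ : ℕ), 1 ≤ r₀ ∧ 4 * (r₀ + 1) ≤ R₀ ∧ 0 < g ∧
    ∀ Q, Q₀ ≤ Q → ∀ (T S : Multiset S2) (w : S2), AdmT Q R₀ T → AdmS Q R₀ (w ::ₘ S) →
      ((∀ b ∈ T, r₀ ≤ dq Q b w) → g • (PD Q (T + S) - PD Q (w ::ₘ (T + S))) ≤
        PD Q (T + S) * nx Q w * PD Q (T + S)) ∧
      ∀ b ∈ T, dq Q b w ≤ r₀ + 1 → g • (PD Q (T + S) - PD Q (w ::ₘ (T + S))) ≤
        PD Q (T + S) * (star (cC (fo Q b (T.count b) w)) * cC (fo Q b (T.count b) w)) *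
          PD Q (T + S)) :
    ∃ (R₀ L : ℝ) (Q₀ : ℕ), 0 < L ∧ ∀ Q, Q₀ ≤ Q → ∀ (T : Multiset S2) (w w' : S2),
      AdmT Q R₀ T → dq Q w w' ≤ 1 →
        ‖PD Q (w' ::ₘ T) * PD Q (w ::ₘ T) - PD Q (w ::ₘ T)‖ ≤ L * dq Q w w' := by
  obtain ⟨r₀, R₀, g, Q₀, h1, h2, hg, h⟩ := hadd
  refine ⟨R₀, 1 / Real.sqrt g, max Q₀ 3, by positivity, fun Q hQ T w w' hT hd => ?_⟩
  have hQ3 : 3 ≤ Q := (le_max_right _ _).trans hQ
  have hQ1 : 1 ≤ Q := by omega
  have hS : AdmS Q R₀ (w' ::ₘ 0) := ⟨fun a ha b hb hab => by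
    simp only [Multiset.cons_zero, Multiset.mem_singleton] at ha hb
    exact absurd (ha.trans hb.symm) hab, by simp⟩
  have h3 := h Q ((le_max_left _ _).trans hQ) T 0 w' hT hS
  rw [add_zero] at h3
  have key : ∀ (b : S2) (m : ℕ), m ≤ 3 → (∀ v ∈ ZD Q (w ::ₘ T), cC (fo Q b m w) *ᵥ v = 0) →
      g • (PD Q T - PD Q (w' ::ₘ T)) ≤
        PD Q T * (star (cC (fo Q b m w')) * cC (fo Q b m w')) * PD Q T →
      ‖PD Q (w' ::ₘ T) * PD Q (w ::ₘ T) - PD Q (w ::ₘ T)‖ ≤ 1 / Real.sqrt g * dq Q w w' := by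
    intro b m hm hk hle
    obtain ⟨z, hz⟩ := fo_lip hQ1 (hm.trans hQ3) b w w'
    have k0 : cC (fo Q b m w) * PD Q (w ::ₘ T) = 0 := by
      refine Matrix.toLin'.injective (LinearMap.ext fun v => ?_)
      rw [Matrix.toLin'_apply, Matrix.toLin'_apply, ← mulVec_mulVec, zero_mulVec]
      exact hk _ (PD_mulVec_mem _ v)
    rw [one_div, inv_mul_eq_div]
    refine km_abs (y := cC (fo Q b m w' - z • fo Q b m w)) hg (PD_proj Q T) (PD_proj Q _)
      (PD_proj Q _) (PD_mul_of_le (Multiset.le_cons_self T w)).1 hle ?_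
      ((norm_cC_le _).trans (Real.sqrt_le_iff.2 ⟨dq_nonneg _ _ _, hz⟩))
    rw [sub_eq_add_neg, ← neg_smul, cC_add, cC_smul, add_mul, smul_mul_assoc, k0, smul_zero,
      add_zero]
  by_cases hn : ∃ b ∈ T, dq Q b w' ≤ r₀ + 1
  · obtain ⟨b, hb, hbw⟩ := hn
    refine key b (T.count b) (by convert hT.2 b) (fun v hv => ?_) (h3.2 b hb hbw)
    refine ((mem_ZD_cons_near hQ1 (b := b) fun hw => ?_).1 hv).2
    by_contra hne
    have t1 := hT.1 w hw b hb hne
    have t2 := dq_tri Q w w' b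
    rw [dq_symm Q w' b] at t2
    linarith
  · push Not at hn
    refine key w 0 (by norm_num) (fun v hv => ?_) ?_
    · rw [fo_zero]
      refine ((mem_ZD_cons_of_not_mem fun hw => ?_).1 hv).2
      linarith [hn w hw]
    · rw [fo_zero]
      exact h3.1 fun b hb => by linarith [hn b hb]

end Crest.Agent.R340.Pin
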