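import Crest.Agent.R340.IfPin
import Crest.Agent.R340.IfLoc
import Crest.Agent.R340.FiltFNW
import Crest.Agent.R340.FiltFun
import Crest.Agent.R340.KdMain
import Crest.Agent.R340.KdMove

/-! # Row 340 interface: KD (parent Hamiltonians of pinned zero modes). Owner helper68
`K_D = H + ∑ a_e^* a_e`, `a_e = filt w H (cC e)`, `e` running over the vectors of the units; units are
`w ::ₘ replicate m b` if `dq b w ≤ r0 (+1)`, otherwise `replicate m b` and `{w}` separately -/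

set_option autoImplicit false

namespace Crest.Agent.R340.Pin

open Matrix MeasureTheory Crest.MathPhysics.Laughlin
open scoped Matrix.Norms.L2Operator MatrixOrder ComplexOrder ComplexConjugate

theorem kd_parent : ∃ (R₀ g a C G : ℝ) (Q₀ : ℕ), 0 < g ∧ 0 < a ∧ ∀ Q, Q₀ ≤ Q →
    ∀ T S : Multiset S2, AdmT Q R₀ T → AdmS Q R₀ S →
      ∃ K, LocHam Q (1 / 2) a C G K ∧ Parent K (PD Q (T + S)) g := by
  exact kd_parent'

open Classical in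
/-- adding one pin costs a gap -/
theorem kd_add : ∃ (r₀ R₀ g : ℝ) (Q₀ : ℕ), 1 ≤ r₀ ∧ 4 * (r₀ + 1) ≤ R₀ ∧ 0 < g ∧ ∀ Q, Q₀ ≤ Q →
    ∀ (T S : Multiset S2) (w : S2), AdmT Q R₀ T → AdmS Q R₀ (w ::ₘ S) →
      ((∀ b ∈ T, r₀ ≤ dq Q b w) → g • (PD Q (T + S) - PD Q (w ::ₘ (T + S))) ≤
        PD Q (T + S) * nx Q w * PD Q (T + S)) ∧
      ∀ b ∈ T, dq Q b w ≤ r₀ + 1 → g • (PD Q (T + S) - PD Q (w ::ₘ (T + S))) ≤
        PD Q (T + S) * (star (cC (fo Q b (T.count b) w)) * cC (fo Q b (T.count b) w)) *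
          PD Q (T + S) := by
  exact kd_add'

/-- `fo` is localised -/
theorem OL_fo (r a : ℝ) : ∃ C, ∀ Q, 1 ≤ Q → ∀ (b w : S2) (m : ℕ), m ≤ 3 → dq Q b w ≤ r →
    OL Q 1 a C w (cC (fo Q b m w)) := by
  exact OL_fo_w r a

/-- the projection with one more pin is quasi-local relative to `PD (T + S)` -/
theorem kd_pi : ∃ (R₀ a C : ℝ) (Q₀ : ℕ), 0 < a ∧ ∀ Q, Q₀ ≤ Q →
    ∀ (T S : Multiset S2) (w : S2), AdmT Q R₀ T → AdmS Q R₀ (w ::ₘ S) →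
      ∃ π : Fk (Q + 1), NL Q (1 / 4) a C w π ∧ IsSelfAdjoint π ∧
        π * PD Q (T + S) = PD Q (w ::ₘ (T + S)) ∧ PD Q (T + S) * π = PD Q (w ::ₘ (T + S)) := by
  exact kd_pi'

/-- moving one pin, first order (from `kd_add` alone) -/
theorem kd_lip : ∃ (R₀ L : ℝ) (Q₀ : ℕ), 0 < L ∧ ∀ Q, Q₀ ≤ Q → ∀ (T : Multiset S2) (w w' : S2),
    AdmT Q R₀ T → dq Q w w' ≤ 1 →
      ‖PD Q (w' ::ₘ T) * PD Q (w ::ₘ T) - PD Q (w ::ₘ T)‖ ≤ L * dq Q w w' :=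
  kd_lip_of_add kd_add

end Crest.Agent.R340.Pin
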