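import Crest.Agent.R340.F2One
import Crest.Agent.R340.F2Res
import Crest.Agent.R340.IfKD

/-! # F2: the new pin relative to the old ones -/

set_option autoImplicit false

namespace Crest.Agent.R340.F2

open Matrix MeasureTheory Crest.MathPhysics.Laughlin Crest.Agent.R340.Pin
open scoped ComplexConjugate Matrix.Norms.L2Operator MatrixOrder ComplexOrder

/-- `min (1, dist (x, T))` -/
noncomputable def md (Q : ℕ) (T : Multiset S2) (x : S2) : ℝ :=
  (T.map fun b => dq Q b x).fold min 1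

variable {Q : ℕ} {T : Multiset S2} {x : S2}

theorem h83_md_zero (Q : ℕ) (x : S2) : md Q 0 x = 1 := by
  simp [md]

theorem h83_md_cons (Q : ℕ) (b : S2) (T : Multiset S2) (x : S2) :
    md Q (b ::ₘ T) x = min (dq Q b x) (md Q T x) := by
  simp [md]

theorem md_le_one (Q : ℕ) (T : Multiset S2) (x : S2) : md Q T x ≤ 1 := by
  induction T using Multiset.induction_on with
  | empty => rw [h83_md_zero]
  | cons a T ih => rw [h83_md_cons]; exact (min_le_right _ _).trans ih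

theorem md_le {b : S2} (hb : b ∈ T) (x : S2) : md Q T x ≤ dq Q b x := by
  obtain ⟨T', rfl⟩ := Multiset.exists_cons_of_mem hb
  rw [h83_md_cons]
  exact min_le_left _ _

theorem md_cases (Q : ℕ) (T : Multiset S2) (x : S2) :
    md Q T x = 1 ∨ ∃ b ∈ T, md Q T x = dq Q b x := by
  induction T using Multiset.induction_on with
  | empty => exact Or.inl (h83_md_zero Q x)
  | cons a T ih =>
    rw [h83_md_cons]
    rcases min_choice (dq Q a x) (md Q T x) with h | h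
    · exact Or.inr ⟨a, Multiset.mem_cons_self _ _, h⟩
    · rcases ih with h1 | ⟨b, hb, h1⟩
      · exact Or.inl (h.trans h1)
      · exact Or.inr ⟨b, Multiset.mem_cons_of_mem hb, h.trans h1⟩

theorem dq_pos (hQ : 1 ≤ Q) {a b : S2} (h : a ≠ b) : 0 < dq Q a b := by
  unfold dq
  have h1 : (0 : ℝ) < Real.sqrt Q := Real.sqrt_pos.2 (by exact_mod_cast hQ)
  have h2 : 0 < ‖(a : EuclideanSpace ℝ (Fin 3)) - (b : EuclideanSpace ℝ (Fin 3))‖ :=
    norm_pos_iff.2 (sub_ne_zero.2 fun e => h (Subtype.ext e))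
  positivity

theorem md_nonneg (Q : ℕ) (T : Multiset S2) (x : S2) : 0 ≤ md Q T x := by
  rcases md_cases Q T x with h | ⟨b, -, h⟩
  · rw [h]; exact zero_le_one
  · rw [h]; exact dq_nonneg Q b x

theorem md_pos (hQ : 1 ≤ Q) (hx : x ∉ T) : 0 < md Q T x := by
  rcases md_cases Q T x with h | ⟨b, hb, h⟩
  · rw [h]; exact zero_lt_one
  · rw [h]; exact dq_pos hQ fun e => hx (e ▸ hb)

theorem continuous_md (Q : ℕ) (T : Multiset S2) : Continuous (md Q T) := by
  induction T using Multiset.induction_on with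
  | empty =>
    have : md Q 0 = fun _ => 1 := funext fun x => h83_md_zero Q x
    rw [this]
    exact continuous_const
  | cons a T ih =>
    have : md Q (a ::ₘ T) = fun x => min (dq Q a x) (md Q T x) := funext fun x => h83_md_cons Q a T x
    rw [this]
    have h1 : Continuous fun x : S2 => dq Q a x := by
      unfold dq
      fun_prop
    exact h1.min ih

theorem en_sq_eq_nq {ι : Type} [Fintype ι] [DecidableEq ι] (v : ι → ℂ) : en v ^ 2 = nq v := en_sq v

theorem ck_spin (Q : ℕ) (x : S2) (k : Fin (Q + 1)) : ck Q (spin x) k = cC (orb Q x k) := by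
  unfold ck
  rw [dif_pos k.2]
  rfl

theorem ck_spin_zero (Q : ℕ) (x : S2) : ck Q (spin x) 0 = ca Q x := by
  have h := ck_spin Q x 0
  rw [orb_zero] at h
  exact h

theorem norm_wedge (Q : ℕ) (a b : S2) :
    Real.sqrt Q * ‖wedge (spin a) (spin b)‖ = dq Q a b := by
  have h1 : wedge (spin a) (spin b) = -(spin a).2 * (spin b).1 + (spin a).1 * (spin b).2 := by
    unfold wedge; ring
  have h2 : (Real.sqrt Q * ‖wedge (spin a) (spin b)‖) ^ 2 = dq Q a b ^ 2 := by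
    rw [mul_pow, Real.sq_sqrt (Nat.cast_nonneg Q), h1, spin_wedge_sq, dq_sq, tS_symm]
  exact (pow_left_inj₀ (by positivity) (dq_nonneg Q a b) two_ne_zero).1 h2

theorem mem_ZD_nodup {D : Multiset S2} (h : D.Nodup) {v : FV Q} :
    v ∈ ZD Q D ↔ HC Q *ᵥ v = 0 ∧ ∀ b ∈ D, ca Q b *ᵥ v = 0 := by
  induction D using Multiset.induction_on with
  | empty => rw [mem_ZD_zero]; simp
  | cons a D ih =>
    rw [Multiset.nodup_cons] at h
    rw [mem_ZD_cons_of_not_mem h.1, ih h.2]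
    simp only [Multiset.mem_cons, forall_eq_or_imp]
    tauto

private theorem u95_step (hQ : 1 ≤ Q) (b w : S2) (k₀ : Fin (Q + 1)) :
    cC (fo Q b k₀ w) = (((Real.sqrt (Q.choose k₀) / Real.sqrt Q ^ (k₀ : ℕ) : ℝ) : ℂ) *
      (conj (spin b).1 * (spin w).1 + conj (spin b).2 * (spin w).2) ^ (Q - k₀)) • cC (orb Q b k₀) +
      ((Real.sqrt Q : ℂ) * wedge (spin b) (spin w)) • cC (fo Q b (k₀ + 1) w) := by
  have hq : (Real.sqrt Q : ℂ) ≠ 0 := by
    have : (0 : ℝ) < Q := by exact_mod_cast hQ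
    exact_mod_cast (Real.sqrt_pos.2 this).ne'
  unfold fo
  rw [cC_sum, cC_sum, Finset.smul_sum, ← Finset.add_sum_erase _ _ (Finset.mem_univ k₀),
    ← Finset.add_sum_erase _ _ (Finset.mem_univ k₀), if_pos le_rfl, if_neg (Nat.not_succ_le_self _),
    cC_zero, smul_zero, zero_add, cC_smul, Complex.conj_conj, Nat.sub_self, pow_zero, mul_one]
  congr 1
  refine Finset.sum_congr rfl fun k hk => ?_
  have hne : (k : ℕ) ≠ k₀ := fun e => (Finset.mem_erase.1 hk).1 (Fin.ext e)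
  by_cases h : (k₀ : ℕ) + 1 ≤ k
  · rw [if_pos h, if_pos (by omega), cC_smul, cC_smul, Complex.conj_conj, Complex.conj_conj,
      smul_smul]
    congr 1
    obtain ⟨j, hj⟩ : ∃ j, (k : ℕ) = k₀ + 1 + j := ⟨k - (k₀ + 1), by omega⟩
    have e1 : (k : ℕ) - k₀ = j + 1 := by omega
    have e2 : (k : ℕ) - (k₀ + 1) = j := by omega
    rw [e1, e2]
    push_cast
    field_simp
    ring
  · rw [if_neg h, if_neg (by omega), cC_zero, smul_zero]

/-- expansion of `ca w` in the orbitals at `b` -/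
theorem ca_expand_one (hQ : 1 ≤ Q) (b w : S2) :
    ca Q w = (conj (spin b).1 * (spin w).1 + conj (spin b).2 * (spin w).2) ^ Q • ca Q b +
      ((Real.sqrt Q : ℂ) * wedge (spin b) (spin w)) • cC (fo Q b 1 w) := by
  have h := u95_step hQ b w 0
  rw [orb_zero] at h
  simp only [Fin.coe_ofNat_eq_mod, Nat.zero_mod, Nat.choose_zero_right, Nat.cast_one,
    Real.sqrt_one, pow_zero, div_one, Complex.ofReal_one, one_mul, Nat.sub_zero, zero_add,
    fo_zero] at h
  exact h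

theorem ca_expand_two (hQ : 1 ≤ Q) (b w : S2) :
    ca Q w = (conj (spin b).1 * (spin w).1 + conj (spin b).2 * (spin w).2) ^ Q • ca Q b +
      ((Real.sqrt Q : ℂ) * wedge (spin b) (spin w) *
        (conj (spin b).1 * (spin w).1 + conj (spin b).2 * (spin w).2) ^ (Q - 1)) •
          ck Q (spin b) 1 +
      ((Real.sqrt Q : ℂ) * wedge (spin b) (spin w)) ^ 2 • cC (fo Q b 2 w) := by
  have h := u95_step hQ b w ⟨1, by omega⟩
  have hq : Real.sqrt Q ≠ 0 := by
    have : (0 : ℝ) < Q := by exact_mod_cast hQ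
    exact (Real.sqrt_pos.2 this).ne'
  rw [← ck_spin] at h
  simp only [Nat.choose_one_right, pow_one, div_self hq, Complex.ofReal_one, one_mul] at h
  rw [ca_expand_one hQ b w, h, smul_add, smul_smul, smul_smul, add_assoc, sq]

theorem overlap_ge (r : ℝ) : ∃ (c : ℝ) (Q₀ : ℕ), 0 < c ∧ ∀ Q, Q₀ ≤ Q → ∀ b w : S2, dq Q b w ≤ r →
    c ≤ ‖conj (spin b).1 * (spin w).1 + conj (spin b).2 * (spin w).2‖ ^ (Q - 1) := by
  refine ⟨Real.exp (-r ^ 2), ⌈2 * r ^ 2⌉₊ + 1, Real.exp_pos _, fun Q hQ b w hr => ?_⟩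
  have h1 := spin_inner_sq w b
  have h2 := dq_sq Q b w
  rw [tS_symm] at h2
  set t := tS w b with ht
  have t0 : 0 ≤ t := by rw [ht, tS]; positivity
  have hQ' : 2 * r ^ 2 + 1 ≤ (Q : ℝ) := by
    have h3 : ((⌈2 * r ^ 2⌉₊ + 1 : ℕ) : ℝ) ≤ Q := by exact_mod_cast hQ
    push_cast at h3
    linarith [Nat.le_ceil (2 * r ^ 2)]
  have h4 : Q * t ≤ r ^ 2 := by
    rw [← h2]; exact pow_le_pow_left₀ (dq_nonneg _ _ _) hr 2
  have h5 : t ≤ 1 / 2 := by
    by_contra hc
    push Not at hc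
    nlinarith [sq_nonneg r]
  have h6 : Real.exp (-t) ^ 2 ≤ 1 - t := by
    have e1 : Real.exp (-t) ^ 2 * Real.exp (2 * t) = 1 := by
      rw [← Real.exp_nat_mul, ← Real.exp_add]; simp
    have e2 := Real.add_one_le_exp (2 * t)
    have e3 : 0 < Real.exp (-t) ^ 2 := by positivity
    by_contra hc
    push Not at hc
    nlinarith
  have h7 : Real.exp (-t) ≤ ‖conj (spin b).1 * (spin w).1 + conj (spin b).2 * (spin w).2‖ := by
    rw [← h1] at h6
    exact (pow_le_pow_iff_left₀ (Real.exp_pos _).le (norm_nonneg _) two_ne_zero).1 h6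
  refine le_trans ?_ (pow_le_pow_left₀ (Real.exp_pos _).le h7 _)
  rw [← Real.exp_nat_mul]
  refine Real.exp_le_exp.2 ?_
  have h8 : ((Q - 1 : ℕ) : ℝ) ≤ Q := by exact_mod_cast Nat.sub_le Q 1
  nlinarith

/-- the data of the new pin `x` -/
structure UD (Q : ℕ) (T : Multiset S2) (x : S2) (g C : ℝ) (s : ℂ) (F F₁ : Fk (Q + 1)) : Prop where
  ol : OL Q 1 1 C x F
  ol₁ : OL Q 1 1 C x F₁
  low : Low 1 F
  low₁ : Low 1 F₁
  eq : ca Q x * PD Q T = s • (F * PD Q T)
  eq₁ : ck Q (spin x) 1 * PD Q (x ::ₘ T) = s • (F₁ * PD Q (x ::ₘ T))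
  ge : md Q T x ≤ ‖s‖
  le : ∀ e ∈ T, ‖s‖ ≤ dq Q e x
  gap : g • (PD Q T - PD Q (x ::ₘ T)) ≤ PD Q T * (star F * F) * PD Q T

private theorem u95_kill {D : Multiset S2} (h : D.Nodup) {b : S2} (hb : b ∈ D) :
    ca Q b * PD Q D = 0 := by
  refine Matrix.ext_iff_mulVec.2 fun v => ?_
  rw [← mulVec_mulVec, zero_mulVec]
  exact ((mem_ZD_nodup h).1 (PD_mulVec_mem D v)).2 b hb

private theorem u95_low {n : ℕ} (z : ℂ) (f : Fin n → ℂ) : Low 1 (z • cC f) := by
  have : z • cC f = cC (conj z • f) := by rw [cC_smul, Complex.conj_conj]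
  rw [this]
  exact low_cC _

theorem unit_data : ∃ (R₀ g C : ℝ) (Q₀ : ℕ), 1 ≤ R₀ ∧ 0 < g ∧ 1 ≤ Q₀ ∧ ∀ Q, Q₀ ≤ Q →
    ∀ T : Multiset S2, AdmS Q R₀ T → ∀ x ∉ T, ∃ s F F₁, UD Q T x g C s F F₁ := by
  obtain ⟨r₀, R₀, g, Q₀, hr, hR, hg, H⟩ := kd_add
  obtain ⟨C₁, H₁⟩ := OL_orb 1 1
  obtain ⟨C₂, H₂⟩ := OL_fo r₀ 1
  obtain ⟨c, Q₁, hc, H₃⟩ := overlap_ge r₀
  refine ⟨R₀, g, max (max C₁ C₂) (c⁻¹ * (Real.exp (1 * r₀ ^ (1 : ℝ)) * C₂)), max (max Q₀ Q₁) 1,
    by linarith, hg, le_max_right _ _, fun Q hQ T hT x hx => ?_⟩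
  have hQ0 : Q₀ ≤ Q := ((le_max_left _ _).trans (le_max_left _ _)).trans hQ
  have hQ1 : Q₁ ≤ Q := ((le_max_right _ _).trans (le_max_left _ _)).trans hQ
  have hq : 1 ≤ Q := (le_max_right _ _).trans hQ
  have hS : AdmS Q R₀ (x ::ₘ 0) := by
    refine ⟨fun a ha b hb hab => ?_, by simp⟩
    simp only [Multiset.cons_zero, Multiset.mem_singleton] at ha hb
    exact absurd (ha.trans hb.symm) hab
  have HH := H Q hQ0 T 0 x hT.toAdmT hS
  rw [add_zero] at HH
  by_cases hfar : ∀ b ∈ T, r₀ ≤ dq Q b x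
  · have e1 : ck Q (spin x) 1 = cC (orb Q x ⟨1, by omega⟩) := ck_spin Q x ⟨1, by omega⟩
    refine ⟨1, ca Q x, ck Q (spin x) 1, ?_, ?_, low_cC _, ?_, (one_smul _ _).symm,
      (one_smul _ _).symm, ?_, fun e he => ?_, HH.1 hfar⟩
    · have := H₁ Q x 0 (by simp)
      rw [orb_zero] at this
      exact this.mono ((le_max_left _ _).trans (le_max_left _ _))
    · rw [e1]
      exact (H₁ Q x _ le_rfl).mono ((le_max_left _ _).trans (le_max_left _ _))
    · rw [e1]; exact low_cC _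
    · rw [norm_one]; exact md_le_one Q T x
    · rw [norm_one]; exact hr.trans (hfar e he)
  · push Not at hfar
    obtain ⟨b, hb, hbx⟩ := hfar
    have hne : b ≠ x := fun e => hx (e ▸ hb)
    have hn : ‖(Real.sqrt Q : ℂ) * wedge (spin b) (spin x)‖ = dq Q b x := by
      rw [norm_mul, Complex.norm_real, Real.norm_of_nonneg (Real.sqrt_nonneg _), norm_wedge]
    have hs0 : (Real.sqrt Q : ℂ) * wedge (spin b) (spin x) ≠ 0 := by
      rw [← norm_pos_iff, hn]; exact dq_pos hq hne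
    have hxb : dq Q x b ≤ r₀ := by rw [dq_symm]; exact hbx.le
    have ho := H₃ Q hQ1 x b hxb
    rw [← norm_pow] at ho
    have hw : wedge (spin x) (spin b) = -wedge (spin b) (spin x) := by unfold wedge; ring
    have h2 := ca_expand_two hq x b
    rw [hw] at h2
    set o := (conj (spin x).1 * (spin b).1 + conj (spin x).2 * (spin b).2) ^ (Q - 1) with hod
    have o0 : o ≠ 0 := by rw [← norm_pos_iff]; exact hc.trans_le ho
    have hnd : (x ::ₘ T).Nodup := Multiset.nodup_cons.2 ⟨hx, hT.2⟩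
    have hF₁ := ((H₂ Q hq x b 2 (by norm_num) hxb).shift one_pos le_rfl zero_le_one hbx.le)
    refine ⟨(Real.sqrt Q : ℂ) * wedge (spin b) (spin x), cC (fo Q b 1 x), o⁻¹ • cC (fo Q x 2 b),
      ?_, ?_, low_cC _, u95_low _ _, ?_, ?_, ?_, fun e he => ?_, ?_⟩
    · exact (H₂ Q hq b x 1 (by norm_num) hbx.le).mono ((le_max_right _ _).trans (le_max_left _ _))
    · refine (hF₁.smul o⁻¹).mono (le_trans ?_ (le_max_right _ _))
      refine mul_le_mul_of_nonneg_right ?_ ((norm_nonneg _).trans hF₁.1)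
      rw [norm_inv]
      exact inv_anti₀ hc ho
    · rw [ca_expand_one hq b x, add_mul, smul_mul_assoc, smul_mul_assoc, u95_kill hT.2 hb,
        smul_zero, zero_add]
    · have h3 := congrArg (· * PD Q (x ::ₘ T)) h2
      simp only [add_mul, smul_mul_assoc] at h3
      rw [u95_kill hnd (Multiset.mem_cons_of_mem hb), u95_kill hnd (Multiset.mem_cons_self _ _),
        smul_zero, zero_add] at h3
      rw [smul_mul_assoc, smul_smul]
      have h4 := eq_neg_of_add_eq_zero_left h3.symm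
      have hz : (Real.sqrt Q : ℂ) * -wedge (spin b) (spin x) * o ≠ 0 := by
        rw [mul_neg]; exact mul_ne_zero (neg_ne_zero.2 hs0) o0
      rw [← (smul_right_inj hz), h4, smul_smul, ← neg_smul]
      congr 1
      field_simp
    · rw [hn]; exact md_le hb x
    · rw [hn]
      by_cases heb : e = b
      · rw [heb]
      · have h5 := hT.1 e he b hb heb
        have h6 := dq_tri Q e x b
        linarith
    · have h5 := HH.2 b hb (by linarith)
      rwa [Multiset.count_eq_one_of_mem hT.2 hb] at h5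

theorem UD.gap_en {g C : ℝ} {s : ℂ} {F F₁ : Fk (Q + 1)} (h : UD Q T x g C s F F₁) (hg : 0 ≤ g)
    {u : FV Q} (hu : u ∈ ZD Q T) :
    g * md Q T x ^ 2 * en (u - PD Q (x ::ₘ T) *ᵥ u) ^ 2 ≤ en (ca Q x *ᵥ u) ^ 2 := by
  have hP : PD Q T *ᵥ u = u := PD_mulVec_iff.2 hu
  have h1 : ca Q x *ᵥ u = s • (F *ᵥ u) := by
    have := congrArg (· *ᵥ u) h.eq
    simp only [smul_mulVec, ← mulVec_mulVec, hP] at this
    exact this
  have hq := (PD_proj Q (x ::ₘ T)).one_sub
  have h2 : en (u - PD Q (x ::ₘ T) *ᵥ u) ^ 2 =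
      (star u ⬝ᵥ (PD Q T - PD Q (x ::ₘ T)) *ᵥ u).re := by
    have e1 : u - PD Q (x ::ₘ T) *ᵥ u = (1 - PD Q (x ::ₘ T)) *ᵥ u := by
      rw [sub_mulVec, one_mulVec]
    rw [e1, ← h30_G, hq.isSelfAdjoint.star_eq, hq.isIdempotentElem.eq, sub_mulVec, sub_mulVec,
      one_mulVec, hP]
  have h3 : (star u ⬝ᵥ (PD Q T * (star F * F) * PD Q T) *ᵥ u).re = en (F *ᵥ u) ^ 2 := by
    have e1 : PD Q T * (star F * F) * PD Q T = star (F * PD Q T) * (F * PD Q T) := by
      rw [star_mul, (PD_proj Q T).isSelfAdjoint.star_eq]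
      simp only [mul_assoc]
    rw [e1, h30_G, ← mulVec_mulVec, hP]
  have h4 : g * en (u - PD Q (x ::ₘ T) *ᵥ u) ^ 2 ≤ en (F *ᵥ u) ^ 2 := by
    have h5 := h.gap
    rw [Matrix.le_iff, posSemidef_iff_dotProduct_mulVec] at h5
    have h6 := (Complex.nonneg_iff.1 (h5.2 u)).1
    rw [sub_mulVec, dotProduct_sub, Complex.sub_re, h3, smul_mulVec, dotProduct_smul,
      Complex.smul_re, ← h2, smul_eq_mul] at h6
    linarith
  have h7 : md Q T x ^ 2 ≤ ‖s‖ ^ 2 := pow_le_pow_left₀ (md_nonneg Q T x) h.ge 2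
  rw [h1, en_smul, mul_pow]
  calc g * md Q T x ^ 2 * en (u - PD Q (x ::ₘ T) *ᵥ u) ^ 2
      = md Q T x ^ 2 * (g * en (u - PD Q (x ::ₘ T) *ᵥ u) ^ 2) := by ring
    _ ≤ ‖s‖ ^ 2 * en (F *ᵥ u) ^ 2 :=
      mul_le_mul h7 h4 (by positivity) (by positivity)

end Crest.Agent.R340.F2
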