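import Crest.Agent.R340.F2Sol
import Crest.Agent.R340.F2U
import Crest.Agent.R340.F2Unit
import Crest.Agent.R340.F2In
import Crest.Agent.R340.F2Core

/-! # F2: the cross term is quasi-local -/

set_option autoImplicit false

namespace Crest.Agent.R340.F2

open Matrix MeasureTheory Crest.MathPhysics.Laughlin Crest.Agent.R340.Pin Filt
open scoped ComplexConjugate Matrix.Norms.L2Operator MatrixOrder ComplexOrder

theorem h70_filt_smul {n : ℕ} (w : ℝ → ℂ) (K A : Fk n) (z : ℂ) :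
    filt w K (z • A) = z • filt w K A := filt2_smul w K K A z

theorem h70_sqrt_ne {Q : ℕ} (hQ : 1 ≤ Q) : (Real.sqrt Q : ℂ) ≠ 0 := by
  have : (0 : ℝ) < Q := by exact_mod_cast hQ
  exact_mod_cast (Real.sqrt_pos.2 this).ne'

/-- `(1 - P_H) dΓ(A_x) P_H` is quasi-local -/
theorem z_local : ∃ Q₀ : ℕ, ∀ {I : Type} (Q : I → ℕ) (x : I → S2), (∀ i, Q₀ ≤ Q i) →
    ∃ Z : ∀ i, Fk (Q i + 1), UQ Q x Z ∧ (∀ i, NC (Z i)) ∧ ∀ i, ∀ v ∈ ZD (Q i) 0,
      dG (Ah (Q i) (spin (x i))) *ᵥ v - PD (Q i) 0 *ᵥ (dG (Ah (Q i) (spin (x i))) *ᵥ v) =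
        ((Real.sqrt (Q i) : ℂ) • Z i) *ᵥ v := by
  obtain ⟨g, Q₀, g0, hP⟩ := parent_HC
  obtain ⟨w, W, C, c, -, hc, hf, -, dW, -, -⟩ := ex_filt g0
  obtain ⟨Cx, hX⟩ := QL_Xl
  refine ⟨max Q₀ 1, fun Q x hQ => ?_⟩
  have hQ1 : ∀ i, 1 ≤ Q i := fun i => (le_max_right _ _).trans (hQ i)
  refine ⟨fun i => -Complex.I • filt W (HC (Q i))
    ((((Real.sqrt (Q i))⁻¹ : ℝ) : ℂ) • Xl (Q i) (spin (x i))), ?_, fun i => ?_, fun i v hv => ?_⟩
  · exact (UQ.filt hQ1 (UH.HC hQ1) (UQ.of one_pos one_pos fun i => hX _ (hQ1 i) (x i)) hc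
      hf.int_W dW).smul (M := 1) fun i => by simp
  · exact (NC.filt (commute_numC_HC _) ((NC_Xl _ _).smul_right _) W).smul_right _
  · have e : HC (Q i) *ᵥ (dG (Ah (Q i) (spin (x i))) *ᵥ v) = Xl (Q i) (spin (x i)) *ᵥ v := by
      rw [mulVec_mulVec]
      exact HC_dG (hQ1 i) (spin_unit _) (mem_ZD_zero.1 hv)
    beta_reduce
    rw [filt_solve hf (hP _ ((le_max_left _ _).trans (hQ i))) (PD_proj _ _) (PD_mulVec_iff.2 hv) e,
      h70_filt_smul, smul_comm (Real.sqrt (Q i) : ℂ), smul_smul (Real.sqrt (Q i) : ℂ),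
      Complex.ofReal_inv, mul_inv_cancel₀ (h70_sqrt_ne (hQ1 i)), one_smul]

/-- the value of `dΓ(A_x) v` at an old pin -/
theorem ca_dG_pin {Q : ℕ} (hQ : 1 ≤ Q) {T : Multiset S2} (hT : T.Nodup) {x : S2} (hx : x ∉ T)
    {g C : ℝ} {s : ℂ} {F F₁ : Fk (Q + 1)} (h : UD Q T x g C s F F₁) {e : S2} (he : e ∈ T) :
    ∃ β : ℂ, ‖β‖ ≤ Real.exp (-dq Q e x ^ 2 / 2) ∧ ∀ v ∈ ZD Q T,
      ca Q e *ᵥ (dG (Ah Q (spin x)) *ᵥ v) = ((Real.sqrt Q : ℂ) • (β • F)) *ᵥ v := by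
  have hne : x ≠ e := fun h => hx (h ▸ he)
  have hd := dq_pos hQ hne
  have hw := norm_wedge Q x e
  have hc := ck_comm_dG_far (q := Q) (spin_unit x) (spin e)
  have ho := coh_overlap_le Q e x
  have hs := h.le e he
  rw [ck_spin_zero, ck_spin_zero] at hc
  rw [coh, coh, kv_dot, norm_pow] at ho
  have e0 : (spin e).1 * conj (spin x).1 + (spin e).2 * conj (spin x).2 =
      conj (spin x).1 * (spin e).1 + conj (spin x).2 * (spin e).2 := by ring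
  have e1 : -(spin x).2 * (spin e).1 + (spin x).1 * (spin e).2 = wedge (spin x) (spin e) := by
    unfold wedge; ring
  rw [e0] at ho
  rw [e1] at hc
  generalize conj (spin x).1 * (spin e).1 + conj (spin x).2 * (spin e).2 = s0 at hc ho
  generalize wedge (spin x) (spin e) = d at hc hw
  have hq := h70_sqrt_ne hQ
  have hd0 : d ≠ 0 := by
    rintro rfl
    rw [norm_zero, mul_zero] at hw
    exact hd.ne hw
  have s1 : ‖s0‖ ≤ 1 := by
    have h1 : Real.exp (-dq Q e x ^ 2 / 2) ≤ 1 :=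
      Real.exp_le_one_iff.2 (by nlinarith [sq_nonneg (dq Q e x)])
    exact (pow_le_one_iff_of_nonneg (norm_nonneg _) (by omega)).1 (ho.trans h1)
  refine ⟨-(s0 * s0 ^ Q * s) / (Real.sqrt Q * d), ?_, fun v hv => ?_⟩
  · rw [norm_div, norm_neg, norm_mul, norm_mul, norm_mul, norm_pow, Complex.norm_real,
      Real.norm_of_nonneg (Real.sqrt_nonneg _), hw, div_le_iff₀ hd, dq_symm Q x e]
    calc ‖s0‖ * ‖s0‖ ^ Q * ‖s‖ ≤ 1 * Real.exp (-dq Q e x ^ 2 / 2) * dq Q e x := by gcongr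
      _ = _ := by rw [one_mul]
  · have a1 : ca Q e *ᵥ v = 0 := ((mem_ZD_nodup hT).1 hv).2 e he
    have a2 : ca Q x *ᵥ v = s • F *ᵥ v := by
      have := congrArg (· *ᵥ v) h.eq
      simpa only [smul_mulVec, ← mulVec_mulVec, PD_mulVec_iff.2 hv] using this
    have a3 := congrArg (· *ᵥ v) hc
    simp only [smul_mulVec, sub_mulVec, ← mulVec_mulVec, a1, a2, mulVec_zero, sub_zero, zero_sub,
      smul_neg, smul_smul] at a3
    have a4 : ca Q e *ᵥ (dG (Ah Q (spin x)) *ᵥ v) =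
        d⁻¹ • (d • ca Q e *ᵥ (dG (Ah Q (spin x)) *ᵥ v)) := by
      rw [smul_smul, inv_mul_cancel₀ hd0, one_smul]
    rw [a4, a3, smul_smul, smul_mulVec, ← neg_smul, smul_smul]
    congr 1
    field_simp

private theorem h82_low_comm {n : ℕ} {Z c : Fk n} (hZ : NC Z) (hc : Low 1 c) :
    Low 1 (Z * c - c * Z) := by
  unfold Low at hc ⊢
  have h1 : numC n * Z = Z * numC n := hZ.eq
  have h2 : numC n * c = c * numC n + -((1 : ℤ) : ℂ) • c := by rw [← hc]; abel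
  have e1 : numC n * (Z * c) = Z * c * numC n + -((1 : ℤ) : ℂ) • (Z * c) := by
    rw [← mul_assoc, h1, mul_assoc, h2, mul_add, mul_smul_comm, mul_assoc]
  have e2 : numC n * (c * Z) = c * Z * numC n + -((1 : ℤ) : ℂ) • (c * Z) := by
    rw [← mul_assoc, h2, add_mul, smul_mul_assoc, mul_assoc, h1, mul_assoc]
  rw [mul_sub, sub_mul, e1, e2, smul_sub]
  abel

private theorem h82_low_smul {n : ℕ} {c : Fk n} (hc : Low 1 c) (z : ℂ) : Low 1 (z • c) := by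
  unfold Low at hc ⊢
  rw [mul_smul_comm, smul_mul_assoc, ← smul_sub, hc, smul_comm]

/-- `(1 - P_T) dΓ(A_x) P_T` is quasi-local -/
theorem zt_local : ∃ (R₀ : ℝ) (Q₀ : ℕ), ∀ {I : Type} (Q : I → ℕ) (x : I → S2)
    (T : I → Multiset S2), (∀ i, Q₀ ≤ Q i) → (∀ i, AdmS (Q i) R₀ (T i)) → (∀ i, x i ∉ T i) →
    ∃ Z : ∀ i, Fk (Q i + 1), UQ Q x Z ∧ (∀ i, NC (Z i)) ∧ ∀ i, ∀ v ∈ ZD (Q i) (T i),
      dG (Ah (Q i) (spin (x i))) *ᵥ v - PD (Q i) (T i) *ᵥ (dG (Ah (Q i) (spin (x i))) *ᵥ v) =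
        ((Real.sqrt (Q i) : ℂ) • Z i) *ᵥ v := by
  classical
  obtain ⟨R₁, g₁, C₁, Q₁, hR₁, -, hQ₁, H₁⟩ := unit_data
  obtain ⟨R₂, g, a, C, G, Q₂, hg, ha, H₂⟩ := kd_parent_form
  obtain ⟨Q₃, H₃⟩ := z_local
  obtain ⟨Cw, cw, -, hcw, H₄⟩ := exists_filt
  obtain ⟨w, W, hf, -, -, -, dW⟩ := H₄ g hg
  refine ⟨max R₁ R₂, max Q₁ (max Q₂ Q₃), fun {I} Q x T hQ hT hx => ?_⟩
  have q1 : ∀ i, Q₁ ≤ Q i := fun i => le_of_max_le_left (hQ i)
  have q2 : ∀ i, Q₂ ≤ Q i := fun i => le_of_max_le_left (le_of_max_le_right (hQ i))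
  have q3 : ∀ i, Q₃ ≤ Q i := fun i => le_of_max_le_right (le_of_max_le_right (hQ i))
  have q0 : ∀ i, 1 ≤ Q i := fun i => hQ₁.trans (q1 i)
  choose s F F₁ hU using fun i =>
    H₁ (Q i) (q1 i) (T i) ((hT i).mono (le_max_left _ _) le_rfl) (x i) (hx i)
  choose K A hK hP hA hKA using fun i =>
    H₂ (Q i) (q2 i) (T i) ((hT i).mono (le_max_right _ _) le_rfl)
  obtain ⟨Z, uZ, nZ, eZ⟩ := H₃ Q x q3
  have hβ : ∀ i e, ∃ β : ℂ, e ∈ T i → ‖β‖ ≤ Real.exp (-dq (Q i) e (x i) ^ 2 / 2) ∧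
      ∀ v ∈ ZD (Q i) (T i), ca (Q i) e *ᵥ (dG (Ah (Q i) (spin (x i))) *ᵥ v) =
        ((Real.sqrt (Q i) : ℂ) • (β • F i)) *ᵥ v := fun i e => by
    by_cases he : e ∈ T i
    · obtain ⟨β, h⟩ := ca_dG_pin (q0 i) (hT i).2 (hx i) (hU i) he
      exact ⟨β, fun _ => h⟩
    · exact ⟨0, fun h => absurd h he⟩
  choose β hβ using hβ
  have hS : ∀ i, Sep (Q i) 1 (T i).toFinset.val := fun i => by
    rw [Multiset.toFinset_val, Multiset.dedup_eq_self.mpr (hT i).2]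
    exact ((hT i).mono (hR₁.trans (le_max_left _ _)) le_rfl).1
  have uF : UO Q x F := UO.of one_pos one_pos fun i => (hU i).ol
  have u1 := UQ.sum_gauss (S := fun i => (T i).toFinset) (A := A) q0 hS (by norm_num) (by norm_num)
    ha (fun i e _ => (hA i e).1) uF (β := β) fun i e he => (hβ i e (Multiset.mem_toFinset.1 he)).1
  have u2 := UQ.sum_comm (S := fun i => (T i).toFinset) (A := A) q0 hS (by norm_num) (by norm_num)
    ha (fun i e _ => (hA i e).1) uZ nZ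
  have uK : UH Q K := ⟨1 / 2, a, C, G, by norm_num, by norm_num, ha, hK⟩
  have u3 := ((u1.add u2).filt q0 uK (mul_pos hcw (Real.sqrt_pos.2 hg)) hf.int_W dW).smul
    (z := fun _ => -Complex.I) (M := 1) fun _ => by simp
  refine ⟨_, uZ.add u3, fun i => ?_, fun i v hv => ?_⟩
  · refine Commute.add_right (nZ i) (Commute.smul_right (NC.filt (hK i).nc ?_ W) _)
    refine Commute.add_right (Commute.sum_right _ _ _ fun e _ => ?_)
      (Commute.sum_right _ _ _ fun e _ => ?_)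
    · exact Low.nc (hA i e).2 (h82_low_smul (hU i).low _)
    · exact Low.nc (hA i e).2 (h82_low_comm (nZ i) (low_cC _))
  · set d := dG (Ah (Q i) (spin (x i))) *ᵥ v with hd
    have e0 := eZ i v (ZD_anti (Multiset.zero_le _) hv)
    rw [← hd] at e0
    have e1 : PD (Q i) 0 *ᵥ d = d - ((Real.sqrt (Q i) : ℂ) • Z i) *ᵥ v := by rw [← e0]; abel
    have e2 : K i *ᵥ (PD (Q i) 0 *ᵥ d) =
        (∑ e ∈ (T i).toFinset, star (A i e) * (β i e • F i) +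
          ∑ e ∈ (T i).toFinset, star (A i e) * (Z i * ca (Q i) e - ca (Q i) e * Z i)) *ᵥ
            ((Real.sqrt (Q i) : ℂ) • v) := by
      rw [hKA i _ (PD_mulVec_mem _ _), ← Finset.sum_add_distrib, sum_mulVec]
      refine Finset.sum_congr rfl fun e he => ?_
      have he' := Multiset.mem_toFinset.1 he
      have k0 : ca (Q i) e *ᵥ v = 0 := ((mem_ZD_nodup (hT i).2).1 hv).2 e he'
      rw [← mul_add, ← mulVec_mulVec, ← mulVec_mulVec, e1, mulVec_sub, (hβ i e he').2 v hv]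
      congr 1
      simp only [add_mulVec, sub_mulVec, smul_mulVec, mulVec_smul, ← mulVec_mulVec, k0,
        mulVec_zero]
      module
    have e3 := filt_solve hf (hP i) (PD_proj _ _)
      (by rw [mulVec_smul, PD_mulVec_iff.2 hv]) e2
    rw [mulVec_mulVec d (PD (Q i) (T i)), (PD_mul_of_le (Multiset.zero_le (T i))).2] at e3
    rw [smul_add, add_mulVec, ← e0, smul_mulVec _ (-Complex.I • _), ← mulVec_smul, ← e3]
    abel

/-- the algebra of the cross term -/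
theorem cross_alg {Q N : ℕ} (hQ : 1 ≤ Q) {T : Multiset S2} {x : S2} (hx : x ∉ T) {g C : ℝ} {s : ℂ}
    {F F₁ K Z : Fk (Q + 1)} {w W : ℝ → ℂ} (h : UD Q T x g C s F F₁) (hf : IsFilt g w W)
    (hK : Parent K (PD Q T) g)
    (hZ : ∀ v ∈ ZD Q T, dG (Ah Q (spin x)) *ᵥ v - PD Q T *ᵥ (dG (Ah Q (spin x)) *ᵥ v) =
      ((Real.sqrt Q : ℂ) • Z) *ᵥ v) {v u y : FV Q} (hv : InZ Q T N v) (hu : InZ Q T N u)
    (hy : InZ Q T N y)
    (eu : ck Q (spin x) 0 *ᵥ u = ((Real.sqrt Q : ℂ) • ck Q (spin x) 1) *ᵥ (PD Q (x ::ₘ T) *ᵥ v))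
    (ey : ck Q (spin x) 0 *ᵥ y = Th Q (PD Q T * secP (Q + 1) N) (spin x) *ᵥ v) :
    |(star (u - PD Q (x ::ₘ T) *ᵥ u) ⬝ᵥ (y - PD Q (x ::ₘ T) *ᵥ y)).re| ≤
      Q / md Q T x * (en (PD Q (x ::ₘ T) *ᵥ v) * en ((PD Q (x ::ₘ T) *
        (star (fcal W (filt w K (star F * F)) * filt w K (star F * F₁)) *
          (fcal W (filt w K (star F * F)) *
            filt w K (star F * ((3 : ℂ) • (ca Q x * Z) - (2 : ℂ) • ck Q (spin x) 1))))) *ᵥ v)) := by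
  have hP := PD_proj Q T
  have hW := PD_proj Q (x ::ₘ T)
  have hle : PD Q T * PD Q (x ::ₘ T) = PD Q (x ::ₘ T) := (PD_mul_of_le (Multiset.le_cons_self T x)).1
  have hm := md_pos hQ hx
  have hs : s ≠ 0 := norm_pos_iff.1 (hm.trans_le h.ge)
  have hk : F * PD Q (x ::ₘ T) = 0 := by
    have e1 : ca Q x * PD Q (x ::ₘ T) = 0 := ext_iff_mulVec.2 fun z => by
      rw [← mulVec_mulVec, zero_mulVec]
      exact ((mem_ZD_cons_of_not_mem hx).1 (PD_mulVec_mem _ z)).2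
    rw [← hle, ← mul_assoc, h.eq, smul_mul_assoc, mul_assoc, hle] at e1
    exact (smul_eq_zero.1 e1).resolve_left hs
  have hF : ∀ z ∈ ZD Q T, ca Q x *ᵥ z = s • (F *ᵥ z) := fun z hz => by
    have := congrArg (· *ᵥ z) h.eq
    simpa only [smul_mulVec, ← mulVec_mulVec, PD_mulVec_iff.2 hz] using this
  have hPv := PD_mulVec_iff.2 hv.2
  have hWv : PD Q T *ᵥ (PD Q (x ::ₘ T) *ᵥ v) = PD Q (x ::ₘ T) *ᵥ v := by rw [mulVec_mulVec, hle]
  have hWW : PD Q (x ::ₘ T) *ᵥ (PD Q (x ::ₘ T) *ᵥ v) = PD Q (x ::ₘ T) *ᵥ v := by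
    rw [mulVec_mulVec, hW.isIdempotentElem.eq]
  have e1 : F *ᵥ u = (Real.sqrt Q : ℂ) • (F₁ *ᵥ (PD Q (x ::ₘ T) *ᵥ v)) := by
    rw [ck_spin_zero, hF u hu.2, smul_mulVec, mulVec_mulVec, h.eq₁, smul_mulVec, smul_comm,
      ← mulVec_mulVec] at eu
    exact smul_right_injective _ hs eu
  have e2 : F *ᵥ y = (s⁻¹ * Real.sqrt Q) •
      (((3 : ℂ) • (ca Q x * Z) - (2 : ℂ) • ck Q (spin x) 1) *ᵥ v) := by
    have e3 : secP (Q + 1) N *ᵥ (dG (Ah Q (spin x)) *ᵥ v) = dG (Ah Q (spin x)) *ᵥ v := by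
      rw [mulVec_mulVec, (commute_secP (commute_numC_dG _) N).eq, ← mulVec_mulVec, hv.1]
    rw [Th, ck_spin_zero, hF y hy.2, sub_mulVec, ← mulVec_mulVec, ← mulVec_mulVec, sub_mulVec,
      one_mulVec, ← mulVec_mulVec, e3, hZ v hv.2] at ey
    rw [mul_smul, eq_inv_smul_iff₀ hs, ey]
    simp only [sub_mulVec, smul_mulVec, mulVec_smul, ← mulVec_mulVec, smul_sub, smul_smul]
    push_cast
    rw [mul_comm (2 : ℂ)]
  rw [fcal_solve hf hK hP hW hle hk h.gap (PD_mulVec_iff.2 hu.2),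
    fcal_solve hf hK hP hW hle hk h.gap (PD_mulVec_iff.2 hy.2), e1, e2]
  simp only [mulVec_smul, smul_mulVec]
  rw [mulVec_mulVec _ (star F), mulVec_mulVec _ (star F), ← filt_proj hf hK hP _ hWv,
    ← filt_proj hf hK hP _ hPv, mulVec_mulVec, mulVec_mulVec v (fcal _ _)]
  generalize fcal W (filt w K (star F * F)) * filt w K (star F * F₁) = Y₁
  generalize fcal W (filt w K (star F * F)) *
    filt w K (star F * ((3 : ℂ) • (ca Q x * Z) - (2 : ℂ) • ck Q (spin x) 1)) = Y₂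
  have e4 : star (Y₁ *ᵥ (PD Q (x ::ₘ T) *ᵥ v)) ⬝ᵥ (Y₂ *ᵥ v) =
      star (PD Q (x ::ₘ T) *ᵥ v) ⬝ᵥ ((PD Q (x ::ₘ T) * (star Y₁ * Y₂)) *ᵥ v) := by
    rw [← hWW, mulVec_mulVec _ Y₁, star_mulVec, ← dotProduct_mulVec, hWW, mulVec_mulVec,
      ← star_eq_conjTranspose, star_mul, hW.isSelfAdjoint.star_eq, mul_assoc]
  refine (Complex.abs_re_le_norm _).trans ?_
  rw [star_smul, star_smul, smul_dotProduct, smul_dotProduct, dotProduct_smul, dotProduct_smul, e4]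
  simp only [norm_smul, norm_star, norm_neg, Complex.norm_I, one_mul, norm_mul, norm_inv,
    Complex.norm_real, Real.norm_of_nonneg (Real.sqrt_nonneg _)]
  have e5 := norm_dot_le (PD Q (x ::ₘ T) *ᵥ v) ((PD Q (x ::ₘ T) * (star Y₁ * Y₂)) *ᵥ v)
  have e6 : ‖s‖⁻¹ ≤ (md Q T x)⁻¹ := inv_anti₀ hm h.ge
  calc _ ≤ Real.sqrt Q * ((md Q T x)⁻¹ * Real.sqrt Q * (en (PD Q (x ::ₘ T) *ᵥ v) *
        en ((PD Q (x ::ₘ T) * (star Y₁ * Y₂)) *ᵥ v))) := by gcongr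
    _ = _ := by
        rw [← mul_assoc, mul_left_comm (Real.sqrt Q), Real.mul_self_sqrt (Nat.cast_nonneg Q),
          div_eq_inv_mul]

theorem loc26_star {n : ℕ} {A : Fk n} (h : NC A) : NC (star A) := by
  have := Commute.star_star h
  rwa [(numC_sa n).star_eq] at this

theorem loc26_low {Q : ℕ} {Z : Fk (Q + 1)} (h : NC Z) (x : S2) :
    Low 1 ((3 : ℂ) • (ca Q x * Z) - (2 : ℂ) • ck Q (spin x) 1) := by
  have h1 : Low 1 (ca Q x) := low_cC _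
  have h2 : Low 1 (ck Q (spin x) 1) := by
    unfold ck
    split_ifs
    · exact low_cC _
    · simp [Low]
  have h3 : Low 1 (ca Q x * Z) := by
    unfold Low at h1 ⊢
    rw [mul_assoc, ← h.eq, ← mul_assoc, ← mul_assoc, ← sub_mul, h1, smul_mul_assoc]
  unfold Low at h2 h3 ⊢
  rw [mul_sub, sub_mul, mul_smul_comm, mul_smul_comm, smul_mul_assoc, smul_mul_assoc,
    sub_sub_sub_comm, ← smul_sub, ← smul_sub, h2, h3, smul_sub, smul_comm (3 : ℂ),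
    smul_comm (2 : ℂ)]

theorem cross_local : ∃ (α a C R₀ : ℝ) (Q₀ : ℕ), 0 < α ∧ α ≤ 1 / 2 ∧ 0 < a ∧ ∀ Q, Q₀ ≤ Q →
    ∀ T : Multiset S2, AdmS Q R₀ T → ∀ x ∉ T, ∃ Y, NL Q α a C x Y ∧
      ∀ (N : ℕ) (v u y : FV Q), InZ Q T N v → InZ Q T N u → InZ Q T N y →
        ck Q (spin x) 0 *ᵥ u = ((Real.sqrt Q : ℂ) • ck Q (spin x) 1) *ᵥ (PD Q (x ::ₘ T) *ᵥ v) →
        ck Q (spin x) 0 *ᵥ y = Th Q (PD Q T * secP (Q + 1) N) (spin x) *ᵥ v →
        |(star (u - PD Q (x ::ₘ T) *ᵥ u) ⬝ᵥ (y - PD Q (x ::ₘ T) *ᵥ y)).re| ≤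
          Q / md Q T x * (en (PD Q (x ::ₘ T) *ᵥ v) * en ((PD Q (x ::ₘ T) * Y) *ᵥ v)) := by
  obtain ⟨R₁, g₁, C₁, Q₁, -, hg₁, hQ₁, H₁⟩ := unit_data
  obtain ⟨R₂, g₂, a₂, C₂, G₂, Q₂, hg₂, ha₂, H₂⟩ := kd_parent_form
  obtain ⟨R₃, Q₃, H₃⟩ := zt_local
  obtain ⟨C₄, c₄, -, hc₄, H₄⟩ := exists_filt
  have hg := lt_min hg₁ hg₂
  obtain ⟨w, W, hf, -, -, dw, dW⟩ := H₄ _ hg
  have hc : 0 < c₄ * Real.sqrt (min g₁ g₂) := mul_pos hc₄ (Real.sqrt_pos.2 hg)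
  let I := {p : ℕ × Multiset S2 × S2 // max Q₁ (max Q₂ Q₃) ≤ p.1 ∧
    AdmS p.1 (max R₁ (max R₂ R₃)) p.2.1 ∧ p.2.2 ∉ p.2.1}
  let Q : I → ℕ := fun i => i.1.1
  let T : I → Multiset S2 := fun i => i.1.2.1
  let x : I → S2 := fun i => i.1.2.2
  have q₁ : ∀ i, Q₁ ≤ Q i := fun i => le_of_max_le_left i.2.1
  have q₀ : ∀ i, 1 ≤ Q i := fun i => hQ₁.trans (q₁ i)
  choose s F F₁ hU using fun i : I =>
    H₁ (Q i) (q₁ i) (T i) (i.2.2.1.mono (le_max_left _ _) le_rfl) (x i) i.2.2.2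
  choose K A hK hK' _ using fun i : I => H₂ (Q i) (le_of_max_le_left (le_of_max_le_right i.2.1))
    (T i) (i.2.2.1.mono ((le_max_left _ _).trans (le_max_right _ _)) le_rfl)
  obtain ⟨Z, uZ, nZ, hZ⟩ := H₃ Q x T (fun i => le_of_max_le_right (le_of_max_le_right i.2.1))
    (fun i => i.2.2.1.mono ((le_max_right _ _).trans (le_max_right _ _)) le_rfl) fun i => i.2.2.2
  have uK : UH Q K := ⟨_, _, _, _, by norm_num, by norm_num, ha₂, hK⟩
  have uF : UO Q x F := UO.of one_pos one_pos fun i => (hU i).ol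
  have uF₁ : UO Q x F₁ := UO.of one_pos one_pos fun i => (hU i).ol₁
  have uc : UO Q x fun i => ck (Q i) (spin (x i)) 1 := UO.of one_pos one_pos fun i => OL_ck _ _ 1
  have uG := (((UO.ca Q x).mul_UQ uZ).smul (z := fun _ => 3) fun _ => le_rfl).sub
    (uc.smul (z := fun _ => 2) fun _ => le_rfl)
  have uS := ((uF.star.mul uF).filt q₀ uK hc hf.int_w dw).fcal
    (fun i => filt_sa hf.real_w (hK i).sa (IsSelfAdjoint.star_mul_self _)) hc hf.int_W dW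
  obtain ⟨α, a, C, h0, h1, ha, -, hY⟩ :=
    (uS.mul ((uF.star.mul uF₁).filt q₀ uK hc hf.int_w dw)).star.mul
      (uS.mul ((uF.star.mul uG).filt q₀ uK hc hf.int_w dw))
  refine ⟨α, a, C, max R₁ (max R₂ R₃), max Q₁ (max Q₂ Q₃), h0, h1, ha, fun q hq t ht y hy => ?_⟩
  let i : I := ⟨(q, t, y), hq, ht, hy⟩
  have nK := (hK i).nc
  have nS := (nK.filt ((hU i).low.nc (hU i).low) w).fcal W
  refine ⟨_, ⟨Commute.mul_right (loc26_star (Commute.mul_right nS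
    (nK.filt ((hU i).low.nc (hU i).low₁) w))) (Commute.mul_right nS
      (nK.filt ((hU i).low.nc (loc26_low (nZ i) _)) w)), hY i⟩, fun N v u z hv hu hz eu ez => ?_⟩
  refine cross_alg (q₀ i) hy (C := C₁) (s := s i) { hU i with gap := le_trans ?_ (hU i).gap } hf
    (Parent.mono (hK' i) (PD_proj _ _) (min_le_right _ _)) (hZ i) hv hu hz eu ez
  refine smul_le_smul_of_nonneg_right (min_le_left _ _) (sub_nonneg.2 ?_)
  exact ((PD_proj _ _).le_iff_mul_eq_left (PD_proj _ _)).2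
    (PD_mul_of_le (Multiset.le_cons_self _ _)).2

end Crest.Agent.R340.F2
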