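import Crest.Agent.R340.IfKD
import Crest.Agent.R340.CnExch
import Crest.Agent.R340.CnSum

/-! # Row 340 interface: CNT (COUNT-X, ideas 1121, 1135). Owner helper68 -/

set_option autoImplicit false

namespace Crest.Agent.R340.Pin

open Matrix MeasureTheory Crest.MathPhysics.Laughlin
open scoped Matrix.Norms.L2Operator MatrixOrder ComplexOrder ComplexConjugate

/-- discrete form -/
theorem cnt_sum {α a : ℝ} (h0 : 0 < α) (h1 : α ≤ 1 / 2) (ha : 0 < a) :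
    ∃ (R₀ C : ℝ) (Q₀ : ℕ), 0 ≤ C ∧ ∀ Q, Q₀ ≤ Q → ∀ (T : Multiset S2) (S : Finset S2),
      AdmT Q R₀ T → Sep Q R₀ S.val → ∀ (N : ℕ) (v : FV Q), 1 ≤ N → InZ Q T N v →
        ∀ (B : ℝ) (X : S2 → Fk (Q + 1)), (∀ w ∈ S, NL Q α a B w (X w)) →
          ∑ w ∈ S, nq ((PD Q (w ::ₘ T) * X w) *ᵥ v) ≤ C * B ^ 2 * nfree Q T N * nq v := by
  exact cnt_sum' h0 h1 ha

/-- integral form; no measurability is needed -/
theorem cnt_int {α a : ℝ} (G : ℝ) (h0 : 0 < α) (h1 : α ≤ 1 / 2) (ha : 0 < a) :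
    ∃ (R₀ C : ℝ) (Q₀ : ℕ), 0 ≤ C ∧ ∀ Q, Q₀ ≤ Q → ∀ T : Multiset S2, AdmT Q R₀ T →
      ∀ (N : ℕ) (v : FV Q), 1 ≤ N → InZ Q T N v →
        ∀ (ι : Type) [MeasurableSpace ι] (ν : Measure ι) (x : ι → S2), Sites Q G ν x →
          ∀ (B : ℝ) (f : ι → ℝ), (∀ᵐ i ∂ν, ∃ X, NL Q α a B (x i) X ∧
            f i ≤ nq ((PD Q (x i ::ₘ T) * X) *ᵥ v)) →
            ∫ i, f i ∂ν ≤ C * B ^ 2 * nfree Q T N * nq v :=
  Cn.cnt_int_of G (cnt_sum h0 h1 ha)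

/-- majorant form -/
theorem cnt_maj {α a : ℝ} (G : ℝ) (h0 : 0 < α) (h1 : α ≤ 1 / 2) (ha : 0 < a) :
    ∃ (R₀ C : ℝ) (Q₀ : ℕ), 0 ≤ C ∧ ∀ Q, Q₀ ≤ Q → ∀ T : Multiset S2, AdmT Q R₀ T →
      ∀ (N : ℕ) (v : FV Q), 1 ≤ N → InZ Q T N v →
        ∀ (ι : Type) [MeasurableSpace ι] (ν : Measure ι) (x : ι → S2), Sites Q G ν x →
          ∀ (B : ℝ) (X : ι → Fk (Q + 1)), (∀ i, NL Q α a B (x i) (X i)) →
            ∃ g : ι → ℝ, Integrable g ν ∧ (∀ i, 0 ≤ g i) ∧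
              (∀ i, nq ((PD Q (x i ::ₘ T) * X i) *ᵥ v) ≤ g i) ∧
              ∫ i, g i ∂ν ≤ C * B ^ 2 * nfree Q T N * nq v :=
  Cn.cnt_maj_of G (cnt_sum h0 h1 ha)

end Crest.Agent.R340.Pin
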