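import Crest.Agent.R340.F2Ball
import Crest.Agent.R340.F2Loc
import Crest.Agent.R340.IfCnt

/-! # F2 in the chart, and the rotation -/

set_option autoImplicit false

namespace Crest.Agent.R340.F2

open Matrix MeasureTheory Crest.MathPhysics.Laughlin Crest.Agent.R340.Pin
open scoped ComplexConjugate Matrix.Norms.L2Operator ENNReal

/-- the real-variable end of the argument -/
theorem f2_real {Q : ℕ} {m p f cr : ℂ → ℝ} {E : Finset ℂ} {J M C δ lam : ℝ} (hδ : 0 < δ)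
    (hl : 0 < lam) (mm : Measurable m) (mp : AEStronglyMeasurable p volume)
    (mf : AEStronglyMeasurable f volume) (p0 : ∀ w, 0 ≤ p w ∧ p w ≤ M)
    (f0 : ∀ w, 0 ≤ f w ∧ f w ≤ M) (m0 : ∀ w, 0 ≤ m w) (m1 : ∀ w ∉ E, 0 < m w)
    (hcr : ∀ w ∉ E, cr w ≤ Q / m w * (Real.sqrt (p w) * Real.sqrt (f w)))
    [IsFiniteMeasure (nuC Q)] [IsFiniteMeasure ((nuC Q).withDensity fun w =>
      ENNReal.ofReal (if m w < δ then (δ * m w)⁻¹ else 0))]
    (h1 : ∫ w, f w ∂nuC Q ≤ C)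
    (h2 : ∫ w, f w ∂((nuC Q).withDensity fun w =>
      ENNReal.ofReal (if m w < δ then (δ * m w)⁻¹ else 0)) ≤ C)
    (h3 : ∫ w, p w ∂((nuC Q).withDensity fun w =>
      ENNReal.ofReal (if m w < δ then (δ * m w)⁻¹ else 0)) ≤ C)
    (h : ∀ g : ℂ → ℝ, Integrable g → (∀ w, 0 ≤ g w) →
      (∀ w ∉ E, om w * ((Q + 3) * p w + cr w) ≤ g w) → Real.pi / 4 * J ≤ ∫ w, g w) :
    J / 4 ≤ (3 + (2 * lam * δ ^ 2)⁻¹) * ∫ w, p w ∂nuC Q + (lam / 2 + δ) * C := by
  set rd : ℂ → ℝ := fun w => if m w < δ then (δ * m w)⁻¹ else 0 with hrd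
  have rd0 : ∀ w, 0 ≤ rd w := fun w => by
    simp only [hrd]
    split_ifs
    · exact inv_nonneg.2 (mul_nonneg hδ.le (m0 w))
    · exact le_rfl
  have rdm : Measurable fun w => ENNReal.ofReal (rd w) :=
    (Measurable.ite (measurableSet_lt mm measurable_const) (mm.const_mul δ).inv
      measurable_const).ennreal_ofReal
  have rdt : ∀ᵐ w ∂nuC Q, ENNReal.ofReal (rd w) < ∞ := ae_of_all _ fun _ => ENNReal.ofReal_lt_top
  have hb : ∀ (ν : Measure ℂ) [IsFiniteMeasure ν], ν ≪ volume → ∀ u : ℂ → ℝ,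
      AEStronglyMeasurable u volume → (∀ w, 0 ≤ u w ∧ u w ≤ M) → Integrable u ν :=
    fun ν _ hν u hu h0 => Integrable.of_bound (hu.mono_ac hν) M (ae_of_all _ fun w => by
      rw [Real.norm_of_nonneg (h0 w).1]; exact (h0 w).2)
  have hac : ((nuC Q).withDensity fun w => ENNReal.ofReal (rd w)) ≪ volume :=
    (withDensity_absolutelyContinuous _ _).trans (nuC_ac Q)
  have ip := hb _ (nuC_ac Q) p mp p0
  have i_f := hb _ (nuC_ac Q) f mf f0
  have ip' : Integrable (fun w => rd w * p w) (nuC Q) := by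
    have := (integrable_withDensity_iff rdm rdt).1 (hb _ hac p mp p0)
    simpa only [ENNReal.toReal_ofReal (rd0 _), mul_comm] using this
  have if' : Integrable (fun w => rd w * f w) (nuC Q) := by
    have := (integrable_withDensity_iff rdm rdt).1 (hb _ hac f mf f0)
    simpa only [ENNReal.toReal_ofReal (rd0 _), mul_comm] using this
  rw [integral_withDensity_eq_integral_toReal_smul rdm rdt] at h2 h3
  simp only [ENNReal.toReal_ofReal (rd0 _), smul_eq_mul] at h2 h3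
  have hQ : (0 : ℝ) ≤ Q := Nat.cast_nonneg _
  have om0 : ∀ w, 0 ≤ om w := fun w => by unfold om; positivity
  set κ : ℝ := (2 * lam * δ ^ 2)⁻¹ with hκ
  have hκ0 : 0 < κ := by positivity
  have j1 : Integrable (fun w => (Q + 3 + Q * κ) * p w) (nuC Q) := ip.const_mul _
  have j2 : Integrable (fun w => Q * lam / 2 * f w) (nuC Q) := i_f.const_mul _
  have j3 : Integrable (fun w => Q * δ / 2 * (rd w * p w)) (nuC Q) := ip'.const_mul _
  have j4 : Integrable (fun w => Q * δ / 2 * (rd w * f w)) (nuC Q) := if'.const_mul _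
  have j12 : Integrable (fun w => (Q + 3 + Q * κ) * p w + Q * lam / 2 * f w) (nuC Q) := j1.add j2
  have j34 : Integrable (fun w => Q * δ / 2 * (rd w * p w) + Q * δ / 2 * (rd w * f w)) (nuC Q) :=
    j3.add j4
  have jG : Integrable (fun w => ((Q + 3 + Q * κ) * p w + Q * lam / 2 * f w) +
      (Q * δ / 2 * (rd w * p w) + Q * δ / 2 * (rd w * f w))) (nuC Q) := j12.add j34
  have key := h _ (integrable_nuC Q jG) (fun w => by
    have := (p0 w).1
    have := (f0 w).1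
    have := rd0 w
    have := om0 w
    positivity) fun w hw => mul_le_mul_of_nonneg_left (by
      have hp := (p0 w).1
      have hf := (f0 w).1
      have hm := m1 w hw
      have hc := hcr w hw
      obtain ⟨a, ha, hpa⟩ : ∃ a, 0 ≤ a ∧ p w = a ^ 2 := ⟨_, Real.sqrt_nonneg _, (Real.sq_sqrt hp).symm⟩
      obtain ⟨b, hb, hfb⟩ : ∃ b, 0 ≤ b ∧ f w = b ^ 2 := ⟨_, Real.sqrt_nonneg _, (Real.sq_sqrt hf).symm⟩
      rw [hpa, hfb, Real.sqrt_sq ha, Real.sqrt_sq hb] at hc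
      rw [hpa, hfb]
      have hr := rd0 w
      by_cases hmd : m w < δ
      · have e : Q / m w = Q * δ * rd w := by
          simp only [hrd, if_pos hmd]; field_simp
        rw [e] at hc
        have t1 : 0 ≤ Q * δ * rd w * (a - b) ^ 2 := by positivity
        have t2 : 0 ≤ Q * κ * a ^ 2 + Q * lam / 2 * b ^ 2 := by positivity
        nlinarith
      · have e : Q / m w * (a * b) ≤ Q / δ * (a * b) := mul_le_mul_of_nonneg_right
          (div_le_div_of_nonneg_left hQ hδ (not_lt.1 hmd)) (by positivity)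
        have t0 : κ * a ^ 2 + lam / 2 * b ^ 2 - a * b / δ = κ * (a - lam * δ * b) ^ 2 := by
          rw [hκ]; field_simp; ring
        have t1 : a * b / δ ≤ κ * a ^ 2 + lam / 2 * b ^ 2 := by
          have : 0 ≤ κ * (a - lam * δ * b) ^ 2 := by positivity
          linarith
        have t2 := mul_le_mul_of_nonneg_left t1 hQ
        have t3 : 0 ≤ Q * δ / 2 * (rd w * a ^ 2) + Q * δ / 2 * (rd w * b ^ 2) := by positivity
        have t4 : Q / δ * (a * b) = Q * (a * b / δ) := by ring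
        nlinarith) (om0 w)
  have e := integral_nuC Q fun w => ((Q + 3 + Q * κ) * p w + Q * lam / 2 * f w) +
    (Q * δ / 2 * (rd w * p w) + Q * δ / 2 * (rd w * f w))
  rw [integral_add j12 j34, integral_add j1 j2, integral_add j3 j4, integral_const_mul,
    integral_const_mul, integral_const_mul, integral_const_mul] at e
  have hpi := Real.pi_pos
  have k2 := mul_le_mul_of_nonneg_left key (show 0 ≤ ((Q : ℝ) + 1) / Real.pi by positivity)
  rw [← e, show ((Q : ℝ) + 1) / Real.pi * (Real.pi / 4 * J) = (Q + 1) * (J / 4) by field_simp] at k2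
  have hP : 0 ≤ ∫ w, p w ∂nuC Q := integral_nonneg fun w => (p0 w).1
  have hC : 0 ≤ C := (integral_nonneg fun w => (f0 w).1).trans h1
  refine le_of_mul_le_mul_left (k2.trans ?_) (show (0 : ℝ) < Q + 1 by positivity)
  have u1 := mul_le_mul_of_nonneg_left h1 (show 0 ≤ Q * lam / 2 by positivity)
  have u2 := mul_le_mul_of_nonneg_left h2 (show 0 ≤ Q * δ / 2 by positivity)
  have u3 := mul_le_mul_of_nonneg_left h3 (show 0 ≤ Q * δ / 2 by positivity)
  have u4 : 0 ≤ (2 * Q + κ) * ∫ w, p w ∂nuC Q := by positivity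
  have u5 : 0 ≤ (lam / 2 + δ) * C := by positivity
  nlinarith

theorem f2_chart : ∃ (c R₀ : ℝ) (Q₀ : ℕ), 0 < c ∧ 1 ≤ Q₀ ∧ ∀ Q, Q₀ ≤ Q → ∀ E : Finset ℂ,
    AdmS Q R₀ (TE E) →
      (∀ v : FV Q, AEStronglyMeasurable (fun w => PD Q (ster w ::ₘ TE E) *ᵥ v) (nuC Q)) ∧
      ∀ (N : ℕ) (v : FV Q), 1 ≤ N → InZ Q (TE E) N v →
        c * nfree Q (TE E) N * nq v ≤ ∫ w, nq (PD Q (ster w ::ₘ TE E) *ᵥ v) ∂nuC Q := by
  obtain ⟨R1, g, C0, Q1, hR1, hg, hQ1, hud⟩ := unit_data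
  obtain ⟨α, a, C, R2, Q2, h0, h1, ha, hcl⟩ := cross_local
  obtain ⟨G, hG⟩ := sites_chart
  obtain ⟨R3, C1, Q3, hC1, hcnt⟩ := cnt_int G h0 h1 ha
  obtain ⟨B, hBC, hB1⟩ : ∃ B : ℝ, C ≤ B ∧ 1 ≤ B := ⟨max C 1, le_max_left _ _, le_max_right _ _⟩
  have hK : 0 ≤ C1 * B ^ 2 := by positivity
  obtain ⟨δ, hδ, hδ1, hδK⟩ : ∃ δ : ℝ, 0 < δ ∧ δ ≤ 1 ∧ δ * (C1 * B ^ 2) ≤ 1 / 16 := by
    refine ⟨1 / (16 * (C1 * B ^ 2 + 1)), by positivity, ?_, ?_⟩
    · rw [div_le_one (by positivity)]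
      linarith
    · rw [div_mul_eq_mul_div, div_le_div_iff₀ (by positivity) (by positivity)]
      linarith
  have hD : 0 < 3 + (2 * δ * δ ^ 2)⁻¹ := by positivity
  refine ⟨(8 * (3 + (2 * δ * δ ^ 2)⁻¹))⁻¹, max R1 (max R2 R3), max Q1 (max Q2 Q3), by positivity,
    hQ1.trans (le_max_left _ _), fun Q hQ E hE => ?_⟩
  have q1 : Q1 ≤ Q := (le_max_left _ _).trans hQ
  have q2 : Q2 ≤ Q := ((le_max_left _ _).trans (le_max_right _ _)).trans hQ
  have q3 : Q3 ≤ Q := ((le_max_right _ _).trans (le_max_right _ _)).trans hQ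
  have hQ0 : 1 ≤ Q := hQ1.trans q1
  have hQr : (0 : ℝ) < Q := by exact_mod_cast hQ0
  have a1 : AdmS Q R1 (TE E) := hE.mono (le_max_left _ _) le_rfl
  have a2 : AdmS Q R2 (TE E) := hE.mono ((le_max_left _ _).trans (le_max_right _ _)) le_rfl
  have a3 : AdmS Q R3 (TE E) := hE.mono ((le_max_right _ _).trans (le_max_right _ _)) le_rfl
  have hu := hud Q q1 _ a1
  have hm := aesm_PD hQ0 hg hu
  refine ⟨fun v => (hm v).mono_ac (nuC_ac Q), fun N v hN hv => ?_⟩
  rcases lt_or_ge (nfree Q (TE E) N) 0 with hn | hn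
  · have := hv.eq_zero hN hn
    subst this
    simp [nq]
  have hcard : ((TE E).card : ℝ) = E.card := by simp [TE]
  have hnf : (Q : ℝ) + 3 - 3 * N - E.card = nfree Q (TE E) N := by rw [nfree, hcard]; ring
  obtain ⟨cr, mcr, hcr, hint⟩ := f2_core' (core_inst hQ0 hN hn hg hu) (by linarith)
    (inZ_iff.2 hv)
  have hP : ∀ {z : FV Q} (D : Multiset S2), InZ Q (TE E) N z →
      (PD Q D * secP (Q + 1) N) *ᵥ z = PD Q D *ᵥ z := fun D hz => by rw [← mulVec_mulVec, hz.1]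
  have hnq : ∀ z : FV Q, 0 ≤ nq z := fun z => en_sq_eq_nq z ▸ sq_nonneg _
  have key : ∀ w ∉ E, ∃ Y, NL Q α a B (ster w) Y ∧
      |cr w| ≤ Q / md Q (TE E) (ster w) * (en (PD Q (ster w ::ₘ TE E) *ᵥ v) *
        en ((PD Q (ster w ::ₘ TE E) * Y) *ᵥ v)) := fun w hw => by
    obtain ⟨Y, hY, hb⟩ := hcl Q q2 _ a2 (ster w) (mt mem_TE.1 hw)
    obtain ⟨u, y, eu, ey, e1, e2, e3⟩ := hcr w hw
    have iu := inZ_iff.1 eu
    have iy := inZ_iff.1 ey
    refine ⟨Y, ⟨hY.1, hY.2.mono hBC⟩, ?_⟩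
    rw [hP _ hv] at e1
    rw [hP _ iu, hP _ iy] at e3
    rw [e3]
    exact hb N v u y hv iu iy (by rw [spin_ster_eq]; exact e1) (by rw [spin_ster_eq]; exact e2)
  have mp : AEStronglyMeasurable (fun w => nq (PD Q (ster w ::ₘ TE E) *ᵥ v)) volume := by
    have c : Continuous fun z : FV Q => nq z := by unfold nq; fun_prop
    exact c.comp_aestronglyMeasurable (hm v)
  have mm : Measurable fun w => md Q (TE E) (ster w) :=
    ((continuous_md Q _).comp continuous_ster).measurable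
  have m1 : ∀ w ∉ E, 0 < md Q (TE E) (ster w) := fun w hw => md_pos hQ0 (mt mem_TE.1 hw)
  have kf : ∀ w ∉ E, ∃ Y, NL Q α a B (ster w) Y ∧
      (cr w * md Q (TE E) (ster w) / Q) ^ 2 / nq (PD Q (ster w ::ₘ TE E) *ᵥ v) ≤
        nq ((PD Q (ster w ::ₘ TE E) * Y) *ᵥ v) := fun w hw => by
    obtain ⟨Y, hY, hb⟩ := key w hw
    refine ⟨Y, hY, div_le_of_le_mul₀ (hnq _) (hnq _) ?_⟩
    rw [← en_sq_eq_nq, ← en_sq_eq_nq, ← mul_pow, ← sq_abs (_ / _)]
    refine pow_le_pow_left₀ (abs_nonneg _) ?_ 2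
    have := m1 w hw
    rw [abs_div, abs_mul, abs_of_pos this, abs_of_pos hQr, div_le_iff₀ hQr, ← le_div_iff₀ this]
    refine hb.trans (le_of_eq ?_)
    ring
  have hac : ∀ ν : Measure ℂ, ν ≪ volume → ∀ᵐ w ∂ν, w ∉ E := fun ν hν =>
    hν.ae_le (measure_eq_zero_iff_ae_notMem.1 (E.finite_toSet.measure_zero volume))
  obtain ⟨s1, s2⟩ := hG Q hQ0
  have s3 := s2 (TE E) (a1.mono hR1 le_rfl).1 δ hδ hδ1
  have ac3 : ((nuC Q).withDensity fun w => ENNReal.ofReal (rd Q (TE E) δ w)) ≪ volume :=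
    (withDensity_absolutelyContinuous _ _).trans (nuC_ac Q)
  have c1 := hcnt Q q3 _ a3.toAdmT N v hN hv ℂ _ ster s1 B _ ((hac _ (nuC_ac Q)).mono kf)
  have c2 := hcnt Q q3 _ a3.toAdmT N v hN hv ℂ _ ster s3 B _ ((hac _ ac3).mono kf)
  have c3 := hcnt Q q3 _ a3.toAdmT N v hN hv ℂ _ ster s3 B
    (fun w => nq (PD Q (ster w ::ₘ TE E) *ᵥ v)) (Filter.Eventually.of_forall fun w =>
      ⟨1, ⟨Commute.one_right _, (QL.one Q α a _).mono hB1⟩, by rw [mul_one]⟩)
  haveI := s1.fin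
  haveI : IsFiniteMeasure ((nuC Q).withDensity fun w => ENNReal.ofReal
    (if md Q (TE E) (ster w) < δ then (δ * md Q (TE E) (ster w))⁻¹ else 0)) := s3.fin
  have hB2 : 1 ≤ B ^ 2 := one_le_pow₀ hB1
  have pr : ∀ (D : Multiset S2) (z : FV Q), nq (PD Q D *ᵥ z) ≤ nq z := fun D z => by
    rw [← en_sq_eq_nq, ← en_sq_eq_nq]
    exact pow_le_pow_left₀ (en_nonneg _) (en_proj_le (PD_proj Q D) z) 2
  have fin := f2_real (Q := Q) (E := E) (m := fun w => md Q (TE E) (ster w))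
    (p := fun w => nq (PD Q (ster w ::ₘ TE E) *ᵥ v))
    (f := fun w => (cr w * md Q (TE E) (ster w) / Q) ^ 2 / nq (PD Q (ster w ::ₘ TE E) *ᵥ v))
    (cr := cr) (J := nfree Q (TE E) N * nq v) (M := B ^ 2 * nq v) hδ hδ mm mp
    ((((mcr.aemeasurable.mul mm.aemeasurable).div_const _).pow_const 2).div
      mp.aemeasurable).aestronglyMeasurable
    (fun w => ⟨hnq _, (pr _ v).trans (le_mul_of_one_le_left (hnq v) hB2)⟩)
    (fun w => ⟨div_nonneg (sq_nonneg _) (hnq _), by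
      by_cases hw : w ∈ E
      · have : md Q (TE E) (ster w) = 0 :=
          le_antisymm ((md_le (mem_TE.2 hw) _).trans (by simp [dq])) (md_nonneg _ _ _)
        simp only [this, mul_zero, zero_div, ne_eq, OfNat.ofNat_ne_zero, not_false_eq_true,
          zero_pow]
        exact mul_nonneg (sq_nonneg _) (hnq v)
      · obtain ⟨Y, hY, hb⟩ := kf w hw
        refine hb.trans ?_
        rw [← mulVec_mulVec]
        refine (pr _ _).trans ?_
        rw [← en_sq_eq_nq, ← en_sq_eq_nq, ← mul_pow]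
        exact pow_le_pow_left₀ (en_nonneg _) ((en_mulVec_le Y v).trans
          (mul_le_mul_of_nonneg_right hY.2.1 (en_nonneg v))) 2⟩)
    (fun w => md_nonneg _ _ _) m1
    (fun w hw => by
      obtain ⟨Y, -, hb⟩ := key w hw
      have hmw := m1 w hw
      refine (le_abs_self _).trans ?_
      rw [← en_sq_eq_nq, ← div_pow, Real.sqrt_sq (en_nonneg _), Real.sqrt_sq_eq_abs]
      rcases (en_nonneg (PD Q (ster w ::ₘ TE E) *ᵥ v)).eq_or_lt with e | e
      · rw [← e] at hb ⊢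
        simpa using hb
      · rw [abs_div, abs_div, abs_mul, abs_of_pos hmw, abs_of_pos hQr, abs_of_pos e]
        refine le_of_eq ?_
        field_simp)
    c1 c2 c3
    (fun g ig g0 hg => by
      have := hint g ig g0 fun w hw => by
        rw [hP _ hv, en_sq_eq_nq]
        exact hg w hw
      rwa [hnf, en_sq_eq_nq] at this)
  have hJ : 0 ≤ nfree Q (TE E) N * nq v := mul_nonneg hn (hnq v)
  rw [mul_assoc, inv_mul_le_iff₀ (by positivity)]
  have h5 := mul_le_mul_of_nonneg_right hδK hJ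
  nlinarith

end Crest.Agent.R340.F2
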