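import Crest.Agent.R340.F2Core

/-! # F2: measurability -/

set_option autoImplicit false

namespace Crest.Agent.R340.F2

open Matrix MeasureTheory Filter
open scoped ComplexConjugate Matrix.Norms.L2Operator

section
variable {n : Type} [Fintype n] [DecidableEq n] {E : Finset ℂ} {P : Matrix n n ℂ}
  {c Pw : ℂ → Matrix n n ℂ}

theorem h89_res_cont (hc : Continuous c) {ε : ℝ} (hε : 0 < ε) :
    Continuous fun w => res (c w) ε := by
  refine continuous_iff_continuousAt.2 fun w => ?_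
  obtain ⟨u, hu⟩ := isUnit_res (c w) hε
  have h1 : Continuous fun w => star (c w) * c w + (ε : ℂ) • (1 : Matrix n n ℂ) :=
    (hc.star.mul hc).add continuous_const
  exact ContinuousAt.comp (f := fun w => star (c w) * c w + (ε : ℂ) • (1 : Matrix n n ℂ))
    (hu ▸ NormedRing.inverse_continuousAt u) h1.continuousAt

omit [DecidableEq n] in
theorem h89_mulVec {A : ℂ → Matrix n n ℂ} {x : ℂ → n → ℂ} (hA : Continuous A)
    (hx : AEStronglyMeasurable x volume) : AEStronglyMeasurable (fun w => A w *ᵥ x w) volume := by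
  classical
  have hd : Continuous fun p : Matrix n n ℂ × (n → ℂ) => p.1 *ᵥ p.2 :=
    continuous_fst.matrix_mulVec continuous_snd
  have h := hd.comp_aestronglyMeasurable (hA.aestronglyMeasurable.prodMk hx)
  simpa only using h

theorem h89_aesm {f : ℂ → n → ℂ} {F : ℝ → ℂ → n → ℂ}
    (hF : ∀ ε, 0 < ε → AEStronglyMeasurable (F ε) volume)
    (h : ∀ w ∉ E, ∃ C, ∀ ε, 0 < ε → en (F ε w - f w) ≤ ε * C) :
    AEStronglyMeasurable f volume := by
  refine aestronglyMeasurable_of_tendsto_ae atTop (f := fun k : ℕ => F (1 / ((k : ℝ) + 1)))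
    (fun k => hF _ (by positivity)) ?_
  filter_upwards [E.finite_toSet.countable.ae_notMem volume] with w hw
  obtain ⟨C, hC⟩ := h w hw
  rw [tendsto_iff_norm_sub_tendsto_zero]
  refine squeeze_zero (fun k => norm_nonneg _) (fun k => le_trans ?_
    (hC (1 / ((k : ℝ) + 1)) (by positivity)))
    (by simpa using tendsto_one_div_add_atTop_nhds_zero_nat.mul_const C)
  exact (pi_norm_le_iff_of_nonneg (en_nonneg _)).2 fun i =>
    PiLp.norm_apply_le (WithLp.toLp 2 (F (1 / ((k : ℝ) + 1)) w - f w)) i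

theorem aesm_Pw (hc : Continuous c) (h : ∀ w ∉ E, ∃ a, Gp (c w) P (Pw w) a) (v : n → ℂ) :
    AEStronglyMeasurable (fun w => Pw w *ᵥ v) volume := by
  refine h89_aesm (E := E) (F := fun ε w => ((ε : ℂ) • res (c w) ε) *ᵥ (P *ᵥ v))
    (fun ε hε => h89_mulVec ((h89_res_cont hc hε).const_smul (ε : ℂ)) aestronglyMeasurable_const)
    fun w hw => ?_
  obtain ⟨a, g⟩ := h w hw
  refine ⟨en (P *ᵥ v) / a, fun ε hε => ?_⟩
  have e : Pw w * P = Pw w := by
    have := congrArg star g.le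
    rwa [star_mul, g.hP.isSelfAdjoint.star_eq, g.hPw.isSelfAdjoint.star_eq] at this
  have k := g.res_sub hε (u := P *ᵥ v) (by rw [mulVec_mulVec, g.hP.isIdempotentElem.eq])
  rw [mulVec_mulVec v (Pw w), e] at k
  exact k.trans (le_of_eq (by ring))

theorem aesm_sol (hc : Continuous c) (h : ∀ w ∉ E, ∃ a, Gp (c w) P (Pw w) a) {η u : ℂ → n → ℂ}
    (hη : AEStronglyMeasurable η volume) (hu : ∀ w ∉ E, P *ᵥ u w = u w ∧ c w *ᵥ u w = η w) :
    AEStronglyMeasurable (fun w => u w - Pw w *ᵥ u w) volume := by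
  refine h89_aesm (E := E) (F := fun ε w => (res (c w) ε * star (c w)) *ᵥ η w)
    (fun ε hε => h89_mulVec ((h89_res_cont hc hε).mul hc.star) hη) fun w hw => ?_
  obtain ⟨a, g⟩ := h w hw
  refine ⟨en (u w) / a, fun ε hε => ?_⟩
  have k := g.res_sub hε (hu w hw).1
  have e : (res (c w) ε * star (c w)) *ᵥ η w - (u w - Pw w *ᵥ u w) =
      (-1 : ℂ) • (((ε : ℂ) • res (c w) ε) *ᵥ u w - Pw w *ᵥ u w) := by
    rw [← (hu w hw).2, mulVec_mulVec, mul_assoc, res_mul _ hε, sub_mulVec, one_mulVec, neg_one_smul]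
    abel
  rw [e, en_smul, norm_neg, norm_one, one_mul]
  exact k.trans (le_of_eq (by ring))

theorem Gp.sol_unique {c P Pw : Matrix n n ℂ} {a : ℝ} (h : Gp c P Pw a) {u u' : n → ℂ}
    (hu : P *ᵥ u = u) (hu' : P *ᵥ u' = u') (e : c *ᵥ u = c *ᵥ u') :
    u - Pw *ᵥ u = u' - Pw *ᵥ u' := by
  have k := h.gap (u - u') (by rw [mulVec_sub, hu, hu'])
  rw [mulVec_sub c, e, sub_self, en_zero, zero_pow two_ne_zero] at k
  have k2 : en (u - u' - Pw *ᵥ (u - u')) ^ 2 = 0 :=
    le_antisymm (le_of_mul_le_mul_left (by rwa [mul_zero]) h.pos) (sq_nonneg _)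
  have k3 := en_eq_zero (pow_eq_zero_iff two_ne_zero |>.1 k2)
  rw [mulVec_sub] at k3
  rw [← sub_eq_zero, ← k3]
  abel
end

theorem continuous_sw : Continuous sw := by
  have h : Continuous sg := by
    unfold sg
    exact Continuous.inv₀ (by fun_prop) fun w => (Real.sqrt_pos.2 (by positivity)).ne'
  unfold sw
  fun_prop

theorem continuous_ck_sw (q k : ℕ) : Continuous fun w => ck q (sw w) k := by
  unfold ck
  split_ifs with h
  · exact continuous_cC.comp (continuous_pi fun j =>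
      ((continuous_rho q).comp continuous_sw).matrix_elem j _)
  · exact continuous_const

theorem continuous_Th (q : ℕ) (P : Fk (q + 1)) : Continuous fun w => Th q P (sw w) := by
  obtain ⟨L, hL⟩ := exists_dG_clm (q + 1)
  have h1 : Continuous fun w => rho q (sw w) := (continuous_rho q).comp continuous_sw
  have h2 : Continuous fun w => dG (Ah q (sw w)) := by
    simp only [← hL]
    exact L.continuous.comp ((h1.mul continuous_const).mul h1.star)
  exact ((((continuous_ck_sw q 0).const_smul (3 : ℂ)).mul continuous_const).mul h2).sub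
    ((continuous_ck_sw q 1).const_smul ((2 * Real.sqrt q : ℝ) : ℂ))

variable {q N : ℕ} {E : Finset ℂ} {P : Fk (q + 1)} {Pw : ℂ → Fk (q + 1)} {a : ℝ}

theorem Core.gp0 (h : Core q N E P Pw a) {w : ℂ} (hw : w ∉ E) :
    Gp (ck q (sw w) 0 * P) P (Pw w) (a * ∏ e ∈ E, tw w e) := by
  refine ⟨mul_pos h.pos (Finset.prod_pos fun e he => ?_), h.hP, h.hPw w hw, h.le w hw, ?_, ?_,
    fun u hu => ?_⟩
  · have : 0 < ‖w - e‖ := norm_pos_iff.2 (sub_ne_zero.2 fun h' => hw (h' ▸ he))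
    unfold tw
    positivity
  · rw [mul_assoc, h.hP.isIdempotentElem.eq]
  · rw [mul_assoc, h.le w hw, h.kill w hw]
  · rw [← mulVec_mulVec, hu]
    exact h.gap w hw u hu

theorem h24_dot {n : Type} [Fintype n] {x y : ℂ → n → ℂ} (hx : AEStronglyMeasurable x volume)
    (hy : AEStronglyMeasurable y volume) :
    AEStronglyMeasurable (fun w => (star (x w) ⬝ᵥ y w).re) volume := by
  have hd : Continuous fun p : (n → ℂ) × (n → ℂ) => (star p.1 ⬝ᵥ p.2).re :=
    Complex.continuous_re.comp (continuous_fst.star.dotProduct continuous_snd)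
  have h := hd.comp_aestronglyMeasurable (hx.prodMk hy)
  simpa only using h

theorem f2_core' (h : Core q N E P Pw a) (hj : (E.card : ℝ) ≤ (q : ℝ) + 3 - 3 * N)
    {v : Finset (Fin (q + 1)) → ℂ} (hv : P *ᵥ v = v) :
    ∃ cr : ℂ → ℝ, AEStronglyMeasurable cr volume ∧
      (∀ w ∉ E, ∃ u y, P *ᵥ u = u ∧ P *ᵥ y = y ∧
        ck q (sw w) 0 *ᵥ u = ((Real.sqrt q : ℂ) • ck q (sw w) 1) *ᵥ (Pw w *ᵥ v) ∧
        ck q (sw w) 0 *ᵥ y = Th q P (sw w) *ᵥ v ∧
        cr w = (star (u - Pw w *ᵥ u) ⬝ᵥ (y - Pw w *ᵥ y)).re) ∧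
      ∀ g : ℂ → ℝ, Integrable g → (∀ w, 0 ≤ g w) →
        (∀ w ∉ E, om w * ((q + 3) * en (Pw w *ᵥ v) ^ 2 + cr w) ≤ g w) →
        Real.pi / 4 * (((q : ℝ) + 3 - 3 * N - E.card) * en v ^ 2) ≤ ∫ w, g w := by
  obtain ⟨u, hu⟩ := h.exists_u hv
  obtain ⟨y, hy⟩ := h.exists_y hv
  have hc : Continuous fun w => ck q (sw w) 0 * P := (continuous_ck_sw q 0).mul continuous_const
  have hg : ∀ w ∉ E, ∃ a, Gp (ck q (sw w) 0 * P) P (Pw w) a := fun w hw => ⟨_, h.gp0 hw⟩
  have m0 : AEStronglyMeasurable (fun w => Pw w *ᵥ v) volume :=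
    aesm_Pw (c := fun w => ck q (sw w) 0 * P) hc hg v
  have c1 : Continuous fun w => (Real.sqrt q : ℂ) • ck q (sw w) 1 :=
    (continuous_ck_sw q 1).const_smul (Real.sqrt q : ℂ)
  have m1 : AEStronglyMeasurable (fun w => u w - Pw w *ᵥ u w) volume :=
    aesm_sol (c := fun w => ck q (sw w) 0 * P) hc hg (u := u)
      (η := fun w => ((Real.sqrt q : ℂ) • ck q (sw w) 1) *ᵥ (Pw w *ᵥ v))
      (h89_mulVec (A := fun w => (Real.sqrt q : ℂ) • ck q (sw w) 1) (x := fun w => Pw w *ᵥ v) c1 m0)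
      fun w hw => ⟨(hu w hw).1, by rw [← mulVec_mulVec, (hu w hw).1]; exact (hu w hw).2⟩
  have m2 : AEStronglyMeasurable (fun w => y w - Pw w *ᵥ y w) volume :=
    aesm_sol (c := fun w => ck q (sw w) 0 * P) hc hg (u := y)
      (η := fun w => Th q P (sw w) *ᵥ v)
      (h89_mulVec (A := fun w => Th q P (sw w)) (x := fun _ => v) (continuous_Th q P)
        aestronglyMeasurable_const)
      fun w hw => ⟨(hy w hw).1, by rw [← mulVec_mulVec, (hy w hw).1]; exact (hy w hw).2⟩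
  refine ⟨fun w => (star (u w - Pw w *ᵥ u w) ⬝ᵥ (y w - Pw w *ᵥ y w)).re,
    h24_dot m1 m2,
    fun w hw => ⟨u w, y w, (hu w hw).1, (hy w hw).1, (hu w hw).2, (hy w hw).2, rfl⟩,
    fun g ig g0 hle => f2_core h hj hv ig g0 fun w hw u' y' h1 h2 h3 h4 => ?_⟩
  have e1 : (ck q (sw w) 0 * P) *ᵥ u' = (ck q (sw w) 0 * P) *ᵥ u w := by
    rw [← mulVec_mulVec, h1, h3, ← mulVec_mulVec (u w), (hu w hw).1, (hu w hw).2]
  have e2 : (ck q (sw w) 0 * P) *ᵥ y' = (ck q (sw w) 0 * P) *ᵥ y w := by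
    rw [← mulVec_mulVec, h2, h4, ← mulVec_mulVec (y w), (hy w hw).1, (hy w hw).2]
  rw [(h.gp0 hw).sol_unique h1 (hu w hw).1 e1, (h.gp0 hw).sol_unique h2 (hy w hw).1 e2]
  exact hle w hw

end Crest.Agent.R340.F2
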