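import Crest.Agent.R340.F2One
import Crest.Agent.R340.GeoPair

/-! # F2: the pair operators and `dΓ(A)` -/

set_option autoImplicit false

namespace Crest.Agent.R340.F2

open Matrix Crest.MathPhysics.Laughlin
open scoped ComplexConjugate Matrix.Norms.L2Operator

variable {q : ℕ} {u : ℂ × ℂ}

/-- monomial annihilators -/
noncomputable def mk (q k : ℕ) : Fk (q + 1) := (Real.sqrt (q.choose k) : ℂ) • ck q (1, 0) k

/-- unnormalised pair annihilators -/
noncomputable def bp (q p : ℕ) : Fk (q + 1) :=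
  ∑ i ∈ Finset.range (p + 2), (((p + 1 - i : ℕ) : ℂ) - (i : ℂ)) • (mk q (p + 1 - i) * mk q i)

private theorem h63_mk_lt {k : ℕ} (h : k < q + 1) :
    mk q k = (Real.sqrt (q.choose k) : ℂ) • annC (⟨k, h⟩ : Fin (q + 1)) := by
  rw [mk, ← ck_one]

private theorem h63_mk_ge {k : ℕ} (h : ¬ k < q + 1) : mk q k = 0 := by
  rw [mk, ck, dif_neg h, smul_zero]

theorem mk_anti (q i j : ℕ) : mk q i * mk q j = -(mk q j * mk q i) := by
  by_cases hi : i < q + 1
  · by_cases hj : j < q + 1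
    · rw [h63_mk_lt hi, h63_mk_lt hj, smul_mul_smul_comm, smul_mul_smul_comm, annC_anticomm,
        smul_neg, mul_comm]
    · rw [h63_mk_ge hj, mul_zero, zero_mul, neg_zero]
  · rw [h63_mk_ge hi, mul_zero, zero_mul, neg_zero]

theorem mk_self (q i : ℕ) : mk q i * mk q i = 0 := by
  by_cases hi : i < q + 1
  · rw [h63_mk_lt hi, smul_mul_smul_comm, annC_mul_self, smul_zero]
  · rw [h63_mk_ge hi, mul_zero]

theorem mk_comm (q k : ℕ) : mk q k * dG (Am q) - dG (Am q) * mk q k = mk q (k + 1) := by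
  have hu : IsUnitSp ((1, 0) : ℂ × ℂ) := by simp [IsUnitSp]
  rw [mk, mk, ← ck_comm_dG hu k, Ah_one, smul_mul_assoc, mul_smul_comm, smul_sub]

theorem pairNorm_pos (hq : 1 ≤ q) {p : ℕ} (hp : p < 2 * q - 1) : 0 < pairNorm q (p + 1) := by
  unfold pairNorm
  have h1 : (0 : ℝ) < (2 * q).choose (p + 1) := by exact_mod_cast Nat.choose_pos (by omega)
  have h2 : ((p + 1 : ℕ) : ℝ) + 1 ≤ 2 * q := by exact_mod_cast (by omega : p + 1 + 1 ≤ 2 * q)
  have h3 : (1 : ℝ) ≤ q := by exact_mod_cast hq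
  have h4 : (0 : ℝ) < ((p + 1 : ℕ) : ℝ) := by positivity
  exact div_pos (mul_pos (mul_pos h4 (by linarith)) h1) (by linarith)

theorem bp_eq (hq : 1 ≤ q) (p : ℕ) :
    bp q p = ((2 * Real.sqrt (pairNorm q (p + 1)) : ℝ) : ℂ) • Bn q p := by
  unfold Bn
  split_ifs with hp
  · have hZ := pairNorm_pos hq hp
    set F : ℕ → Fk (q + 1) := fun i =>
      (((p + 1 - i : ℕ) : ℂ) - (i : ℂ)) • (mk q (p + 1 - i) * mk q i) with hF
    set G : ℕ → ℕ → Fk (q + 1) := fun i j =>
      if i + j = p + 1 then ((j : ℂ) - (i : ℂ)) • (mk q j * mk q i) else 0 with hG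
    have e1 : ((2 * Real.sqrt (pairNorm q (p + 1)) : ℝ) : ℂ) • BC q ⟨p, hp⟩ =
        ∑ i : Fin (q + 1), ∑ j : Fin (q + 1), G i j := by
      rw [BC_eq, Finset.smul_sum]
      refine Finset.sum_congr rfl fun i _ => ?_
      rw [Finset.smul_sum]
      refine Finset.sum_congr rfl fun j _ => ?_
      simp only [hG, pairVec]
      split_ifs with hij
      · rw [h63_mk_lt j.2, h63_mk_lt i.2, smul_mul_smul_comm, smul_smul, smul_smul]
        congr 1
        have a1 : Real.sqrt (2 * pairNorm q (p + 1)) =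
            Real.sqrt 2 * Real.sqrt (pairNorm q (p + 1)) := Real.sqrt_mul (by norm_num) _
        have a2 : Real.sqrt ((q.choose i : ℝ) * q.choose j) =
            Real.sqrt (q.choose i) * Real.sqrt (q.choose j) := Real.sqrt_mul (by positivity) _
        have a3 : Real.sqrt 2 * Real.sqrt 2 = 2 := Real.mul_self_sqrt (by norm_num)
        have a4 : 0 < Real.sqrt (pairNorm q (p + 1)) := Real.sqrt_pos.2 hZ
        have a5 : 0 < Real.sqrt 2 := by positivity
        have a6 : 2 * Real.sqrt (pairNorm q (p + 1)) *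
            ((((j : ℕ) : ℝ) - (i : ℕ)) * Real.sqrt ((q.choose i : ℝ) * q.choose j) /
              Real.sqrt (2 * pairNorm q (p + 1)) / Real.sqrt 2) =
            (((j : ℕ) : ℝ) - (i : ℕ)) * (Real.sqrt (q.choose j) * Real.sqrt (q.choose i)) := by
          rw [a1, a2]
          field_simp
          rw [Real.sq_sqrt (by norm_num)]
          ring
        rw [← Complex.ofReal_mul, a6]
        push_cast
        ring
      · simp
    rw [e1, Fin.sum_univ_eq_sum_range (fun i => ∑ j : Fin (q + 1), G i j) (q + 1)]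
    have e2 : ∀ i, ∑ j : Fin (q + 1), G i j = if i < p + 2 then F i else 0 := by
      intro i
      rw [Fin.sum_univ_eq_sum_range (fun j => G i j) (q + 1)]
      split_ifs with hi
      · rw [Finset.sum_eq_single (p + 1 - i)]
        · simp only [hG, hF]
          rw [if_pos (by omega)]
        · intro j _ hj
          simp only [hG]
          rw [if_neg (by omega)]
        · intro h
          simp only [hG]
          rw [if_pos (by omega), h63_mk_ge (fun h' => h (Finset.mem_range.2 h')), zero_mul,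
            smul_zero]
      · refine Finset.sum_eq_zero fun j _ => ?_
        simp only [hG]
        rw [if_neg (by omega)]
    simp only [e2]
    rw [← Finset.sum_filter, bp]
    refine (Finset.sum_subset (fun i hi => Finset.mem_range.2 (Finset.mem_filter.1 hi).2)
      fun i hi hi' => ?_).symm
    have : ¬ i < q + 1 := fun h =>
      hi' (Finset.mem_filter.2 ⟨Finset.mem_range.2 h, Finset.mem_range.1 hi⟩)
    rw [h63_mk_ge this, mul_zero, smul_zero]
  · rw [smul_zero, bp]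
    refine Finset.sum_eq_zero fun i hi => ?_
    have hi' := Finset.mem_range.1 hi
    by_cases h1 : i < q + 1
    · by_cases h2 : p + 1 - i < q + 1
      · rw [show p + 1 - i = i by omega, mk_self, smul_zero]
      · rw [h63_mk_ge h2, zero_mul, smul_zero]
    · rw [h63_mk_ge h1, mul_zero, smul_zero]

theorem bp_comm (q p : ℕ) : bp q p * dG (Am q) - dG (Am q) * bp q p =
    (2 : ℂ) • bp q (p + 1) - ((2 * (p + 3) : ℕ) : ℂ) • (mk q (p + 2) * mk q 0) := by
  set T : ℕ → Fk (q + 1) := fun i => mk q (p + 2 - i) * mk q i with hT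
  have leib : ∀ a b : ℕ, mk q a * mk q b * dG (Am q) - dG (Am q) * (mk q a * mk q b) =
      mk q a * mk q (b + 1) + mk q (a + 1) * mk q b := by
    intro a b
    rw [← mk_comm q a, ← mk_comm q b]
    noncomm_ring
  have e1 : bp q p * dG (Am q) - dG (Am q) * bp q p =
      ∑ i ∈ Finset.range (p + 2), ((p : ℂ) + 1 - 2 * i) • T (i + 1) +
        ∑ i ∈ Finset.range (p + 2), ((p : ℂ) + 1 - 2 * i) • T i := by
    rw [bp, Finset.sum_mul, Finset.mul_sum, ← Finset.sum_sub_distrib, ← Finset.sum_add_distrib]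
    refine Finset.sum_congr rfl fun i hi => ?_
    have hi' := Finset.mem_range.1 hi
    rw [smul_mul_assoc, mul_smul_comm, ← smul_sub, leib, ← smul_add]
    simp only [hT]
    rw [show p + 2 - (i + 1) = p + 1 - i by omega, show p + 1 - i + 1 = p + 2 - i by omega,
      Nat.cast_sub (by omega)]
    congr 1
    push_cast
    ring
  have e2 : bp q (p + 1) = ∑ i ∈ Finset.range (p + 3), ((p : ℂ) + 2 - 2 * i) • T i := by
    rw [bp]
    refine Finset.sum_congr rfl fun i hi => ?_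
    have hi' := Finset.mem_range.1 hi
    simp only [hT]
    rw [Nat.cast_sub (by omega)]
    congr 1
    push_cast
    ring
  have e3 : T (p + 2) = -T 0 := by
    simp only [hT]
    rw [Nat.sub_self, Nat.sub_zero, mk_anti]
  have e4 : mk q (p + 2) * mk q 0 = T 0 := by simp only [hT, Nat.sub_zero]
  have e5 : ∑ i ∈ Finset.range (p + 1), ((p : ℂ) + 1 - 2 * i) • T (i + 1) +
      ∑ i ∈ Finset.range (p + 1), ((p : ℂ) + 1 - 2 * (i + 1 : ℕ)) • T (i + 1) =
      (2 : ℂ) • ∑ i ∈ Finset.range (p + 1), ((p : ℂ) + 2 - 2 * (i + 1 : ℕ)) • T (i + 1) := by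
    rw [Finset.smul_sum, ← Finset.sum_add_distrib]
    refine Finset.sum_congr rfl fun i _ => ?_
    rw [← add_smul, smul_smul]
    congr 1
    push_cast
    ring
  rw [e1, e2, e4, Finset.sum_range_succ _ (p + 1), Finset.sum_range_succ' _ (p + 1),
    Finset.sum_range_succ _ (p + 2), Finset.sum_range_succ' _ (p + 1), e3, smul_add, smul_add,
    ← e5]
  push_cast
  module

private theorem h63_choose (q b : ℕ) : 2 ^ b * q.choose b ≤ (2 * q).choose b := by
  induction b with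
  | zero => simp
  | succ b ih =>
    refine Nat.le_of_mul_le_mul_right ?_ (Nat.succ_pos b)
    rw [mul_assoc, Nat.choose_succ_right_eq, Nat.choose_succ_right_eq]
    calc 2 ^ (b + 1) * (q.choose b * (q - b)) = 2 ^ b * q.choose b * (2 * (q - b)) := by ring
      _ ≤ (2 * q).choose b * (2 * q - b) := Nat.mul_le_mul ih (by omega)

theorem kap_sq_le (hq : 1 ≤ q) (p : ℕ) : kap q p ^ 2 ≤ 5 * q * (1 / 2) ^ p := by
  by_cases hp : q < p + 2
  · rw [kap, Nat.choose_eq_zero_of_lt hp]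
    simp
  have hp' : p + 2 ≤ q := by omega
  have hZ := pairNorm_pos hq (show p < 2 * q - 1 by omega)
  rw [kap, neg_sq, div_pow, mul_pow, Real.sq_sqrt (by positivity), Real.sq_sqrt hZ.le,
    div_le_iff₀ hZ]
  have h1 : (q.choose (p + 2) : ℝ) * (p + 2) = q.choose (p + 1) * (q - p - 1) := by
    have := Nat.choose_succ_right_eq q (p + 1)
    have h := congrArg (Nat.cast : ℕ → ℝ) this
    rw [Nat.cast_mul, Nat.cast_mul, Nat.cast_sub (by omega)] at h
    push_cast at h
    linarith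
  have h2 : (2 : ℝ) ^ (p + 1) * q.choose (p + 1) ≤ (2 * q).choose (p + 1) := by
    exact_mod_cast h63_choose q (p + 1)
  have h3 : (p : ℝ) + 2 ≤ q := by exact_mod_cast hp'
  have h4 : (0 : ℝ) ≤ p := Nat.cast_nonneg p
  have h5 : (0 : ℝ) ≤ q.choose (p + 1) := Nat.cast_nonneg _
  have h6 : (0 : ℝ) ≤ q.choose (p + 2) := Nat.cast_nonneg _
  set A : ℝ := ((q.choose (p + 1) : ℕ) : ℝ)
  set B : ℝ := ((q.choose (p + 2) : ℕ) : ℝ)
  set D : ℝ := (((2 * q).choose (p + 1) : ℕ) : ℝ) with hD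
  have h7 : (1 / 2 : ℝ) ^ p * D ≥ 2 * A := by
    have : (1 / 2 : ℝ) ^ p * (2 ^ (p + 1) * A) = 2 * A := by
      rw [one_div, inv_pow, pow_succ]
      field_simp
    rw [← this]
    exact mul_le_mul_of_nonneg_left h2 (by positivity)
  have e : 5 * q * (1 / 2 : ℝ) ^ p * pairNorm q (p + 1) =
      (5 * q / (2 * (2 * q - 1))) * ((p + 1) * (2 * q - p - 1)) * ((1 / 2 : ℝ) ^ p * D) := by
    rw [pairNorm]
    push_cast
    ring
  have h8 : (5 / 4 : ℝ) ≤ 5 * q / (2 * (2 * q - 1)) := by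
    rw [le_div_iff₀ (by linarith)]
    linarith
  have h9 : (0 : ℝ) ≤ (p + 1) * (2 * q - p - 1) := mul_nonneg (by linarith) (by linarith)
  have h10 : (5 / 4 : ℝ) * ((p + 1) * (2 * q - p - 1)) * (2 * A) ≤
      (5 * q / (2 * (2 * q - 1))) * ((p + 1) * (2 * q - p - 1)) * ((1 / 2 : ℝ) ^ p * D) :=
    mul_le_mul (mul_le_mul_of_nonneg_right h8 h9) h7 (by positivity)
      (mul_nonneg (by linarith) h9)
  rw [e]
  refine le_trans ?_ h10
  have h11 : ((p : ℝ) + 3) ^ 2 * B ≤ 5 * (p + 1) * (B * (p + 2)) := by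
    have : ((p : ℝ) + 3) ^ 2 ≤ 5 * (p + 1) * (p + 2) := by nlinarith
    nlinarith [mul_le_mul_of_nonneg_right this h6]
  refine h11.trans ?_
  rw [h1]
  have h12 : A * (q - p - 1) * 2 ≤ A * (2 * q - p - 1) := by nlinarith
  nlinarith [mul_le_mul_of_nonneg_left h12 (show (0 : ℝ) ≤ p + 1 by linarith)]

private theorem h50_ck_anti (u e : ℂ × ℂ) (i j : ℕ) :
    ck q u i * ck q e j = -(ck q e j * ck q u i) := by
  unfold ck
  split_ifs
  · exact eq_neg_of_add_eq_zero_left (cC_anticomm _ _)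
  all_goals simp

private theorem h50_ck_self (u : ℂ × ℂ) (i : ℕ) : ck q u i * ck q u i = 0 := by
  have h := h50_ck_anti (q := q) u u i i
  have h2 : (2 : ℂ) • (ck q u i * ck q u i) = 0 := by
    rw [two_smul]; nth_rewrite 1 [h]; exact neg_add_cancel _
  exact (smul_eq_zero.1 h2).resolve_left two_ne_zero

private theorem h50_Bn_ck (hq : 1 ≤ q) (p : ℕ) (u : ℂ × ℂ) (k : ℕ) :
    Bn q p * ck q u k = ck q u k * Bn q p := by
  by_cases hp : p < 2 * q - 1
  · have e : Bn q p = bC q (Pi.single (⟨p, by omega⟩ : Fin (2 * q - 2 + 1)) 1) :=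
      (bC_single (q := q) ⟨p, by omega⟩).symm
    unfold ck
    split_ifs
    · rw [e]; exact (bC_comm_cC _ _).eq
    · simp
  · simp [Bn, hp]

private theorem h50_ck_zero_mode (hq : 1 ≤ q) {v : Finset (Fin (q + 1)) → ℂ} (hv : HC q *ᵥ v = 0)
    (u : ℂ × ℂ) (k : ℕ) : HC q *ᵥ (ck q u k *ᵥ v) = 0 := by
  unfold ck
  split_ifs
  · exact cC_zero_mode hq hv _
  · simp

private theorem h50_bp (hq : 1 ≤ q) {v : Finset (Fin (q + 1)) → ℂ} (hv : HC q *ᵥ v = 0) (p : ℕ) :
    bp q p *ᵥ v = 0 := by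
  rw [bp_eq hq, smul_mulVec, (HC_mulVec_eq_zero_iff hq v).1 hv p, smul_zero]

private theorem h50_mk0 (q : ℕ) : mk q 0 = ck q (1, 0) 0 := by
  simp [mk]

private theorem h50_mk1 (q : ℕ) : mk q 1 = (Real.sqrt q : ℂ) • ck q (1, 0) 1 := by
  simp [mk]

private theorem h50_act (u : ℂ × ℂ) : act u (1, 0) = u := by
  simp [act]

/-- on zero modes `B_p dΓ(A) = κ_p c_{p+2} c_0` -/
theorem Bn_dG (hq : 1 ≤ q) {v : Finset (Fin (q + 1)) → ℂ} (hv : HC q *ᵥ v = 0) (p : ℕ) :
    (Bn q p * dG (Am q)) *ᵥ v = ((kap q p : ℂ) • (ck q (1, 0) (p + 2) * ck q (1, 0) 0)) *ᵥ v := by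
  by_cases hp : p < 2 * q - 1
  · have hN := Real.sqrt_pos.2 (pairNorm_pos hq hp)
    have hN' : ((Real.sqrt (pairNorm q (p + 1)) : ℝ) : ℂ) ≠ 0 := by exact_mod_cast hN.ne'
    have h1 := congrArg (· *ᵥ v) (bp_comm q p)
    simp only [sub_mulVec, smul_mulVec, ← mulVec_mulVec, h50_bp hq hv, mulVec_zero, smul_zero,
      sub_zero, zero_sub] at h1
    rw [bp_eq hq, smul_mulVec, h50_mk0, mk, smul_mulVec] at h1
    rw [smul_mulVec, ← mulVec_mulVec, ← mulVec_mulVec]
    have h2 : ((2 * Real.sqrt (pairNorm q (p + 1)) : ℝ) : ℂ) ≠ 0 := by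
      push_cast
      exact mul_ne_zero two_ne_zero hN'
    refine smul_right_injective _ h2 ?_
    simp only
    rw [h1, smul_smul, smul_smul, ← neg_smul]
    congr 1
    unfold kap
    push_cast
    field_simp
  · have e1 : Bn q p = 0 := by simp [Bn, hp]
    have e2 : ck q (1, 0) (p + 2) = 0 := by
      unfold ck
      rw [dif_neg (by omega)]
    simp [e1, e2]

/-- the local operator `Σ_p κ_p B_p^* c_{p+2} c_0` at `u` -/
noncomputable def Xl (q : ℕ) (u : ℂ × ℂ) : Fk (q + 1) :=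
  ∑ p : Fin (2 * q - 2 + 1), (kap q p : ℂ) •
    (star (bC q fun j => rho (2 * q - 2) u j p) * (ck q u (p + 2) * ck q u 0))

private theorem h50_rot_zero (hq : 1 ≤ q) (hu : IsUnitSp u) {v : Finset (Fin (q + 1)) → ℂ}
    (hv : HC q *ᵥ v = 0) : HC q *ᵥ (star (Gam (rho q u)) *ᵥ v) = 0 := by
  have h := congrArg star (commute_Gam_HC hq hu).eq
  rw [star_mul, star_mul, (HC_sa q).star_eq] at h
  rw [mulVec_mulVec, h, ← mulVec_mulVec, hv, mulVec_zero]

theorem HC_dG (hq : 1 ≤ q) (hu : IsUnitSp u) {v : Finset (Fin (q + 1)) → ℂ} (hv : HC q *ᵥ v = 0) :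
    (HC q * dG (Ah q u)) *ᵥ v = Xl q u *ᵥ v := by
  have h1 : star (Gam (rho q u)) * Gam (rho q u) = 1 := (Gam_unitary (rho_unitary q hu)).1
  have hD := dG_Ah_conj (q := q) hu (1, 0)
  rw [h50_act, Ah_one] at hD
  have hc : ∀ k, Gam (rho q u) * ck q (1, 0) k * star (Gam (rho q u)) = ck q u k := fun k => by
    rw [ck_conj hu, h50_act]
  have hB : ∀ p : Fin (2 * q - 2 + 1), Gam (rho q u) * star (Bn q p) * star (Gam (rho q u)) =
      star (bC q fun j => rho (2 * q - 2) u j p) := fun p => by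
    have h := Gam_conj_bC hq hu (Pi.single p 1)
    rw [bC_single, Matrix.mulVec_single_one] at h
    have h' := congrArg star h
    rw [star_mul, star_mul, star_star, ← mul_assoc] at h'
    exact h'
  have hv' := h50_rot_zero hq hu hv
  have e : HC q * dG (Ah q u) =
      Gam (rho q u) * (HC q * dG (Am q)) * star (Gam (rho q u)) := by
    rw [← hD, ← mul_assoc, ← mul_assoc, ← (commute_Gam_HC hq hu).eq, mul_assoc (Gam _)]
  have e2 : (HC q * dG (Am q)) *ᵥ (star (Gam (rho q u)) *ᵥ v) =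
      ∑ p : Fin (2 * q - 2 + 1), star (Bn q p) *ᵥ (((kap q p : ℂ) •
        (ck q (1, 0) (p + 2) * ck q (1, 0) 0)) *ᵥ (star (Gam (rho q u)) *ᵥ v)) := by
    conv_lhs => rw [HC_eq_Bn hq, Finset.sum_mul, Matrix.sum_mulVec]
    refine Finset.sum_congr rfl fun p _ => ?_
    rw [← Bn_dG hq hv' p, mulVec_mulVec (star (Gam (rho q u)) *ᵥ v), mul_assoc]
  rw [e, ← mulVec_mulVec, ← mulVec_mulVec, e2, Xl, Matrix.sum_mulVec, Matrix.mulVec_sum]
  refine Finset.sum_congr rfl fun p _ => ?_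
  rw [mulVec_mulVec, mulVec_mulVec, mulVec_mulVec, ← hB, ← hc, ← hc]
  congr 1
  simp only [mul_smul_comm, smul_mul_assoc, mul_assoc]
  rw [← mul_assoc (star (Gam _)) (Gam _), h1, one_mul, ← mul_assoc (star (Gam _)) (Gam _), h1,
    one_mul]

/-- the vector of the RANGE property -/
noncomputable def Eta (q : ℕ) (u : ℂ × ℂ) : Fk (q + 1) :=
  (3 : ℂ) • dG (Ah q u) * ck q u 0 + (Real.sqrt q : ℂ) • ck q u 1

theorem Eta_conj (hu : IsUnitSp u) :
    Eta q u = Gam (rho q u) * Eta q (1, 0) * star (Gam (rho q u)) := by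
  have h1 : star (Gam (rho q u)) * Gam (rho q u) = 1 := (Gam_unitary (rho_unitary q hu)).1
  have hD := dG_Ah_conj (q := q) hu (1, 0)
  rw [h50_act] at hD
  have hc : ∀ k, Gam (rho q u) * ck q (1, 0) k * star (Gam (rho q u)) = ck q u k := fun k => by
    rw [ck_conj hu, h50_act]
  unfold Eta
  rw [← hD, ← hc 0, ← hc 1]
  simp only [mul_add, add_mul, mul_smul_comm, smul_mul_assoc, mul_assoc]
  rw [← mul_assoc (star (Gam _)) (Gam _), h1, one_mul]

theorem eta_origin (hq : 1 ≤ q) {v : Finset (Fin (q + 1)) → ℂ} (hv : HC q *ᵥ v = 0) :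
    HC q *ᵥ (Eta q (1, 0) *ᵥ v) = 0 ∧ ∀ k < 3, ck q (1, 0) k *ᵥ (Eta q (1, 0) *ᵥ v) = 0 := by
  constructor
  · rw [HC_mulVec_eq_zero_iff hq]
    intro p
    have h1 := Bn_dG hq (h50_ck_zero_mode hq hv (1, 0) 0) p
    rw [smul_mulVec, mulVec_mulVec v (ck q (1, 0) (p + 2) * ck q (1, 0) 0), mul_assoc, h50_ck_self,
      mul_zero, zero_mulVec, smul_zero, ← mulVec_mulVec] at h1
    have h2 : Bn q p *ᵥ (ck q (1, 0) 1 *ᵥ v) = 0 := by
      rw [mulVec_mulVec, h50_Bn_ck hq, ← mulVec_mulVec, (HC_mulVec_eq_zero_iff hq v).1 hv p,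
        mulVec_zero]
    rw [Eta, Ah_one, add_mulVec, smul_mul_assoc, smul_mulVec, smul_mulVec, mulVec_add,
      mulVec_smul, mulVec_smul, ← mulVec_mulVec, h1, h2, smul_zero, smul_zero, add_zero]
  · have hE : Eta q (1, 0) = (3 : ℂ) • (dG (Am q) * mk q 0) + mk q 1 := by
      rw [Eta, Ah_one, h50_mk0, h50_mk1, smul_mul_assoc]
    have hm : ∀ k, mk q k * Eta q (1, 0) = (3 : ℂ) • (dG (Am q) * (mk q k * mk q 0)) +
        ((3 : ℂ) • (mk q (k + 1) * mk q 0) + mk q k * mk q 1) := fun k => by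
      rw [hE, ← mk_comm q k]
      simp only [mul_add, mul_smul_comm, sub_mul, smul_sub, mul_assoc]
      abel
    have b0 : (mk q 1 * mk q 0) *ᵥ v = 0 := by
      have h := h50_bp hq hv 0
      have e : bp q 0 = (2 : ℂ) • (mk q 1 * mk q 0) := by
        simp only [bp, Finset.sum_range_succ, Finset.sum_range_zero]
        norm_num
        rw [mk_anti q 0 1]
        module
      rw [e, smul_mulVec] at h
      exact (smul_eq_zero.1 h).resolve_left two_ne_zero
    have b1 : (mk q 2 * mk q 0) *ᵥ v = 0 := by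
      have h := h50_bp hq hv 1
      have e : bp q 1 = (4 : ℂ) • (mk q 2 * mk q 0) := by
        simp only [bp, Finset.sum_range_succ, Finset.sum_range_zero]
        norm_num
        rw [mk_anti q 0 2]
        module
      rw [e, smul_mulVec] at h
      exact (smul_eq_zero.1 h).resolve_left (by norm_num)
    have b2 : ((3 : ℂ) • (mk q 3 * mk q 0) + mk q 2 * mk q 1) *ᵥ v = 0 := by
      have h := h50_bp hq hv 2
      have e : bp q 2 = (2 : ℂ) • ((3 : ℂ) • (mk q 3 * mk q 0) + mk q 2 * mk q 1) := by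
        simp only [bp, Finset.sum_range_succ, Finset.sum_range_zero]
        norm_num
        rw [mk_anti q 0 3, mk_anti q 1 2]
        module
      rw [e, smul_mulVec] at h
      exact (smul_eq_zero.1 h).resolve_left two_ne_zero
    have key : ∀ k < 3, mk q k *ᵥ (Eta q (1, 0) *ᵥ v) = 0 := by
      intro k hk
      rw [mulVec_mulVec, hm, add_mulVec, smul_mulVec, ← mulVec_mulVec v (dG (Am q))]
      obtain rfl | rfl | rfl : k = 0 ∨ k = 1 ∨ k = 2 := by omega
      · rw [mk_self, zero_mulVec, mulVec_zero, smul_zero, zero_add, add_mulVec, smul_mulVec,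
          mk_anti q 0 1, neg_mulVec, zero_add, b0]
        simp
      · rw [b0, mulVec_zero, smul_zero, zero_add, add_mulVec, smul_mulVec, mk_self]
        rw [show (1 + 1 : ℕ) = 2 from rfl, b1]
        simp
      · rw [b1, mulVec_zero, smul_zero, zero_add]
        exact b2
    intro k hk
    by_cases hkq : k < q + 1
    · have h := key k hk
      rw [mk, smul_mulVec] at h
      refine (smul_eq_zero.1 h).resolve_left ?_
      have : 0 < q.choose k := Nat.choose_pos (by omega)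
      have h2 : 0 < Real.sqrt (q.choose k) := Real.sqrt_pos.2 (by exact_mod_cast this)
      exact_mod_cast h2.ne'
    · have e : ck q (1, 0) k = 0 := by
        unfold ck
        rw [dif_neg hkq]
      rw [e, zero_mulVec]

theorem eta_zero (hq : 1 ≤ q) (hu : IsUnitSp u) {v : Finset (Fin (q + 1)) → ℂ}
    (hv : HC q *ᵥ v = 0) :
    HC q *ᵥ (Eta q u *ᵥ v) = 0 ∧ ∀ k < 3, ck q u k *ᵥ (Eta q u *ᵥ v) = 0 := by
  have h1 : star (Gam (rho q u)) * Gam (rho q u) = 1 := (Gam_unitary (rho_unitary q hu)).1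
  obtain ⟨a, b⟩ := eta_origin hq (h50_rot_zero hq hu hv)
  have e : Eta q u *ᵥ v =
      Gam (rho q u) *ᵥ (Eta q (1, 0) *ᵥ (star (Gam (rho q u)) *ᵥ v)) := by
    rw [mulVec_mulVec, mulVec_mulVec, ← Eta_conj hu]
  rw [e]
  constructor
  · rw [mulVec_mulVec _ (HC q), ← (commute_Gam_HC hq hu).eq, ← mulVec_mulVec, a, mulVec_zero]
  · intro k hk
    have hc : ck q u k * Gam (rho q u) = Gam (rho q u) * ck q (1, 0) k := by
      have := ck_conj (q := q) hu (1, 0) k
      rw [h50_act] at this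
      rw [← this, mul_assoc, h1, mul_one]
    rw [mulVec_mulVec _ (ck q u k), hc, ← mulVec_mulVec, b k hk, mulVec_zero]

theorem eta_pin (hu : IsUnitSp u) {e : ℂ × ℂ} (hd : -u.2 * e.1 + u.1 * e.2 ≠ 0)
    {v : Finset (Fin (q + 1)) → ℂ} (hv : ck q e 0 *ᵥ v = 0) : ck q e 0 *ᵥ (Eta q u *ᵥ v) = 0 := by
  have h0 : ∀ k, ck q e 0 *ᵥ (ck q u k *ᵥ v) = 0 := fun k => by
    rw [mulVec_mulVec, h50_ck_anti, neg_mulVec, ← mulVec_mulVec, hv, mulVec_zero, neg_zero]
  have h00 : ck q u 0 *ᵥ (ck q u 0 *ᵥ v) = 0 := by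
    rw [mulVec_mulVec, h50_ck_self, zero_mulVec]
  have h1 := congrArg (· *ᵥ (ck q u 0 *ᵥ v)) (ck_comm_dG_far (q := q) hu e)
  simp only [sub_mulVec, smul_mulVec, ← mulVec_mulVec, h0, h00, mulVec_zero, smul_zero,
    sub_zero] at h1
  have h2 := (smul_eq_zero.1 h1).resolve_left hd
  rw [Eta, add_mulVec, smul_mul_assoc, smul_mulVec, smul_mulVec, mulVec_add, mulVec_smul,
    mulVec_smul, ← mulVec_mulVec, h2, h0, smul_zero, smul_zero, add_zero]

theorem eta_sec (q N : ℕ) (u : ℂ × ℂ) : secP (q + 1) N * Eta q u = Eta q u * secP (q + 1) (N + 1) := by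
  have hc : ∀ k, secP (q + 1) N * ck q u k = ck q u k * secP (q + 1) (N + 1) := fun k => by
    unfold ck
    split_ifs
    · exact secP_mul_cC N _
    · simp
  have hD := (commute_secP (commute_numC_dG (Ah q u)) N).eq
  unfold Eta
  simp only [mul_add, add_mul, mul_smul_comm, smul_mul_assoc]
  rw [← mul_assoc, hD, mul_assoc, hc, hc, mul_assoc]

end Crest.Agent.R340.F2
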