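import Crest.Agent.R340.F2Unit
import Crest.Agent.R340.F2Meas
import Crest.Agent.R340.F2Range

/-! # F2: the hypotheses of `Core` for pinned zero modes -/

set_option autoImplicit false

namespace Crest.Agent.R340.F2

open Matrix MeasureTheory Crest.MathPhysics.Laughlin Crest.Agent.R340.Pin
open scoped ComplexConjugate Matrix.Norms.L2Operator MatrixOrder ComplexOrder

/-- the pins of a finite set of chart points -/
noncomputable def TE (E : Finset ℂ) : Multiset S2 := E.val.map ster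

variable {Q N : ℕ} {E : Finset ℂ}

theorem spin_ster_eq (w : ℂ) : spin (ster w) = sw w := by
  rw [spin_ster]
  simp [sw, sg]

theorem ster_injective : Function.Injective ster := by
  intro a b h
  have h1 : sw a = sw b := by rw [← spin_ster_eq, ← spin_ster_eq, h]
  have h2 : (sg a : ℂ) = sg b := congrArg Prod.fst h1
  have h3 : (sg a : ℂ) * a = sg b * b := congrArg Prod.snd h1
  rw [h2] at h3
  exact mul_left_cancel₀ (Complex.ofReal_ne_zero.2 (sg_pos b).ne') h3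

theorem continuous_ster : Continuous ster := by
  refine Continuous.subtype_mk ((PiLp.continuous_toLp 2 _).comp (continuous_pi fun i => ?_)) _
  have hd : Continuous fun w : ℂ => 1 + ‖w‖ ^ 2 := by fun_prop
  have hn : ∀ w : ℂ, 1 + ‖w‖ ^ 2 ≠ 0 := fun w => by positivity
  fin_cases i
  · exact Continuous.div (f := fun w : ℂ => 2 * w.re) (by fun_prop) hd hn
  · exact Continuous.div (f := fun w : ℂ => 2 * w.im) (by fun_prop) hd hn
  · exact Continuous.div (f := fun w : ℂ => 1 - ‖w‖ ^ 2) (by fun_prop) hd hn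

theorem mem_TE {w : ℂ} : ster w ∈ TE E ↔ w ∈ E := by
  exact Multiset.mem_map_of_injective ster_injective

theorem tS_ster (w e : ℂ) : tS (ster e) (ster w) = tw w e := by
  rw [← spin_wedge_sq, spin_ster_eq, spin_ster_eq]
  have h : -(sw w).2 * (sw e).1 + (sw w).1 * (sw e).2 = -((sg w : ℂ) * (sg e : ℂ) * (w - e)) := by
    simp only [sw]
    ring
  rw [h, norm_neg, norm_mul, norm_mul, Complex.norm_real, Complex.norm_real, mul_pow, mul_pow,
    Real.norm_eq_abs, Real.norm_eq_abs, sq_abs, sq_abs, sg_sq, sg_sq, tw, div_eq_mul_inv, mul_inv,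
    mul_comm]

theorem prod_tw_le (hQ : 1 ≤ Q) (E : Finset ℂ) (w : ℂ) :
    ∏ e ∈ E, tw w e ≤ md Q (TE E) (ster w) ^ 2 := by
  classical
  have h0 : ∀ e, 0 ≤ tw w e := fun e => tS_ster w e ▸ (tS_mem _ _).1
  have h1 : ∀ e, tw w e ≤ 1 := fun e => tS_ster w e ▸ (tS_mem _ _).2
  rcases md_cases Q (TE E) (ster w) with h | ⟨b, hb, h⟩
  · rw [h, one_pow]
    exact Finset.prod_le_one (fun e _ => h0 e) fun e _ => h1 e
  · obtain ⟨e, he, rfl⟩ := Multiset.mem_map.1 hb
    have hQ' : (1 : ℝ) ≤ Q := by exact_mod_cast hQ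
    rw [h, dq_sq, tS_ster, ← Finset.mul_prod_erase E _ (show e ∈ E from he)]
    exact (mul_le_of_le_one_right (h0 e)
      (Finset.prod_le_one (fun e _ => h0 e) fun e _ => h1 e)).trans
      (le_mul_of_one_le_left (h0 e) hQ')

theorem isDiv_Dm (Q : ℕ) (w : ℂ) : IsDiv Q w (Dm Q w) := by
  intro ψ hψ y
  have hs : ∀ (φ : Fin (Q + 1) → ℂ) (t z : ℂ),
      evalO Q φ (t, t * z) = t ^ Q * (star (kv Q (1, z)) ⬝ᵥ φ) := fun φ t z => by
    rw [ifA1_evalO, h10_ev, Finset.mul_sum]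
    refine Finset.sum_congr rfl fun j _ => ?_
    have e : t ^ Q = t ^ (Q - j) * t ^ (j : ℕ) := by
      rw [← pow_add, Nat.sub_add_cancel (Nat.lt_succ_iff.1 j.2)]
    rw [e, mul_pow]
    ring
  have hc : ∀ φ : Fin (Q + 1) → ℂ, Continuous fun t : ℂ => evalO Q φ (t, y.2) := fun φ => by
    simp only [ifA1_evalO]
    fun_prop
  have key : (fun t : ℂ => (y.2 - w * t) * evalO Q (Dm Q w *ᵥ ψ) (t, y.2)) =
      fun t : ℂ => t * evalO Q ψ (t, y.2) := by
    refine Continuous.ext_on (dense_compl_singleton 0)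
      ((continuous_const.sub (continuous_const.mul continuous_id)).mul (hc _))
      (continuous_id.mul (hc _)) fun t ht => ?_
    have ht' : t ≠ 0 := ht
    have e : y.2 = t * (y.2 / t) := by field_simp
    have h1 := ev_Dm Q w (y.2 / t) ψ
    have h2 : star (kv Q (1, w)) ⬝ᵥ ψ = 0 := hψ
    generalize y.2 / t = z at e h1
    simp only [e, hs]
    rw [h2, sub_zero] at h1
    rw [← h1]
    ring
  exact congrFun key y.1

theorem piD_ne_zero {w : ℂ} (hw : w ∉ E) : piD (TE E) (1, w) ≠ 0 := by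
  refine Multiset.prod_ne_zero fun h => ?_
  obtain ⟨b, hb, h0⟩ := Multiset.mem_map.1 h
  obtain ⟨e, he, rfl⟩ := Multiset.mem_map.1 hb
  have h1 : wedge (spin (ster e)) (1, w) = (sg e : ℂ) * (w - e) := by
    rw [spin_ster_eq]
    simp only [wedge, sw]
    ring
  rw [h1] at h0
  rcases mul_eq_zero.1 h0 with h2 | h2
  · exact Complex.ofReal_ne_zero.2 (sg_pos e).ne' h2
  · exact hw (sub_eq_zero.1 h2 ▸ he)

theorem k58_sec (Q N : ℕ) (D : Multiset S2) :
    secP (Q + 1) N * (PD Q D * secP (Q + 1) N) = PD Q D * secP (Q + 1) N := by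
  rw [← mul_assoc, (commute_secP (PD_nc Q D) N).eq, mul_assoc,
    (secP_proj (Q + 1) N).isIdempotentElem.eq]

theorem inZ_iff {D : Multiset S2} {v : FV Q} :
    (PD Q D * secP (Q + 1) N) *ᵥ v = v ↔ InZ Q D N v := by
  constructor
  · intro h
    refine ⟨?_, PD_mulVec_iff.1 ?_⟩
    · rw [← h, mulVec_mulVec, k58_sec]
    · rw [← h, mulVec_mulVec, ← mul_assoc, (PD_proj Q D).isIdempotentElem.eq]
  · intro h
    rw [← mulVec_mulVec, h.1, PD_mulVec_iff.2 h.2]

theorem PD_sec_proj (Q N : ℕ) (D : Multiset S2) : IsStarProjection (PD Q D * secP (Q + 1) N) := by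
  exact (PD_proj Q D).mul (secP_proj (Q + 1) N) (commute_secP (PD_nc Q D) N).symm

/-- RANGE, from `fill_onto` -/
theorem range_cov (hQ : 1 ≤ Q) (hN : 1 ≤ N) (hn : 0 ≤ nfree Q (TE E) N) {w : ℂ} (hw : w ∉ E)
    {v : FV Q} (hv : InZ Q (TE E) N v) : ∃ u, InZ Q (TE E) N u ∧ ck Q (sw w) 0 *ᵥ u =
      ((3 : ℂ) • dG (Ah Q (sw w)) * ck Q (sw w) 0 + (Real.sqrt Q : ℂ) • ck Q (sw w) 1) *ᵥ v := by
  obtain ⟨N, rfl⟩ : ∃ M, N = M + 1 := ⟨N - 1, by omega⟩
  have hnd : (TE E).Nodup := E.nodup.map ster_injective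
  have hw' : ster w ∉ TE E := fun h => hw (mem_TE.1 h)
  have hv' := (mem_ZD_nodup hnd).1 hv.2
  have hcard : (TE E).card ≤ Q := by
    have h1 : ((TE E).card : ℝ) ≤ Q := by
      simp only [nfree] at hn
      push_cast at hn
      have : (0 : ℝ) ≤ N := Nat.cast_nonneg N
      linarith
    exact_mod_cast h1
  obtain ⟨h0, h1⟩ := eta_zero hQ (sw_unit w) hv'.1
  have hη : InZ Q (TE E + Multiset.replicate 3 (ster w)) N (Eta Q (sw w) *ᵥ v) := by
    refine ⟨by rw [mulVec_mulVec, eta_sec, ← mulVec_mulVec, hv.1], ?_⟩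
    rw [mem_ZD_add (by
      rw [Multiset.disjoint_left]
      intro a ha hb
      exact hw' (Multiset.eq_of_mem_replicate hb ▸ ha)), mem_ZD_nodup hnd, mem_ZD_replicate]
    refine ⟨⟨h0, fun b hb => ?_⟩, h0, fun k hk => ?_⟩
    · rw [← ck_spin_zero]
      refine eta_pin (sw_unit w) ?_ (by rw [ck_spin_zero]; exact hv'.2 b hb)
      have := wedge_spin_ne (a := ster w) (b := b) fun e => hw' (e ▸ hb)
      rw [spin_ster_eq, wedge] at this
      intro e
      exact this (by linear_combination e)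
    · rw [← ck_spin, spin_ster_eq]
      exact h1 k hk
  obtain ⟨u, hu, e⟩ := fill_onto hw' hcard hη
  refine ⟨u, hu, ?_⟩
  have e0 : ck Q (sw w) 0 = ca Q (ster w) := by rw [← spin_ster_eq, ck_spin_zero]
  rw [e0, e, Eta, e0]

theorem k58_ck (Q : ℕ) (w : ℂ) : ck Q (sw w) 0 = ca Q (ster w) := by
  rw [← spin_ster_eq, ck_spin_zero]

theorem k58_kill {w : ℂ} (hw : w ∉ E) : ck Q (sw w) 0 * PD Q (ster w ::ₘ TE E) = 0 := by
  refine Matrix.mulVec_injective (funext fun v => ?_)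
  rw [k58_ck, ← mulVec_mulVec, zero_mulVec]
  exact ((mem_ZD_cons_of_not_mem fun hh => hw (mem_TE.1 hh)).1 (PD_mulVec_mem _ _)).2

theorem core_inst (hQ : 1 ≤ Q) (hN : 1 ≤ N) (hn : 0 ≤ nfree Q (TE E) N) {g C : ℝ} (hg : 0 < g)
    (h : ∀ x ∉ TE E, ∃ s F F₁, UD Q (TE E) x g C s F F₁) :
    Core Q N E (PD Q (TE E) * secP (Q + 1) N)
      (fun w => PD Q (ster w ::ₘ TE E) * secP (Q + 1) N) g := by
  refine ⟨hg, ?_, PD_sec_proj Q N _, k58_sec Q N _, fun e he => ?_, fun w _ => PD_sec_proj Q N _,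
    fun w _ => ?_, fun w hw => ?_, fun w hw u hu => ?_, fun w hw v hv => ?_⟩
  · have h1 : (TE E).card = E.card := Multiset.card_map _ _
    have h2 : (1 : ℝ) ≤ N := by exact_mod_cast hN
    rw [nfree, h1] at hn
    have h3 : (E.card : ℝ) ≤ Q := by linarith
    exact_mod_cast h3
  · have hnd : (TE E).Nodup := E.nodup.map ster_injective
    refine Matrix.mulVec_injective (funext fun v => ?_)
    rw [k58_ck, ← mulVec_mulVec, ← mulVec_mulVec, zero_mulVec]
    exact ((mem_ZD_nodup hnd).1 (PD_mulVec_mem _ _)).2 _ (mem_TE.2 he)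
  · rw [mul_assoc, k58_sec, ← mul_assoc, (PD_mul_of_le (Multiset.le_cons_self _ _)).1]
  · rw [← mul_assoc, k58_kill hw, zero_mul]
  · obtain ⟨s, F, F₁, hU⟩ := h (ster w) fun hh => hw (mem_TE.1 hh)
    have hz := inZ_iff.1 hu
    rw [← mulVec_mulVec, hz.1, k58_ck]
    refine le_trans ?_ (hU.gap_en hg.le hz.2)
    exact mul_le_mul_of_nonneg_right (mul_le_mul_of_nonneg_left (prod_tw_le hQ E w) hg.le)
      (sq_nonneg _)
  · obtain ⟨u, h1, h2⟩ := range_cov hQ hN hn hw (inZ_iff.1 hv)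
    exact ⟨u, inZ_iff.2 h1, h2⟩

theorem aesm_PD (hQ : 1 ≤ Q) {g C : ℝ} (hg : 0 < g)
    (h : ∀ x ∉ TE E, ∃ s F F₁, UD Q (TE E) x g C s F F₁) (v : FV Q) :
    AEStronglyMeasurable (fun w => PD Q (ster w ::ₘ TE E) *ᵥ v) volume := by
  refine aesm_Pw (E := E) (P := PD Q (TE E)) (c := fun w => ck Q (sw w) 0 * PD Q (TE E))
    (Pw := fun w => PD Q (ster w ::ₘ TE E)) ((continuous_ck_sw Q 0).mul continuous_const)
    (fun w hw => ?_) v
  have hx : ster w ∉ TE E := fun hh => hw (mem_TE.1 hh)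
  obtain ⟨s, F, F₁, hU⟩ := h (ster w) hx
  have hle := (PD_mul_of_le (Q := Q) (Multiset.le_cons_self (TE E) (ster w))).1
  refine ⟨g * md Q (TE E) (ster w) ^ 2, mul_pos hg (pow_pos (md_pos hQ hx) 2), PD_proj _ _,
    PD_proj _ _, hle, ?_, ?_, fun u hu => ?_⟩
  · rw [mul_assoc, (PD_proj Q _).isIdempotentElem.eq]
  · rw [mul_assoc, hle, k58_kill hw]
  · rw [← mulVec_mulVec, hu, k58_ck]
    exact hU.gap_en hg.le (PD_mulVec_iff.1 hu)

end Crest.Agent.R340.F2
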