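import Crest.Agent.R340.IfAlg
import Crest.Agent.R340.IfLoc
import Crest.Agent.R340.F2One
import Crest.Agent.R340.F2Res

/-! # F2: reduction to the fixed chart (rotation, measurability) (helper24) -/

set_option autoImplicit false

namespace Crest.Agent.R340.Pin.R24

open Matrix MeasureTheory Crest.MathPhysics.Laughlin Filter
open scoped Matrix.Norms.L2Operator MatrixOrder ComplexOrder ComplexConjugate

variable {Q : ℕ}

theorem mem_ZD_nodup {D : Multiset S2} (hD : D.Nodup) {v : FV Q} :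
    v ∈ ZD Q D ↔ HC Q *ᵥ v = 0 ∧ ∀ a ∈ D, ca Q a *ᵥ v = 0 := by
  induction D using Multiset.induction_on with
  | empty => simp [mem_ZD_zero]
  | cons a D ih =>
    rw [Multiset.nodup_cons] at hD
    rw [mem_ZD_cons_of_not_mem hD.1, ih hD.2]
    simp only [Multiset.mem_cons, forall_eq_or_imp]
    tauto

theorem spin_ster' (w : ℂ) : spin (ster w) = F2.sw w := by
  rw [spin_ster]
  simp [F2.sw, F2.sg]

theorem ster_inj : Function.Injective ster := fun w w' h => by
  have h1 := congrArg spin h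
  rw [spin_ster', spin_ster'] at h1
  have h2 : (F2.sg w : ℂ) = F2.sg w' := congrArg Prod.fst h1
  have h3 : (F2.sg w : ℂ) * w = F2.sg w' * w' := congrArg Prod.snd h1
  rw [← h2] at h3
  exact mul_left_cancel₀ (Complex.ofReal_ne_zero.2 (F2.sg_pos w).ne') h3

theorem exists_ster {x : S2} (h : (x : EuclideanSpace ℝ (Fin 3)) 2 ≠ -1) : ∃ w, ster w = x := by
  have hp := geoB_pos x h
  have hn := geoB_norm x
  set a := (x : EuclideanSpace ℝ (Fin 3)) 0 with ha
  set b := (x : EuclideanSpace ℝ (Fin 3)) 1 with hb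
  set c := (x : EuclideanSpace ℝ (Fin 3)) 2 with hc
  have hc0 : 0 < 1 + c := by linarith
  have hw : ‖(⟨a / (1 + c), b / (1 + c)⟩ : ℂ)‖ ^ 2 = (1 - c) / (1 + c) := by
    rw [Complex.sq_norm, Complex.normSq_mk]
    field_simp
    linear_combination hn
  have h1 : 1 + (1 - c) / (1 + c) = 2 / (1 + c) := by
    field_simp
    ring
  refine ⟨⟨a / (1 + c), b / (1 + c)⟩, Subtype.ext ?_⟩
  ext i
  fin_cases i
  · show 2 * (a / (1 + c)) / (1 + ‖(⟨a / (1 + c), b / (1 + c)⟩ : ℂ)‖ ^ 2) = a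
    rw [hw, h1]
    field_simp
  · show 2 * (b / (1 + c)) / (1 + ‖(⟨a / (1 + c), b / (1 + c)⟩ : ℂ)‖ ^ 2) = b
    rw [hw, h1]
    field_simp
  · show (1 - ‖(⟨a / (1 + c), b / (1 + c)⟩ : ℂ)‖ ^ 2) /
      (1 + ‖(⟨a / (1 + c), b / (1 + c)⟩ : ℂ)‖ ^ 2) = c
    rw [hw, h1]
    field_simp
    ring

theorem h24_eq_proj {n : Type} [Fintype n] [DecidableEq n] {P P' : Matrix n n ℂ}
    (hP : IsStarProjection P) (hP' : IsStarProjection P') (h : ∀ v, P *ᵥ v = v ↔ P' *ᵥ v = v) :
    P = P' := by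
  have key : ∀ {A B : Matrix n n ℂ}, IsStarProjection B → (∀ v, B *ᵥ v = v → A *ᵥ v = v) →
      A * B = B := fun {A B} hB hh => by
    refine Matrix.toLin'.injective (LinearMap.ext fun v => ?_)
    rw [Matrix.toLin'_apply, Matrix.toLin'_apply, ← mulVec_mulVec]
    exact hh _ (by rw [mulVec_mulVec, hB.isIdempotentElem.eq])
  have h1 := key hP' fun v hv => (h v).2 hv
  have h2 := congrArg star (key hP fun v hv => (h v).1 hv)
  rw [star_mul, hP.isSelfAdjoint.star_eq, hP'.isSelfAdjoint.star_eq] at h2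
  rw [← h2, h1]

/-- a rotation of the sphere together with its Fock space unitary -/
structure Rot (Q : ℕ) (R : S2 ≃ S2) (U : Fk (Q + 1)) : Prop where
  meas : Measurable R
  iso : ∀ x y, dq Q (R x) (R y) = dq Q x y
  uni : U ∈ unitary (Fk (Q + 1))
  nc : NC U
  ham : Commute U (HC Q)
  cov : ∀ x, ∃ θ : ℂ, ‖θ‖ = 1 ∧ U * ca Q x * star U = θ • ca Q (R x)

theorem exists_rot (hQ : 1 ≤ Q) (T : Multiset S2) :
    ∃ R U, Rot Q R U ∧ ∀ b ∈ T, ∃ w, R (ster w) = b := by
  obtain ⟨s, hs⟩ : ∃ s : S2, s ∉ T := by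
    classical
    have : Infinite S2 := Infinite.of_injective ster ster_inj
    obtain ⟨s, hs⟩ := Infinite.exists_notMem_finset T.toFinset
    exact ⟨s, fun h => hs (Multiset.mem_toFinset.2 h)⟩
  have hu0 := spin_unit s
  let u : ℂ × ℂ := (conj (spin s).2, -conj (spin s).1)
  have hu : IsUnitSp u := by
    unfold IsUnitSp at hu0 ⊢
    simp only [u, norm_neg, RCLike.norm_conj]
    linarith
  obtain ⟨L, hL⟩ := exists_rotS hu
  let R : S2 ≃ S2 :=
    { toFun := fun x => ⟨L x, by simp⟩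
      invFun := fun x => ⟨L.symm x, by simp⟩
      left_inv := fun x => Subtype.ext (by simp)
      right_inv := fun x => Subtype.ext (by simp) }
  have hR : ∀ x, ((R x : S2) : EuclideanSpace ℝ (Fin 3)) = L x := fun _ => rfl
  refine ⟨R, Gam (rho Q u), ⟨?_, fun x y => ?_, Gam_unitary (rho_unitary Q hu),
    commute_numC_Gam _, commute_Gam_HC hQ hu, fun x => ?_⟩, fun b hb => ?_⟩
  · exact (L.continuous.comp continuous_subtype_val).measurable.subtype_mk
  · rw [dq, dq, hR, hR, ← map_sub, L.norm_map]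
  · obtain ⟨θ, h1, h2⟩ := hL x (R x) (hR x)
    refine ⟨θ ^ Q, by rw [norm_pow, h1, one_pow], ?_⟩
    rw [ca, Gam_conj_cC (rho_unitary Q hu), coh, rho_mulVec_kv, h2, kv_smul, cC_smul, map_pow,
      Complex.conj_conj]
    rfl
  · have h3 : ((R.symm b : S2) : EuclideanSpace ℝ (Fin 3)) 2 ≠ -1 := by
      intro h
      obtain ⟨θ, h1, h2⟩ := hL (R.symm b) b (by rw [← hR, R.apply_symm_apply])
      have h4 : spin (R.symm b) = (0, 1) := by rw [spin, if_pos h]
      have h5 : act u (0, 1) = spin s := by simp [act, u]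
      rw [h4, h5] at h2
      have h6 : wedge (spin s) (spin b) = 0 := by
        rw [h2]
        simp only [wedge, Prod.smul_fst, Prod.smul_snd, smul_eq_mul]
        ring
      exact wedge_spin_ne (fun e : s = b => hs (e ▸ hb)) h6
    obtain ⟨w, hw⟩ := exists_ster h3
    exact ⟨w, by rw [hw, R.apply_symm_apply]⟩

variable {R : S2 ≃ S2} {U : Fk (Q + 1)}

theorem Rot.inj (h : Rot Q R U) {v : FV Q} : U *ᵥ v = 0 ↔ v = 0 := by
  refine ⟨fun e => ?_, fun e => by rw [e, mulVec_zero]⟩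
  rw [← one_mulVec v, ← h.uni.1, ← mulVec_mulVec, e, mulVec_zero]

theorem Rot.mem (h : Rot Q R U) {D : Multiset S2} (hD : D.Nodup) {v : FV Q} :
    U *ᵥ v ∈ ZD Q (D.map R) ↔ v ∈ ZD Q D := by
  rw [mem_ZD_nodup (hD.map R.injective), mem_ZD_nodup hD, mulVec_mulVec, ← h.ham.eq,
    ← mulVec_mulVec, h.inj]
  refine and_congr Iff.rfl ?_
  have key : ∀ a, ca Q (R a) *ᵥ (U *ᵥ v) = 0 ↔ ca Q a *ᵥ v = 0 := fun a => by
    obtain ⟨θ, h1, h2⟩ := h.cov a
    have h0 : θ ≠ 0 := fun e => by simp [e] at h1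
    have h3 : θ • ca Q (R a) *ᵥ (U *ᵥ v) = U *ᵥ (ca Q a *ᵥ v) := by
      rw [← smul_mulVec, ← h2, mulVec_mulVec, mul_assoc, h.uni.1, mul_one, mulVec_mulVec]
    rw [← smul_eq_zero_iff_right h0, h3, h.inj]
  simp only [Multiset.mem_map, forall_exists_index, and_imp, forall_apply_eq_imp_iff₂, key]

theorem Rot.PD_eq (h : Rot Q R U) {D : Multiset S2} (hD : D.Nodup) :
    PD Q (D.map R) = U * PD Q D * star U := by
  have hP := PD_proj Q D
  refine h24_eq_proj (PD_proj _ _) ⟨?_, ?_⟩ fun v => ?_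
  · show U * PD Q D * star U * (U * PD Q D * star U) = U * PD Q D * star U
    calc U * PD Q D * star U * (U * PD Q D * star U)
        = U * (PD Q D * (star U * U) * PD Q D) * star U := by simp only [mul_assoc]
      _ = _ := by rw [h.uni.1, mul_one, hP.isIdempotentElem.eq]
  · exact hP.isSelfAdjoint.conjugate U
  · have e : U *ᵥ (star U *ᵥ v) = v := by rw [mulVec_mulVec, h.uni.2, one_mulVec]
    rw [PD_mulVec_iff]
    conv_lhs => rw [← e, h.mem hD, ← PD_mulVec_iff]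
    rw [← mulVec_mulVec, ← mulVec_mulVec]
    refine ⟨fun hh => by rw [hh, e], fun hh => ?_⟩
    rw [← sub_eq_zero, ← h.inj, mulVec_sub, hh, e, sub_self]

theorem Rot.nq_eq (h : Rot Q R U) (v : FV Q) : nq (U *ᵥ v) = nq v := by
  rw [nq, nq, F2.h12_adj, mulVec_mulVec, h.uni.1, one_mulVec]

theorem Rot.sites (h : Rot Q R U) {G : ℝ} {ι : Type} [MeasurableSpace ι] {ν : Measure ι}
    {x : ι → S2} (hs : Sites Q G ν x) : Sites Q G ν fun i => R (x i) := by
  refine ⟨hs.fin, h.meas.comp hs.meas, fun u r hr => ?_⟩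
  have := hs.growth (R.symm u) r hr
  simpa only [← h.iso _ (R.symm u), R.apply_symm_apply] using this

/-! ### measurability -/

theorem h24_gap {n : Type} [Fintype n] [DecidableEq n] {c P Pw : Matrix n n ℂ}
    (hP : IsStarProjection P) (hPw : IsStarProjection Pw) (le : P * Pw = Pw)
    (hk : c * Pw = 0) (hker : ∀ u, P *ᵥ u = u → c *ᵥ u = 0 → Pw *ᵥ u = u) :
    ∃ a, F2.Gp (c * P) P Pw a := by
  have le' : Pw * P = Pw := by
    have := congrArg star le
    rwa [star_mul, hP.isSelfAdjoint.star_eq, hPw.isSelfAdjoint.star_eq] at this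
  have hPP : (P - Pw) * (P - Pw) = P - Pw := by
    rw [mul_sub, sub_mul, sub_mul, hP.isIdempotentElem.eq, hPw.isIdempotentElem.eq, le, le']
    abel
  have hinj : ∀ u, ((P - Pw) * (star c * c) * (P - Pw) + (1 - (P - Pw))) *ᵥ u = 0 → u = 0 := by
    intro u hu
    have h1 : ((P - Pw) * (star c * c) * (P - Pw)) *ᵥ u = 0 := by
      have := congrArg ((P - Pw) *ᵥ ·) hu
      simp only [mulVec_mulVec, mulVec_zero] at this
      rwa [mul_add, mul_sub (P - Pw) 1, mul_one, hPP, sub_self, add_zero, ← mul_assoc,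
        ← mul_assoc, hPP] at this
    rw [add_mulVec, h1, zero_add, sub_mulVec, one_mulVec, sub_eq_zero] at hu
    have h2 : F2.en (c *ᵥ u) ^ 2 = 0 := by
      have hsa : star (P - Pw) = P - Pw := by
        rw [star_sub, hP.isSelfAdjoint.star_eq, hPw.isSelfAdjoint.star_eq]
      have h3 : star u ⬝ᵥ ((P - Pw) * (star c * c) * (P - Pw)) *ᵥ u =
          star u ⬝ᵥ (star c * c) *ᵥ u := by
        have h4 := F2.h12_adj (P - Pw) u ((star c * c) *ᵥ u)
        rw [hsa, ← hu] at h4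
        rw [← mulVec_mulVec, ← hu, ← mulVec_mulVec, ← h4]
      rw [← F2.h30_G, ← h3, h1, dotProduct_zero, Complex.zero_re]
    have h4 : c *ᵥ u = 0 := F2.en_eq_zero (pow_eq_zero_iff two_ne_zero |>.1 h2)
    have h5 : P *ᵥ u = u := by
      conv_lhs => rw [hu]
      rw [mulVec_mulVec, mul_sub, hP.isIdempotentElem.eq, le, ← hu]
    have h6 := hker u h5 h4
    rw [sub_mulVec, h5, h6, sub_self] at hu
    exact hu
  have hU : IsUnit ((P - Pw) * (star c * c) * (P - Pw) + (1 - (P - Pw))) := by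
    rw [← Matrix.mulVec_injective_iff_isUnit]
    intro x y hxy
    rw [← sub_eq_zero]
    exact hinj _ (by rw [mulVec_sub, sub_eq_zero]; exact hxy)
  obtain ⟨V, hV⟩ := hU.exists_left_inv
  set K := ‖V * (P - Pw) * star c‖ + 1 with hK
  have hK0 : 0 < K := by positivity
  refine ⟨(K ^ 2)⁻¹, by positivity, hP, hPw, le, by rw [mul_assoc, hP.isIdempotentElem.eq],
    by rw [mul_assoc, le, hk], fun u hu => ?_⟩
  have e0 : (P - Pw) *ᵥ u = u - Pw *ᵥ u := by rw [sub_mulVec, hu]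
  have e1 : u - Pw *ᵥ u = (V * (P - Pw) * star c) *ᵥ ((c * P) *ᵥ u) := by
    have e2 : V * (P - Pw) * star c * (c * P) = P - Pw := by
      have := congrArg (· * (P - Pw)) hV
      simp only [one_mul] at this
      rw [mul_assoc V, add_mul, sub_mul 1, one_mul, hPP, sub_self, add_zero,
        mul_assoc _ (P - Pw), hPP, mul_assoc (P - Pw), mul_assoc (star c), mul_sub c, hk,
        sub_zero] at this
      simpa only [mul_assoc] using this
    rw [mulVec_mulVec, e2, e0]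
  have e3 : F2.en (u - Pw *ᵥ u) ≤ K * F2.en ((c * P) *ᵥ u) := by
    rw [e1]
    exact (F2.en_mulVec_le _ _).trans
      (mul_le_mul_of_nonneg_right (by linarith) (F2.en_nonneg _))
  rw [inv_mul_le_iff₀ (by positivity), ← mul_pow]
  exact pow_le_pow_left₀ (F2.en_nonneg _) e3 2

theorem continuous_ca_ster (Q : ℕ) : Continuous fun w => ca Q (ster w) := by
  have e : (fun w => ca Q (ster w)) = fun w => ((F2.sg w ^ Q : ℝ) : ℂ) • F2.cw Q w := by
    funext w
    rw [← F2.ck_sw_zero, F2.ck_zero, ca, coh, spin_ster']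
  rw [e]
  have h1 : Continuous F2.sg := by
    unfold F2.sg
    refine Continuous.inv₀ (by fun_prop) fun w => ?_
    positivity
  have h2 : Continuous (F2.cw Q) :=
    continuous_iff_continuousAt.2 fun w => (F2.hasDerivAt_cw Q w).continuousAt
  exact (Complex.continuous_ofReal.comp (h1.pow Q)).smul h2

theorem nuC_ac (Q : ℕ) : nuC Q ≪ volume := withDensity_absolutelyContinuous _ _

theorem ae_ster_notMem (Q : ℕ) (T : Multiset S2) : ∀ᵐ w ∂nuC Q, ster w ∉ T := by
  have h1 : {w | ster w ∈ T}.Finite :=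
    (Multiset.finite_toSet T).preimage ster_inj.injOn
  exact nuC_ac Q (measure_eq_zero_iff_ae_notMem.mp (h1.measure_zero volume))

theorem aesm_PD (T : Multiset S2) (v : FV Q) :
    AEStronglyMeasurable (fun w => PD Q (ster w ::ₘ T) *ᵥ v) (nuC Q) := by
  have hp : ∀ j : ℕ, (0 : ℝ) < 1 / ((j : ℝ) + 1) := fun j => by positivity
  refine aestronglyMeasurable_of_tendsto_ae atTop (f := fun (j : ℕ) w =>
    ((((1 / ((j : ℝ) + 1) : ℝ) : ℂ)) • F2.res (ca Q (ster w) * PD Q T) (1 / ((j : ℝ) + 1))) *ᵥ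
      (PD Q T *ᵥ v)) (fun j => Continuous.aestronglyMeasurable ?_) ?_
  · have h1 : Continuous fun w => ca Q (ster w) * PD Q T :=
      (continuous_ca_ster Q).mul continuous_const
    have h2 : Continuous fun w => F2.res (ca Q (ster w) * PD Q T) (1 / ((j : ℝ) + 1)) := by
      refine continuous_iff_continuousAt.2 fun w => ?_
      obtain ⟨x, hx⟩ := F2.isUnit_res (ca Q (ster w) * PD Q T) (hp j)
      have h3 : ContinuousAt Ring.inverse (x : Fk (Q + 1)) := NormedRing.inverse_continuousAt x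
      rw [hx] at h3
      exact ContinuousAt.comp (f := fun w => star (ca Q (ster w) * PD Q T) *
        (ca Q (ster w) * PD Q T) + (((1 / ((j : ℝ) + 1) : ℝ)) : ℂ) • (1 : Fk (Q + 1))) h3
        ((h1.star.mul h1).add continuous_const).continuousAt
    exact (h2.const_smul (((1 / ((j : ℝ) + 1) : ℝ) : ℂ))).matrix_mulVec continuous_const
  · filter_upwards [ae_ster_notMem Q T] with w hw
    have hle := PD_mul_of_le (Q := Q) (Multiset.le_cons_self T (ster w))
    obtain ⟨a, ha⟩ := h24_gap (c := ca Q (ster w)) (PD_proj Q T) (PD_proj Q (ster w ::ₘ T)) hle.1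
      (by
        refine Matrix.toLin'.injective (LinearMap.ext fun x => ?_)
        rw [Matrix.toLin'_apply, Matrix.toLin'_apply, ← mulVec_mulVec, zero_mulVec]
        exact ((mem_ZD_cons_of_not_mem hw).1 (PD_mulVec_mem _ x)).2)
      fun u h1 h2 => PD_mulVec_iff.2 ((mem_ZD_cons_of_not_mem hw).2 ⟨PD_mulVec_iff.1 h1, h2⟩)
    have hv : PD Q T *ᵥ (PD Q T *ᵥ v) = PD Q T *ᵥ v := PD_mulVec_iff.2 (PD_mulVec_mem _ _)
    have e : PD Q (ster w ::ₘ T) *ᵥ v = PD Q (ster w ::ₘ T) *ᵥ (PD Q T *ᵥ v) := by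
      rw [mulVec_mulVec, hle.2]
    rw [e, ← tendsto_sub_nhds_zero_iff]
    have hc : Continuous fun x : EuclideanSpace ℂ (Finset (Fin (Q + 1))) => WithLp.ofLp x :=
      PiLp.continuous_ofLp 2 _
    have ht : Tendsto (fun j : ℕ => (WithLp.toLp 2 (((((1 / ((j : ℝ) + 1) : ℝ) : ℂ)) •
        F2.res (ca Q (ster w) * PD Q T) (1 / ((j : ℝ) + 1))) *ᵥ (PD Q T *ᵥ v) -
          PD Q (ster w ::ₘ T) *ᵥ (PD Q T *ᵥ v)) : EuclideanSpace ℂ (Finset (Fin (Q + 1)))))
        atTop (nhds 0) := by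
      refine squeeze_zero_norm (fun j => ha.res_sub (hp j) hv) ?_
      simpa using (tendsto_one_div_add_atTop_nhds_zero_nat.div_const a).mul_const
        (F2.en (PD Q T *ᵥ v))
    exact (hc.tendsto 0).comp ht

/-- the statement in the fixed chart -/
def F2Chart : Prop := ∃ (c R₀ : ℝ) (Q₀ : ℕ), 0 < c ∧ ∀ Q, Q₀ ≤ Q → ∀ E : Finset ℂ,
  AdmS Q R₀ (E.val.map ster) → ∀ (N : ℕ) (v : FV Q), 1 ≤ N → InZ Q (E.val.map ster) N v →
    c * nfree Q (E.val.map ster) N * nq v ≤
      ∫ w, nq (PD Q (ster w ::ₘ E.val.map ster) *ᵥ v) ∂nuC Q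

theorem f2_of_chart (H : F2Chart) : ∃ (G c R₀ : ℝ) (Q₀ : ℕ), 0 < c ∧ ∀ Q, Q₀ ≤ Q →
    ∀ T : Multiset S2, AdmS Q R₀ T →
      ∃ (ι : Type) (_ : MeasurableSpace ι) (ν : Measure ι) (x : ι → S2), Sites Q G ν x ∧
        (∀ᵐ i ∂ν, x i ∉ T) ∧
        (∀ v : FV Q, AEStronglyMeasurable (fun i => PD Q (x i ::ₘ T) *ᵥ v) ν) ∧
        ∀ (N : ℕ) (v : FV Q), 1 ≤ N → InZ Q T N v →
          c * nfree Q T N * nq v ≤ ∫ i, nq (PD Q (x i ::ₘ T) *ᵥ v) ∂ν := by
  classical
  obtain ⟨c, R₀, Q₀, hc, H⟩ := H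
  obtain ⟨G, hG⟩ := sites_nuC
  refine ⟨G, c, R₀, max Q₀ 1, hc, fun Q hQ T hT => ?_⟩
  have hQ1 : 1 ≤ Q := (le_max_right _ _).trans hQ
  obtain ⟨R, U, hR, hb⟩ := exists_rot hQ1 T
  choose! f hf using hb
  have hfi : ∀ a ∈ T, ∀ b ∈ T, f a = f b → a = b := fun a ha b hb e => by
    rw [← hf a ha, e, hf b hb]
  let E : Finset ℂ := ⟨T.map f, (Multiset.nodup_map_iff_inj_on hT.2).2 hfi⟩
  have hE : (E.val.map ster).map R = T := by
    show ((T.map f).map ster).map R = T
    rw [Multiset.map_map, Multiset.map_map]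
    conv_rhs => rw [← Multiset.map_id T]
    exact Multiset.map_congr rfl fun b hb => hf b hb
  set T' := E.val.map ster with hT'
  have hN' : T'.Nodup := Multiset.Nodup.of_map R (hE ▸ hT.2)
  have hA : AdmS Q R₀ T' := by
    refine ⟨fun a ha b hb hab => ?_, hN'⟩
    rw [← hR.iso]
    exact hT.1 _ (hE ▸ Multiset.mem_map_of_mem R ha) _ (hE ▸ Multiset.mem_map_of_mem R hb)
      (R.injective.ne hab)
  have hP : ∀ᵐ w ∂nuC Q, ∀ v : FV Q, PD Q (R (ster w) ::ₘ T) *ᵥ v =
      U *ᵥ (PD Q (ster w ::ₘ T') *ᵥ (star U *ᵥ v)) := by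
    filter_upwards [ae_ster_notMem Q T'] with w hw v
    rw [← hE, ← Multiset.map_cons, hR.PD_eq (Multiset.nodup_cons.2 ⟨hw, hN'⟩), mulVec_mulVec,
      mulVec_mulVec]
  refine ⟨ℂ, inferInstance, nuC Q, fun w => R (ster w), hR.sites (hG Q hQ1), ?_, fun v => ?_,
    fun N v hN hv => ?_⟩
  · filter_upwards [ae_ster_notMem Q T'] with w hw h
    rw [← hE, Multiset.mem_map_of_injective R.injective] at h
    exact hw h
  · have h1 : Continuous fun x : FV Q => U *ᵥ x := continuous_const.matrix_mulVec continuous_id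
    refine (h1.comp_aestronglyMeasurable (aesm_PD T' (star U *ᵥ v))).congr ?_
    filter_upwards [hP] with w hw
    exact (hw v).symm
  · have e : U *ᵥ (star U *ᵥ v) = v := by rw [mulVec_mulVec, hR.uni.2, one_mulVec]
    have hv' : InZ Q T' N (star U *ᵥ v) := by
      refine ⟨?_, (hR.mem hN').1 (by rw [e, hE]; exact hv.2)⟩
      have h1 := congrArg star (commute_secP hR.nc N).eq
      rw [star_mul, star_mul, (secP_proj _ N).isSelfAdjoint.star_eq] at h1
      rw [mulVec_mulVec, ← h1, ← mulVec_mulVec, hv.1]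
    have h2 := H Q ((le_max_left _ _).trans hQ) E hA N _ hN hv'
    have h3 : nfree Q T N = nfree Q T' N := by rw [← hE, nfree, nfree, Multiset.card_map]
    rw [h3, ← e, hR.nq_eq, e]
    refine h2.trans (le_of_eq (integral_congr_ae ?_))
    filter_upwards [hP] with w hw
    rw [hw v, hR.nq_eq]

end Crest.Agent.R340.Pin.R24
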