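import Crest.Agent.R340.IfKD
import Crest.Agent.R340.F2Range

/-! # F2: solving equations by filters; locality of `Xl` -/

set_option autoImplicit false

namespace Crest.Agent.R340.F2

open Matrix MeasureTheory Crest.MathPhysics.Laughlin Crest.Agent.R340.Pin Filt
open scoped ComplexConjugate Matrix.Norms.L2Operator MatrixOrder ComplexOrder

variable {n : ℕ} {K P Pw X G : Fk n} {g : ℝ} {w W : ℝ → ℂ}

theorem filt_proj (hf : IsFilt g w W) (h : Parent K P g) (hP : IsStarProjection P) (X : Fk n)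
    {v : Finset (Fin n) → ℂ} (hv : P *ᵥ v = v) : filt w K X *ᵥ v = P *ᵥ (X *ᵥ v) := by
  have e := (Kd.filt_ann hf le_rfl (h.toGap hP) h.kill X).2
  conv_lhs => rw [← hv, mulVec_mulVec, e, ← mulVec_mulVec, hv, ← mulVec_mulVec]

private theorem h10_inv (hf : IsFilt g w W) (hG : IsSelfAdjoint G) (ξ : Finset (Fin n) → ℂ) :
    (-Complex.I • fcal W G) *ᵥ (G *ᵥ ξ) = ξ - fcal w G *ᵥ ξ := by
  rw [mulVec_mulVec, smul_mul_assoc, ← mul_fcal hf.int_W hG hG rfl, mul_fcal_inv hf hG, smul_smul,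
    neg_mul, Complex.I_mul_I, neg_neg, one_smul, sub_mulVec, one_mulVec]

theorem filt_solve (hf : IsFilt g w W) (h : Parent K P g) (hP : IsStarProjection P)
    {v ξ : Finset (Fin n) → ℂ} (hv : P *ᵥ v = v) (e : K *ᵥ ξ = X *ᵥ v) :
    ξ - P *ᵥ ξ = (-Complex.I • filt W K X) *ᵥ v := by
  have hK : IsSelfAdjoint K := IsSelfAdjoint.of_nonneg h.nonneg
  have z : IsSelfAdjoint (0 : Fk n) := IsSelfAdjoint.zero _
  have e1 : filt W K X * P = fcal W K * (X * P) := by
    rw [filt_eq_filt2, filt2_mul (K' := 0) hf.int_W hK hK (by rw [h.kill, mul_zero]), fcal_eq_filt2,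
      filt2_mul (K' := 0) hf.int_W hK z (by rw [zero_mul, mul_zero]), one_mul]
  have e2 := (h.toGap hP).eq_fcal hf (by simpa using h.kill) (by rw [zero_add])
  rw [zero_smul, sub_zero, mul_one] at e2
  have e3 : filt W K X *ᵥ v = fcal W K *ᵥ (K *ᵥ ξ) := by
    conv_lhs => rw [← hv, mulVec_mulVec, e1, ← mulVec_mulVec, ← mulVec_mulVec, hv, ← e]
  rw [smul_mulVec, e3, ← smul_mulVec, h10_inv hf hK, e2]

/-- pseudo-inverse of `P G P`, `G = F^* F` -/
theorem fcal_solve (hf : IsFilt g w W) (h : Parent K P g) (hP : IsStarProjection P)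
    (hPw : IsStarProjection Pw) (hle : P * Pw = Pw) {F : Fk n} (hk : F * Pw = 0)
    (hg : g • (P - Pw) ≤ P * (star F * F) * P) {u : Finset (Fin n) → ℂ} (hu : P *ᵥ u = u) :
    u - Pw *ᵥ u = (-Complex.I • fcal W (filt w K (star F * F))) *ᵥ (P *ᵥ (star F *ᵥ (F *ᵥ u))) := by
  have hK : IsSelfAdjoint K := IsSelfAdjoint.of_nonneg h.nonneg
  obtain ⟨c1, c2⟩ := Kd.filt_ann hf le_rfl (h.toGap hP) h.kill (star F * F)
  have hV : IsSelfAdjoint (filt w K (star F * F)) :=
    filt_sa hf.real_w hK (IsSelfAdjoint.star_mul_self F)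
  have vG : filt w K (star F * F) * Pw = 0 := by
    rw [← hle, ← mul_assoc, c2, mul_assoc, hle, mul_assoc, mul_assoc, hk, mul_zero, mul_zero]
  have e1 : P * filt w K (star F * F) * P = P * (star F * F) * P := by
    rw [mul_assoc, c2, ← mul_assoc, ← mul_assoc, hP.isIdempotentElem.eq]
  have e2 := (Kd.fcal_pin hf le_rfl hP hV c1 hPw hle vG (by rwa [e1])).1
  have e3 : P *ᵥ (star F *ᵥ (F *ᵥ u)) = filt w K (star F * F) *ᵥ u := by
    rw [filt_proj hf h hP _ hu, ← mulVec_mulVec]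
  rw [e3, h10_inv hf hV, ← e2, ← mulVec_mulVec, hu]

theorem Parent.mono {g' : ℝ} (h : Parent K P g) (hP : IsStarProjection P) (hg : g' ≤ g) :
    Parent K P g' := by
  exact ⟨h.nonneg, h.kill, (smul_le_smul_of_nonneg_right hg hP.one_sub.nonneg).trans h.gap⟩

theorem parent_HC : ∃ (g : ℝ) (Q₀ : ℕ), 0 < g ∧ ∀ Q, Q₀ ≤ Q → Parent (HC Q) (PD Q 0) g := by
  obtain ⟨Q₀, h⟩ := parent_H
  exact ⟨g0, Q₀, g0_pos, fun Q hQ => (h Q hQ).2⟩

/-! ### locality of `Xl` -/

theorem OL_ck (Q : ℕ) (x : S2) (k : ℕ) :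
    OL Q 1 1 (Real.exp (1 / 2 + Real.sqrt k)) x (ck Q (spin x) k) := by
  unfold ck
  split_ifs with h
  · have := OL_orb_k Q 1 x ⟨k, h⟩
    rwa [one_pow, abs_one, one_mul] at this
  · exact ⟨by rw [norm_zero]; positivity, fun y => by
      simp only [Fw.gloc, zero_mul, mul_zero, add_zero, norm_zero]
      exact mul_nonneg (Real.exp_pos _).le (Real.exp_pos _).le⟩

private theorem h18_sum {Q : ℕ} {α a : ℝ} {x : S2} {ι : Type} (s : Finset ι) {c : ι → ℝ}
    {A : ι → Fk (Q + 1)} (h : ∀ i ∈ s, QL Q α a (c i) x (A i)) :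
    QL Q α a (∑ i ∈ s, c i) x (∑ i ∈ s, A i) := by
  classical
  induction s using Finset.induction_on with
  | empty => exact ⟨by simp, fun y => by simp [Fw.loc]⟩
  | insert e s he ih =>
    rw [Finset.sum_insert he, Finset.sum_insert he]
    exact (h e (Finset.mem_insert_self _ _)).add
      (ih fun i hi => h i (Finset.mem_insert_of_mem hi))

private theorem h18_pair {Q : ℕ} (hQ : 1 ≤ Q) (p : Fin (2 * Q - 1)) (i j : Fin (Q + 1)) :
    |pairVec Q p i j| ≤ 1 := by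
  have hp := p.2
  obtain ⟨m, rfl⟩ : ∃ m, Q = m + 1 := ⟨Q - 1, by omega⟩
  have hN : pairNorm (m + 1) (p + 1) = ((m : ℝ) + 1) * (m + m).choose p := by
    rw [h4_pairNorm (by omega) hp, show 2 * (m + 1) - 2 = m + m by omega]
    push_cast
    ring
  have hpos : (0 : ℝ) < 2 * pairNorm (m + 1) (p + 1) := by
    have : (0 : ℝ) < (m + m).choose p := by exact_mod_cast Nat.choose_pos (by omega)
    rw [hN]
    positivity
  unfold pairVec
  split_ifs with h
  · rw [← sq_le_one_iff_abs_le_one, div_pow, mul_pow, Real.sq_sqrt (by positivity),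
      Real.sq_sqrt hpos.le, div_le_one hpos, hN, ← h4_sum]
    exact Finset.single_le_sum (f := fun x : ℕ × ℕ => ((x.2 : ℝ) - x.1) ^ 2 *
      ((m + 1).choose x.1 * (m + 1).choose x.2)) (fun _ _ => by positivity)
      (a := ((i : ℕ), (j : ℕ))) (Finset.HasAntidiagonal.mem_antidiagonal.2 h)
  · simp

theorem QL_Bx {Q : ℕ} (hQ : 1 ≤ Q) (x : S2) (p : Fin (2 * Q - 2 + 1)) :
    QL Q 1 1 (2 * (p + 2) * Real.exp (1 + 2 * Real.sqrt (p + 2))) x (Bx Q x p) := by
  have hp : (p : ℕ) < 2 * Q - 1 := by have := p.2; omega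
  have U := rotF_unitary Q x
  set E := Real.exp (1 + 2 * Real.sqrt (p + 2)) with hE
  have e : Bx Q x p = ∑ i : Fin (Q + 1), ∑ j : Fin (Q + 1),
      ((pairVec Q ⟨p, hp⟩ i j / Real.sqrt 2 : ℝ) : ℂ) • (cC (orb Q x j) * cC (orb Q x i)) := by
    rw [← rotF_conj_Bn hQ, Bn, dif_pos hp, BC_eq]
    simp only [Finset.mul_sum, Finset.sum_mul, mul_smul_comm, smul_mul_assoc]
    refine Finset.sum_congr rfl fun i _ => Finset.sum_congr rfl fun j _ => ?_
    rw [← rotF_conj_annC, ← rotF_conj_annC]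
    congr 1
    calc rotF Q x * (annC j * annC i) * star (rotF Q x)
        = rotF Q x * annC j * (star (rotF Q x) * rotF Q x) * annC i * star (rotF Q x) := by
          rw [U.1]; noncomm_ring
      _ = _ := by noncomm_ring
  rw [e]
  have one : ∀ i j : Fin (Q + 1), QL Q 1 1 (if (i : ℕ) + j = p + 1 then 2 * E else 0) x
      (((pairVec Q ⟨p, hp⟩ i j / Real.sqrt 2 : ℝ) : ℂ) • (cC (orb Q x j) * cC (orb Q x i))) := by
    intro i j
    refine (((OL_orb_k Q 1 x j).mul (OL_orb_k Q 1 x i)).smul _).mono ?_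
    split_ifs with h
    · have h1 : ‖((pairVec Q ⟨p, hp⟩ i j / Real.sqrt 2 : ℝ) : ℂ)‖ ≤ 1 := by
        rw [Complex.norm_real, Real.norm_eq_abs, abs_div, abs_of_nonneg (Real.sqrt_nonneg _)]
        exact (div_le_self (abs_nonneg _) (Real.one_le_sqrt.2 one_le_two)).trans
          (h18_pair hQ _ i j)
      refine (mul_le_of_le_one_left (by positivity) h1).trans ?_
      rw [mul_assoc, ← Real.exp_add, one_pow, abs_one, one_mul, one_mul]
      have a1 : Real.sqrt i ≤ Real.sqrt (p + 2) :=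
        Real.sqrt_le_sqrt (by exact_mod_cast (by omega : (i : ℕ) ≤ p + 2))
      have a2 : Real.sqrt j ≤ Real.sqrt (p + 2) :=
        Real.sqrt_le_sqrt (by exact_mod_cast (by omega : (j : ℕ) ≤ p + 2))
      exact mul_le_mul_of_nonneg_left (Real.exp_le_exp.2 (by linarith)) zero_le_two
    · rw [pairVec, if_neg h]
      simp
  refine (h18_sum _ fun i _ => h18_sum _ fun j _ => one i j).mono ?_
  have two : ∀ i : Fin (Q + 1), ∑ j : Fin (Q + 1), (if (i : ℕ) + j = p + 1 then 2 * E else 0) ≤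
      if (i : ℕ) ∈ Finset.range (p + 2) then 2 * E else 0 := by
    intro i
    rw [← Finset.sum_filter, Finset.sum_const, nsmul_eq_mul]
    split_ifs with h
    · refine mul_le_of_le_one_left (by positivity) ?_
      exact_mod_cast Finset.card_le_one.2 fun a ha b hb => Fin.ext (by
        have := (Finset.mem_filter.1 ha).2
        have := (Finset.mem_filter.1 hb).2
        omega)
    · rw [Finset.filter_eq_empty_iff.2 fun j _ hj => h (Finset.mem_range.2 (by omega))]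
      simp
  refine (Finset.sum_le_sum fun i _ => two i).trans ?_
  rw [← Finset.sum_range fun i => if i ∈ Finset.range (p + 2) then 2 * E else 0,
    ← Finset.sum_filter, Finset.sum_const, nsmul_eq_mul]
  have : ((Finset.filter (fun i => i ∈ Finset.range (p + 2)) (Finset.range (Q + 1))).card : ℝ) ≤
      (p : ℝ) + 2 := by
    have h := Finset.card_le_card (show Finset.filter (fun i => i ∈ Finset.range (p + 2))
      (Finset.range (Q + 1)) ⊆ Finset.range (p + 2) from fun i hi => (Finset.mem_filter.1 hi).2)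
    rw [Finset.card_range] at h
    exact_mod_cast h
  have E0 : 0 ≤ E := (Real.exp_pos _).le
  nlinarith

theorem NC_Xl (Q : ℕ) (u : ℂ × ℂ) : NC (Xl Q u) := by
  have ck1 : ∀ k, numC (Q + 1) * ck Q u k = ck Q u k * numC (Q + 1) - ck Q u k := fun k => by
    unfold ck
    split_ifs
    · exact numC_mul_cC _
    · simp
  refine Commute.sum_right _ _ _ fun p _ => Commute.smul_right
    (commute_numC_star_mul (k := 2) (by simp) (numC_mul_bC _) ?_) _
  rw [← mul_assoc, ck1, sub_mul, mul_assoc, ck1, two_smul]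
  noncomm_ring

theorem QL_Xl : ∃ C : ℝ, ∀ Q : ℕ, 1 ≤ Q → ∀ x : S2,
    QL Q 1 1 C x ((((Real.sqrt Q)⁻¹ : ℝ) : ℂ) • Xl Q (spin x)) := by
  refine ⟨∑' p : ℕ, 8 * Real.exp 200 * (((p : ℝ) + 2) * (9 / 10) ^ p) * 3, fun Q hQ x => ?_⟩
  have sm : Summable fun p : ℕ => 8 * Real.exp 200 * (((p : ℝ) + 2) * (9 / 10) ^ p) * 3 := by
    refine (Summable.mul_left _ ?_).mul_right _
    simp only [add_mul]
    have h9 : ‖(9 / 10 : ℝ)‖ < 1 := by norm_num
    exact (by simpa using summable_pow_mul_geometric_of_norm_lt_one 1 h9 :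
      Summable fun p : ℕ => (p : ℝ) * (9 / 10) ^ p).add
        ((summable_geometric_of_norm_lt_one h9).mul_left _)
  have q0 : (0 : ℝ) < Q := by exact_mod_cast hQ
  rw [Xl, Finset.smul_sum]
  refine (h18_sum (c := fun p : Fin (2 * Q - 2 + 1) =>
    8 * Real.exp 200 * ((((p : ℕ) : ℝ) + 2) * (9 / 10) ^ (p : ℕ)) * 3) _ fun p _ => ?_).mono ?_
  · rw [smul_smul]
    refine (((QL_Bx hQ x p).star.mul ((OL_ck Q x (p + 2)).mul (OL_ck Q x 0))).smul _).mono ?_
    have k1 : ‖(((Real.sqrt Q)⁻¹ : ℝ) : ℂ) * (kap Q p : ℂ)‖ ≤ 3 * (3 / 4) ^ (p : ℕ) := by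
      rw [← Complex.ofReal_mul, Complex.norm_real, Real.norm_eq_abs]
      refine abs_le_of_sq_le_sq ?_ (by positivity)
      rw [mul_pow, inv_pow, Real.sq_sqrt q0.le, inv_mul_le_iff₀ q0]
      refine (kap_sq_le hQ p).trans ?_
      have : (1 / 2 : ℝ) ^ (p : ℕ) ≤ ((3 / 4) ^ (p : ℕ)) ^ 2 := by
        rw [← pow_mul, mul_comm (p : ℕ) 2, pow_mul]
        exact pow_le_pow_left₀ (by norm_num) (by norm_num) _
      nlinarith [mul_le_mul_of_nonneg_left this q0.le,
        mul_nonneg q0.le (sq_nonneg ((3 / 4 : ℝ) ^ (p : ℕ)))]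
    have k2 : Real.exp (1 + 2 * Real.sqrt (p + 2)) * Real.exp (1 / 2 + Real.sqrt ((p : ℕ) + 2 : ℕ)) *
        Real.exp (1 / 2 + Real.sqrt (0 : ℕ)) ≤ Real.exp 200 * (6 / 5) ^ (p : ℕ) := by
      have l : Real.exp (1 / 10) ≤ 6 / 5 := by
        have := Real.exp_bound_div_one_sub_of_interval (x := 1 / 10) (by norm_num) (by norm_num)
        linarith
      refine le_trans ?_ (mul_le_mul_of_nonneg_left
        (pow_le_pow_left₀ (Real.exp_pos _).le l _) (Real.exp_pos _).le)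
      rw [← Real.exp_nat_mul, ← Real.exp_add, ← Real.exp_add, ← Real.exp_add]
      refine Real.exp_le_exp.2 ?_
      push_cast
      rw [Real.sqrt_zero]
      have := Real.sq_sqrt (show (0 : ℝ) ≤ (p : ℕ) + 2 by positivity)
      nlinarith [sq_nonneg (Real.sqrt ((p : ℕ) + 2) - 15)]
    calc _ = 8 * (((p : ℕ) : ℝ) + 2) * ‖(((Real.sqrt Q)⁻¹ : ℝ) : ℂ) * (kap Q p : ℂ)‖ *
          (Real.exp (1 + 2 * Real.sqrt (p + 2)) * Real.exp (1 / 2 + Real.sqrt ((p : ℕ) + 2 : ℕ)) *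
            Real.exp (1 / 2 + Real.sqrt (0 : ℕ))) := by ring
      _ ≤ 8 * (((p : ℕ) : ℝ) + 2) * (3 * (3 / 4) ^ (p : ℕ)) * (Real.exp 200 * (6 / 5) ^ (p : ℕ)) := by
          gcongr
      _ = _ := by rw [show (9 / 10 : ℝ) = 3 / 4 * (6 / 5) by norm_num, mul_pow]; ring
  · rw [← Finset.sum_range fun p : ℕ => 8 * Real.exp 200 * (((p : ℝ) + 2) * (9 / 10) ^ p) * 3]
    exact sm.sum_le_tsum _ fun _ _ => by positivity

end Crest.Agent.R340.F2
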