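import Crest.Agent.R340.F2Dbar

/-! # F2: Stokes' theorem in the plane -/

set_option autoImplicit false

namespace Crest.Agent.R340.F2

open MeasureTheory Filter Metric

theorem integral_dbar_eq_zero {h : ℂ → ℂ} (hC : ContDiff ℝ 1 h) (hs : HasCompactSupport h) :
    ∫ w, dbar h w = 0 := by
  have hi : ∀ v : ℂ, Integrable fun w => fderiv ℝ h w v := fun v =>
    ((hC.continuous_fderiv one_ne_zero).clm_apply continuous_const).integrable_of_hasCompactSupport
      (hs.fderiv_apply ℝ v)
  have h0 : ∀ v : ℂ, ∫ w, fderiv ℝ h w v = 0 := fun v => by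
    have := integral_mul_fderiv_eq_neg_fderiv_mul_of_integrable (μ := volume)
      (f := fun _ : ℂ => (1 : ℂ)) (g := h) (v := v) (by simp) (by simpa using hi v)
      (by simpa using hC.continuous.integrable_of_hasCompactSupport hs)
      (fun _ _ => differentiableAt_const _) fun x _ => hC.differentiable one_ne_zero x
    simpa using this
  unfold dbar
  rw [integral_smul, integral_add (hi 1) (g := fun w => Complex.I • fderiv ℝ h w Complex.I)
    ((hi _).smul Complex.I), integral_smul, h0, h0]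
  simp

/-- cut-off functions -/
theorem exists_cut : ∃ C : ℝ, 0 < C ∧ ∀ R : ℝ, 1 ≤ R → ∃ χ : ℂ → ℝ,
    ContDiff ℝ 1 (fun w => (χ w : ℂ)) ∧ (∀ w, 0 ≤ χ w ∧ χ w ≤ 1) ∧ (∀ w, ‖w‖ ≤ R → χ w = 1) ∧
      (∀ w, 2 * R ≤ ‖w‖ → χ w = 0) ∧ (∀ w, ‖dbar (fun w => (χ w : ℂ)) w‖ ≤ C / R) ∧
      ∀ w, ‖w‖ < R → dbar (fun w => (χ w : ℂ)) w = 0 := by
  let b : ContDiffBump (0 : ℂ) := ⟨1, 2, one_pos, one_lt_two⟩
  have hf : ContDiff ℝ 1 fun x : ℂ => (b x : ℂ) := Complex.ofRealCLM.contDiff.comp b.contDiff
  have hc : HasCompactSupport fun x : ℂ => (b x : ℂ) :=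
    b.hasCompactSupport.comp_left (g := fun y : ℝ => (y : ℂ)) Complex.ofReal_zero
  obtain ⟨M, hM⟩ := (hf.continuous_fderiv one_ne_zero).bounded_above_of_compact_support
    (hc.fderiv ℝ)
  have hM0 : 0 ≤ M := (norm_nonneg _).trans (hM 0)
  refine ⟨M + 1, by positivity, fun R hR => ?_⟩
  have hR0 : 0 < R := by linarith
  have hn : ∀ w : ℂ, ‖R⁻¹ • w‖ = ‖w‖ / R := fun w => by
    rw [norm_smul, norm_inv, Real.norm_eq_abs, abs_of_pos hR0, div_eq_inv_mul]
  have h1 : ∀ w : ℂ, ‖w‖ ≤ R → b (R⁻¹ • w) = 1 := fun w hw =>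
    b.one_of_mem_closedBall (mem_closedBall_zero_iff.2 (by rw [hn]; exact (div_le_one hR0).2 hw))
  refine ⟨fun w => b (R⁻¹ • w), hf.comp (contDiff_id.const_smul R⁻¹),
    fun w => ⟨b.nonneg, b.le_one⟩, h1, fun w hw => b.zero_of_le_dist ?_, fun w => ?_,
    fun w hw => ?_⟩
  · rw [dist_zero_right, hn]
    exact (le_div_iff₀ hR0).2 hw
  · refine (norm_dbar_le _ w).trans ?_
    rw [fderiv_comp_smul (f := fun x : ℂ => (b x : ℂ)), norm_smul, norm_inv, Real.norm_eq_abs,
      abs_of_pos hR0, div_eq_inv_mul]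
    exact mul_le_mul_of_nonneg_left ((hM _).trans (by linarith)) (by positivity)
  · rw [dbar_congr (g := fun _ => (1 : ℂ)), dbar_const]
    filter_upwards [ball_mem_nhds w (sub_pos.2 hw)] with z hz
    rw [h1 z (by linarith [norm_sub_norm_le z w, mem_ball_iff_norm.1 hz]), Complex.ofReal_one]

/-- one function, one radius -/
theorem stokes_cut : ∃ C : ℝ, 0 < C ∧ ∀ R : ℝ, 1 ≤ R → ∃ χ : ℂ → ℝ, Continuous χ ∧
    (∀ w, 0 ≤ χ w ∧ χ w ≤ 1) ∧ (∀ w, 2 * R ≤ ‖w‖ → χ w = 0) ∧
      ∀ (h : ℂ → ℂ) (a η : ℝ), 0 ≤ a → ContDiff ℝ 1 h →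
        (∀ w, R ≤ ‖w‖ → ‖w * h w - a * (w * sb w)‖ ≤ η) →
          Real.pi / 4 * a - C * η ≤ ∫ w, χ w * (dbar h w).re := by
  obtain ⟨C, hC, hcut⟩ := exists_cut
  refine ⟨4 * Real.pi * C, by positivity, fun R hR => ?_⟩
  obtain ⟨χ, hχ, h01, h1, h0, hd, hd0⟩ := hcut R hR
  have hR0 : 0 < R := by linarith
  have hχc : Continuous χ := Complex.continuous_re.comp hχ.continuous
  refine ⟨χ, hχc, h01, h0, fun h a η ha hh hη => ?_⟩
  have hη0 : 0 ≤ η := (norm_nonneg _).trans (hη R (by simp [abs_of_pos hR0]))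
  have hvol : ∀ r : ℝ, 0 ≤ r → (volume : Measure ℂ).real (closedBall 0 r) = r ^ 2 * Real.pi :=
    fun r hr => by
      rw [Measure.real, Complex.volume_closedBall]
      simp [ENNReal.toReal_ofReal hr]
  have hsupp : ∀ {E : Type} [NormedAddCommGroup E] {u : ℂ → E}, Continuous u →
      (∀ w, 2 * R < ‖w‖ → u w = 0) → Integrable u := fun hu h' =>
    hu.integrable_of_hasCompactSupport (HasCompactSupport.intro (isCompact_closedBall 0 (2 * R))
      fun w hw => h' w (by simpa using hw))
  have hd1 : ∀ w, 2 * R < ‖w‖ → dbar (fun w => (χ w : ℂ)) w = 0 := fun w hw => by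
    rw [← dbar_const (0 : ℂ) w]
    refine dbar_congr ?_
    filter_upwards [(isOpen_lt continuous_const continuous_norm).mem_nhds hw] with z hz
    rw [h0 z (le_of_lt hz), Complex.ofReal_zero]
  set H : ℂ → ℂ := fun w => h w - (a : ℂ) • sb w with hH
  have hHc : ContDiff ℝ 1 H := hh.sub (contDiff_sb.const_smul (a : ℂ))
  have hdH : ∀ w, dbar H w = dbar h w - (a : ℂ) * om w := fun w => by
    rw [hH, dbar_sub (hh.differentiable one_ne_zero w)
      ((contDiff_sb.const_smul (a : ℂ)).differentiable one_ne_zero w),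
      dbar_smul (differentiableAt_const _) (contDiff_sb.differentiable one_ne_zero w), dbar_const,
      dbar_sb, zero_smul, zero_add, smul_eq_mul]
  have hP : ∀ w, dbar (fun z => (χ z : ℂ) • H z) w =
      dbar (fun w => (χ w : ℂ)) w * H w + χ w * (dbar h w - (a : ℂ) * om w) := fun w => by
    rw [dbar_smul (hχ.differentiable one_ne_zero w) (hHc.differentiable one_ne_zero w), hdH,
      smul_eq_mul, smul_eq_mul]
  have hPc : ContDiff ℝ 1 fun z => (χ z : ℂ) • H z := hχ.smul hHc
  have hz := integral_dbar_eq_zero hPc (HasCompactSupport.intro (isCompact_closedBall 0 (2 * R))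
    fun w hw => by rw [h0 w (le_of_lt (by simpa using hw))]; simp)
  have hPi : Integrable (dbar fun z => (χ z : ℂ) • H z) := hsupp (continuous_dbar hPc)
    fun w hw => by rw [hP, hd1 w hw, h0 w hw.le]; simp
  have hre : ∫ w, (dbar (fun z => (χ z : ℂ) • H z) w).re = 0 := by
    have := Complex.reCLM.integral_comp_comm hPi
    rw [hz, map_zero] at this
    exact this
  have homc : Continuous om := by
    have := Complex.continuous_re.comp (continuous_dbar contDiff_sb)
    refine this.congr fun w => ?_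
    simp [dbar_sb]
  have i1 : Integrable fun w => χ w * (dbar h w).re :=
    hsupp (hχc.mul (Complex.continuous_re.comp (continuous_dbar hh)))
      fun w hw => by rw [h0 w hw.le, zero_mul]
  have i2 : Integrable fun w => χ w * om w :=
    hsupp (hχc.mul homc) fun w hw => by rw [h0 w hw.le, zero_mul]
  have i3 : Integrable fun w => (dbar (fun w => (χ w : ℂ)) w * H w).re :=
    hsupp (Complex.continuous_re.comp ((continuous_dbar hχ).mul hHc.continuous))
      fun w hw => by rw [hd1 w hw]; simp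
  have e : ∀ w, (dbar (fun z => (χ z : ℂ) • H z) w).re =
      (dbar (fun w => (χ w : ℂ)) w * H w).re + (χ w * (dbar h w).re - a * (χ w * om w)) :=
    fun w => by
      rw [hP]
      simp only [Complex.add_re, Complex.re_ofReal_mul, Complex.sub_re, Complex.ofReal_re]
      ring
  simp only [e] at hre
  have i4 : Integrable fun w => χ w * (dbar h w).re - a * (χ w * om w) := i1.sub (i2.const_mul a)
  rw [integral_add i3 i4, integral_sub i1 (i2.const_mul a),
    integral_const_mul] at hre
  have b3 : ‖∫ w, (dbar (fun w => (χ w : ℂ)) w * H w).re‖ ≤ 4 * Real.pi * C * η := by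
    have hi : Integrable ((closedBall (0 : ℂ) (2 * R)).indicator fun _ => C / R * (η / R)) :=
      (integrable_indicator_iff measurableSet_closedBall).2
        (integrableOn_const (isCompact_closedBall _ _).measure_lt_top.ne)
    refine (norm_integral_le_of_norm_le hi (Eventually.of_forall fun w => ?_)).trans (le_of_eq ?_)
    · by_cases hw : w ∈ closedBall (0 : ℂ) (2 * R)
      · rw [Set.indicator_of_mem hw]
        rcases lt_or_ge ‖w‖ R with h2 | h2
        · rw [hd0 w h2]
          simp only [zero_mul, Complex.zero_re, norm_zero]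
          positivity
        refine (Complex.abs_re_le_norm _).trans ?_
        rw [norm_mul]
        refine mul_le_mul (hd w) ?_ (norm_nonneg _) (by positivity)
        have h3 := hη w h2
        have h4 : w * h w - a * (w * sb w) = w * H w := by simp only [hH, smul_eq_mul]; ring
        rw [h4, norm_mul] at h3
        rw [le_div_iff₀ hR0]
        nlinarith [norm_nonneg (H w)]
      · rw [Set.indicator_of_notMem hw, hd1 w (by simpa using hw)]
        simp
    · rw [integral_indicator measurableSet_closedBall, setIntegral_const, hvol _ (by positivity),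
        smul_eq_mul]
      field_simp
      ring
  have b2 : Real.pi / 4 ≤ ∫ w, χ w * om w := by
    have hi : Integrable ((closedBall (0 : ℂ) 1).indicator fun _ => (1 / 4 : ℝ)) :=
      (integrable_indicator_iff measurableSet_closedBall).2
        (integrableOn_const (isCompact_closedBall _ _).measure_lt_top.ne)
    refine le_trans (le_of_eq ?_) (integral_mono hi i2 fun w => ?_)
    · rw [integral_indicator measurableSet_closedBall, setIntegral_const, hvol _ zero_le_one,
        smul_eq_mul]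
      ring
    · by_cases hw : w ∈ closedBall (0 : ℂ) 1
      · rw [Set.indicator_of_mem hw]
        have h2 : ‖w‖ ≤ 1 := by simpa using hw
        have h3 : ‖w‖ ^ 2 ≤ 1 := pow_le_one₀ (norm_nonneg _) h2
        show 1 / 4 ≤ χ w * om w
        rw [h1 w (h2.trans hR), one_mul, om, one_div]
        exact inv_anti₀ (by positivity) (by nlinarith [sq_nonneg ‖w‖])
      · rw [Set.indicator_of_notMem hw]
        exact mul_nonneg (h01 w).1 (by unfold om; positivity)
  have b4 := (abs_le.1 b3).2
  nlinarith [mul_le_mul_of_nonneg_left b2 ha]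

theorem stokes_le {h : ℕ → ℂ → ℂ} {a : ℝ} (ha : 0 ≤ a) {g : ℂ → ℝ} (ig : Integrable g)
    (g0 : ∀ w, 0 ≤ g w) (hC : ∀ k, ContDiff ℝ 1 (h k))
    (tail : ∀ η > 0, ∃ R : ℝ, ∀ k w, R ≤ ‖w‖ → ‖w * h k w - a‖ ≤ η)
    (dom : ∀ R : ℝ, ∃ b : ℂ → ℝ, IntegrableOn b (closedBall 0 R) ∧
      ∀ k, ∀ᵐ w : ℂ, ‖w‖ ≤ R → (dbar (h k) w).re ≤ b w)
    (lim : ∀ᵐ w : ℂ, ∀ η > 0, ∀ᶠ k in atTop, (dbar (h k) w).re ≤ g w + η) :
    Real.pi / 4 * a ≤ ∫ w, g w := by
  obtain ⟨C, hC0, hcut⟩ := stokes_cut
  refine le_of_forall_pos_le_add fun ε hε => ?_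
  set η : ℝ := ε / (C * (1 + a)) with hηd
  have hη : 0 < η := by positivity
  obtain ⟨R1, hR1⟩ := tail η hη
  obtain ⟨K, hK, hK'⟩ := mem_cocompact.1 (tendsto_mul_sb (closedBall_mem_nhds 1 hη))
  obtain ⟨R, hR, hKR⟩ := hK.isBounded.subset_ball_lt (max R1 1) (0 : ℂ)
  have hR1' : 1 ≤ R := (le_max_right _ _).trans hR.le
  obtain ⟨χ, hχc, h01, h0, hχ⟩ := hcut R hR1'
  have hlow : ∀ k, Real.pi / 4 * a - C * (η * (1 + a)) ≤ ∫ w, χ w * (dbar (h k) w).re := fun k =>
    hχ (h k) a _ ha (hC k) fun w hw => by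
      have h1 := hR1 k w (((le_max_left _ _).trans hR.le).trans hw)
      have h2 : ‖w * sb w - 1‖ ≤ η := by
        have hwK : w ∉ K := fun h' => absurd (mem_ball_zero_iff.1 (hKR h')) (not_lt.2 hw)
        simpa [dist_eq_norm] using hK' hwK
      have h3 : w * h k w - a * (w * sb w) = (w * h k w - a) - a * (w * sb w - 1) := by ring
      rw [h3]
      refine (norm_sub_le _ _).trans ?_
      rw [norm_mul, Complex.norm_real, Real.norm_of_nonneg ha]
      nlinarith [mul_le_mul_of_nonneg_left h2 ha]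
  obtain ⟨b, hb, hb'⟩ := dom (2 * R)
  have hrc : ∀ k, Continuous fun w => (dbar (h k) w).re := fun k =>
    Complex.continuous_re.comp (continuous_dbar (hC k))
  have hFm : ∀ k, AEStronglyMeasurable (fun w => χ w * max ((dbar (h k) w).re - g w) 0) volume :=
    fun k => hχc.aestronglyMeasurable.mul
      (((hrc k).aemeasurable.sub ig.aemeasurable).max aemeasurable_const).aestronglyMeasurable
  have hbi : Integrable ((closedBall (0 : ℂ) (2 * R)).indicator fun w => |b w|) :=
    (integrable_indicator_iff measurableSet_closedBall).2 hb.abs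
  have hbd : ∀ k, ∀ᵐ w : ℂ, ‖χ w * max ((dbar (h k) w).re - g w) 0‖ ≤
      (closedBall (0 : ℂ) (2 * R)).indicator (fun w => |b w|) w := fun k => by
    filter_upwards [hb' k] with w hw
    by_cases hw' : w ∈ closedBall (0 : ℂ) (2 * R)
    · rw [Set.indicator_of_mem hw', Real.norm_of_nonneg (mul_nonneg (h01 w).1 (le_max_right _ _))]
      refine (mul_le_of_le_one_left (le_max_right _ _) (h01 w).2).trans
        (max_le ?_ (abs_nonneg _))
      have := hw (by simpa using hw')
      linarith [g0 w, le_abs_self (b w)]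
    · rw [Set.indicator_of_notMem hw', h0 w (le_of_lt (by simpa using hw'))]
      simp
  have hlim : Tendsto (fun k => ∫ w, χ w * max ((dbar (h k) w).re - g w) 0) atTop
      (nhds (∫ _ : ℂ, (0 : ℝ))) := by
    refine tendsto_integral_of_dominated_convergence _ hFm hbi hbd ?_
    filter_upwards [lim] with w hw
    rw [Metric.tendsto_nhds]
    intro δ hδ
    filter_upwards [hw (δ / 2) (by positivity)] with k hk
    rw [dist_zero_right, Real.norm_of_nonneg (mul_nonneg (h01 w).1 (le_max_right _ _))]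
    refine ((mul_le_of_le_one_left (le_max_right _ _) (h01 w).2).trans
      (max_le (c := δ / 2) (by linarith) (by positivity))).trans_lt (by linarith)
  rw [integral_zero] at hlim
  have hup : ∀ k, ∫ w, χ w * (dbar (h k) w).re ≤
      (∫ w, g w) + ∫ w, χ w * max ((dbar (h k) w).re - g w) 0 := fun k => by
    have i1 : Integrable fun w => χ w * (dbar (h k) w).re :=
      (hχc.mul (hrc k)).integrable_of_hasCompactSupport
        (HasCompactSupport.intro (isCompact_closedBall 0 (2 * R)) fun w hw => by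
          show χ w * (dbar (h k) w).re = 0
          rw [h0 w (le_of_lt (by simpa using hw)), zero_mul])
    have i2 : Integrable fun w => χ w * max ((dbar (h k) w).re - g w) 0 :=
      hbi.mono' (hFm k) (hbd k)
    rw [← integral_add ig i2]
    refine integral_mono i1 (ig.add i2) fun w => ?_
    have h1 := mul_le_mul_of_nonneg_left (le_max_left ((dbar (h k) w).re - g w) 0) (h01 w).1
    have h2 := mul_le_of_le_one_left (g0 w) (h01 w).2
    simp only
    linarith
  have hfin : Real.pi / 4 * a - C * (η * (1 + a)) ≤ (∫ w, g w) + 0 :=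
    ge_of_tendsto' (hlim.const_add _) fun k => (hlow k).trans (hup k)
  have : C * (η * (1 + a)) = ε := by rw [hηd]; field_simp
  linarith

end Crest.Agent.R340.F2
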