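import Crest.Agent.R340.FgCh

/-! Row 340: commutation relations of the rescaled pair annihilators. -/

set_option autoImplicit false

namespace Crest.Agent.R340

open Matrix Finset Filter Topology

lemma FgBh_eq (Q m : ℕ) :
    Bh Q m = ∑ i ∈ range (m + 1), (m.choose i : ℝ) • (ch Q (m - i + 1) * ch Q i) := by
  unfold Bh
  refine Finset.sum_congr rfl fun i hi => ?_
  have : m + 1 - i = m - i + 1 := by have := Finset.mem_range.1 hi; omega
  rw [this]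

/-- The symmetric combination of anticommuting products vanishes. -/
lemma FgBh_symm (Q m : ℕ) :
    ∑ i ∈ range (m + 1), (m.choose i : ℝ) • (ch Q (m - i) * ch Q i) = 0 := by
  have h := Finset.sum_flip (n := m) fun i => (m.choose i : ℝ) • (ch Q (m - i) * ch Q i)
  have h2 : ∑ i ∈ range (m + 1), (m.choose (m - i) : ℝ) • (ch Q (m - (m - i)) * ch Q (m - i)) =
      -∑ i ∈ range (m + 1), (m.choose i : ℝ) • (ch Q (m - i) * ch Q i) := by
    rw [← Finset.sum_neg_distrib]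
    refine Finset.sum_congr rfl fun i hi => ?_
    have hi' : i ≤ m := by have := Finset.mem_range.1 hi; omega
    rw [Nat.choose_symm hi', Nat.sub_sub_self hi', ch_anticomm, smul_neg]
  rw [h2] at h
  have h3 : (2 : ℝ) • ∑ i ∈ range (m + 1), (m.choose i : ℝ) • (ch Q (m - i) * ch Q i) = 0 := by
    rw [two_smul]; nth_rewrite 1 [← h]; exact neg_add_cancel _
  exact (smul_eq_zero.1 h3).resolve_left two_ne_zero

lemma FgBh_coef {Q : ℕ} (hQ : 1 ≤ Q) (n i : ℕ) (hi : i ≤ n + 1) :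
    ((n + 1).choose i : ℝ) * phQ Q (n + 1 - i + 1) + ((n + 1).choose (i + 1) : ℝ) * phQ Q (i + 1) =
      muQ Q (n + 1) * (n.choose i : ℝ) + ((n + 1).choose i : ℝ) := by
  obtain ⟨j, hj⟩ := Nat.exists_eq_add_of_le hi
  have hj' : n + 1 - i = j := by omega
  have e1 : ((n + 1).choose (i + 1) : ℝ) * ((i : ℝ) + 1) = ((n + 1).choose i : ℝ) * j := by
    have := Nat.choose_succ_right_eq (n + 1) i
    rw [hj'] at this
    exact_mod_cast this
  have e2 : (n.choose i : ℝ) * ((n : ℝ) + 1) = ((n + 1).choose i : ℝ) * j := by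
    have := Nat.choose_mul_succ_eq n i
    rw [hj'] at this
    exact_mod_cast this
  have e3 : (n : ℝ) + 1 = i + j := by exact_mod_cast hj
  have hQ' : (Q : ℝ) ≠ 0 := by positivity
  rw [hj']
  unfold phQ muQ
  push_cast
  field_simp
  linear_combination ((Q : ℝ) - i) * e1 - (2 * (Q : ℝ) - 1 - (n + 1)) * e2 +
    ((n + 1).choose i : ℝ) * j * e3

lemma FgBh_order {R : Type*} [Ring R] [Algebra ℝ R] (A B D0 D1 : R) (p q r : ℝ)
    (h1 : B * D0 = p • 1 - D0 * B) (h2 : B * D1 = q • 1 - D1 * B) (h3 : A * D0 = -(D0 * A))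
    (h4 : A * D1 = r • 1 - D1 * A) :
    A * B * (D0 * D1) =
      D0 * D1 * (A * B) + (p * r) • 1 - p • (D1 * A) + q • (D0 * A) - r • (D0 * B) := by
  calc A * B * (D0 * D1) = A * (B * D0) * D1 := by simp only [mul_assoc]
    _ = p • (A * D1) - (A * D0) * (B * D1) := by
      rw [h1]; simp only [mul_sub, sub_mul, mul_smul_comm, smul_mul_assoc, mul_one, mul_assoc]
    _ = p • (A * D1) + q • (D0 * A) - D0 * (A * D1) * B := by
      rw [h2, h3]
      simp only [mul_sub, neg_mul, mul_smul_comm, mul_one, mul_assoc, smul_neg]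
      abel
    _ = _ := by
      rw [h4]
      simp only [mul_sub, sub_mul, mul_smul_comm, smul_mul_assoc, mul_one, mul_assoc, smul_sub,
        smul_smul]
      abel

/-- Families of operators with a bound that does not depend on `Q`. -/
def FgBhBd (A : (Q : ℕ) → FM (Q + 1)) : Prop :=
  ∃ C : ℝ, 0 ≤ C ∧ ∀ Q : ℕ, 1 ≤ Q → ∀ Φ : Finset (Fin (Q + 1)) → ℝ,
    (A Q *ᵥ Φ) ⬝ᵥ (A Q *ᵥ Φ) ≤ C * (Φ ⬝ᵥ Φ)

lemma FgBhBd.add {A B : (Q : ℕ) → FM (Q + 1)} (hA : FgBhBd A) (hB : FgBhBd B) :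
    FgBhBd fun Q => A Q + B Q := by
  obtain ⟨a, ha, hA⟩ := hA
  obtain ⟨b, hb, hB⟩ := hB
  refine ⟨2 * a + 2 * b, by positivity, fun Q hQ Φ => ?_⟩
  have h1 := hA Q hQ Φ
  have h2 := hB Q hQ Φ
  have h3 : 0 ≤ (A Q *ᵥ Φ - B Q *ᵥ Φ) ⬝ᵥ (A Q *ᵥ Φ - B Q *ᵥ Φ) :=
    Finset.sum_nonneg fun _ _ => mul_self_nonneg _
  simp only [add_mulVec, add_dotProduct, dotProduct_add, sub_dotProduct, dotProduct_sub] at h3 ⊢
  linarith

lemma FgBhBd.smul {A : (Q : ℕ) → FM (Q + 1)} (hA : FgBhBd A) (c : ℝ) :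
    FgBhBd fun Q => c • A Q := by
  obtain ⟨a, ha, hA⟩ := hA
  refine ⟨c * c * a, mul_nonneg (mul_self_nonneg c) ha, fun Q hQ Φ => ?_⟩
  have h1 := mul_le_mul_of_nonneg_left (hA Q hQ Φ) (mul_self_nonneg c)
  simp only [smul_mulVec, smul_dotProduct, dotProduct_smul, smul_eq_mul]
  linarith

lemma FgBhBd.mul {A B : (Q : ℕ) → FM (Q + 1)} (hA : FgBhBd A) (hB : FgBhBd B) :
    FgBhBd fun Q => A Q * B Q := by
  obtain ⟨a, ha, hA⟩ := hA
  obtain ⟨b, hb, hB⟩ := hB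
  refine ⟨a * b, mul_nonneg ha hb, fun Q hQ Φ => ?_⟩
  have h1 := hA Q hQ (B Q *ᵥ Φ)
  have h2 := mul_le_mul_of_nonneg_left (hB Q hQ Φ) ha
  simp only [← mulVec_mulVec]
  linarith

lemma FgBhBd.sum (f : ℕ → (Q : ℕ) → FM (Q + 1)) (hf : ∀ i, FgBhBd (f i)) (n : ℕ) :
    FgBhBd fun Q => ∑ i ∈ range n, f i Q := by
  induction n with
  | zero => exact ⟨0, le_rfl, fun Q _ Φ => by simp⟩
  | succ n ih =>
    simp only [Finset.sum_range_succ]
    exact ih.add (hf n)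

lemma FgBhBd.ch (k : ℕ) : FgBhBd fun Q => ch Q k :=
  ⟨k.factorial, by positivity, fun Q hQ Φ => (ch_norm_le Q k Φ).trans
    (mul_le_mul_of_nonneg_right (sQ_le hQ k) (Finset.sum_nonneg fun _ _ => mul_self_nonneg _))⟩

lemma Bh_zero (Q : ℕ) : Bh Q 0 = ch Q 1 * ch Q 0 := by
  simp [Bh]

lemma Bh_Fh {Q : ℕ} (hQ : 1 ≤ Q) (m : ℕ) : Bh Q m * Fh Q = Fh Q * Bh Q m + Bh Q (m + 1) := by
  have h : ∀ a i, ch Q a * ch Q i * Fh Q =
      Fh Q * (ch Q a * ch Q i) + (ch Q (a + 1) * ch Q i + ch Q a * ch Q (i + 1)) := by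
    intro a i
    rw [mul_assoc, ch_Fh hQ i, mul_add, ← mul_assoc, ch_Fh hQ a, add_mul, mul_assoc, add_assoc]
  have h2 := Finset.sum_choose_succ_nsmul (fun i j => ch Q (j + 1) * ch Q i) m
  simp only [← Nat.cast_smul_eq_nsmul ℝ] at h2
  rw [FgBh_eq Q (m + 1), h2, FgBh_eq, Finset.sum_mul, Finset.mul_sum, ← Finset.sum_add_distrib,
    ← Finset.sum_add_distrib]
  refine Finset.sum_congr rfl fun i hi => ?_
  have : m + 1 - i = m - i + 1 := by have := Finset.mem_range.1 hi; omega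
  rw [this, smul_mul_assoc, mul_smul_comm, h, smul_add, smul_add]

lemma Bh_FhT {Q : ℕ} (hQ : 1 ≤ Q) (m : ℕ) :
    Bh Q m * (Fh Q)ᵀ = (Fh Q)ᵀ * Bh Q m + muQ Q m • Bh Q (m - 1) := by
  have h : ∀ a i, ch Q (a + 1) * ch Q i * (Fh Q)ᵀ = (Fh Q)ᵀ * (ch Q (a + 1) * ch Q i) +
      (phQ Q (a + 1) • (ch Q a * ch Q i) + phQ Q i • (ch Q (a + 1) * ch Q (i - 1))) := by
    intro a i
    rw [mul_assoc, ch_FhT hQ i, mul_add, ← mul_assoc, ch_FhT hQ (a + 1), add_mul, mul_assoc,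
      add_assoc, smul_mul_assoc, mul_smul_comm, Nat.add_sub_cancel]
  have h1 : Bh Q m * (Fh Q)ᵀ = (Fh Q)ᵀ * Bh Q m +
      (∑ i ∈ range (m + 1), ((m.choose i : ℝ) * phQ Q (m - i + 1)) • (ch Q (m - i) * ch Q i) +
        ∑ i ∈ range (m + 1), ((m.choose i : ℝ) * phQ Q i) •
          (ch Q (m - i + 1) * ch Q (i - 1))) := by
    rw [FgBh_eq, Finset.sum_mul, Finset.mul_sum, ← Finset.sum_add_distrib,
      ← Finset.sum_add_distrib]
    refine Finset.sum_congr rfl fun i _ => ?_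
    rw [smul_mul_assoc, mul_smul_comm, h, smul_add, smul_add, smul_smul, smul_smul]
  have h2 : ∑ i ∈ range (m + 1), ((m.choose i : ℝ) * phQ Q i) •
        (ch Q (m - i + 1) * ch Q (i - 1)) =
      ∑ i ∈ range (m + 1), ((m.choose (i + 1) : ℝ) * phQ Q (i + 1)) • (ch Q (m - i) * ch Q i) := by
    rw [Finset.sum_range_succ', Finset.sum_range_succ _ m]
    congr 1
    · refine Finset.sum_congr rfl fun i hi => ?_
      have : m - (i + 1) + 1 = m - i := by have := Finset.mem_range.1 hi; omega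
      rw [this, Nat.add_sub_cancel]
    · simp [phQ]
  rw [h1, h2, ← Finset.sum_add_distrib]
  congr 1
  cases m with
  | zero => simp [ch_mul_self, muQ]
  | succ n =>
    have h3 : Bh Q (n + 1 - 1) =
        ∑ i ∈ range (n + 1 + 1), (n.choose i : ℝ) • (ch Q (n + 1 - i) * ch Q i) := by
      rw [Finset.sum_range_succ, Nat.add_sub_cancel]
      simp [Bh]
    rw [h3, Finset.smul_sum, ← add_zero (∑ i ∈ range (n + 1 + 1), muQ Q (n + 1) • _),
      ← FgBh_symm Q (n + 1), ← Finset.sum_add_distrib]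
    refine Finset.sum_congr rfl fun i hi => ?_
    have hi' : i ≤ n + 1 := by have := Finset.mem_range.1 hi; omega
    rw [smul_smul, ← add_smul, ← add_smul, FgBh_coef hQ n i hi']

lemma ch_Bh_comm (Q k m : ℕ) : ch Q k * Bh Q m = Bh Q m * ch Q k := by
  unfold Bh
  rw [Finset.sum_mul, Finset.mul_sum]
  refine Finset.sum_congr rfl fun i _ => ?_
  rw [smul_mul_assoc, mul_smul_comm, ← mul_assoc, ch_anticomm Q k, neg_mul, mul_assoc,
    ch_anticomm Q k, mul_neg, neg_neg, mul_assoc]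

lemma Bh_comm (Q m p : ℕ) : Bh Q m * Bh Q p = Bh Q p * Bh Q m := by
  nth_rewrite 1 [FgBh_eq Q m]
  nth_rewrite 1 [FgBh_eq Q m]
  rw [Finset.sum_mul, Finset.mul_sum]
  refine Finset.sum_congr rfl fun i _ => ?_
  rw [smul_mul_assoc, mul_smul_comm, mul_assoc, ch_Bh_comm, ← mul_assoc, ch_Bh_comm, mul_assoc]

lemma Bh_eq_zero {Q m : ℕ} (hm : 2 * Q - 1 ≤ m) : Bh Q m = 0 := by
  unfold Bh
  refine Finset.sum_eq_zero fun i hi => ?_
  have hi' := Finset.mem_range.1 hi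
  by_cases h1 : Q < i
  · rw [ch_eq_zero h1, mul_zero, smul_zero]
  by_cases h2 : Q < m + 1 - i
  · rw [ch_eq_zero h2, zero_mul, smul_zero]
  have : m + 1 - i = i := by omega
  rw [this, ch_mul_self, smul_zero]

lemma Bh_BhT0 {Q : ℕ} (hQ : 1 ≤ Q) (m : ℕ) :
    Bh Q m * (Bh Q 0)ᵀ = (Bh Q 0)ᵀ * Bh Q m + (if m = 0 then 1 else 0) +
      ((m : ℝ) - 1) • ((ch Q 0)ᵀ * ch Q m) - (ch Q 1)ᵀ * ch Q (m + 1) := by
  have h : ∀ i ∈ range (m + 1), ch Q (m - i + 1) * ch Q i * ((ch Q 0)ᵀ * (ch Q 1)ᵀ) =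
      (ch Q 0)ᵀ * (ch Q 1)ᵀ * (ch Q (m - i + 1) * ch Q i) +
        ((if i = 0 then 1 else 0 : ℝ) * (if i = m then 1 else 0)) • 1 -
        (if i = 0 then 1 else 0 : ℝ) • ((ch Q 1)ᵀ * ch Q (m - i + 1)) +
        (if i = 1 then 1 else 0 : ℝ) • ((ch Q 0)ᵀ * ch Q (m - i + 1)) -
        (if i = m then 1 else 0 : ℝ) • ((ch Q 0)ᵀ * ch Q i) := by
    intro i hi
    have hi' := Finset.mem_range.1 hi
    apply FgBh_order
    · rw [ch_chT]
      congr 2
      split_ifs with h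
      · rw [h, sQ_zero]
      · rfl
    · rw [ch_chT]
      congr 2
      split_ifs with h
      · rw [h, sQ_one hQ]
      · rfl
    · rw [ch_chT, if_neg (by omega), zero_smul, zero_sub]
    · rw [ch_chT]
      congr 2
      by_cases h : i = m
      · rw [if_pos h, if_pos (by omega), h, Nat.sub_self, sQ_one hQ]
      · rw [if_neg h, if_neg (by omega)]
  rw [Bh_zero, transpose_mul, FgBh_eq, Finset.sum_mul, Finset.mul_sum,
    Finset.sum_congr rfl fun i hi => by rw [smul_mul_assoc, h i hi]]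
  simp only [smul_add, smul_sub, Finset.sum_add_distrib, Finset.sum_sub_distrib, mul_smul_comm,
    ite_mul, ite_smul, smul_ite, one_mul, zero_mul, one_smul, zero_smul, smul_zero,
    Finset.sum_ite_eq', Finset.mem_range]
  cases m with
  | zero => simp; abel
  | succ n => simp [add_smul]; abel

/-- A bound of `‖B̂_p‖²` that does not depend on `Q`. -/
lemma Bh_norm_le : ∃ C : ℕ → ℝ, (∀ p, 0 ≤ C p) ∧ ∀ Q : ℕ, 1 ≤ Q → ∀ (p : ℕ)
    (Φ : Finset (Fin (Q + 1)) → ℝ), (Bh Q p *ᵥ Φ) ⬝ᵥ (Bh Q p *ᵥ Φ) ≤ C p * (Φ ⬝ᵥ Φ) := by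
  have h : ∀ p, FgBhBd fun Q => Bh Q p := fun p =>
    FgBhBd.sum (fun i Q => (p.choose i : ℝ) • (ch Q (p + 1 - i) * ch Q i))
      (fun i => ((FgBhBd.ch _).mul (FgBhBd.ch _)).smul _) (p + 1)
  choose C hC using h
  exact ⟨C, fun p => (hC p).1, fun Q hQ p Φ => (hC p).2 Q hQ Φ⟩

end Crest.Agent.R340
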