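import Crest.Agent.R340.FgCkDefs

/-! Row 340: enumeration of the blocks, support of the kernel. -/

set_option autoImplicit false

namespace Crest.Agent.R340

open Finset

lemma blk_spec {n N d : ℕ} {l : List ℕ} (h : l ∈ blk n N d) :
    l.Nodup ∧ (∀ x ∈ l, x < n) ∧ l.length = N ∧ l.sum = d := by
  induction n generalizing N d l with
  | zero =>
    cases N with
    | zero =>
      simp only [blk] at h
      split_ifs at h with hd
      · simp only [List.mem_singleton] at h
        subst h; simp [hd]
      · simp at h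
    | succ N => simp [blk] at h
  | succ n ih =>
    cases N with
    | zero =>
      simp only [blk] at h
      split_ifs at h with hd
      · simp only [List.mem_singleton] at h
        subst h; simp [hd]
      · simp at h
    | succ N =>
      simp only [blk] at h
      split_ifs at h with h1 h2
      · simp at h
      · rcases List.mem_append.1 h with h | h
        · obtain ⟨a, b, c, e⟩ := ih h
          exact ⟨a, fun x hx => (b x hx).trans (Nat.lt_succ_self n), c, e⟩
        · obtain ⟨l', hl', rfl⟩ := List.mem_map.1 h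
          obtain ⟨a, b, c, e⟩ := ih hl'
          refine ⟨List.nodup_cons.2 ⟨fun hn => lt_irrefl _ (b n hn), a⟩, ?_, by simp [c], ?_⟩
          · intro x hx
            rcases List.mem_cons.1 hx with rfl | hx
            · exact Nat.lt_succ_self _
            · exact (b x hx).trans (Nat.lt_succ_self n)
          · simp only [List.sum_cons, e]; omega
      · simp only [List.append_nil] at h
        obtain ⟨a, b, c, e⟩ := ih h
        exact ⟨a, fun x hx => (b x hx).trans (Nat.lt_succ_self n), c, e⟩

lemma fgblk_zero (n d : ℕ) (f : Finset ℕ → ℝ) :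
    ∑ S ∈ (range n).powerset.filter (fun S => S.card = 0 ∧ ∑ i ∈ S, i = d), f S =
      ((blk n 0 d).map fun l => f l.toFinset).sum := by
  have hb : blk n 0 d = if d = 0 then [[]] else [] := by cases n <;> simp [blk]
  rw [hb]
  split_ifs with hd
  · have : (range n).powerset.filter (fun S => S.card = 0 ∧ ∑ i ∈ S, i = d) = {∅} := by
      ext S
      simp only [mem_filter, mem_powerset, card_eq_zero, mem_singleton]
      constructor
      · exact fun h => h.2.1
      · rintro rfl; simp [hd]
    rw [this]; simp
  · have : (range n).powerset.filter (fun S => S.card = 0 ∧ ∑ i ∈ S, i = d) = ∅ := by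
      ext S
      simp only [mem_filter, mem_powerset, card_eq_zero, notMem_empty, iff_false]
      rintro ⟨-, rfl, h⟩
      exact hd (by simpa using h.symm)
    rw [this]; simp

lemma sum_blk (n N d : ℕ) (f : Finset ℕ → ℝ) :
    ∑ S ∈ (range n).powerset.filter (fun S => S.card = N ∧ ∑ i ∈ S, i = d), f S =
      ((blk n N d).map fun l => f l.toFinset).sum := by
  induction n generalizing N d f with
  | zero =>
    cases N with
    | zero => exact fgblk_zero 0 d f
    | succ N => simp [blk, Finset.filter_singleton]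
  | succ n ih =>
    cases N with
    | zero => exact fgblk_zero _ d f
    | succ N =>
      simp only [blk]
      split_ifs with h1 h2
      · have : (range (n + 1)).powerset.filter
            (fun S => S.card = N + 1 ∧ ∑ i ∈ S, i = d) = ∅ := by
          ext S
          simp only [mem_filter, mem_powerset, notMem_empty, iff_false]
          rintro ⟨hS, hc, -⟩
          have := card_le_card hS
          rw [card_range] at this
          omega
        rw [this]; simp
      · rw [List.map_append, List.sum_append, ← ih (N + 1) d f, List.map_map]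
        have e2 := ih N (d - n) (fun S => f (insert n S))
        have e3 : ((fun l : List ℕ => f l.toFinset) ∘ fun x => n :: x) =
            fun l : List ℕ => f (insert n l.toFinset) := by
          funext l; simp
        rw [e3, ← e2, sum_filter, sum_filter, sum_filter, Finset.range_add_one,
          Finset.sum_powerset_insert (by simp)]
        congr 1
        refine sum_congr rfl fun S hS => ?_
        have hn : n ∉ S := fun hn => by simpa using mem_powerset.1 hS hn
        rw [card_insert_of_notMem hn, sum_insert hn]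
        refine if_congr ?_ rfl rfl
        omega
      · rw [List.append_nil, ← ih (N + 1) d f, sum_filter, sum_filter, Finset.range_add_one,
          Finset.sum_powerset_insert (by simp)]
        have : ∑ S ∈ (range n).powerset,
            (if (insert n S).card = N + 1 ∧ ∑ i ∈ insert n S, i = d then f (insert n S)
              else 0) = 0 := by
          refine sum_eq_zero fun S hS => ?_
          have hn : n ∉ S := fun hn => by simpa using mem_powerset.1 hS hn
          rw [sum_insert hn, if_neg]
          omega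
        rw [this, add_zero]

lemma exists_blk {n : ℕ} {S : Finset ℕ} (h : S ⊆ range n) :
    ∃ l ∈ blk n S.card (∑ i ∈ S, i), l.toFinset = S := by
  by_contra hc
  push Not at hc
  have e := sum_blk n S.card (∑ i ∈ S, i) (fun T => if T = S then 1 else 0)
  have e1 : ((blk n S.card (∑ i ∈ S, i)).map
      fun l => (if l.toFinset = S then (1 : ℝ) else 0)).sum = 0 := by
    refine List.sum_eq_zero fun x hx => ?_
    obtain ⟨l, hl, rfl⟩ := List.mem_map.1 hx
    exact if_neg (hc l hl)
  rw [e1, Finset.sum_ite_eq'] at e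
  simp [h] at e

lemma aAnnF_supp {j r d : ℕ} {α : Finset ℕ → ℤ}
    (hα : ∀ R, α R ≠ 0 → R.card = r ∧ ∑ i ∈ R, i = d) (R : Finset ℕ) (h : aAnnF j α R ≠ 0) :
    R.card = r + 1 ∧ ∑ i ∈ R, i = d + j := by
  unfold aAnnF at h
  split_ifs at h with hj
  · obtain ⟨h1, h2⟩ := hα _ (right_ne_zero_of_mul h)
    refine ⟨?_, ?_⟩
    · rw [← card_erase_add_one hj, h1]
    · rw [← add_sum_erase R (fun i => i) hj, h2, add_comm]
  · exact absurd rfl h

lemma aBF_supp {m r d : ℕ} {α : Finset ℕ → ℤ}
    (hα : ∀ R, α R ≠ 0 → R.card = r ∧ ∑ i ∈ R, i = d) (R : Finset ℕ) (h : aBF m α R ≠ 0) :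
    R.card = r + 2 ∧ ∑ i ∈ R, i = d + m + 1 := by
  unfold aBF at h
  obtain ⟨i, hi, hne⟩ := Finset.exists_ne_zero_of_sum_ne_zero h
  have hi' := mem_range.1 hi
  obtain ⟨h1, h2⟩ := aAnnF_supp (aAnnF_supp hα) R (right_ne_zero_of_mul hne)
  exact ⟨h1, by omega⟩

lemma KF_symm (c2 : List (ℕ × ℤ)) (c3 c4 : CI) (R R' : Finset ℕ) :
    KF c2 c3 c4 R R' = KF c2 c3 c4 R' R := by
  unfold KF
  exact add_comm _ _

lemma fgblk_id (R : Finset ℕ) (h : aIdF R ≠ 0) : R.card = 0 ∧ ∑ i ∈ R, i = 0 := by
  unfold aIdF at h
  split_ifs at h with hR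
  · subst hR; simp
  · exact absurd rfl h

lemma fgblk_list {ι : Type} (l : List ι) (g : ι → ℤ) (h : (l.map g).sum ≠ 0) :
    ∃ e ∈ l, g e ≠ 0 := by
  by_contra hc
  push Not at hc
  refine h (List.sum_eq_zero fun x hx => ?_)
  obtain ⟨e, he, rfl⟩ := List.mem_map.1 hx
  exact hc e he

lemma fgblk_K0 (c2 : List (ℕ × ℤ)) {c3 c4 : CI} (h3 : DegOK c3) (h4 : DegOK c4) :
    KSupp (K0F c2 c3 c4) := by
  intro R R' h
  unfold K0F at h
  by_cases h2 : (c2.map fun e => e.2 * aBF e.1 aIdF R * aBF e.1 aIdF R').sum = 0
  · by_cases h3' : (c3.map fun e => e.2.2.2.2 * aAnnF e.2.1 (aBF e.1 aIdF) R *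
        aAnnF e.2.2.2.1 (aBF e.2.2.1 aIdF) R').sum = 0
    · rw [h2, h3', zero_add, zero_add] at h
      obtain ⟨e, he, hne⟩ := fgblk_list _ _ h
      obtain ⟨a1, a2⟩ := aBF_supp (aBF_supp fgblk_id) R
        (right_ne_zero_of_mul (left_ne_zero_of_mul hne))
      obtain ⟨b1, b2⟩ := aBF_supp (aBF_supp fgblk_id) R' (right_ne_zero_of_mul hne)
      have := h4 e he
      omega
    · obtain ⟨e, he, hne⟩ := fgblk_list _ _ h3'
      obtain ⟨a1, a2⟩ := aAnnF_supp (aBF_supp fgblk_id) R
        (right_ne_zero_of_mul (left_ne_zero_of_mul hne))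
      obtain ⟨b1, b2⟩ := aAnnF_supp (aBF_supp fgblk_id) R' (right_ne_zero_of_mul hne)
      have := h3 e he
      omega
  · obtain ⟨e, he, hne⟩ := fgblk_list _ _ h2
    obtain ⟨a1, a2⟩ := aBF_supp fgblk_id R (right_ne_zero_of_mul (left_ne_zero_of_mul hne))
    obtain ⟨b1, b2⟩ := aBF_supp fgblk_id R' (right_ne_zero_of_mul hne)
    omega

lemma KF_supp (c2 : List (ℕ × ℤ)) {c3 c4 : CI} (h3 : DegOK c3) (h4 : DegOK c4) :
    KSupp (KF c2 c3 c4) := by
  intro R R' h
  unfold KF at h
  by_cases h1 : K0F c2 c3 c4 R R' = 0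
  · rw [h1, zero_add] at h
    obtain ⟨a, b, c⟩ := fgblk_K0 c2 h3 h4 R' R h
    exact ⟨a.symm, a ▸ b, c.symm⟩
  · exact fgblk_K0 c2 h3 h4 R R' h1

end Crest.Agent.R340
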