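import Crest.Agent.R340.FgDefs

/-! Row 340: invariant states detect positivity of invariant operators. -/

set_option autoImplicit false

namespace Crest.Agent.R340

open Matrix Finset Filter Topology

section fgs
variable {n : Type} [Fintype n]

lemma fgs_quad (A B : Matrix n n ℝ) (Φ : n → ℝ) :
    Φ ⬝ᵥ ((Aᵀ * B) *ᵥ Φ) = (A *ᵥ Φ) ⬝ᵥ (B *ᵥ Φ) := by
  rw [← mulVec_mulVec, dotProduct_mulVec, vecMul_transpose]

lemma fgs_dot_self (v : n → ℝ) : 0 ≤ v ⬝ᵥ v :=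
  Finset.sum_nonneg fun i _ => mul_self_nonneg (v i)

lemma fgs_trace_pos (B X : Matrix n n ℝ) (hX : ∀ Φ, 0 ≤ Φ ⬝ᵥ (X *ᵥ Φ)) :
    0 ≤ trace (Bᵀ * B * X) := by
  rw [Matrix.mul_assoc, trace_mul_comm]
  refine Finset.sum_nonneg fun i _ => ?_
  have := hX (B i)
  rw [dotProduct_mulVec] at this
  simpa [Matrix.mul_apply, dotProduct, vecMul] using this

/-- Jordan decomposition with square roots, compatible with commutation -/
lemma fgs_jordan [DecidableEq n] (Y F : Matrix n n ℝ) (hs : Yᵀ = Y) (hF : Y * F = F * Y) :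
    ∃ B C : Matrix n n ℝ, (Bᵀ * B) * F = F * (Bᵀ * B) ∧ Y = Cᵀ * C - Bᵀ * B ∧
      (Bᵀ * B) * Y = -((Bᵀ * B)ᵀ * (Bᵀ * B)) := by
  have hY : IsSelfAdjoint Y := by
    rw [IsSelfAdjoint, star_eq_conjTranspose, conjTranspose_eq_transpose_of_trivial, hs]
  have cont : ∀ f : ℝ → ℝ, ContinuousOn f (spectrum ℝ Y) := fun f =>
    (Matrix.finite_real_spectrum (A := Y)).continuousOn f
  have sym : ∀ f : ℝ → ℝ, (cfc f Y)ᵀ = cfc f Y := fun f => by
    have h : IsSelfAdjoint (cfc f Y) := cfc_predicate f Y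
    rwa [IsSelfAdjoint, star_eq_conjTranspose, conjTranspose_eq_transpose_of_trivial] at h
  have sq : ∀ f : ℝ → ℝ, (∀ x, 0 ≤ f x) →
      (cfc (fun x => √(f x)) Y)ᵀ * cfc (fun x => √(f x)) Y = cfc f Y := fun f hf => by
    rw [sym, ← cfc_mul _ _ Y (cont _) (cont _)]
    exact cfc_congr fun x _ => Real.mul_self_sqrt (hf x)
  refine ⟨cfc (fun x => √(max (-x) 0)) Y, cfc (fun x => √(max x 0)) Y, ?_, ?_, ?_⟩
  · rw [sq _ fun x => le_max_right _ _]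
    exact (Commute.cfc_real (show Commute Y F from hF) _).eq
  · rw [sq _ fun x => le_max_right _ _, sq _ fun x => le_max_right _ _,
      ← cfc_sub _ _ Y (cont _) (cont _)]
    conv_lhs => rw [← cfc_id' ℝ Y]
    refine cfc_congr fun x _ => ?_
    rcases le_total x 0 with hx | hx
    · simp [hx]
    · simp [hx]
  · rw [sq _ fun x => le_max_right _ _, sym, ← cfc_mul _ _ Y (cont _) (cont _), ← cfc_neg]
    have : cfc (fun x : ℝ => max (-x) 0) Y * Y = cfc (fun x : ℝ => max (-x) 0 * x) Y := by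
      rw [cfc_mul _ _ Y (cont _) (cont _), cfc_id' ℝ Y]
    rw [this]
    refine cfc_congr fun x _ => ?_
    rcases le_total x 0 with hx | hx
    · simp [hx]
    · simp [hx]

end fgs

variable {Q : ℕ} {ω : FM (Q + 1) →ₗ[ℝ] ℝ}

theorem psd_of_invState (Q : ℕ) (Y : FM (Q + 1)) (hs : Yᵀ = Y) (hF : Y * Fh Q = Fh Q * Y)
    (h : ∀ ω : FM (Q + 1) →ₗ[ℝ] ℝ, InvState Q ω → 0 ≤ ω Y) (Φ : Finset (Fin (Q + 1)) → ℝ) :
    0 ≤ Φ ⬝ᵥ (Y *ᵥ Φ) := by
  obtain ⟨B, C, h1, h2, h3⟩ := fgs_jordan Y (Fh Q) hs hF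
  let ω : FM (Q + 1) →ₗ[ℝ] ℝ := (traceLinearMap _ ℝ ℝ).comp (LinearMap.mulLeft ℝ (Bᵀ * B))
  have hω : ∀ X, ω X = trace (Bᵀ * B * X) := fun X => rfl
  have hinv : InvState Q ω := by
    refine ⟨fun X hX => ?_, fun X => ?_, fun X => ?_⟩
    · rw [hω]; exact fgs_trace_pos B X hX
    · rw [hω, hω, ← trace_transpose, transpose_mul, transpose_transpose, transpose_mul,
        transpose_transpose, trace_mul_comm]
    · rw [hω, hω, ← Matrix.mul_assoc, trace_mul_comm, ← Matrix.mul_assoc, ← h1, Matrix.mul_assoc]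
  have h4 := h ω hinv
  rw [hω, h3, trace_neg] at h4
  have h5 := fgs_trace_pos (Bᵀ * B) 1 fun Φ => by rw [one_mulVec]; exact fgs_dot_self Φ
  rw [Matrix.mul_one] at h5
  have h6 : Bᵀ * B = 0 := by
    rw [← trace_conjTranspose_mul_self_eq_zero_iff, conjTranspose_eq_transpose_of_trivial]
    linarith
  rw [h2, h6, sub_zero, fgs_quad]
  exact fgs_dot_self _

lemma InvState.sq (h : InvState Q ω) (X : FM (Q + 1)) : 0 ≤ ω (Xᵀ * X) :=
  h.pos _ fun Φ => by rw [fgs_quad]; exact fgs_dot_self _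

lemma InvState.invE (h : InvState Q ω) (X : FM (Q + 1)) :
    ω (X * (Fh Q)ᵀ) = ω ((Fh Q)ᵀ * X) := by
  rw [← h.symm, ← h.symm ((Fh Q)ᵀ * X), transpose_mul, transpose_mul, transpose_transpose,
    h.invF]

lemma InvState.mono (h : InvState Q ω) (Y Z : FM (Q + 1))
    (hle : ∀ Φ, Φ ⬝ᵥ (Y *ᵥ Φ) ≤ Φ ⬝ᵥ (Z *ᵥ Φ)) : ω Y ≤ ω Z := by
  have := h.pos (Z - Y) fun Φ => by
    rw [sub_mulVec, dotProduct_sub]
    exact sub_nonneg.2 (hle Φ)
  rw [map_sub] at this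
  linarith

lemma InvState.cs (h : InvState Q ω) (A B : FM (Q + 1)) :
    (ω (Aᵀ * B)) ^ 2 ≤ ω (Aᵀ * A) * ω (Bᵀ * B) := by
  have hs : ω (Bᵀ * A) = ω (Aᵀ * B) := by
    rw [← h.symm, transpose_mul, transpose_transpose]
  have key : ∀ t : ℝ, 0 ≤ ω (Aᵀ * A) * (t * t) + 2 * ω (Aᵀ * B) * t + ω (Bᵀ * B) := by
    intro t
    have := h.sq (t • A + B)
    simp only [transpose_add, transpose_smul, Matrix.add_mul, Matrix.mul_add, Matrix.smul_mul,
      Matrix.mul_smul, map_add, map_smul, smul_eq_mul, hs] at this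
    linarith
  have := discrim_le_zero key
  unfold discrim at this
  nlinarith

lemma InvState.abs_le (h : InvState Q ω) (A B : FM (Q + 1)) :
    |ω (Aᵀ * B)| ≤ Real.sqrt (ω (Aᵀ * A)) * Real.sqrt (ω (Bᵀ * B)) := by
  rw [← Real.sqrt_mul (h.sq A)]
  exact Real.abs_le_sqrt (h.cs A B)

/-- If `‖X Φ‖² ≤ C ‖Φ‖²` for all `Φ` then `ω((XA)ᵀ(XA)) ≤ C ω(AᵀA)`. -/
lemma InvState.mul_le (h : InvState Q ω) (X A : FM (Q + 1)) (C : ℝ)
    (hX : ∀ Φ, (X *ᵥ Φ) ⬝ᵥ (X *ᵥ Φ) ≤ C * (Φ ⬝ᵥ Φ)) :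
    ω ((X * A)ᵀ * (X * A)) ≤ C * ω (Aᵀ * A) := by
  have := h.mono ((X * A)ᵀ * (X * A)) (C • (Aᵀ * A)) fun Φ => by
    rw [fgs_quad, smul_mulVec, dotProduct_smul, fgs_quad, smul_eq_mul, ← mulVec_mulVec]
    exact hX _
  rwa [map_smul, smul_eq_mul] at this

lemma InvState.diag_err (h : InvState Q ω) (A B : FM (Q + 1)) (D : Finset (Fin (Q + 1)) → ℝ)
    (δ : ℝ) (hD : ∀ T, |D T - 1| ≤ δ) :
    |ω (Aᵀ * diagonal D * B) - ω (Aᵀ * B)| ≤ δ * (ω (Aᵀ * A) + ω (Bᵀ * B)) / 2 := by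
  have key : ∀ Φ : Finset (Fin (Q + 1)) → ℝ,
      |Φ ⬝ᵥ ((Aᵀ * diagonal D * B - Aᵀ * B) *ᵥ Φ)| ≤
        Φ ⬝ᵥ (((δ / 2) • (Aᵀ * A + Bᵀ * B)) *ᵥ Φ) := by
    intro Φ
    rw [sub_mulVec, dotProduct_sub, Matrix.mul_assoc, fgs_quad, fgs_quad, smul_mulVec,
      dotProduct_smul, add_mulVec, dotProduct_add, fgs_quad, fgs_quad, ← mulVec_mulVec,
      smul_eq_mul]
    generalize A *ᵥ Φ = a
    generalize B *ᵥ Φ = b
    simp only [dotProduct, mulVec_diagonal]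
    rw [← Finset.sum_sub_distrib, ← Finset.sum_add_distrib, Finset.mul_sum]
    refine (Finset.abs_sum_le_sum_abs _ _).trans (Finset.sum_le_sum fun T _ => ?_)
    have e : a T * (D T * b T) - a T * b T = (D T - 1) * (a T * b T) := by ring
    have h2 : |a T * b T| ≤ (a T * a T + b T * b T) / 2 := by
      rw [_root_.abs_le]
      constructor <;> nlinarith [sq_nonneg (a T + b T), sq_nonneg (a T - b T)]
    rw [e, abs_mul]
    calc |D T - 1| * |a T * b T| ≤ δ * ((a T * a T + b T * b T) / 2) :=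
          mul_le_mul (hD T) h2 (abs_nonneg _) ((abs_nonneg _).trans (hD T))
      _ = _ := by ring
  have h1 := h.mono _ _ fun Φ => (le_abs_self _).trans (key Φ)
  have h2 := h.mono (-(Aᵀ * diagonal D * B - Aᵀ * B)) ((δ / 2) • (Aᵀ * A + Bᵀ * B)) fun Φ => by
    rw [neg_mulVec, dotProduct_neg]
    exact (neg_le_abs _).trans (key Φ)
  simp only [map_neg, map_sub, map_smul, map_add, smul_eq_mul] at h1 h2
  rw [_root_.abs_le]
  constructor <;> linarith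

end Crest.Agent.R340
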