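import Crest.Agent.R340.FgBh
import Crest.Agent.R340.FgSpec

/-! Row 340: invariance relations and bounds for the correlation arrays. -/

set_option autoImplicit false

namespace Crest.Agent.R340

open Matrix Finset Filter Topology

variable {Q : ℕ} {ω : FM (Q + 1) →ₗ[ℝ] ℝ}

lemma schur (hQ : 1 ≤ Q) (h : InvState Q ω) (Y : FM (Q + 1)) (hY : Y * Fh Q = Fh Q * Y)
    (p : ℕ) : ω (Y * ((Bh Q p)ᵀ * Bh Q p)) = nuQ Q p * ω (Y * ((Bh Q 0)ᵀ * Bh Q 0)) := by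
  induction p with
  | zero => rw [nuQ_zero, one_mul]
  | succ p ih =>
    have h1 := h.invF (Y * ((Bh Q (p + 1))ᵀ * Bh Q p))
    have h2 : Fh Q * (Bh Q (p + 1))ᵀ = (Bh Q (p + 1))ᵀ * Fh Q + muQ Q (p + 1) • (Bh Q p)ᵀ := by
      have := congrArg Matrix.transpose (Bh_FhT hQ (p + 1))
      simpa only [transpose_mul, transpose_transpose, transpose_add, transpose_smul,
        Nat.add_sub_cancel] using this
    have h3 : Y * ((Bh Q (p + 1))ᵀ * Bh Q p) * Fh Q =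
        Y * ((Bh Q (p + 1))ᵀ * (Fh Q * Bh Q p)) + Y * ((Bh Q (p + 1))ᵀ * Bh Q (p + 1)) := by
      rw [mul_assoc, mul_assoc, Bh_Fh hQ, mul_add, mul_add]
    have h4 : Fh Q * (Y * ((Bh Q (p + 1))ᵀ * Bh Q p)) =
        Y * ((Bh Q (p + 1))ᵀ * (Fh Q * Bh Q p)) + muQ Q (p + 1) • (Y * ((Bh Q p)ᵀ * Bh Q p)) := by
      rw [← mul_assoc, ← hY, mul_assoc, ← mul_assoc (Fh Q), h2, add_mul, mul_add, mul_assoc,
        smul_mul_assoc, mul_smul_comm]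
    rw [h3, h4, map_add, map_add, map_smul, smul_eq_mul, ih] at h1
    rw [nuQ_succ hQ, mul_assoc]
    exact add_left_cancel h1

lemma G2_nonneg (h : InvState Q ω) : 0 ≤ G2 Q ω := h.sq _

lemma G2_diag (hQ : 1 ≤ Q) (h : InvState Q ω) (m : ℕ) :
    ω ((Bh Q m)ᵀ * Bh Q m) = nuQ Q m * G2 Q ω := by
  have := schur hQ h 1 (by rw [one_mul, mul_one]) m
  rwa [one_mul, one_mul] at this

lemma fgRel_osc (h : InvState Q ω) {a b : ℕ → ℝ} (V : ℕ → ℕ → FM (Q + 1))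
    (hF : ∀ m k, V m k * Fh Q = Fh Q * V m k + V (m + 1) k + V m (k + 1))
    (hE : ∀ m k, V m k * (Fh Q)ᵀ = (Fh Q)ᵀ * V m k + a m • V (m - 1) k + b k • V m (k - 1)) :
    OscRel a b fun m k m' k' => ω ((V m k)ᵀ * V m' k') where
  symm m k m' k' := by
    rw [← h.symm, transpose_mul, transpose_transpose]
  rel m k m' k' := by
    have h1 := h.invE ((V m k)ᵀ * V m' k')
    have h2 : (Fh Q)ᵀ * ((V m k)ᵀ * V m' k') = (V m k)ᵀ * ((Fh Q)ᵀ * V m' k') +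
        (V (m + 1) k)ᵀ * V m' k' + (V m (k + 1))ᵀ * V m' k' := by
      rw [← mul_assoc, ← transpose_mul, hF, transpose_add, transpose_add, transpose_mul, add_mul,
        add_mul, mul_assoc]
    rw [h2, mul_assoc, hE, mul_add, mul_add, mul_smul_comm, mul_smul_comm] at h1
    simp only [map_add, map_smul, smul_eq_mul] at h1
    linarith
  psd d z := by
    have := h.sq (∑ s ∈ range (d + 1), z s • V s (d - s))
    rw [transpose_sum, sum_mul_sum, map_sum] at this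
    refine this.trans_eq (sum_congr rfl fun s _ => ?_)
    rw [map_sum]
    refine sum_congr rfl fun s' _ => ?_
    rw [transpose_smul, smul_mul_assoc, mul_smul_comm, map_smul, map_smul, smul_eq_mul, smul_eq_mul,
      mul_assoc]

lemma G3_rel (hQ : 1 ≤ Q) (h : InvState Q ω) : OscRel (muQ Q) (phQ Q) (G3 Q ω) := by
  refine fgRel_osc h (fun m k => ch Q k * Bh Q m) (fun m k => ?_) (fun m k => ?_)
  · rw [mul_assoc, Bh_Fh hQ, mul_add, ← mul_assoc, ch_Fh hQ, add_mul, mul_assoc]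
    abel
  · rw [mul_assoc, Bh_FhT hQ, mul_add, ← mul_assoc, ch_FhT hQ, add_mul, mul_assoc, mul_smul_comm,
      smul_mul_assoc]
    abel

lemma G4_rel (hQ : 1 ≤ Q) (h : InvState Q ω) : OscRel (muQ Q) (muQ Q) (G4 Q ω) := by
  refine fgRel_osc h (fun m k => Bh Q k * Bh Q m) (fun m k => ?_) (fun m k => ?_)
  · rw [mul_assoc, Bh_Fh hQ m, mul_add, ← mul_assoc, Bh_Fh hQ k, add_mul, mul_assoc]
    abel
  · rw [mul_assoc, Bh_FhT hQ m, mul_add, ← mul_assoc, Bh_FhT hQ k, add_mul, mul_assoc,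
      mul_smul_comm, smul_mul_assoc]
    abel

lemma G3_diag_le (hQ : 1 ≤ Q) (h : InvState Q ω) (m k : ℕ) :
    G3 Q ω m k m k ≤ sQ Q k * nuQ Q m * G2 Q ω := by
  have := h.mul_le (ch Q k) (Bh Q m) (sQ Q k) (ch_norm_le Q k)
  rwa [G2_diag hQ h, ← mul_assoc (sQ Q k)] at this

lemma fgRel_abs (h : InvState Q ω) {A B : FM (Q + 1)} {a b : ℝ} (ha : 0 ≤ a) (hb : 0 ≤ b)
    (hA : ω (Aᵀ * A) ≤ a * G2 Q ω) (hB : ω (Bᵀ * B) ≤ b * G2 Q ω) :
    |ω (Aᵀ * B)| ≤ Real.sqrt a * Real.sqrt b * G2 Q ω := by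
  refine (h.abs_le A B).trans ((mul_le_mul (Real.sqrt_le_sqrt hA) (Real.sqrt_le_sqrt hB)
    (Real.sqrt_nonneg _) (Real.sqrt_nonneg _)).trans_eq ?_)
  rw [Real.sqrt_mul ha, Real.sqrt_mul hb, mul_mul_mul_comm, Real.mul_self_sqrt (G2_nonneg h)]

lemma G3_abs_le (hQ : 1 ≤ Q) (h : InvState Q ω) (m k m' k' : ℕ) :
    |G3 Q ω m k m' k'| ≤ Real.sqrt (sQ Q k) * Real.sqrt (nuQ Q m) *
      (Real.sqrt (sQ Q k') * Real.sqrt (nuQ Q m')) * G2 Q ω := by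
  rw [← Real.sqrt_mul (sQ_nonneg Q k), ← Real.sqrt_mul (sQ_nonneg Q k')]
  exact fgRel_abs h (mul_nonneg (sQ_nonneg _ _) (nuQ_nonneg _ _))
    (mul_nonneg (sQ_nonneg _ _) (nuQ_nonneg _ _)) (G3_diag_le hQ h m k) (G3_diag_le hQ h m' k')

/-- Bounds that do not depend on `Q`. -/
lemma G34_bound : ∃ C : ℕ → ℕ → ℝ, (∀ m k, 0 ≤ C m k) ∧
    ∀ (Q : ℕ) (ω : FM (Q + 1) →ₗ[ℝ] ℝ), 1 ≤ Q → InvState Q ω → ∀ m k m' k',
      |G3 Q ω m k m' k'| ≤ C m k * C m' k' * G2 Q ω ∧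
      |G4 Q ω m k m' k'| ≤ C m k * C m' k' * G2 Q ω := by
  obtain ⟨CB, hC0, hCB⟩ := Bh_norm_le
  refine ⟨fun m k => Real.sqrt (((k.factorial : ℝ) + CB k) * ((m.factorial : ℝ) * 2 ^ m)),
    fun m k => Real.sqrt_nonneg _, fun Q ω hQ h m k m' k' => ?_⟩
  have h0 : ∀ m k : ℕ, 0 ≤ ((k.factorial : ℝ) + CB k) * ((m.factorial : ℝ) * 2 ^ m) := fun m k =>
    mul_nonneg (add_nonneg (Nat.cast_nonneg _) (hC0 k)) (by positivity)
  have h3 : ∀ m k : ℕ, ω ((ch Q k * Bh Q m)ᵀ * (ch Q k * Bh Q m)) ≤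
      ((k.factorial : ℝ) + CB k) * ((m.factorial : ℝ) * 2 ^ m) * G2 Q ω := fun m k =>
    (G3_diag_le hQ h m k).trans (mul_le_mul_of_nonneg_right
      (mul_le_mul ((sQ_le hQ k).trans (le_add_of_nonneg_right (hC0 k))) (nuQ_le hQ m)
        (nuQ_nonneg _ _) (add_nonneg (Nat.cast_nonneg _) (hC0 k))) (G2_nonneg h))
  have h4 : ∀ m k : ℕ, ω ((Bh Q k * Bh Q m)ᵀ * (Bh Q k * Bh Q m)) ≤
      ((k.factorial : ℝ) + CB k) * ((m.factorial : ℝ) * 2 ^ m) * G2 Q ω := fun m k => by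
    have := h.mul_le (Bh Q k) (Bh Q m) (CB k) (hCB Q hQ k)
    rw [G2_diag hQ h, ← mul_assoc (CB k)] at this
    exact this.trans (mul_le_mul_of_nonneg_right
      (mul_le_mul (le_add_of_nonneg_left (Nat.cast_nonneg _)) (nuQ_le hQ m)
        (nuQ_nonneg _ _) (add_nonneg (Nat.cast_nonneg _) (hC0 k))) (G2_nonneg h))
  exact ⟨fgRel_abs h (h0 m k) (h0 m' k') (h3 m k) (h3 m' k'),
    fgRel_abs h (h0 m k) (h0 m' k') (h4 m k) (h4 m' k')⟩

end Crest.Agent.R340
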