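import Crest.Agent.R340.FgTransfer
import Crest.Agent.R340.FgRel

/-! Row 340: the certificate inequality for invariant states at finite flux. -/

set_option autoImplicit false

namespace Crest.Agent.R340

open Matrix Finset Filter Topology

/-- the weighted list sum of matrices -/
noncomputable def cqY {n : ℕ} {ι : Type} (l : List ι) (κ : ι → ℝ) (A B : ι → FM n)
    (D : Finset (Fin n) → ℝ) : FM n :=
  (l.map fun e => κ e • ((A e)ᵀ * diagonal D * B e)).sum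

lemma cq_dot {n : ℕ} {ι : Type} (l : List ι) (κ : ι → ℝ) (A B : ι → FM n)
    (D : Finset (Fin n) → ℝ) (Φ : Finset (Fin n) → ℝ) :
    Φ ⬝ᵥ (cqY l κ A B D *ᵥ Φ) =
      ∑ T, D T * (l.map fun e => κ e * ((A e *ᵥ Φ) T * (B e *ᵥ Φ) T)).sum := by
  induction l with
  | nil => simp [cqY]
  | cons e l ih =>
    unfold cqY at ih ⊢
    simp only [List.map_cons, List.sum_cons, add_mulVec, dotProduct_add, ih, mul_add,
      Finset.sum_add_distrib]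
    congr 1
    rw [smul_mulVec, dotProduct_smul, Matrix.mul_assoc, ← mulVec_mulVec, dot_annT, ← mulVec_mulVec,
      smul_eq_mul, dotProduct, Finset.mul_sum]
    refine Finset.sum_congr rfl fun T _ => ?_
    rw [mulVec_diagonal]
    ring

lemma cq_le {Q : ℕ} {ω : FM (Q + 1) →ₗ[ℝ] ℝ} (h : InvState Q ω) {ι : Type} (l : List ι) (κ : ι → ℝ)
    (A B : ι → FM (Q + 1)) (D : Finset (Fin (Q + 1)) → ℝ) {δ g : ℝ} (hD : ∀ T, |D T - 1| ≤ δ)
    (K : ι → ℝ) (hK : ∀ e, ω ((A e)ᵀ * A e) + ω ((B e)ᵀ * B e) ≤ K e * g) :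
    ω (cqY l κ A B D) ≤ (l.map fun e => κ e * ω ((A e)ᵀ * B e)).sum +
      (l.map fun e => |κ e| * K e).sum * (δ / 2) * g := by
  have hδ : 0 ≤ δ := (abs_nonneg _).trans (hD ∅)
  induction l with
  | nil => simp [cqY]
  | cons e l ih =>
    unfold cqY at ih ⊢
    simp only [List.map_cons, List.sum_cons, map_add, map_smul, smul_eq_mul]
    have h1 := h.diag_err (A e) (B e) D δ hD
    have h2 : κ e * (ω ((A e)ᵀ * diagonal D * B e) - ω ((A e)ᵀ * B e)) ≤ |κ e| * (δ * (K e * g) / 2) := by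
      refine (le_abs_self _).trans ?_
      rw [abs_mul]
      refine mul_le_mul_of_nonneg_left (h1.trans ?_) (abs_nonneg _)
      have := mul_le_mul_of_nonneg_left (hK e) hδ
      linarith
    linarith

theorem cert_omega {J : ℕ} {c2 : List (ℕ × ℚ)} {c3 c4 : CL}
    (hi : LocalIdx J c2 c3 c4) (h : LocalPSD J c2 c3 c4) :
    ∃ ε : ℕ → ℝ, Tendsto ε atTop (𝓝 0) ∧
      ∀ (Q : ℕ) (ω : FM (Q + 1) →ₗ[ℝ] ℝ), J ≤ Q → 1 ≤ Q → InvState Q ω →
        0 ≤ (c2.map fun e => (e.2 : ℝ) * nuQ Q e.1).sum * G2 Q ω + lin c3 (G3 Q ω) +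
          lin c4 (G4 Q ω) + ε Q * G2 Q ω := by
  obtain ⟨δ, hδ, hD⟩ := Dl_tendsto J
  obtain ⟨C, -, hC⟩ := G34_bound
  set K2 := (c2.map fun e => |(e.2 : ℝ)| * (2 * ((e.1.factorial : ℝ) * 2 ^ e.1))).sum with hK2
  set K3 := (c3.map fun e => |(e.2.2.2.2 : ℝ)| *
    (C e.1 e.2.1 * C e.1 e.2.1 + C e.2.2.1 e.2.2.2.1 * C e.2.2.1 e.2.2.2.1)).sum with hK3
  set K4 := (c4.map fun e => |(e.2.2.2.2 : ℝ)| *
    (C e.1 e.2.1 * C e.1 e.2.1 + C e.2.2.1 e.2.2.2.1 * C e.2.2.1 e.2.2.2.1)).sum with hK4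
  refine ⟨fun Q => (K2 + K3 + K4) * (δ Q / 2), ?_, fun Q ω hJ hQ hω => ?_⟩
  · simpa using (hδ.div_const 2).const_mul (K2 + K3 + K4)
  have hg := G2_nonneg hω
  have h2 := cq_le hω c2 (fun e => (e.2 : ℝ)) (fun e => Bh Q e.1) (fun e => Bh Q e.1) (Dl Q J)
    (g := G2 Q ω) (hD Q hJ hQ) (fun e => 2 * ((e.1.factorial : ℝ) * 2 ^ e.1)) fun e => by
      rw [G2_diag hQ hω]
      have := mul_le_mul_of_nonneg_right (nuQ_le hQ e.1) hg
      linarith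
  have h3 := cq_le hω c3 (fun e => (e.2.2.2.2 : ℝ)) (fun e => ch Q e.2.1 * Bh Q e.1)
    (fun e => ch Q e.2.2.2.1 * Bh Q e.2.2.1) (Dl Q J) (g := G2 Q ω) (hD Q hJ hQ)
    (fun e => C e.1 e.2.1 * C e.1 e.2.1 + C e.2.2.1 e.2.2.2.1 * C e.2.2.1 e.2.2.2.1) fun e => by
      have a := (le_abs_self _).trans (hC Q ω hQ hω e.1 e.2.1 e.1 e.2.1).1
      have b := (le_abs_self _).trans (hC Q ω hQ hω e.2.2.1 e.2.2.2.1 e.2.2.1 e.2.2.2.1).1
      unfold G3 at a b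
      linarith
  have h4 := cq_le hω c4 (fun e => (e.2.2.2.2 : ℝ)) (fun e => Bh Q e.2.1 * Bh Q e.1)
    (fun e => Bh Q e.2.2.2.1 * Bh Q e.2.2.1) (Dl Q J) (g := G2 Q ω) (hD Q hJ hQ)
    (fun e => C e.1 e.2.1 * C e.1 e.2.1 + C e.2.2.1 e.2.2.2.1 * C e.2.2.1 e.2.2.2.1) fun e => by
      have a := (le_abs_self _).trans (hC Q ω hQ hω e.1 e.2.1 e.1 e.2.1).2
      have b := (le_abs_self _).trans (hC Q ω hQ hω e.2.2.1 e.2.2.2.1 e.2.2.1 e.2.2.2.1).2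
      unfold G4 at a b
      linarith
  have hpos := hω.pos (cqY c2 (fun e => (e.2 : ℝ)) (fun e => Bh Q e.1) (fun e => Bh Q e.1) (Dl Q J) +
    cqY c3 (fun e => (e.2.2.2.2 : ℝ)) (fun e => ch Q e.2.1 * Bh Q e.1)
      (fun e => ch Q e.2.2.2.1 * Bh Q e.2.2.1) (Dl Q J) +
    cqY c4 (fun e => (e.2.2.2.2 : ℝ)) (fun e => Bh Q e.2.1 * Bh Q e.1)
      (fun e => Bh Q e.2.2.2.1 * Bh Q e.2.2.1) (Dl Q J)) fun Φ => by
    have ht := transfer hJ hQ hi h Φ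
    simp only [add_mulVec, dotProduct_add, cq_dot]
    simpa only [lin, mul_add, Finset.sum_add_distrib] using ht
  rw [map_add, map_add] at hpos
  have e2 : (c2.map fun e => (e.2 : ℝ) * ω ((Bh Q e.1)ᵀ * Bh Q e.1)).sum =
      (c2.map fun e => (e.2 : ℝ) * nuQ Q e.1).sum * G2 Q ω := by
    rw [← List.sum_map_mul_right]
    simp only [G2_diag hQ hω, mul_assoc]
  rw [e2, ← hK2] at h2
  rw [← hK3] at h3
  rw [← hK4] at h4
  simp only [lin, G3, G4]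
  linarith

end Crest.Agent.R340
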