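import Crest.Agent.R340.FgNum

/-! Row 340: commutation relations of the rescaled annihilators. -/

set_option autoImplicit false

namespace Crest.Agent.R340

open Matrix Finset Filter Topology

lemma fgch_anti (n i j : ℕ) : annN n i * annN n j = -(annN n j * annN n i) := by
  unfold annN
  split_ifs with hi hj hj
  · exact ann_anticomm _ _
  · simp
  · simp
  · simp

lemma fgch_self (n i : ℕ) : annN n i * annN n i = 0 := by
  unfold annN
  split_ifs with hi
  · exact ann_mul_self _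
  · simp

lemma fgch_zero {n i : ℕ} (h : n ≤ i) : annN n i = 0 := by
  unfold annN
  rw [dif_neg (by omega)]

lemma fgch_annT (n i j : ℕ) :
    annN n i * (annN n j)ᵀ =
      (if i = j ∧ i < n then (1 : FM n) else 0) - (annN n j)ᵀ * annN n i := by
  by_cases hi : i < n
  · by_cases hj : j < n
    · have h := ann_annT' (⟨i, hi⟩ : Fin n) ⟨j, hj⟩
      unfold annN
      rw [dif_pos hi, dif_pos hj, h]
      by_cases hij : i = j
      · subst hij
        simp [hi]
      · have : (⟨i, hi⟩ : Fin n) ≠ ⟨j, hj⟩ := fun h => hij (by simpa using h)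
        simp [hij, this]
    · have hij : i ≠ j := by omega
      rw [fgch_zero (n := n) (i := j) (by omega)]
      simp [hij]
  · rw [fgch_zero (n := n) (i := i) (by omega)]
    simp [hi]

lemma fgch_comm (n k a b : ℕ) :
    annN n k * ((annN n a)ᵀ * annN n b) =
      ((annN n a)ᵀ * annN n b) * annN n k + (if k = a ∧ k < n then annN n b else 0) := by
  rw [← Matrix.mul_assoc, fgch_annT, Matrix.sub_mul, Matrix.mul_assoc, fgch_anti n k b,
    Matrix.mul_assoc]
  split_ifs <;> simp [add_comm]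

lemma ch_anticomm (Q i j : ℕ) : ch Q i * ch Q j = -(ch Q j * ch Q i) := by
  unfold ch
  simp only [Matrix.smul_mul, Matrix.mul_smul, smul_smul]
  rw [fgch_anti (Q + 1) i j, mul_comm, smul_neg]

lemma ch_mul_self (Q i : ℕ) : ch Q i * ch Q i = 0 := by
  unfold ch
  simp only [Matrix.smul_mul, Matrix.mul_smul, fgch_self, smul_zero]

lemma ch_eq_zero {Q k : ℕ} (hk : Q < k) : ch Q k = 0 := by
  unfold ch
  rw [fgch_zero (by omega), smul_zero]

lemma ch_chT (Q i j : ℕ) :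
    ch Q i * (ch Q j)ᵀ = (if i = j then sQ Q i else 0) • (1 : FM (Q + 1)) - (ch Q j)ᵀ * ch Q i := by
  unfold ch
  simp only [Matrix.transpose_smul, Matrix.smul_mul, Matrix.mul_smul, smul_smul]
  rw [fgch_annT, smul_sub, mul_comm (Real.sqrt (sQ Q i))]
  congr 1
  by_cases hij : i = j
  · subst hij
    by_cases hi : i < Q + 1
    · simp [hi, Real.mul_self_sqrt (sQ_nonneg Q i)]
    · simp [hi, sQ_eq_zero (show Q < i by omega)]
  · simp [hij]

lemma fgch_phQ_nonneg {Q k : ℕ} (hk : k ≤ Q + 1) : 0 ≤ phQ Q k := by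
  unfold phQ
  have : (k : ℝ) ≤ (Q : ℝ) + 1 := by exact_mod_cast hk
  have h2 : (0 : ℝ) ≤ (Q : ℝ) + 1 - k := by linarith
  positivity

lemma ch_Fh {Q : ℕ} (hQ : 1 ≤ Q) (k : ℕ) : ch Q k * Fh Q = Fh Q * ch Q k + ch Q (k + 1) := by
  have h1 : annN (Q + 1) k * Fh Q = Fh Q * annN (Q + 1) k +
      ∑ j ∈ range Q, Real.sqrt (phQ Q (j + 1)) •
        (if k = j ∧ k < Q + 1 then annN (Q + 1) (j + 1) else 0) := by
    unfold Fh
    rw [Matrix.mul_sum, Matrix.sum_mul, ← Finset.sum_add_distrib]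
    refine Finset.sum_congr rfl fun j _ => ?_
    rw [Matrix.mul_smul, Matrix.smul_mul, fgch_comm, smul_add]
  have h2 : Real.sqrt (sQ Q k) • (∑ j ∈ range Q, Real.sqrt (phQ Q (j + 1)) •
        (if k = j ∧ k < Q + 1 then annN (Q + 1) (j + 1) else 0)) = ch Q (k + 1) := by
    by_cases hk : k < Q
    · rw [Finset.sum_eq_single k]
      · rw [if_pos ⟨rfl, by omega⟩, smul_smul]
        unfold ch
        rw [sQ_succ hQ, Real.sqrt_mul' _ (sQ_nonneg Q k), mul_comm]
      · intro j _ hj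
        rw [if_neg (fun h => hj h.1.symm), smul_zero]
      · intro h
        exact absurd (Finset.mem_range.2 hk) h
    · rw [ch_eq_zero (by omega), Finset.sum_eq_zero, smul_zero]
      intro j hj
      rw [Finset.mem_range] at hj
      rw [if_neg (by omega), smul_zero]
  rw [← h2]
  unfold ch
  rw [Matrix.smul_mul, Matrix.mul_smul, h1, smul_add]

lemma ch_FhT {Q : ℕ} (hQ : 1 ≤ Q) (k : ℕ) :
    ch Q k * (Fh Q)ᵀ = (Fh Q)ᵀ * ch Q k + phQ Q k • ch Q (k - 1) := by
  have h1 : annN (Q + 1) k * (Fh Q)ᵀ = (Fh Q)ᵀ * annN (Q + 1) k +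
      ∑ j ∈ range Q, Real.sqrt (phQ Q (j + 1)) •
        (if k = j + 1 ∧ k < Q + 1 then annN (Q + 1) j else 0) := by
    unfold Fh
    rw [Matrix.transpose_sum, Matrix.mul_sum, Matrix.sum_mul, ← Finset.sum_add_distrib]
    refine Finset.sum_congr rfl fun j _ => ?_
    rw [Matrix.transpose_smul, Matrix.transpose_mul, Matrix.transpose_transpose,
      Matrix.mul_smul, Matrix.smul_mul, fgch_comm, smul_add]
  have h2 : Real.sqrt (sQ Q k) • (∑ j ∈ range Q, Real.sqrt (phQ Q (j + 1)) •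
        (if k = j + 1 ∧ k < Q + 1 then annN (Q + 1) j else 0)) = phQ Q k • ch Q (k - 1) := by
    rcases k with _ | k
    · rw [Finset.sum_eq_zero, smul_zero]
      · simp [phQ]
      · intro j _
        rw [if_neg (by omega), smul_zero]
    · by_cases hk : k < Q
      · rw [Finset.sum_eq_single k]
        · rw [if_pos ⟨rfl, by omega⟩, smul_smul]
          unfold ch
          have hp : 0 ≤ phQ Q (k + 1) := fgch_phQ_nonneg (by omega)
          rw [smul_smul, Nat.add_sub_cancel, sQ_succ hQ, Real.sqrt_mul' _ (sQ_nonneg Q k)]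
          congr 1
          rw [mul_right_comm, Real.mul_self_sqrt hp]
        · intro j _ hj
          rw [if_neg (by omega), smul_zero]
        · intro h
          exact absurd (Finset.mem_range.2 hk) h
      · rw [Finset.sum_eq_zero, smul_zero]
        · by_cases hkQ : k = Q
          · subst hkQ
            simp [phQ]
          · rw [Nat.add_sub_cancel, ch_eq_zero (by omega), smul_zero]
        · intro j hj
          rw [Finset.mem_range] at hj
          rw [if_neg (by omega), smul_zero]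
  rw [← h2]
  unfold ch
  rw [Matrix.smul_mul, Matrix.mul_smul, h1, smul_add]

/-- `‖ĉ_k Φ‖² ≤ s_k ‖Φ‖²`. -/
lemma ch_norm_le (Q k : ℕ) (Φ : Finset (Fin (Q + 1)) → ℝ) :
    (ch Q k *ᵥ Φ) ⬝ᵥ (ch Q k *ᵥ Φ) ≤ sQ Q k * (Φ ⬝ᵥ Φ) := by
  have h := ch_chT Q k k
  rw [if_pos rfl] at h
  have h1 : (ch Q k)ᵀ * ch Q k = sQ Q k • (1 : FM (Q + 1)) - ch Q k * (ch Q k)ᵀ := by
    rw [h]; abel
  have h2 : (ch Q k *ᵥ Φ) ⬝ᵥ (ch Q k *ᵥ Φ) = Φ ⬝ᵥ (((ch Q k)ᵀ * ch Q k) *ᵥ Φ) := by
    rw [← Matrix.mulVec_mulVec, dot_annT]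
  have h3 : Φ ⬝ᵥ ((ch Q k * (ch Q k)ᵀ) *ᵥ Φ) = ((ch Q k)ᵀ *ᵥ Φ) ⬝ᵥ ((ch Q k)ᵀ *ᵥ Φ) := by
    rw [← Matrix.mulVec_mulVec, ← dot_annT, Matrix.transpose_transpose]
  have h4 : 0 ≤ ((ch Q k)ᵀ *ᵥ Φ) ⬝ᵥ ((ch Q k)ᵀ *ᵥ Φ) :=
    Finset.sum_nonneg fun _ _ => mul_self_nonneg _
  rw [h2, h1, Matrix.sub_mulVec, dotProduct_sub, h3, Matrix.smul_mulVec, Matrix.one_mulVec,
    dotProduct_smul, smul_eq_mul]
  linarith

end Crest.Agent.R340
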