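import Crest.Agent.R340.FgPlanar

/-! Row 340: executable checkers for the local certificate. -/

set_option autoImplicit false

namespace Crest.Agent.R340

/-- Evaluate a natural number before passing it on. -/
def fN {β : Type} (n : ℕ) (k : ℕ → β) : β :=
  match n with
  | 0 => k 0
  | m + 1 => k (m + 1)

/-- Evaluate an integer before passing it on. -/
def fI {β : Type} (x : ℤ) (k : ℤ → β) : β :=
  match x with
  | .ofNat n => fN n fun n => k (.ofNat n)
  | .negSucc n => fN n fun n => k (.negSucc n)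

def fL {β : Type} : List ℤ → (List ℤ → β) → β
  | [], k => k []
  | a :: t, k => fI a fun a => fL t fun t => k (a :: t)

def fLL {β : Type} : List (List ℤ) → (List (List ℤ) → β) → β
  | [], k => k []
  | a :: t, k => fL a fun a => fLL t fun t => k (a :: t)

def fM {β : Type} : List ℕ → (List ℕ → β) → β
  | [], k => k []
  | a :: t, k => fN a fun a => fM t fun t => k (a :: t)

def fMM {β : Type} : List (List ℕ) → (List (List ℕ) → β) → β
  | [], k => k []
  | a :: t, k => fM a fun a => fMM t fun t => k (a :: t)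

@[simp] lemma fN_eq {β : Type} (n : ℕ) (k : ℕ → β) : fN n k = k n := by
  cases n <;> rfl

@[simp] lemma fI_eq {β : Type} (x : ℤ) (k : ℤ → β) : fI x k = k x := by
  cases x <;> simp [fI]

@[simp] lemma fL_eq {β : Type} (l : List ℤ) (k : List ℤ → β) : fL l k = k l := by
  induction l generalizing k with
  | nil => rfl
  | cons a t ih => simp [fL, ih]

@[simp] lemma fLL_eq {β : Type} (l : List (List ℤ)) (k : List (List ℤ) → β) : fLL l k = k l := by
  induction l generalizing k with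
  | nil => rfl
  | cons a t ih => simp [fLL, ih]

@[simp] lemma fM_eq {β : Type} (l : List ℕ) (k : List ℕ → β) : fM l k = k l := by
  induction l generalizing k with
  | nil => rfl
  | cons a t ih => simp [fM, ih]

@[simp] lemma fMM_eq {β : Type} (l : List (List ℕ)) (k : List (List ℕ) → β) : fMM l k = k l := by
  induction l generalizing k with
  | nil => rfl
  | cons a t ih => simp [fMM, ih]

/-! ### Fraction-free elimination

Dividing by the content after every step keeps the numbers small and, more importantly, avoids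
numbers with many trailing zero bits (they are very slow in the kernel). -/

def rawRows (a : ℤ) : List (List ℤ) → List ℤ → List (List ℤ)
  | r :: rows, vi :: vs =>
    List.zipWith (fun x w => a * x - vi * w) r (vi :: vs) :: rawRows a rows vs
  | _, _ => []

def shapeOK : List (List ℤ) → List ℤ → Bool
  | r :: rows, _ :: vs => (r.length == vs.length + 1) && shapeOK rows vs
  | [], [] => true
  | _, _ => false

def gcdL : List ℤ → ℕ → ℕ
  | [], g => g
  | x :: l, g => fN (Nat.gcd g x.natAbs) fun g => gcdL l g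

def gcdLL : List (List ℤ) → ℕ → ℕ
  | [], g => g
  | r :: l, g => fN (gcdL r g) fun g => gcdLL l g

/-- Divide by the content. -/
def prim (X : List (List ℤ)) (k : List (List ℤ) → Bool) : Bool :=
  fLL X fun X => fN (gcdLL X 0) fun g => fLL (X.map fun r => r.map (· / (g : ℤ))) k

/-- Positive semidefiniteness of a symmetric matrix given by its upper triangular rows. -/
def psdB : ℕ → List (List ℤ) → Bool
  | _, [] => true
  | 0, _ :: _ => false
  | _ + 1, [] :: _ => false
  | n + 1, (a :: v) :: rows =>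
    if 0 < a then shapeOK rows v && prim (rawRows a rows v) fun ts => psdB n ts
    else (a == 0) && v.all (· == 0) && psdB n rows

/-- Upper triangular rows of the matrix `M` on the index list `l`. -/
def triRows {ι : Type} (M : ι → ι → ℤ) : List ι → List (List ℤ)
  | [] => []
  | S :: l => ((S :: l).map (M S)) :: triRows M l

/-! ### Coefficients of annihilation polynomials -/

/-- `(-1)^{#{r ∈ R | j < r}}`. -/
def sgGt (j : ℕ) (R : List ℕ) : ℤ := R.foldr (fun r s => if j < r then -s else s) 1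

def aId : List ℕ → ℤ
  | [] => 1
  | _ :: _ => 0

def aAnn (j : ℕ) (α : List ℕ → ℤ) (R : List ℕ) : ℤ :=
  if j ∈ R then sgGt j R * α (R.erase j) else 0

def aB (m : ℕ) (α : List ℕ → ℤ) (R : List ℕ) : ℤ :=
  (R.map fun i => if i ≤ m ∧ m + 1 - i ∈ R then
    (chF m i : ℤ) * aAnn (m + 1 - i) (aAnn i α) R else 0).sum

def dotI : List ℤ → List ℤ → ℤ
  | a :: l, b :: l' => a * b + dotI l l'
  | _, _ => 0

/-- The key `Σ 2^i` of an orbital list. -/
def keyL (R : List ℕ) : ℕ := (R.map fun i => 2 ^ i).sum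

/-- Subsets of `range n` with `N` elements and sum `d`, as decreasing lists. -/
def blk : ℕ → ℕ → ℕ → List (List ℕ)
  | _, 0, d => if d = 0 then [[]] else []
  | 0, _ + 1, _ => []
  | n + 1, N + 1, d =>
    if n < N then [] else
      blk n (N + 1) d ++ if n ≤ d then (blk n N (d - n)).map (n :: ·) else []

/-- Integer coefficient lists. -/
abbrev CI := List (ℕ × ℕ × ℕ × ℕ × ℤ)

/-- Compare the table `KI` with `Σ_e a_e(R) b_e(R') + a_e(R') b_e(R)` on the list `L`. -/
def kchk (KI : ℕ → ℕ → ℤ) (L : List (List ℕ)) (av bv : List ℕ → List ℤ) : Bool :=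
  fMM L fun L => fM (L.map keyL) fun ks => fLL (L.map av) fun A => fLL (L.map bv) fun B =>
    (ks.zip (A.zip B)).all fun x => (ks.zip (A.zip B)).all fun y =>
      KI x.1 y.1 == dotI x.2.1 y.2.2 + dotI y.2.1 x.2.2

def kchk01 (KI : ℕ → ℕ → ℤ) (n r d : ℕ) : Bool :=
  kchk KI (blk n r d) (fun _ => []) (fun _ => [])

def kchk2 (KI : ℕ → ℕ → ℤ) (n : ℕ) (c2 : List (ℕ × ℤ)) (d : ℕ) : Bool :=
  kchk KI (blk n 2 d)
    (fun R => (c2.filter fun e => e.1 + 1 = d).map fun e => e.2 * aB e.1 aId R)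
    (fun R => (c2.filter fun e => e.1 + 1 = d).map fun e => aB e.1 aId R)

def kchk3 (KI : ℕ → ℕ → ℤ) (n : ℕ) (c3 : CI) (d : ℕ) : Bool :=
  kchk KI (blk n 3 d)
    (fun R => (c3.filter fun e => e.1 + e.2.1 + 1 = d).map fun e =>
      e.2.2.2.2 * aAnn e.2.1 (aB e.1 aId) R)
    (fun R => (c3.filter fun e => e.1 + e.2.1 + 1 = d).map fun e =>
      aAnn e.2.2.2.1 (aB e.2.2.1 aId) R)

def kchk4 (KI : ℕ → ℕ → ℤ) (n : ℕ) (c4 : CI) (d : ℕ) : Bool :=
  kchk KI (blk n 4 d)
    (fun R => (c4.filter fun e => e.1 + e.2.1 + 2 = d).map fun e =>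
      e.2.2.2.2 * aB e.2.1 (aB e.1 aId) R)
    (fun R => (c4.filter fun e => e.1 + e.2.1 + 2 = d).map fun e =>
      aB e.2.2.2.1 (aB e.2.2.1 aId) R)

/-- Sum over the subsets `U` of the common orbitals with at most `b` elements. -/
def mrec (KI : ℕ → ℕ → ℤ) (W : ℤ) : List ℕ → List ℤ → ℕ → ℕ → ℕ → ℤ
  | t :: C, w :: ws, k, k', b =>
    w * mrec KI W C ws k k' b +
      match b with
      | 0 => 0
      | b + 1 => W * mrec KI W C ws (k + t) (k' + t) b
  | _, _, k, k', _ => KI k k'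

/-- `W^{|S|}` times the matrix entry, `W = J!`. -/
def mI (KI : ℕ → ℕ → ℤ) (W : ℕ) (S S' : List ℕ) : ℤ :=
  fM (S.filter (· ∈ S')) fun C => fM (S.filter (· ∉ S')) fun D =>
    fM (S'.filter (· ∉ S)) fun D' =>
      if D.length ≤ 4 then
        fM (C.map fun t => 2 ^ t) fun P =>
          fL (C.map fun t => sgGt t D * sgGt t D' * ((W / t.factorial : ℕ) : ℤ)) fun ws =>
            fN (keyL D) fun k => fN (keyL D') fun k' =>
              ((W ^ D.length : ℕ) : ℤ) * mrec KI W P ws k k' (4 - D.length)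
      else 0

/-- The check of one block. -/
def bchk (KI : ℕ → ℕ → ℤ) (W n N d : ℕ) : Bool :=
  fMM (blk n N d) fun L => prim (triRows (mI KI W) L) fun rows => psdB L.length rows

/-- The check of the table in degree `d`. -/
def tableChk (KI : ℕ → ℕ → ℤ) (n : ℕ) (c2 : List (ℕ × ℤ)) (c3 c4 : CI) (d : ℕ) : Bool :=
  kchk01 KI n 0 d && kchk01 KI n 1 d && kchk2 KI n c2 d && kchk3 KI n c3 d && kchk4 KI n c4 d

/-- Divide the integer coefficients by the common denominator. -/
def toC2 (s : ℚ) (c : List (ℕ × ℤ)) : List (ℕ × ℚ) := c.map fun e => (e.1, (e.2 : ℚ) / s)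

/-- Divide the integer coefficients by the common denominator. -/
def toCL (s : ℚ) (c : CI) : CL :=
  c.map fun e => (e.1, e.2.1, e.2.2.1, e.2.2.2.1, (e.2.2.2.2 : ℚ) / s)

/-! ### A faster form of `oscOK` -/

def fQ {β : Type} (q : ℚ) (k : ℚ → β) : β := fI q.num fun n => fN q.den fun d => k (mkRat n d)

def oscTf (α β m k l : ℕ) : ℤ :=
  ((List.range' (l - k) (min m l + 1 - (l - k))).map fun s =>
    (if (l - s) % 2 = 0 then 1 else -1) *
      ((chF m s * α ^ (m - s) * chF k (l - s) * β ^ (k - (l - s)) : ℕ) : ℤ)).sum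

def oscAcc (α β l : ℕ) : CL → ℚ → Bool
  | [], acc => decide (0 ≤ acc)
  | e :: c, acc =>
    if l ≤ e.1 + e.2.1 then
      fI (((e.1 + e.2.1 - l).factorial : ℤ) *
          (oscTf α β e.1 e.2.1 l * oscTf α β e.2.2.1 e.2.2.2.1 l)) fun x =>
        fN ((α + β) ^ (e.1 + e.2.1 + l)) fun y =>
          fQ (acc + e.2.2.2.2 * mkRat x y) fun acc => oscAcc α β l c acc
    else oscAcc α β l c acc

def oscDeg (D : ℕ) (c : CL) : Bool :=
  c.all (fun e => decide (e.1 + e.2.1 = e.2.2.1 + e.2.2.2.1) && decide (e.1 + e.2.1 ≤ D))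

/-! ### The objects on finite sets -/

def aIdF (R : Finset ℕ) : ℤ := if R = ∅ then 1 else 0

def aAnnF (j : ℕ) (α : Finset ℕ → ℤ) (R : Finset ℕ) : ℤ :=
  if j ∈ R then (-1) ^ (R.filter (j < ·)).card * α (R.erase j) else 0

def aBF (m : ℕ) (α : Finset ℕ → ℤ) (R : Finset ℕ) : ℤ :=
  ∑ i ∈ Finset.range (m + 1), (m.choose i : ℤ) * aAnnF (m + 1 - i) (aAnnF i α) R

def K0F (c2 : List (ℕ × ℤ)) (c3 c4 : CI) (R R' : Finset ℕ) : ℤ :=
  (c2.map fun e => e.2 * aBF e.1 aIdF R * aBF e.1 aIdF R').sum +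
    (c3.map fun e => e.2.2.2.2 * aAnnF e.2.1 (aBF e.1 aIdF) R *
      aAnnF e.2.2.2.1 (aBF e.2.2.1 aIdF) R').sum +
    (c4.map fun e => e.2.2.2.2 * aBF e.2.1 (aBF e.1 aIdF) R *
      aBF e.2.2.2.1 (aBF e.2.2.1 aIdF) R').sum

/-- The symmetrised kernel. -/
def KF (c2 : List (ℕ × ℤ)) (c3 c4 : CI) (R R' : Finset ℕ) : ℤ :=
  K0F c2 c3 c4 R R' + K0F c2 c3 c4 R' R

def epsF (T R : Finset ℕ) : ℤ := ∏ j ∈ R, (-1) ^ (T.filter (· < j)).card

/-- The matrix of the local form for a kernel `K`. -/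
noncomputable def MF (K : Finset ℕ → Finset ℕ → ℤ) (S S' : Finset ℕ) : ℝ :=
  ∑ T ∈ (S ∩ S').powerset, (∏ k ∈ T, ((k.factorial : ℝ))⁻¹) *
    ((epsF T (S \ T) * epsF T (S' \ T) * K (S \ T) (S' \ T) : ℤ) : ℝ)

def keyF (R : Finset ℕ) : ℕ := ∑ i ∈ R, 2 ^ i

/-- The entries of an integer list join equal degrees. -/
def DegOK (c : CI) : Prop := ∀ e ∈ c, e.1 + e.2.1 = e.2.2.1 + e.2.2.2.1

/-- The kernel conserves particle number and degree and involves at most four particles. -/
def KSupp (K : Finset ℕ → Finset ℕ → ℤ) : Prop :=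
  ∀ R R', K R R' ≠ 0 → R.card = R'.card ∧ R.card ≤ 4 ∧ ∑ i ∈ R, i = ∑ i ∈ R', i

/-- The table represents the kernel. -/
def TableOK (KI : ℕ → ℕ → ℤ) (n : ℕ) (K : Finset ℕ → Finset ℕ → ℤ) : Prop :=
  ∀ R R' : Finset ℕ, R ⊆ Finset.range n → R' ⊆ Finset.range n → R.card = R'.card → R.card ≤ 4 →
    ∑ i ∈ R, i = ∑ i ∈ R', i → KI (keyF R) (keyF R') = K R R'

end Crest.Agent.R340
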