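import Crest.Agent.R340.Car

/-! Row 340: definitions for the proof of the Fock-space inequality `H² ≥ γ H`. -/

set_option autoImplicit false

namespace Crest.Agent.R340

open Matrix Finset

/-- Real matrices on the Fock space of `n` orbitals. -/
abbrev FM (n : ℕ) := Matrix (Finset (Fin n)) (Finset (Fin n)) ℝ

/-- `c_k` with a natural-number index (zero out of range). -/
def annN (n k : ℕ) : FM n := if h : k < n then ann ⟨k, h⟩ else 0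

/-- `s_Q(k) = k! ∏_{i<k} (1 - i/Q)`. -/
noncomputable def sQ (Q k : ℕ) : ℝ := (k.factorial : ℝ) ^ 2 * (Q.choose k : ℝ) / (Q : ℝ) ^ k

/-- `ν_Q(m) = m! ∏_{i<m} (2Q-2-i)/Q`. -/
noncomputable def nuQ (Q m : ℕ) : ℝ :=
  (m.factorial : ℝ) ^ 2 * ((2 * Q - 2).choose m : ℝ) / (Q : ℝ) ^ m

/-- `φ_Q(k) = k (Q+1-k)/Q`. -/
noncomputable def phQ (Q k : ℕ) : ℝ := (k : ℝ) * ((Q : ℝ) + 1 - k) / Q

/-- `μ_Q(m) = m (2Q-1-m)/Q`. -/
noncomputable def muQ (Q m : ℕ) : ℝ := (m : ℝ) * (2 * (Q : ℝ) - 1 - m) / Q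

/-- The rescaled annihilator `ĉ_k = √(s_Q k) c_k`. -/
noncomputable def ch (Q k : ℕ) : FM (Q + 1) := Real.sqrt (sQ Q k) • annN (Q + 1) k

/-- The rescaled su(2) ladder operator `F = Σ_j √(φ(j+1)) c_j^T c_{j+1}`. -/
noncomputable def Fh (Q : ℕ) : FM (Q + 1) :=
  ∑ j ∈ range Q, Real.sqrt (phQ Q (j + 1)) • ((annN (Q + 1) j)ᵀ * annN (Q + 1) (j + 1))

/-- The rescaled pair annihilator `B̂_m = Σ_i C(m,i) ĉ_{m+1-i} ĉ_i`. -/
noncomputable def Bh (Q m : ℕ) : FM (Q + 1) :=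
  ∑ i ∈ range (m + 1), (m.choose i : ℝ) • (ch Q (m + 1 - i) * ch Q i)

/-- Positive, symmetric, su(2)-invariant linear functionals. -/
structure InvState (Q : ℕ) (ω : FM (Q + 1) →ₗ[ℝ] ℝ) : Prop where
  pos : ∀ Y : FM (Q + 1), (∀ Φ, 0 ≤ Φ ⬝ᵥ (Y *ᵥ Φ)) → 0 ≤ ω Y
  symm : ∀ X : FM (Q + 1), ω Xᵀ = ω X
  invF : ∀ X : FM (Q + 1), ω (X * Fh Q) = ω (Fh Q * X)

/-- `g = ω(B̂_0^T B̂_0)`. -/
noncomputable def G2 (Q : ℕ) (ω : FM (Q + 1) →ₗ[ℝ] ℝ) : ℝ := ω ((Bh Q 0)ᵀ * Bh Q 0)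

/-- Three-body correlation array. -/
noncomputable def G3 (Q : ℕ) (ω : FM (Q + 1) →ₗ[ℝ] ℝ) (m k m' k' : ℕ) : ℝ :=
  ω ((ch Q k * Bh Q m)ᵀ * (ch Q k' * Bh Q m'))

/-- Four-body correlation array. -/
noncomputable def G4 (Q : ℕ) (ω : FM (Q + 1) →ₗ[ℝ] ℝ) (m p m' p' : ℕ) : ℝ :=
  ω ((Bh Q p * Bh Q m)ᵀ * (Bh Q p' * Bh Q m'))

/-- A positive symmetric form on two oscillators for which `x ↦ (A+b) x` is adjoint to
`a(m) ∂_A + b(k) ∂_b`. -/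
structure OscRel (a b : ℕ → ℝ) (G : ℕ → ℕ → ℕ → ℕ → ℝ) : Prop where
  symm : ∀ m k m' k', G m k m' k' = G m' k' m k
  rel : ∀ m k m' k', G (m + 1) k m' k' + G m (k + 1) m' k' =
    a m' * G m k (m' - 1) k' + b k' * G m k m' (k' - 1)
  psd : ∀ (d : ℕ) (z : ℕ → ℝ),
    0 ≤ ∑ s ∈ range (d + 1), ∑ s' ∈ range (d + 1), z s * z s' * G s (d - s) s' (d - s')

/-- A coefficient list `(m, k, m', k', κ)`. -/
abbrev CL := List (ℕ × ℕ × ℕ × ℕ × ℚ)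

/-- The linear functional of a coefficient list. -/
noncomputable def lin (c : CL) (G : ℕ → ℕ → ℕ → ℕ → ℝ) : ℝ :=
  (c.map fun e => (e.2.2.2.2 : ℝ) * G e.1 e.2.1 e.2.2.1 e.2.2.2.1).sum

/-- Binomial coefficient by factorials (fast in the kernel). -/
def chF (n k : ℕ) : ℕ := if k ≤ n then n.factorial / (k.factorial * (n - k).factorial) else 0

/-- `(α+β)^(m+k)` times the coefficient of `u^(m+k-l) v^l` in `A^m b^k`, where
`A = (α u + v)/(α+β)`, `b = (β u - v)/(α+β)`. -/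
def oscT (α β m k l : ℕ) : ℤ :=
  ((List.range (l + 1)).map fun s =>
    if s ≤ m ∧ l - s ≤ k then
      (chF m s : ℤ) * (α : ℤ) ^ (m - s) * (chF k (l - s) : ℤ) * (β : ℤ) ^ (k - (l - s)) *
        (-1) ^ (l - s)
    else 0).sum

/-- Coefficient of `γ_l` in `lin c G`. -/
def oscCoef (α β : ℕ) (c : CL) (l : ℕ) : ℚ :=
  (c.map fun e =>
    if l ≤ e.1 + e.2.1 then
      e.2.2.2.2 * (((e.1 + e.2.1 - l).factorial : ℚ) *
        ((oscT α β e.1 e.2.1 l * oscT α β e.2.2.1 e.2.2.2.1 l : ℤ) : ℚ) /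
        ((α + β : ℕ) : ℚ) ^ (e.1 + e.2.1 + l))
    else 0).sum

/-- The check that `lin c G ≥ 0` for every planar invariant form. -/
def oscOK (α β D : ℕ) (c : CL) : Bool :=
  c.all (fun e => decide (e.1 + e.2.1 = e.2.2.1 + e.2.2.2.1) && decide (e.1 + e.2.1 ≤ D)) &&
    (List.range (D + 1)).all fun l => decide (0 ≤ oscCoef α β c l)

/-- Three-body energy, truncated at `m ≤ 32` (planar coefficients). -/
def E3 : CL :=
  (List.range 33).flatMap fun m =>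
    [(m, 0, 0, m, ((m : ℚ) - 1) / ((m.factorial : ℚ) * 2 ^ m)),
     (m, 1, 0, m + 1, -1 / ((m.factorial : ℚ) * 2 ^ m))]

/-- Four-body energy, truncated at `m ≤ 60` (planar coefficients). -/
def E4 : CL := (List.range 61).map fun m => (0, m, 0, m, 1 / ((m.factorial : ℚ) * 2 ^ m))

/-- `c_j` on functions of finite sets of orbitals. -/
noncomputable def annS (j : ℕ) (φ : Finset ℕ → ℝ) (T : Finset ℕ) : ℝ :=
  if j ∈ T then 0 else (-1) ^ (T.filter (· < j)).card * φ (insert j T)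

/-- `B̂_m` on functions of finite sets of orbitals (monomial normalisation). -/
noncomputable def BS (m : ℕ) (φ : Finset ℕ → ℝ) (T : Finset ℕ) : ℝ :=
  ∑ i ∈ range (m + 1), (m.choose i : ℝ) * annS (m + 1 - i) (annS i φ) T

/-- The local quadratic form at the spectator set `T`. -/
noncomputable def locForm (c2 : List (ℕ × ℚ)) (c3 c4 : CL) (φ : Finset ℕ → ℝ) (T : Finset ℕ) :
    ℝ :=
  (c2.map fun e => (e.2 : ℝ) * (BS e.1 φ T * BS e.1 φ T)).sum +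
    lin c3 (fun m k m' k' => annS k (BS m φ) T * annS k' (BS m' φ) T) +
    lin c4 (fun m p m' p' => BS p (BS m φ) T * BS p' (BS m' φ) T)

/-- Positivity of the planar local operator on the Fock space of the orbitals `0, …, J`. -/
def LocalPSD (J : ℕ) (c2 : List (ℕ × ℚ)) (c3 c4 : CL) : Prop :=
  ∀ φ : Finset ℕ → ℝ,
    0 ≤ ∑ T ∈ (range (J + 1)).powerset, (∏ k ∈ T, ((k.factorial : ℝ))⁻¹) * locForm c2 c3 c4 φ T

/-- All operators of the certificate live on the orbitals `0, …, J`. -/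
def LocalIdx (J : ℕ) (c2 : List (ℕ × ℚ)) (c3 c4 : CL) : Prop :=
  (∀ e ∈ c2, e.1 < J) ∧
    (∀ e ∈ c3, e.1 < J ∧ e.2.1 ≤ J ∧ e.2.2.1 < J ∧ e.2.2.2.1 ≤ J) ∧
    (∀ e ∈ c4, e.1 < J ∧ e.2.1 < J ∧ e.2.2.1 < J ∧ e.2.2.2.1 < J)

/-- The planar statement: the certificate inequality bounds the truncated energy. -/
def PlanarBound (c2 : List (ℕ × ℚ)) (c3 c4 : CL) (cost : ℝ) : Prop :=
  ∀ Γ3 Γ4 : ℕ → ℕ → ℕ → ℕ → ℝ,
    OscRel (fun m => 2 * (m : ℝ)) (fun k => (k : ℝ)) Γ3 →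
    OscRel (fun m => 2 * (m : ℝ)) (fun k => 2 * (k : ℝ)) Γ4 →
    (∀ k, Γ3 0 k 0 k ≤ (k.factorial : ℝ)) →
    0 ≤ (c2.map fun e => (e.2 : ℝ) * ((e.1.factorial : ℝ) * 2 ^ e.1)).sum + lin c3 Γ3 + lin c4 Γ4 →
    -cost ≤ lin E3 Γ3 + lin E4 Γ4

end Crest.Agent.R340
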