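import Crest.Agent.R340.FgNum

/-! Row 340: the tail of the three-body energy. -/

set_option autoImplicit false

namespace Crest.Agent.R340

open Matrix Finset Filter Topology

lemma tail_choose {Q : ℕ} (hQ : 6 ≤ Q) {m : ℕ} (hm : 2 ≤ m) :
    2 ^ m * Q.choose m ≤ 2 * (2 * Q - 2).choose m := by
  induction m, hm using Nat.le_induction with
  | base =>
    have h1 := Nat.choose_succ_right_eq Q 1
    have h2 := Nat.choose_succ_right_eq (2 * Q - 2) 1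
    rw [Nat.choose_one_right] at h1 h2
    obtain ⟨q, rfl⟩ := Nat.exists_eq_add_of_le hQ
    have e1 : 2 * (6 + q) - 2 = 2 * q + 10 := by omega
    have e2 : 6 + q - 1 = q + 5 := by omega
    have e3 : 2 * q + 10 - 1 = 2 * q + 9 := by omega
    rw [e1] at h2 ⊢
    rw [e2] at h1
    rw [e3] at h2
    norm_num at h1 h2 ⊢
    nlinarith
  | succ m hm ih =>
    have h1 := Nat.choose_succ_right_eq Q m
    have h2 := Nat.choose_succ_right_eq (2 * Q - 2) m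
    refine Nat.le_of_mul_le_mul_right ?_ (Nat.succ_pos m)
    calc 2 ^ (m + 1) * Q.choose (m + 1) * (m + 1) = (2 ^ m * Q.choose m) * (2 * (Q - m)) := by
          rw [mul_assoc, h1]; ring
      _ ≤ (2 * (2 * Q - 2).choose m) * (2 * Q - 2 - m) := Nat.mul_le_mul ih (by omega)
      _ = 2 * (2 * Q - 2).choose (m + 1) * (m + 1) := by rw [mul_assoc, ← h2]; ring

lemma tail_ratio {Q : ℕ} (hQ : 6 ≤ Q) {m : ℕ} (hm : 2 ≤ m) :
    sQ Q m ≤ nuQ Q m * (3 / 2 * (71 / 100) ^ m) ^ 2 := by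
  have h1 : (2 : ℝ) ^ m * Q.choose m ≤ 2 * (2 * Q - 2).choose m := by
    exact_mod_cast tail_choose hQ hm
  have h2 : (1 : ℝ) ≤ 2 ^ m * ((71 / 100) ^ m) ^ 2 := by
    rw [← pow_mul, mul_comm m 2, pow_mul, ← mul_pow]
    exact one_le_pow₀ (by norm_num)
  have h3 : (Q.choose m : ℝ) ≤ (2 * Q - 2).choose m * (3 / 2 * (71 / 100) ^ m) ^ 2 := by
    have a : (0 : ℝ) ≤ Q.choose m := Nat.cast_nonneg _
    have b : (0 : ℝ) ≤ (2 * Q - 2).choose m := Nat.cast_nonneg _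
    have c : (0 : ℝ) ≤ ((71 / 100) ^ m) ^ 2 := sq_nonneg _
    rw [mul_pow]
    nlinarith [mul_le_mul_of_nonneg_left h2 a, mul_le_mul_of_nonneg_right h1 c, mul_nonneg b c]
  unfold sQ nuQ
  rw [div_mul_eq_mul_div, mul_assoc]
  gcongr

lemma tail_succ {Q : ℕ} (hQ : 6 ≤ Q) (m : ℕ) : sQ Q (m + 1) ≤ ((m : ℝ) + 1) ^ 2 * sQ Q m := by
  rw [sQ_succ (by omega)]
  refine mul_le_mul_of_nonneg_right ?_ (sQ_nonneg _ _)
  have hq : (6 : ℝ) ≤ Q := by exact_mod_cast hQ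
  have hm : (0 : ℝ) ≤ m := Nat.cast_nonneg _
  unfold phQ
  rw [div_le_iff₀ (by linarith)]
  push_cast
  nlinarith [mul_nonneg hm hm, mul_nonneg (mul_nonneg hm hm) (by linarith : (0 : ℝ) ≤ Q),
    mul_nonneg hm (by linarith : (0 : ℝ) ≤ Q)]

lemma tail_term {Q : ℕ} (hQ : 6 ≤ Q) {m : ℕ} (hm : 2 ≤ m) (hm' : m < 2 * Q - 1) :
    (nuQ Q m)⁻¹ * (((m : ℝ) - 1) * (Real.sqrt (nuQ Q m) * Real.sqrt (sQ Q m)) +
      Real.sqrt (nuQ Q m) * Real.sqrt (sQ Q (m + 1))) ≤ 3 * m * (71 / 100) ^ m := by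
  have hν := nuQ_pos (Q := Q) (by omega) hm'
  have hm1 : (2 : ℝ) ≤ m := by exact_mod_cast hm
  have h1 : Real.sqrt (sQ Q m) ≤ Real.sqrt (nuQ Q m) * (3 / 2 * (71 / 100) ^ m) := by
    refine (Real.sqrt_le_sqrt (tail_ratio hQ hm)).trans_eq ?_
    rw [Real.sqrt_mul hν.le, Real.sqrt_sq (by positivity)]
  have h2 : Real.sqrt (sQ Q (m + 1)) ≤ ((m : ℝ) + 1) * Real.sqrt (sQ Q m) := by
    refine (Real.sqrt_le_sqrt (tail_succ hQ m)).trans_eq ?_
    rw [Real.sqrt_mul (sq_nonneg _), Real.sqrt_sq (by positivity)]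
  have h3 := Real.mul_self_sqrt hν.le
  have h4 := Real.sqrt_nonneg (nuQ Q m)
  rw [inv_mul_le_iff₀ hν]
  calc ((m : ℝ) - 1) * (Real.sqrt (nuQ Q m) * Real.sqrt (sQ Q m)) +
        Real.sqrt (nuQ Q m) * Real.sqrt (sQ Q (m + 1))
      ≤ ((m : ℝ) - 1) * (Real.sqrt (nuQ Q m) * Real.sqrt (sQ Q m)) +
        Real.sqrt (nuQ Q m) * (((m : ℝ) + 1) * Real.sqrt (sQ Q m)) := by gcongr
    _ = 2 * m * Real.sqrt (nuQ Q m) * Real.sqrt (sQ Q m) := by ring
    _ ≤ 2 * m * Real.sqrt (nuQ Q m) * (Real.sqrt (nuQ Q m) * (3 / 2 * (71 / 100) ^ m)) := by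
        gcongr
    _ = (Real.sqrt (nuQ Q m) * Real.sqrt (nuQ Q m)) * (3 * m * (71 / 100) ^ m) := by ring
    _ = _ := by rw [h3]

lemma tail_geom (k : ℕ) :
    ∑ m ∈ (range (33 + k)).filter (33 ≤ ·), 3 * (m : ℝ) * (71 / 100) ^ m ≤
      12 * 33 * (71 / 100) ^ 33 - 12 * ((33 + k : ℕ) : ℝ) * (71 / 100) ^ (33 + k) := by
  induction k with
  | zero =>
    rw [Finset.filter_false_of_mem (fun m hm => by have := mem_range.1 hm; omega)]
    simp
  | succ k ih =>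
    rw [← add_assoc, range_add_one, filter_insert, if_pos (by omega), sum_insert (by simp),
      pow_succ _ (33 + k)]
    have h : (0 : ℝ) ≤ (71 / 100) ^ (33 + k) := by positivity
    have hk : (0 : ℝ) ≤ k := Nat.cast_nonneg _
    push_cast at ih ⊢
    nlinarith [mul_nonneg h hk]

lemma tail_bound {Q : ℕ} (hQ : 6 ≤ Q) :
    ∑ m ∈ (range (2 * Q - 1)).filter (33 ≤ ·),
      (nuQ Q m)⁻¹ * (((m : ℝ) - 1) * (Real.sqrt (nuQ Q m) * Real.sqrt (sQ Q m)) +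
        Real.sqrt (nuQ Q m) * Real.sqrt (sQ Q (m + 1))) ≤ 1 / 100 := by
  refine (sum_le_sum (g := fun m : ℕ => 3 * (m : ℝ) * (71 / 100) ^ m) fun m hm => ?_).trans ?_
  · rw [mem_filter, mem_range] at hm
    exact tail_term hQ (by omega) hm.1
  · refine (sum_le_sum_of_subset_of_nonneg
      (filter_subset_filter _ (range_subset_range.2 (Nat.le_add_left _ 33)))
      fun m _ _ => by positivity).trans ((tail_geom _).trans ?_)
    have : (0 : ℝ) ≤ 12 * ((33 + (2 * Q - 1) : ℕ) : ℝ) * (71 / 100) ^ (33 + (2 * Q - 1)) := by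
      positivity
    have h2 : (12 : ℝ) * 33 * (71 / 100) ^ 33 ≤ 1 / 100 := by norm_num
    linarith

end Crest.Agent.R340
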