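import Crest.Agent.R340.FgHf
import Crest.Agent.R340.FgRel
import Crest.Agent.R340.FgTail

/-! Row 340: the energy per pair orbital. -/

set_option autoImplicit false

namespace Crest.Agent.R340

open Matrix Finset Filter Topology

variable {Q : ℕ} {ω : FM (Q + 1) →ₗ[ℝ] ℝ}

lemma energy_aux (hQ : 1 ≤ Q) (h : InvState Q ω) (Y : FM (Q + 1)) (hY : Y * Fh Q = Fh Q * Y) :
    ω (Y * Hf Q) = (2 * (Q : ℝ) - 1) * ω (Y * ((Bh Q 0)ᵀ * Bh Q 0)) := by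
  rw [Hf_eq hQ, Finset.mul_sum, map_sum,
    Finset.sum_congr rfl (g := fun _ => ω (Y * ((Bh Q 0)ᵀ * Bh Q 0))) fun p hp => by
      rw [mul_smul_comm, map_smul, schur hQ h Y hY p, smul_eq_mul,
        inv_mul_cancel_left₀ (nuQ_pos hQ (Finset.mem_range.1 hp)).ne'],
    Finset.sum_const, Finset.card_range, nsmul_eq_mul, Nat.cast_sub (by omega)]
  push_cast
  ring

lemma energy_term (hQ : 1 ≤ Q) (ω : FM (Q + 1) →ₗ[ℝ] ℝ) (m : ℕ) :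
    ω ((Bh Q m)ᵀ * Bh Q m * ((Bh Q 0)ᵀ * Bh Q 0)) = (if m = 0 then G2 Q ω else 0) +
      (((m : ℝ) - 1) * G3 Q ω m 0 0 m - G3 Q ω m 1 0 (m + 1)) + G4 Q ω 0 m 0 m := by
  have e1 : (Bh Q m)ᵀ * Bh Q m * ((Bh Q 0)ᵀ * Bh Q 0) =
      (Bh Q m)ᵀ * (Bh Q m * (Bh Q 0)ᵀ) * Bh Q 0 := by simp only [Matrix.mul_assoc]
  have e2 : (Bh Q m * Bh Q 0)ᵀ = (Bh Q m)ᵀ * (Bh Q 0)ᵀ := by
    rw [Bh_comm, Matrix.transpose_mul]
  have e3 : ω ((Bh Q m)ᵀ * (if m = 0 then 1 else 0) * Bh Q 0) = if m = 0 then G2 Q ω else 0 := by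
    split_ifs with hm
    · rw [hm, Matrix.mul_one, G2]
    · simp
  rw [e1, Bh_BhT0 hQ, ← e3, G3, G3, G4, e2]
  simp only [Matrix.transpose_mul, Matrix.mul_add, Matrix.mul_sub, Matrix.add_mul, Matrix.sub_mul,
    Matrix.mul_smul, Matrix.smul_mul, map_add, map_sub, map_smul, smul_eq_mul, Matrix.mul_assoc]
  ring

lemma omega_H (hQ : 1 ≤ Q) (h : InvState Q ω) : ω (Hf Q) = (2 * (Q : ℝ) - 1) * G2 Q ω := by
  have := energy_aux hQ h 1 (by rw [Matrix.one_mul, Matrix.mul_one])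
  rwa [Matrix.one_mul, Matrix.one_mul] at this

lemma omega_HH (hQ : 1 ≤ Q) (h : InvState Q ω) :
    ω (Hf Q * Hf Q) = (2 * (Q : ℝ) - 1) * ω (Hf Q * ((Bh Q 0)ᵀ * Bh Q 0)) := by
  exact energy_aux hQ h _ (Hf_Fh hQ)

lemma energy_eq (hQ : 1 ≤ Q) (ω : FM (Q + 1) →ₗ[ℝ] ℝ) :
    ω (Hf Q * ((Bh Q 0)ᵀ * Bh Q 0)) = G2 Q ω +
      ∑ m ∈ range (2 * Q - 1),
        (nuQ Q m)⁻¹ * (((m : ℝ) - 1) * G3 Q ω m 0 0 m - G3 Q ω m 1 0 (m + 1)) +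
      ∑ m ∈ range (2 * Q - 1), (nuQ Q m)⁻¹ * G4 Q ω 0 m 0 m := by
  rw [Hf_eq hQ, Finset.sum_mul, map_sum]
  simp only [smul_mul_assoc, map_smul, smul_eq_mul, energy_term hQ, mul_add, Finset.sum_add_distrib]
  rw [Finset.sum_eq_single_of_mem 0 (Finset.mem_range.2 (by omega)) fun m _ hm => by
    rw [if_neg hm, mul_zero], if_pos rfl, nuQ_zero, inv_one, one_mul]

lemma energy_lb (hQ : 40 ≤ Q) (h : InvState Q ω) :
    99 / 100 * G2 Q ω +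
      ∑ m ∈ range 33, (nuQ Q m)⁻¹ * (((m : ℝ) - 1) * G3 Q ω m 0 0 m - G3 Q ω m 1 0 (m + 1)) +
      ∑ m ∈ range 61, (nuQ Q m)⁻¹ * G4 Q ω 0 m 0 m ≤ ω (Hf Q * ((Bh Q 0)ᵀ * Bh Q 0)) := by
  have hQ1 : 1 ≤ Q := by omega
  have hg := G2_nonneg h
  have h4 : ∑ m ∈ range 61, (nuQ Q m)⁻¹ * G4 Q ω 0 m 0 m ≤
      ∑ m ∈ range (2 * Q - 1), (nuQ Q m)⁻¹ * G4 Q ω 0 m 0 m :=
    Finset.sum_le_sum_of_subset_of_nonneg (Finset.range_subset_range.2 (by omega)) fun m _ _ =>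
      mul_nonneg (inv_nonneg.2 (nuQ_nonneg Q m)) (h.sq _)
  have e : (range (2 * Q - 1)).filter (fun m => ¬ 33 ≤ m) = range 33 := by
    ext m
    simp only [Finset.mem_filter, Finset.mem_range]
    omega
  have h3 := Finset.sum_filter_add_sum_filter_not (range (2 * Q - 1)) (33 ≤ ·)
    fun m => (nuQ Q m)⁻¹ * (((m : ℝ) - 1) * G3 Q ω m 0 0 m - G3 Q ω m 1 0 (m + 1))
  rw [e] at h3
  have h5 := mul_le_mul_of_nonneg_right (tail_bound (Q := Q) (by omega)) hg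
  rw [Finset.sum_mul] at h5
  have h6 : -∑ m ∈ (range (2 * Q - 1)).filter (33 ≤ ·),
      (nuQ Q m)⁻¹ * (((m : ℝ) - 1) * G3 Q ω m 0 0 m - G3 Q ω m 1 0 (m + 1)) ≤
      1 / 100 * G2 Q ω := by
    rw [← Finset.sum_neg_distrib]
    refine le_trans (Finset.sum_le_sum fun m hm => ?_) h5
    have hm' : (33 : ℝ) ≤ m := by exact_mod_cast (Finset.mem_filter.1 hm).2
    have a1 := (abs_le.1 (G3_abs_le hQ1 h m 0 0 m)).1
    have a2 := (abs_le.1 (G3_abs_le hQ1 h m 1 0 (m + 1))).2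
    rw [sQ_zero, nuQ_zero, Real.sqrt_one, one_mul, mul_one] at a1
    rw [sQ_one hQ1, nuQ_zero, Real.sqrt_one, one_mul, mul_one] at a2
    have a3 := mul_le_mul_of_nonneg_left a1 (show (0 : ℝ) ≤ m - 1 by linarith)
    rw [← mul_neg, mul_assoc]
    exact mul_le_mul_of_nonneg_left (by linarith) (inv_nonneg.2 (nuQ_nonneg Q m))
  rw [energy_eq hQ1]
  linarith

end Crest.Agent.R340
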