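import Crest.Agent.R340.FgBh

/-! Row 340: the Hamiltonian in terms of the rescaled operators. -/

set_option autoImplicit false

namespace Crest.Agent.R340

open Matrix Finset Filter Topology Crest.MathPhysics.Laughlin

lemma hf_pairNorm {Q : ℕ} (hQ : 1 ≤ Q) {p : ℕ} (hp : p < 2 * Q - 1) :
    pairNorm Q (p + 1) = Q * ((2 * Q - 2).choose p : ℝ) := by
  obtain ⟨N, hN⟩ : ∃ N, 2 * Q = N + 2 := ⟨2 * Q - 2, by omega⟩
  have hN' : (2 * Q : ℝ) = N + 2 := by exact_mod_cast hN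
  have h1 : ((N + 1 + 1) * (N + 1).choose p : ℝ) = (N + 2).choose (p + 1) * (p + 1) := by
    exact_mod_cast Nat.add_one_mul_choose_eq (N + 1) p
  have h2 : (N.choose p * (N + 1) : ℝ) = (N + 1).choose p * ((N : ℝ) + 1 - p) := by
    have h := Nat.choose_mul_succ_eq N p
    have h' : ((N + 1 - p : ℕ) : ℝ) = (N : ℝ) + 1 - p := by
      rw [Nat.cast_sub (by omega)]; push_cast; ring
    rw [← h']
    exact_mod_cast h
  have hQ' : (Q : ℝ) = (N + 2) / 2 := by linarith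
  unfold pairNorm
  rw [show 2 * Q - 2 = N by omega, hN, hN', hQ']
  have hN0 : (N : ℝ) + 2 - 1 ≠ 0 := by
    have : (0 : ℝ) ≤ N := Nat.cast_nonneg N
    linarith
  rw [div_eq_iff (mul_ne_zero two_ne_zero hN0)]
  push_cast
  linear_combination (-((N : ℝ) + 1 - p)) * h1 - ((N : ℝ) + 2) * h2

lemma hf_choose {p i j : ℕ} (h : i + j = p + 1) :
    (p.choose i : ℝ) * i.factorial * j.factorial = p.factorial * j := by
  rcases j with _ | j
  · rw [Nat.choose_eq_zero_of_lt (by omega)]; simp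
  · have hi : i ≤ p := by omega
    have h1 := Nat.choose_mul_factorial_mul_factorial hi
    rw [show p - i = j by omega] at h1
    have h2 : (p.choose i : ℝ) * i.factorial * j.factorial = p.factorial := by exact_mod_cast h1
    rw [Nat.factorial_succ]
    push_cast
    linear_combination ((j : ℝ) + 1) * h2

lemma hf_sqrt (k : ℕ) {c x : ℝ} (hc : 0 ≤ c) (hx : 0 ≤ x) :
    Real.sqrt ((k.factorial : ℝ) ^ 2 * c / x ^ k) =
      k.factorial * Real.sqrt c / Real.sqrt x ^ k := by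
  rw [Real.sqrt_eq_iff_mul_self_eq (by positivity) (by positivity), div_mul_div_comm, ← mul_pow,
    Real.mul_self_sqrt hx, mul_mul_mul_comm, Real.mul_self_sqrt hc, sq]

lemma hf_coef {Q : ℕ} (hQ : 1 ≤ Q) {p : ℕ} (hp : p < 2 * Q - 1) {i j : ℕ} (h : i + j = p + 1) :
    ((p.choose i : ℝ) - p.choose j) * (Real.sqrt (sQ Q j) * Real.sqrt (sQ Q i)) =
      2 * (Real.sqrt (nuQ Q p) * (((j : ℝ) - i) * Real.sqrt ((Q.choose i : ℝ) * Q.choose j) /
        Real.sqrt (2 * pairNorm Q (p + 1)) / Real.sqrt 2)) := by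
  have hQ0 : (0 : ℝ) < Q := by exact_mod_cast hQ
  have hC : (0 : ℝ) < (2 * Q - 2).choose p := by exact_mod_cast Nat.choose_pos (by omega)
  have h1 := hf_choose h
  have h2 := hf_choose (p := p) (i := j) (j := i) (by omega)
  unfold sQ nuQ
  rw [hf_pairNorm hQ hp, hf_sqrt j (Nat.cast_nonneg _) hQ0.le, hf_sqrt i (Nat.cast_nonneg _) hQ0.le,
    hf_sqrt p hC.le hQ0.le, Real.sqrt_mul (Nat.cast_nonneg _), Real.sqrt_mul zero_le_two,
    Real.sqrt_mul hQ0.le]
  have hq : 0 < Real.sqrt Q := Real.sqrt_pos.2 hQ0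
  have hc : 0 < Real.sqrt ((2 * Q - 2).choose p : ℝ) := Real.sqrt_pos.2 hC
  have h22 : Real.sqrt 2 * Real.sqrt 2 = 2 := Real.mul_self_sqrt zero_le_two
  have hs2 : 0 < Real.sqrt 2 := by positivity
  have hpow : Real.sqrt Q ^ j * Real.sqrt Q ^ i = Real.sqrt Q ^ p * Real.sqrt Q := by
    rw [← pow_add, ← pow_succ]; congr 1; omega
  generalize Real.sqrt (Q : ℝ) = q at *
  generalize Real.sqrt ((2 * Q - 2).choose p : ℝ) = c at *
  generalize Real.sqrt (Q.choose i : ℝ) = a at *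
  generalize Real.sqrt (Q.choose j : ℝ) = b at *
  generalize Real.sqrt 2 = t at *
  rw [div_mul_div_comm, hpow, ← h22]
  field_simp
  linear_combination (a * b) * h1 - (a * b) * h2

lemma hf_Bh_anti (Q p : ℕ) :
    (2 : ℝ) • Bh Q p = ∑ x ∈ antidiagonal (p + 1),
      ((p.choose x.1 : ℝ) - p.choose x.2) • (ch Q x.2 * ch Q x.1) := by
  have h1 : Bh Q p = ∑ x ∈ antidiagonal (p + 1), (p.choose x.1 : ℝ) • (ch Q x.2 * ch Q x.1) := by
    rw [Finset.Nat.sum_antidiagonal_eq_sum_range_succ_mk, Finset.sum_range_succ,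
      Nat.choose_eq_zero_of_lt (Nat.lt_succ_self p)]
    simp [Bh]
  have h2 : Bh Q p = ∑ x ∈ antidiagonal (p + 1), -((p.choose x.2 : ℝ) • (ch Q x.2 * ch Q x.1)) := by
    rw [h1, ← Finset.Nat.sum_antidiagonal_swap]
    refine Finset.sum_congr rfl fun x _ => ?_
    simp only [Prod.fst_swap, Prod.snd_swap]
    rw [ch_anticomm, smul_neg]
  rw [two_smul]
  nth_rewrite 1 [h1]
  rw [h2, ← Finset.sum_add_distrib]
  refine Finset.sum_congr rfl fun x _ => ?_
  rw [sub_smul, sub_eq_add_neg]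

lemma hf_Bop_anti (Q : ℕ) (p : Fin (2 * Q - 1)) :
    Bop Q p = ∑ x ∈ antidiagonal ((p : ℕ) + 1),
      (((x.2 : ℝ) - x.1) * Real.sqrt ((Q.choose x.1 : ℝ) * Q.choose x.2) /
        Real.sqrt (2 * pairNorm Q (p + 1)) / Real.sqrt 2) •
        (annN (Q + 1) x.2 * annN (Q + 1) x.1) := by
  set g : ℕ × ℕ → FM (Q + 1) := fun x =>
    (((x.2 : ℝ) - x.1) * Real.sqrt ((Q.choose x.1 : ℝ) * Q.choose x.2) /
        Real.sqrt (2 * pairNorm Q (p + 1)) / Real.sqrt 2) •
        (annN (Q + 1) x.2 * annN (Q + 1) x.1) with hg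
  have h1 : Bop Q p = ∑ i ∈ range (Q + 1), ∑ j ∈ range (Q + 1),
      if i + j = p + 1 then g (i, j) else 0 := by
    unfold Bop
    rw [← Fin.sum_univ_eq_sum_range
      (fun i => ∑ j ∈ range (Q + 1), if i + j = p + 1 then g (i, j) else 0)]
    refine Finset.sum_congr rfl fun i _ => ?_
    rw [← Fin.sum_univ_eq_sum_range (fun j => if (i : ℕ) + j = p + 1 then g (i, j) else 0)]
    refine Finset.sum_congr rfl fun j _ => ?_
    unfold pairVec
    split_ifs with h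
    · simp only [hg, annN, i.2, j.2, dif_pos]
    · simp
  rw [h1, ← Finset.sum_product', ← Finset.sum_filter]
  refine Finset.sum_subset (fun x hx => ?_) (fun x hx hx' => ?_)
  · rw [Finset.mem_filter] at hx
    exact Finset.HasAntidiagonal.mem_antidiagonal.2 hx.2
  · rw [Finset.HasAntidiagonal.mem_antidiagonal] at hx
    simp only [Finset.mem_filter, Finset.mem_product, Finset.mem_range, hx, and_true] at hx'
    by_cases h : x.1 < Q + 1
    · have h' : ¬ x.2 < Q + 1 := fun h' => hx' ⟨h, h'⟩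
      simp only [hg, annN, h', dif_neg, not_false_eq_true, zero_mul, smul_zero]
    · simp only [hg, annN, h, dif_neg, not_false_eq_true, mul_zero, smul_zero]

lemma Bh_eq_Bop {Q : ℕ} (hQ : 1 ≤ Q) (p : Fin (2 * Q - 1)) :
    Bh Q p = Real.sqrt (nuQ Q p) • Bop Q p := by
  refine smul_right_injective _ (two_ne_zero (α := ℝ)) ?_
  simp only
  rw [hf_Bh_anti, hf_Bop_anti, Finset.smul_sum, Finset.smul_sum]
  refine Finset.sum_congr rfl fun x hx => ?_
  rw [Finset.HasAntidiagonal.mem_antidiagonal] at hx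
  unfold ch
  rw [smul_mul_smul_comm, smul_smul, smul_smul, smul_smul, hf_coef hQ p.2 hx, mul_assoc]

lemma Hf_eq {Q : ℕ} (hQ : 1 ≤ Q) :
    Hf Q = ∑ p ∈ range (2 * Q - 1), (nuQ Q p)⁻¹ • ((Bh Q p)ᵀ * Bh Q p) := by
  unfold Hf
  rw [← Fin.sum_univ_eq_sum_range (fun p => (nuQ Q p)⁻¹ • ((Bh Q p)ᵀ * Bh Q p))]
  refine Finset.sum_congr rfl fun p _ => ?_
  have h := nuQ_pos hQ p.2
  rw [Bh_eq_Bop hQ p, transpose_smul, smul_mul_smul_comm, Real.mul_self_sqrt h.le, smul_smul,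
    inv_mul_cancel₀ h.ne', one_smul]

lemma Hf_transpose (Q : ℕ) : (Hf Q)ᵀ = Hf Q := by
  unfold Hf
  rw [transpose_sum]
  refine Finset.sum_congr rfl fun p _ => ?_
  rw [transpose_mul, transpose_transpose]

lemma Hf_Fh {Q : ℕ} (hQ : 1 ≤ Q) : Hf Q * Fh Q = Fh Q * Hf Q := by
  set Y : ℕ → FM (Q + 1) := fun p => ((nuQ Q p)⁻¹ * muQ Q p) • ((Bh Q (p - 1))ᵀ * Bh Q p) with hY
  have key : ∀ p ∈ range (2 * Q - 1), ((nuQ Q p)⁻¹ • ((Bh Q p)ᵀ * Bh Q p)) * Fh Q =
      Fh Q * ((nuQ Q p)⁻¹ • ((Bh Q p)ᵀ * Bh Q p)) + (Y (p + 1) - Y p) := by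
    intro p hp
    rw [Finset.mem_range] at hp
    have h1 : (Bh Q p)ᵀ * Fh Q = Fh Q * (Bh Q p)ᵀ - muQ Q p • (Bh Q (p - 1))ᵀ := by
      have h := congrArg transpose (Bh_FhT hQ p)
      rw [transpose_mul, transpose_add, transpose_mul, transpose_transpose, transpose_smul] at h
      rw [h]; abel
    have h2 : Y (p + 1) = (nuQ Q p)⁻¹ • ((Bh Q p)ᵀ * Bh Q (p + 1)) := by
      simp only [hY, Nat.add_sub_cancel]
      by_cases hp' : p + 1 < 2 * Q - 1
      · have h3 := nuQ_pos hQ hp'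
        have h4 := nuQ_succ hQ p
        have h5 : muQ Q (p + 1) ≠ 0 := fun e => by rw [e, zero_mul] at h4; exact h3.ne' h4
        rw [h4, mul_inv, mul_comm (muQ Q (p + 1))⁻¹, mul_assoc, inv_mul_cancel₀ h5, mul_one]
      · rw [Bh_eq_zero (Q := Q) (m := p + 1) (by omega)]; simp
    rw [h2, smul_mul_assoc, mul_smul_comm, mul_assoc, Bh_Fh hQ p, mul_add, ← mul_assoc, h1]
    simp only [hY, sub_mul, smul_mul_assoc, mul_assoc, smul_add, smul_sub, smul_smul]
    abel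
  rw [Hf_eq hQ, Finset.sum_mul, Finset.mul_sum, Finset.sum_congr rfl key, Finset.sum_add_distrib,
    Finset.sum_range_sub]
  have e1 : Y (2 * Q - 1) = 0 := by
    simp only [hY]
    rw [Bh_eq_zero (Q := Q) (m := 2 * Q - 1) le_rfl]; simp
  have e0 : Y 0 = 0 := by simp [hY, muQ]
  rw [e1, e0, sub_zero, add_zero]

end Crest.Agent.R340
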