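import Crest.Agent.R340.FgEnergy
import Crest.Agent.R340.FgCertQ

/-! Row 340: the limit of large flux. -/

set_option autoImplicit false

namespace Crest.Agent.R340

open Matrix Finset Filter Topology

lemma fgl_lin_nil (G : ℕ → ℕ → ℕ → ℕ → ℝ) : lin [] G = 0 := by simp [lin]

lemma fgl_lin_cons (e : ℕ × ℕ × ℕ × ℕ × ℚ) (c : CL) (G : ℕ → ℕ → ℕ → ℕ → ℝ) :
    lin (e :: c) G = (e.2.2.2.2 : ℝ) * G e.1 e.2.1 e.2.2.1 e.2.2.2.1 + lin c G := by
  simp [lin]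

lemma fgl_lin_append (c c' : CL) (G : ℕ → ℕ → ℕ → ℕ → ℝ) :
    lin (c ++ c') G = lin c G + lin c' G := by
  simp [lin]

lemma fgl_lin_mul (c : CL) (G : ℕ → ℕ → ℕ → ℕ → ℝ) (t : ℝ) :
    lin c (fun m k m' k' => t * G m k m' k') = t * lin c G := by
  induction c with
  | nil => simp [fgl_lin_nil]
  | cons e c ih => rw [fgl_lin_cons, fgl_lin_cons, ih]; ring

lemma fgl_lin_tendsto {l : Filter ℕ} (c : CL) {x : ℕ → ℕ → ℕ → ℕ → ℕ → ℝ}
    {Γ : ℕ → ℕ → ℕ → ℕ → ℝ}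
    (hx : ∀ m k m' k', Tendsto (fun Q => x Q m k m' k') l (𝓝 (Γ m k m' k'))) :
    Tendsto (fun Q => lin c (x Q)) l (𝓝 (lin c Γ)) := by
  induction c with
  | nil => simp only [fgl_lin_nil]; exact tendsto_const_nhds
  | cons e c ih => simp only [fgl_lin_cons]; exact ((hx _ _ _ _).const_mul _).add ih

lemma fgl_c2_tendsto (c2 : List (ℕ × ℚ)) :
    Tendsto (fun Q => (c2.map fun e => (e.2 : ℝ) * nuQ Q e.1).sum) atTop
      (𝓝 (c2.map fun e => (e.2 : ℝ) * ((e.1.factorial : ℝ) * 2 ^ e.1)).sum) := by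
  induction c2 with
  | nil => simp only [List.map_nil, List.sum_nil]; exact tendsto_const_nhds
  | cons e c ih =>
    simp only [List.map_cons, List.sum_cons]
    exact ((tendsto_nuQ _).const_mul _).add ih

lemma fgl_E3 (G : ℕ → ℕ → ℕ → ℕ → ℝ) (n : ℕ) :
    lin ((List.range n).flatMap fun m =>
      [(m, 0, 0, m, ((m : ℚ) - 1) / ((m.factorial : ℚ) * 2 ^ m)),
       (m, 1, 0, m + 1, -1 / ((m.factorial : ℚ) * 2 ^ m))]) G =
      ∑ m ∈ range n, ((m.factorial : ℝ) * 2 ^ m)⁻¹ *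
        (((m : ℝ) - 1) * G m 0 0 m - G m 1 0 (m + 1)) := by
  induction n with
  | zero => simp [fgl_lin_nil]
  | succ n ih =>
    rw [List.range_succ, List.flatMap_append, fgl_lin_append, ih, sum_range_succ]
    simp only [List.flatMap_cons, List.flatMap_nil, List.append_nil, fgl_lin_cons, fgl_lin_nil]
    push_cast
    ring

lemma fgl_E4 (G : ℕ → ℕ → ℕ → ℕ → ℝ) (n : ℕ) :
    lin ((List.range n).map fun m => (0, m, 0, m, 1 / ((m.factorial : ℚ) * 2 ^ m))) G =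
      ∑ m ∈ range n, ((m.factorial : ℝ) * 2 ^ m)⁻¹ * G 0 m 0 m := by
  induction n with
  | zero => simp [fgl_lin_nil]
  | succ n ih =>
    rw [List.range_succ, List.map_append, fgl_lin_append, ih, sum_range_succ]
    simp only [List.map_cons, List.map_nil, fgl_lin_cons, fgl_lin_nil]
    push_cast
    ring

lemma fgl_rel_mul {a b : ℕ → ℝ} {G : ℕ → ℕ → ℕ → ℕ → ℝ} (h : OscRel a b G) {t : ℝ}
    (ht : 0 ≤ t) : OscRel a b fun m k m' k' => t * G m k m' k' := by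
  refine ⟨fun m k m' k' => by rw [h.symm], fun m k m' k' => ?_, fun d z => ?_⟩
  · rw [← mul_add, h.rel]; ring
  · have k := mul_nonneg ht (h.psd d z)
    simp only [mul_sum] at k
    refine k.trans (le_of_eq (sum_congr rfl fun s _ => sum_congr rfl fun s' _ => ?_))
    ring

lemma fgl_rel_lim {l : Filter ℕ} [NeBot l] {a b : ℕ → ℕ → ℝ} {a' b' : ℕ → ℝ}
    (ha : ∀ m, Tendsto (fun Q => a Q m) l (𝓝 (a' m)))
    (hb : ∀ m, Tendsto (fun Q => b Q m) l (𝓝 (b' m)))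
    {x : ℕ → ℕ → ℕ → ℕ → ℕ → ℝ} {Γ : ℕ → ℕ → ℕ → ℕ → ℝ}
    (hx : ∀ m k m' k', Tendsto (fun Q => x Q m k m' k') l (𝓝 (Γ m k m' k')))
    (h : ∀ᶠ Q in l, OscRel (a Q) (b Q) (x Q)) : OscRel a' b' Γ := by
  refine ⟨fun m k m' k' => ?_, fun m k m' k' => ?_, fun d z => ?_⟩
  · exact tendsto_nhds_unique_of_eventuallyEq (hx _ _ _ _) (hx _ _ _ _)
      (h.mono fun Q hQ => hQ.symm m k m' k')
  · exact tendsto_nhds_unique_of_eventuallyEq ((hx _ _ _ _).add (hx _ _ _ _))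
      (((ha _).mul (hx _ _ _ _)).add ((hb _).mul (hx _ _ _ _)))
      (h.mono fun Q hQ => hQ.rel m k m' k')
  · exact ge_of_tendsto (tendsto_finsetSum _ fun s _ => tendsto_finsetSum _ fun s' _ =>
      (hx _ _ _ _).const_mul _) (h.mono fun Q hQ => hQ.psd d z)

lemma fgl_lim (U : Ultrafilter ℕ) {x : ℕ → ℝ} {C : ℝ} (h : ∀ᶠ Q in (U : Filter ℕ), |x Q| ≤ C) :
    ∃ l, Tendsto x U (𝓝 l) := by
  obtain ⟨l, -, hl⟩ := (isCompact_Icc (a := -C) (b := C)).ultrafilter_le_nhds (U.map x)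
    (le_principal_iff.2 (h.mono fun Q hQ => abs_le.1 hQ))
  exact ⟨l, hl⟩

/-- the normalised correlation arrays of a state that violates the bound -/
structure FglBad (c2 : List (ℕ × ℚ)) (c3 c4 : CL) (γ : ℝ) (C : ℕ → ℕ → ℝ) (ε : ℕ → ℝ) (Q : ℕ)
    (x3 x4 : ℕ → ℕ → ℕ → ℕ → ℝ) : Prop where
  r3 : OscRel (muQ Q) (phQ Q) x3
  r4 : OscRel (muQ Q) (muQ Q) x4
  b3 : ∀ m k m' k', |x3 m k m' k'| ≤ C m k * C m' k'
  b4 : ∀ m k m' k', |x4 m k m' k'| ≤ C m k * C m' k'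
  d3 : ∀ k, x3 0 k 0 k ≤ (k.factorial : ℝ)
  cert : 0 ≤ (c2.map fun e => (e.2 : ℝ) * nuQ Q e.1).sum + lin c3 x3 + lin c4 x4 + ε Q
  en : 99 / 100 + ∑ m ∈ range 33, (nuQ Q m)⁻¹ * (((m : ℝ) - 1) * x3 m 0 0 m - x3 m 1 0 (m + 1)) +
    ∑ m ∈ range 61, (nuQ Q m)⁻¹ * x4 0 m 0 m ≤ γ

lemma fgl_core {c2 : List (ℕ × ℚ)} {c3 c4 : CL} {cost γ : ℝ} {C : ℕ → ℕ → ℝ} {ε : ℕ → ℝ}
    (hε : Tendsto ε atTop (𝓝 0)) (hp : PlanarBound c2 c3 c4 cost)
    (h : ∃ᶠ Q in atTop, ∃ x3 x4, FglBad c2 c3 c4 γ C ε Q x3 x4) : 99 / 100 - cost ≤ γ := by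
  have hne := frequently_iff_neBot.1 h
  obtain ⟨U, hU⟩ := Ultrafilter.exists_le
    (atTop ⊓ 𝓟 {Q | ∃ x3 x4, FglBad c2 c3 c4 γ C ε Q x3 x4})
  have hU1 : (U : Filter ℕ) ≤ atTop := hU.trans inf_le_left
  have hU2 : ∀ᶠ Q in (U : Filter ℕ), ∃ x3 x4, FglBad c2 c3 c4 γ C ε Q x3 x4 :=
    le_principal_iff.1 (hU.trans inf_le_right)
  obtain ⟨x3, h3⟩ := hU2.choice
  obtain ⟨x4, h4⟩ := h3.choice
  choose Γ3 t3 using fun m k m' k' =>
    fgl_lim U (x := fun Q => x3 Q m k m' k') (h4.mono fun Q hQ => hQ.b3 m k m' k')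
  choose Γ4 t4 using fun m k m' k' =>
    fgl_lim U (x := fun Q => x4 Q m k m' k') (h4.mono fun Q hQ => hQ.b4 m k m' k')
  have tm := fun m => (tendsto_muQ m).mono_left hU1
  have tp := fun m => (tendsto_phQ m).mono_left hU1
  have tn : ∀ m, Tendsto (fun Q => (nuQ Q m)⁻¹) U (𝓝 ((m.factorial : ℝ) * 2 ^ m)⁻¹) := fun m =>
    ((tendsto_nuQ m).mono_left hU1).inv₀ (by positivity)
  have k1 := hp Γ3 Γ4 (fgl_rel_lim tm tp t3 (h4.mono fun Q hQ => hQ.r3))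
    (fgl_rel_lim tm tm t4 (h4.mono fun Q hQ => hQ.r4))
    (fun k => le_of_tendsto (t3 0 k 0 k) (h4.mono fun Q hQ => hQ.d3 k))
    (by
      have k := ge_of_tendsto ((((((fgl_c2_tendsto c2).mono_left hU1).add
        (fgl_lin_tendsto c3 t3)).add (fgl_lin_tendsto c4 t4))).add (hε.mono_left hU1))
        (h4.mono fun Q hQ => hQ.cert)
      rwa [add_zero] at k)
  have k2 := le_of_tendsto (((tendsto_const_nhds (x := (99 / 100 : ℝ))).add
    (tendsto_finsetSum (range 33) fun m _ => (tn m).mul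
      (((t3 m 0 0 m).const_mul ((m : ℝ) - 1)).sub (t3 m 1 0 (m + 1))))).add
    (tendsto_finsetSum (range 61) fun m _ => (tn m).mul (t4 0 m 0 m)))
    (h4.mono fun Q hQ => hQ.en)
  rw [E3, E4, fgl_E3, fgl_E4] at k1
  linarith

theorem limit_bound {J : ℕ} {c2 : List (ℕ × ℚ)} {c3 c4 : CL} {cost γ : ℝ}
    (hi : LocalIdx J c2 c3 c4) (hl : LocalPSD J c2 c3 c4) (hp : PlanarBound c2 c3 c4 cost)
    (hγ : γ < 99 / 100 - cost) :
    ∃ Q₀ : ℕ, ∀ Q : ℕ, Q₀ ≤ Q → ∀ ω : FM (Q + 1) →ₗ[ℝ] ℝ, InvState Q ω →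
      γ * G2 Q ω ≤ ω (Hf Q * ((Bh Q 0)ᵀ * Bh Q 0)) := by
  obtain ⟨ε, hε, hc⟩ := cert_omega hi hl
  obtain ⟨C, -, hC⟩ := G34_bound
  by_contra hcon
  refine absurd (fgl_core (C := C) hε hp ?_) (not_le.2 hγ)
  rw [frequently_atTop]
  intro N
  simp only [not_exists, not_forall, not_le] at hcon
  obtain ⟨Q, hQ, ω, hω, hbad⟩ := hcon (max N (max J 40))
  have hN : N ≤ Q := (le_max_left _ _).trans hQ
  have hJ : J ≤ Q := (le_max_left _ _).trans ((le_max_right _ _).trans hQ)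
  have h40 : 40 ≤ Q := (le_max_right _ _).trans ((le_max_right _ _).trans hQ)
  have h1 : 1 ≤ Q := by omega
  have hen := (energy_lb h40 hω).trans_lt hbad
  have hb := hC Q ω h1 hω
  have hg : 0 < G2 Q ω := by
    refine (G2_nonneg hω).lt_of_ne fun h0 => ?_
    have z3 : ∀ m k m' k', G3 Q ω m k m' k' = 0 := fun m k m' k' => by
      have := (hb m k m' k').1
      rw [← h0, mul_zero] at this
      exact abs_nonpos_iff.1 this
    have z4 : ∀ m k m' k', G4 Q ω m k m' k' = 0 := fun m k m' k' => by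
      have := (hb m k m' k').2
      rw [← h0, mul_zero] at this
      exact abs_nonpos_iff.1 this
    simp [z3, z4, ← h0] at hen
  have hi0 : 0 ≤ (G2 Q ω)⁻¹ := (inv_pos.2 hg).le
  have hbd : ∀ {u v : ℝ}, |u| ≤ v * G2 Q ω → |(G2 Q ω)⁻¹ * u| ≤ v := fun {u v} h => by
    rw [abs_mul, abs_of_nonneg hi0, inv_mul_le_iff₀ hg, mul_comm]
    exact h
  refine ⟨Q, hN, fun m k m' k' => (G2 Q ω)⁻¹ * G3 Q ω m k m' k',
    fun m k m' k' => (G2 Q ω)⁻¹ * G4 Q ω m k m' k', fgl_rel_mul (G3_rel h1 hω) hi0,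
    fgl_rel_mul (G4_rel h1 hω) hi0, fun m k m' k' => hbd (hb m k m' k').1,
    fun m k m' k' => hbd (hb m k m' k').2, fun k => ?_, ?_, ?_⟩
  · have k1 := G3_diag_le h1 hω 0 k
    rw [nuQ_zero, mul_one] at k1
    rw [inv_mul_le_iff₀ hg, mul_comm]
    exact k1.trans (mul_le_mul_of_nonneg_right (sQ_le h1 k) hg.le)
  · have k1 := mul_nonneg hi0 (hc Q ω hJ h1 hω)
    rw [fgl_lin_mul, fgl_lin_mul]
    refine k1.trans (le_of_eq ?_)
    field_simp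
  · have k1 := mul_le_mul_of_nonneg_left hen.le hi0
    rw [mul_add, mul_add, mul_sum, mul_sum, mul_comm γ, mul_comm (99 / 100 : ℝ),
      inv_mul_cancel_left₀ hg.ne', inv_mul_cancel_left₀ hg.ne'] at k1
    refine le_trans (le_of_eq ?_) k1
    congr 1
    · congr 1
      exact sum_congr rfl fun m _ => by ring
    · exact sum_congr rfl fun m _ => by ring

end Crest.Agent.R340
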