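import Crest.Agent.R340.FgBlk

/-! Row 340: the computed matrix entries. -/

set_option autoImplicit false

namespace Crest.Agent.R340

open Finset

lemma FgMI_mrec {KI : ℕ → ℕ → ℤ} {n : ℕ} {K : Finset ℕ → Finset ℕ → ℤ} (hK : KSupp K)
    (hT : TableOK KI n K) (W : ℤ) (w : ℕ → ℤ) (C : List ℕ) (hC : C.Nodup) (hn : ∀ t ∈ C, t < n) :
    ∀ (A A' : Finset ℕ) (b : ℕ), A ⊆ range n → A' ⊆ range n → A.card = A'.card →
      ∑ i ∈ A, i = ∑ i ∈ A', i → A.card + b = 4 → (∀ t ∈ C, t ∉ A) → (∀ t ∈ C, t ∉ A') →
      mrec KI W (C.map fun t => 2 ^ t) (C.map w) (keyF A) (keyF A') b =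
        ∑ T ∈ C.toFinset.powerset, W ^ (C.toFinset \ T).card * (∏ t ∈ T, w t) *
          K (A ∪ (C.toFinset \ T)) (A' ∪ (C.toFinset \ T)) := by
  induction C with
  | nil =>
    intro A A' b hA hA' hc hs hb _ _
    simp only [List.map_nil, mrec, List.toFinset_nil, powerset_empty, sum_singleton, sdiff_self,
      bot_eq_empty, card_empty, pow_zero, prod_empty, union_empty, one_mul]
    exact hT A A' hA hA' hc (by omega) hs
  | cons t C ih =>
    intro A A' b hA hA' hc hs hb h1 h2
    obtain ⟨htC, hC'⟩ := List.nodup_cons.1 hC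
    have htC' : t ∉ C.toFinset := by simpa using htC
    have ih' := ih hC' (fun x hx => hn x (List.mem_cons_of_mem _ hx))
    have htA : t ∉ A := h1 t List.mem_cons_self
    have htA' : t ∉ A' := h2 t List.mem_cons_self
    have e1 : ∀ T ∈ C.toFinset.powerset,
        insert t C.toFinset \ insert t T = C.toFinset \ T := by
      intro T _
      ext x
      simp only [mem_sdiff, mem_insert, not_or]
      constructor
      · rintro ⟨h | h, h', h''⟩
        · exact absurd h h'
        · exact ⟨h, h''⟩
      · rintro ⟨h, h'⟩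
        exact ⟨Or.inr h, fun hx => htC' (hx ▸ h), h'⟩
    have e2 : ∀ T ∈ C.toFinset.powerset,
        insert t C.toFinset \ T = insert t (C.toFinset \ T) := by
      intro T hTm
      exact insert_sdiff_of_notMem _ fun hx => htC' (mem_powerset.1 hTm hx)
    have e3 : ∀ T : Finset ℕ, t ∉ C.toFinset \ T := fun T hx => htC' (mem_sdiff.1 hx).1
    have s1 : ∑ T ∈ C.toFinset.powerset,
        W ^ (insert t C.toFinset \ insert t T).card * (∏ x ∈ insert t T, w x) *
          K (A ∪ (insert t C.toFinset \ insert t T)) (A' ∪ (insert t C.toFinset \ insert t T)) =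
        w t * mrec KI W (C.map fun t => 2 ^ t) (C.map w) (keyF A) (keyF A') b := by
      rw [ih' A A' b hA hA' hc hs hb (fun x hx => h1 x (List.mem_cons_of_mem _ hx))
        (fun x hx => h2 x (List.mem_cons_of_mem _ hx)), mul_sum]
      refine sum_congr rfl fun T hTm => ?_
      rw [e1 T hTm, prod_insert fun hx => htC' (mem_powerset.1 hTm hx)]
      ring
    rw [List.toFinset_cons, sum_powerset_insert htC', s1, add_comm, List.map_cons, List.map_cons]
    cases b with
    | zero =>
      rw [mrec]
      congr 1
      symm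
      refine sum_eq_zero fun T hTm => ?_
      have : K (A ∪ (insert t C.toFinset \ T)) (A' ∪ (insert t C.toFinset \ T)) = 0 := by
        by_contra hne
        have h4 := (hK _ _ hne).2.1
        have h5 : insert t A ⊆ A ∪ (insert t C.toFinset \ T) := by
          rw [e2 T hTm]
          intro x hx
          rcases mem_insert.1 hx with rfl | hx
          · exact mem_union_right _ (mem_insert_self _ _)
          · exact mem_union_left _ hx
        have h6 := card_le_card h5
        rw [card_insert_of_notMem htA] at h6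
        omega
      rw [this, mul_zero]
    | succ b =>
      rw [mrec]
      congr 1
      have k1 : keyF A + 2 ^ t = keyF (insert t A) := by
        unfold keyF; rw [sum_insert htA, add_comm]
      have k2 : keyF A' + 2 ^ t = keyF (insert t A') := by
        unfold keyF; rw [sum_insert htA', add_comm]
      have htn : t ∈ range n := mem_range.2 (hn t List.mem_cons_self)
      rw [k1, k2, ih' (insert t A) (insert t A') b (insert_subset htn hA) (insert_subset htn hA')
        (by rw [card_insert_of_notMem htA, card_insert_of_notMem htA', hc])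
        (by rw [sum_insert htA, sum_insert htA', hs])
        (by rw [card_insert_of_notMem htA]; omega)
        (fun x hx hx' => by
          rcases mem_insert.1 hx' with rfl | hx'
          · exact htC hx
          · exact h1 x (List.mem_cons_of_mem _ hx) hx')
        (fun x hx hx' => by
          rcases mem_insert.1 hx' with rfl | hx'
          · exact htC hx
          · exact h2 x (List.mem_cons_of_mem _ hx) hx'), mul_sum]
      refine sum_congr rfl fun T hTm => ?_
      rw [e2 T hTm, card_insert_of_notMem (e3 T), union_insert, union_insert, insert_union,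
        insert_union]
      ring

lemma FgMI_sgGt (t : ℕ) (D : List ℕ) (hD : D.Nodup) :
    sgGt t D = ∏ j ∈ D.toFinset, (if t < j then (-1 : ℤ) else 1) := by
  induction D with
  | nil => rfl
  | cons a D ih =>
    obtain ⟨h1, h2⟩ := List.nodup_cons.1 hD
    rw [List.toFinset_cons, prod_insert (by simpa using h1), ← ih h2]
    show (if t < a then -sgGt t D else sgGt t D) = _
    split_ifs <;> simp

lemma FgMI_eps (T : Finset ℕ) (D : List ℕ) (hD : D.Nodup) :
    epsF T D.toFinset = ∏ t ∈ T, sgGt t D := by
  unfold epsF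
  rw [prod_congr rfl fun t _ => FgMI_sgGt t D hD, prod_comm]
  refine prod_congr rfl fun j _ => ?_
  rw [prod_ite, prod_const, prod_const_one, mul_one]

lemma FgMI_eps_sq (T U : Finset ℕ) : epsF T U * epsF T U = 1 := by
  unfold epsF
  rw [← prod_mul_distrib]
  refine prod_eq_one fun j _ => ?_
  rw [← mul_pow]
  simp

lemma FgMI_eps_union (T : Finset ℕ) {A U : Finset ℕ} (h : Disjoint A U) :
    epsF T (A ∪ U) = epsF T A * epsF T U := by
  unfold epsF
  rw [prod_union h]

lemma FgMI_key (D : List ℕ) (hD : D.Nodup) : keyL D = keyF D.toFinset := by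
  unfold keyL keyF
  rw [List.sum_toFinset _ hD]

theorem mI_eq {KI : ℕ → ℕ → ℤ} {n W : ℕ} {K : Finset ℕ → Finset ℕ → ℤ} (hK : KSupp K)
    (hT : TableOK KI n K) (hW : ∀ t < n, t.factorial ∣ W) {S S' : List ℕ}
    (hS : S.Nodup) (hS' : S'.Nodup) (hn : ∀ x ∈ S, x < n) (hn' : ∀ x ∈ S', x < n)
    (hl : S.length = S'.length) (hd : S.sum = S'.sum) :
    (mI KI W S S' : ℝ) = (W : ℝ) ^ S.length * MF K S.toFinset S'.toFinset := by
  unfold mI
  simp only [fM_eq, fL_eq, fN_eq]
  set C := S.filter (· ∈ S') with hCdef
  set D := S.filter (· ∉ S') with hDdef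
  set D' := S'.filter (· ∉ S) with hD'def
  have hC : C.Nodup := hS.filter _
  have hD : D.Nodup := hS.filter _
  have hD' : D'.Nodup := hS'.filter _
  have fC : C.toFinset = S.toFinset ∩ S'.toFinset := by
    ext x; simp [hCdef]
  have fD : D.toFinset = S.toFinset \ S'.toFinset := by
    ext x; simp [hDdef]
  have fD' : D'.toFinset = S'.toFinset \ S.toFinset := by
    ext x; simp [hD'def]
  have cS : S.toFinset.card = S.length := List.toFinset_card_of_nodup hS
  have cS' : S'.toFinset.card = S'.length := List.toFinset_card_of_nodup hS'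
  have cD : D.toFinset.card = D.length := List.toFinset_card_of_nodup hD
  have c1 : D.toFinset.card + C.toFinset.card = S.length := by
    rw [fD, fC, card_sdiff_add_card_inter, cS]
  have c2 : D'.toFinset.card + C.toFinset.card = S'.length := by
    rw [fD', fC, inter_comm, card_sdiff_add_card_inter, cS']
  have sS : ∑ i ∈ S.toFinset, i = S.sum := by
    rw [List.sum_toFinset _ hS, List.map_id']
  have sS' : ∑ i ∈ S'.toFinset, i = S'.sum := by
    rw [List.sum_toFinset _ hS', List.map_id']
  have s1 : ∑ i ∈ C.toFinset, i + ∑ i ∈ D.toFinset, i = S.sum := by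
    rw [fD, fC, sum_inter_add_sum_sdiff, sS]
  have s2 : ∑ i ∈ C.toFinset, i + ∑ i ∈ D'.toFinset, i = S'.sum := by
    rw [fD', fC, inter_comm, sum_inter_add_sum_sdiff, sS']
  have u1 : ∀ T ∈ C.toFinset.powerset, S.toFinset \ T = D.toFinset ∪ (C.toFinset \ T) := by
    intro T hTm
    have hTm' := mem_powerset.1 hTm
    ext x
    have := @hTm' x
    rw [fC] at this
    simp only [fC, fD, mem_sdiff, mem_union, mem_inter] at this ⊢
    tauto
  have u2 : ∀ T ∈ C.toFinset.powerset, S'.toFinset \ T = D'.toFinset ∪ (C.toFinset \ T) := by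
    intro T hTm
    have hTm' := mem_powerset.1 hTm
    ext x
    have := @hTm' x
    rw [fC] at this
    simp only [fC, fD', mem_sdiff, mem_union, mem_inter] at this ⊢
    tauto
  have hCD : ∀ t ∈ C, t ∉ D.toFinset := by
    intro t ht
    have : t ∈ C.toFinset := List.mem_toFinset.2 ht
    rw [fC] at this
    rw [fD]
    exact fun hx => (mem_sdiff.1 hx).2 (mem_inter.1 this).2
  have hCD' : ∀ t ∈ C, t ∉ D'.toFinset := by
    intro t ht
    have : t ∈ C.toFinset := List.mem_toFinset.2 ht
    rw [fC] at this
    rw [fD']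
    exact fun hx => (mem_sdiff.1 hx).2 (mem_inter.1 this).1
  have hCn : ∀ t ∈ C, t < n := fun t ht => hn t (List.mem_of_mem_filter ht)
  unfold MF
  rw [← fC]
  split_ifs with h4
  · rw [FgMI_key D hD, FgMI_key D' hD', FgMI_mrec hK hT _ _ C hC hCn D.toFinset D'.toFinset _
      (fun x hx => mem_range.2 (hn x (List.mem_of_mem_filter (List.mem_toFinset.1 hx))))
      (fun x hx => mem_range.2 (hn' x (List.mem_of_mem_filter (List.mem_toFinset.1 hx))))
      (by omega) (by omega) (by omega) hCD hCD', mul_sum, mul_sum, Int.cast_sum]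
    refine sum_congr rfl fun T hTm => ?_
    have hTm' := mem_powerset.1 hTm
    have d1 : Disjoint D.toFinset (C.toFinset \ T) :=
      disjoint_right.2 fun x hx => hCD x (List.mem_toFinset.1 (mem_sdiff.1 hx).1)
    have d2 : Disjoint D'.toFinset (C.toFinset \ T) :=
      disjoint_right.2 fun x hx => hCD' x (List.mem_toFinset.1 (mem_sdiff.1 hx).1)
    have he : epsF T (D.toFinset ∪ (C.toFinset \ T)) * epsF T (D'.toFinset ∪ (C.toFinset \ T)) =
        ∏ t ∈ T, (sgGt t D * sgGt t D') := by
      rw [FgMI_eps_union T d1, FgMI_eps_union T d2, FgMI_eps T D hD, FgMI_eps T D' hD',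
        prod_mul_distrib, mul_mul_mul_comm, FgMI_eps_sq, mul_one]
    have hc : S.length = D.length + (C.toFinset \ T).card + T.card := by
      have := card_sdiff_add_card_eq_card hTm'
      omega
    have hw : ((∏ t ∈ T, ((W / t.factorial : ℕ) : ℤ) : ℤ) : ℝ) =
        (W : ℝ) ^ T.card * ∏ k ∈ T, ((k.factorial : ℝ))⁻¹ := by
      rw [Int.cast_prod, ← prod_const, ← prod_mul_distrib]
      refine prod_congr rfl fun t ht => ?_
      have ht' : t < n := hCn t (List.mem_toFinset.1 (hTm' ht))
      rw [Int.cast_natCast, Nat.cast_div (hW t ht') (by exact_mod_cast t.factorial_ne_zero),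
        div_eq_mul_inv]
    rw [u1 T hTm, u2 T hTm, he, hc, prod_mul_distrib (f := fun t => sgGt t D * sgGt t D'),
      Int.cast_mul, Int.cast_mul, Int.cast_mul, Int.cast_mul, hw]
    push_cast
    ring
  · rw [Int.cast_zero, sum_eq_zero, mul_zero]
    intro T hTm
    have : K (S.toFinset \ T) (S'.toFinset \ T) = 0 := by
      by_contra hne
      have h5 := (hK _ _ hne).2.1
      rw [u1 T hTm] at h5
      have h6 := card_le_card (subset_union_left (s₁ := D.toFinset) (s₂ := C.toFinset \ T))
      omega
    rw [this]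
    simp

end Crest.Agent.R340
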