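import Crest.Agent.R340.FgDefs

/-! Row 340: the numbers s, ν, φ, μ. -/

set_option autoImplicit false

namespace Crest.Agent.R340

open Matrix Finset Filter Topology

lemma FgNum_choose (n k : ℕ) :
    (n.choose (k + 1) : ℝ) * ((k : ℝ) + 1) = (n.choose k : ℝ) * ((n : ℝ) - k) := by
  rcases le_or_gt k n with h | h
  · have := Nat.choose_succ_right_eq n k
    have h2 : ((n.choose (k + 1) * (k + 1) : ℕ) : ℝ) = ((n.choose k * (n - k) : ℕ) : ℝ) := by
      rw [this]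
    push_cast [Nat.cast_sub h] at h2
    exact h2
  · rw [Nat.choose_eq_zero_of_lt h, Nat.choose_eq_zero_of_lt (by omega)]
    simp

lemma sQ_nonneg (Q k : ℕ) : 0 ≤ sQ Q k := by
  unfold sQ; positivity

lemma sQ_zero (Q : ℕ) : sQ Q 0 = 1 := by
  simp [sQ]

lemma sQ_one {Q : ℕ} (hQ : 1 ≤ Q) : sQ Q 1 = 1 := by
  have : (Q : ℝ) ≠ 0 := by positivity
  simp [sQ, this]

lemma sQ_succ {Q : ℕ} (hQ : 1 ≤ Q) (k : ℕ) : sQ Q (k + 1) = phQ Q (k + 1) * sQ Q k := by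
  have hq : (Q : ℝ) ≠ 0 := by positivity
  have h := FgNum_choose Q k
  unfold sQ phQ
  rw [Nat.factorial_succ]
  push_cast
  have e : (((k : ℝ) + 1) * (k.factorial : ℝ)) ^ 2 * (Q.choose (k + 1) : ℝ)
      = ((k : ℝ) + 1) * (k.factorial : ℝ) ^ 2 * ((Q.choose k : ℝ) * ((Q : ℝ) - k)) := by
    rw [← h]; ring
  rw [e]
  field_simp
  ring

lemma sQ_pos {Q k : ℕ} (hQ : 1 ≤ Q) (hk : k ≤ Q) : 0 < sQ Q k := by
  have h1 : 0 < Q.choose k := Nat.choose_pos hk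
  have h2 := Nat.factorial_pos k
  unfold sQ; positivity

lemma sQ_eq_zero {Q k : ℕ} (hk : Q < k) : sQ Q k = 0 := by
  simp [sQ, Nat.choose_eq_zero_of_lt hk]

lemma sQ_le {Q : ℕ} (hQ : 1 ≤ Q) (k : ℕ) : sQ Q k ≤ (k.factorial : ℝ) := by
  have hq : (0 : ℝ) < Q := by positivity
  induction k with
  | zero => simp [sQ_zero]
  | succ k ih =>
    rw [sQ_succ hQ, Nat.factorial_succ]
    have h1 : phQ Q (k + 1) ≤ (k : ℝ) + 1 := by
      unfold phQ
      rw [div_le_iff₀ hq]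
      push_cast
      have : (0 : ℝ) ≤ k := by positivity
      nlinarith
    have h0 := sQ_nonneg Q k
    push_cast
    calc phQ Q (k + 1) * sQ Q k ≤ ((k : ℝ) + 1) * sQ Q k := mul_le_mul_of_nonneg_right h1 h0
      _ ≤ ((k : ℝ) + 1) * (k.factorial : ℝ) := mul_le_mul_of_nonneg_left ih (by positivity)

lemma nuQ_nonneg (Q m : ℕ) : 0 ≤ nuQ Q m := by
  unfold nuQ; positivity

lemma nuQ_zero (Q : ℕ) : nuQ Q 0 = 1 := by
  simp [nuQ]

lemma nuQ_succ {Q : ℕ} (hQ : 1 ≤ Q) (m : ℕ) : nuQ Q (m + 1) = muQ Q (m + 1) * nuQ Q m := by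
  have hq : (Q : ℝ) ≠ 0 := by positivity
  have h := FgNum_choose (2 * Q - 2) m
  have hc : ((2 * Q - 2 : ℕ) : ℝ) = 2 * (Q : ℝ) - 2 := by
    rw [Nat.cast_sub (by omega)]; push_cast; ring
  rw [hc] at h
  unfold nuQ muQ
  rw [Nat.factorial_succ]
  push_cast
  have e : (((m : ℝ) + 1) * (m.factorial : ℝ)) ^ 2 * ((2 * Q - 2).choose (m + 1) : ℝ)
      = ((m : ℝ) + 1) * (m.factorial : ℝ) ^ 2 *
        (((2 * Q - 2).choose m : ℝ) * (2 * (Q : ℝ) - 2 - m)) := by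
    rw [← h]; ring
  rw [e]
  field_simp
  ring

lemma nuQ_pos {Q m : ℕ} (hQ : 1 ≤ Q) (hm : m < 2 * Q - 1) : 0 < nuQ Q m := by
  have h1 : 0 < (2 * Q - 2).choose m := Nat.choose_pos (by omega)
  have h2 := Nat.factorial_pos m
  unfold nuQ; positivity

lemma nuQ_le {Q : ℕ} (hQ : 1 ≤ Q) (m : ℕ) : nuQ Q m ≤ (m.factorial : ℝ) * 2 ^ m := by
  have hq : (0 : ℝ) < Q := by positivity
  induction m with
  | zero => simp [nuQ_zero]
  | succ k ih =>
    rw [nuQ_succ hQ, Nat.factorial_succ]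
    have h1 : muQ Q (k + 1) ≤ 2 * ((k : ℝ) + 1) := by
      unfold muQ
      rw [div_le_iff₀ hq]
      push_cast
      have : (0 : ℝ) ≤ k := by positivity
      nlinarith
    have h0 := nuQ_nonneg Q k
    push_cast
    calc muQ Q (k + 1) * nuQ Q k ≤ (2 * ((k : ℝ) + 1)) * nuQ Q k :=
          mul_le_mul_of_nonneg_right h1 h0
      _ ≤ (2 * ((k : ℝ) + 1)) * ((k.factorial : ℝ) * 2 ^ k) :=
          mul_le_mul_of_nonneg_left ih (by positivity)
      _ = _ := by ring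

lemma tendsto_phQ (k : ℕ) : Tendsto (fun Q => phQ Q k) atTop (𝓝 (k : ℝ)) := by
  have h : Tendsto (fun Q : ℕ => (k : ℝ) * (1 + (1 - (k : ℝ)) / (Q : ℝ))) atTop
      (𝓝 ((k : ℝ) * (1 + 0))) :=
    ((tendsto_const_div_atTop_nhds_zero_nat (1 - (k : ℝ))).const_add 1).const_mul _
  rw [add_zero, mul_one] at h
  refine h.congr' ?_
  filter_upwards [eventually_ge_atTop 1] with Q hQ
  have hq : (Q : ℝ) ≠ 0 := by positivity
  unfold phQ
  field_simp
  ring

lemma tendsto_muQ (m : ℕ) : Tendsto (fun Q => muQ Q m) atTop (𝓝 (2 * (m : ℝ))) := by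
  have h : Tendsto (fun Q : ℕ => (m : ℝ) * (2 + (-1 - (m : ℝ)) / (Q : ℝ))) atTop
      (𝓝 ((m : ℝ) * (2 + 0))) :=
    ((tendsto_const_div_atTop_nhds_zero_nat (-1 - (m : ℝ))).const_add 2).const_mul _
  rw [add_zero, mul_comm] at h
  refine h.congr' ?_
  filter_upwards [eventually_ge_atTop 1] with Q hQ
  have hq : (Q : ℝ) ≠ 0 := by positivity
  unfold muQ
  field_simp
  ring

lemma tendsto_sQ (k : ℕ) : Tendsto (fun Q => sQ Q k) atTop (𝓝 (k.factorial : ℝ)) := by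
  induction k with
  | zero => simp [sQ_zero]
  | succ k ih =>
    have h := (tendsto_phQ (k + 1)).mul ih
    rw [Nat.factorial_succ, Nat.cast_mul]
    refine h.congr' ?_
    filter_upwards [eventually_ge_atTop 1] with Q hQ
    rw [sQ_succ hQ]

lemma tendsto_nuQ (m : ℕ) :
    Tendsto (fun Q => nuQ Q m) atTop (𝓝 ((m.factorial : ℝ) * 2 ^ m)) := by
  induction m with
  | zero => simp [nuQ_zero]
  | succ k ih =>
    have h := (tendsto_muQ (k + 1)).mul ih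
    have e : (((k + 1).factorial : ℕ) : ℝ) * 2 ^ (k + 1)
        = 2 * ((k + 1 : ℕ) : ℝ) * ((k.factorial : ℝ) * 2 ^ k) := by
      rw [Nat.factorial_succ]; push_cast; ring
    rw [e]
    refine h.congr' ?_
    filter_upwards [eventually_ge_atTop 1] with Q hQ
    rw [nuQ_succ hQ]

end Crest.Agent.R340
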