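import Crest.Agent.R340.FgDefs

/-! Row 340: invariant forms on two oscillators. -/

set_option autoImplicit false

namespace Crest.Agent.R340

open Matrix Finset Filter Topology

lemma chF_eq (n k : ℕ) : chF n k = n.choose k := by
  unfold chF
  split_ifs with h
  · exact (Nat.choose_eq_factorial_div_factorial h).symm
  · exact (Nat.choose_eq_zero_of_lt (not_le.1 h)).symm

lemma osc_T_eq (α β m k l : ℕ) : ((oscT α β m k l : ℤ) : ℝ) = ∑ s ∈ range (l + 1),
    if s ≤ m ∧ l - s ≤ k then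
      (m.choose s : ℝ) * (α : ℝ) ^ (m - s) * (k.choose (l - s) : ℝ) * (β : ℝ) ^ (k - (l - s)) *
        (-1) ^ (l - s)
    else 0 := by
  have : ∀ (f : ℕ → ℤ) (n : ℕ), ((List.range n).map f).sum = ∑ s ∈ range n, f s := by
    intro f n
    induction n with
    | zero => simp
    | succ n ih => rw [List.range_succ, List.map_append, List.sum_append, ih, sum_range_succ]; simp
  unfold oscT
  rw [this]
  push_cast
  simp only [chF_eq]

section abs
variable {P : Type} [CommRing P] [Algebra ℝ P]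

lemma osc_expand (α β m k : ℕ) (u v : P) :
    ((α : ℝ) • u + v) ^ m * ((β : ℝ) • u - v) ^ k =
      ∑ l ∈ range (m + k + 1), ((oscT α β m k l : ℤ) : ℝ) • (u ^ (m + k - l) * v ^ l) := by
  let f : ℕ → ℕ → P := fun s t => (if s ≤ m ∧ t ≤ k then
      (m.choose s : ℝ) * (α : ℝ) ^ (m - s) * (k.choose t : ℝ) * (β : ℝ) ^ (k - t) * (-1) ^ t
    else 0) • (u ^ (m + k - (s + t)) * v ^ (s + t))
  have h1 : ∑ l ∈ range (m + k + 1), ((oscT α β m k l : ℤ) : ℝ) • (u ^ (m + k - l) * v ^ l) =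
      ∑ l ∈ range (m + k + 1), ∑ s ∈ range (l + 1), f s (l - s) := by
    refine sum_congr rfl fun l _ => ?_
    rw [osc_T_eq, sum_smul]
    refine sum_congr rfl fun s hs => ?_
    have : s + (l - s) = l := by have := mem_range.1 hs; omega
    simp only [f, this]
  rw [h1, sum_range_diag_flip]
  have h2 : ∑ s ∈ range (m + k + 1), ∑ t ∈ range (m + k + 1 - s), f s t =
      ∑ s ∈ range (m + 1), ∑ t ∈ range (m + k + 1 - s), f s t := by
    refine (sum_subset (range_subset_range.2 (by omega)) fun s _ hs => sum_eq_zero fun t _ => ?_).symm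
    have : ¬ (s ≤ m ∧ t ≤ k) := by rw [mem_range] at hs; omega
    simp only [f, if_neg this, zero_smul]
  rw [h2, add_comm _ v, sub_eq_neg_add, add_pow, add_pow, sum_mul_sum]
  refine sum_congr rfl fun s hs => ?_
  rw [mem_range] at hs
  have h3 : ∑ t ∈ range (m + k + 1 - s), f s t = ∑ t ∈ range (k + 1), f s t := by
    refine (sum_subset (range_subset_range.2 (by omega)) fun t _ ht => ?_).symm
    have : ¬ (s ≤ m ∧ t ≤ k) := by rw [mem_range] at ht; omega
    simp only [f, if_neg this, zero_smul]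
  rw [h3]
  refine sum_congr rfl fun t ht => ?_
  rw [mem_range] at ht
  have h4 : s ≤ m ∧ t ≤ k := by omega
  have h5 : m + k - (s + t) = (m - s) + (k - t) := by omega
  simp only [f, if_pos h4, h5, Algebra.smul_def, map_mul, map_pow, map_natCast, map_neg, map_one]
  rw [neg_pow v]
  ring

lemma osc_orth (B : P →ₗ[ℝ] P →ₗ[ℝ] ℝ) (D : Derivation ℝ P P) (u v : P) (S : ℝ)
    (hs : ∀ p q, B p q = B q p) (hr : ∀ p q, B (u * p) q = B p (D q))
    (hu : D u = S • (1 : P)) (hv : D v = 0) (i : ℕ) : ∀ i' l l' : ℕ, i + l = i' + l' →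
      B (u ^ i * v ^ l) (u ^ i' * v ^ l') =
        if l = l' then S ^ i * i.factorial * B (v ^ l) (v ^ l) else 0 := by
  have hA : ∀ i i' l l' : ℕ, B (u ^ (i + 1) * v ^ l) (u ^ i' * v ^ l') =
      S * i' * B (u ^ i * v ^ l) (u ^ (i' - 1) * v ^ l') := by
    intro i i' l l'
    have : D (u ^ i' * v ^ l') = (S * i') • (u ^ (i' - 1) * v ^ l') := by
      rw [Derivation.leibniz, Derivation.leibniz_pow, Derivation.leibniz_pow, hu, hv]
      simp only [Algebra.smul_def, map_mul, map_natCast, mul_zero, Algebra.algebraMap_self,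
        RingHom.id_apply, eq_natCast]
      ring
    rw [pow_succ', mul_assoc, hr, this, map_smul, smul_eq_mul]
  induction i with
  | zero =>
    intro i' l l' h
    rcases i' with _ | j
    · have : l = l' := by omega
      subst this; simp
    · rw [hs, hA, if_neg (by omega)]; simp
  | succ i ih =>
    intro i' l l' h
    rw [hA]
    rcases i' with _ | j
    · rw [if_neg (by omega)]; simp
    · rw [Nat.add_sub_cancel, ih j l l' (by omega)]
      split_ifs with h1
      · have : j = i := by omega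
        subst this
        rw [Nat.factorial_succ]; push_cast; ring
      · simp

lemma osc_abs (α β : ℕ) (hαβ : 0 < α + β) (G : ℕ → ℕ → ℕ → ℕ → ℝ)
    (hp : ∀ (d : ℕ) (z : ℕ → ℝ),
      0 ≤ ∑ s ∈ range (d + 1), ∑ s' ∈ range (d + 1), z s * z s' * G s (d - s) s' (d - s'))
    (B : P →ₗ[ℝ] P →ₗ[ℝ] ℝ) (D : Derivation ℝ P P) (x y : P)
    (hG : ∀ m k m' k', B (x ^ m * y ^ k) (x ^ m' * y ^ k') = G m k m' k')
    (hs : ∀ p q, B p q = B q p) (hr : ∀ p q, B ((x + y) * p) q = B p (D q))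
    (hx : D x = (α : ℝ) • (1 : P)) (hy : D y = (β : ℝ) • (1 : P)) :
    ∃ γ : ℕ → ℝ, (∀ l, 0 ≤ γ l) ∧ ∀ m k m' k', m + k = m' + k' →
      G m k m' k' = ∑ l ∈ range (m + k + 1), γ l * (((m + k - l).factorial : ℝ) *
        ((oscT α β m k l * oscT α β m' k' l : ℤ) : ℝ) / ((α + β : ℕ) : ℝ) ^ (m + k + l)) := by
  obtain ⟨v, hv⟩ : ∃ v : P, v = (β : ℝ) • x + (-(α : ℝ)) • y := ⟨_, rfl⟩
  obtain ⟨S, hS⟩ : ∃ S : ℝ, S = ((α + β : ℕ) : ℝ) := ⟨_, rfl⟩
  have hS0 : S ≠ 0 := by rw [hS]; exact_mod_cast hαβ.ne'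
  have hS' : S = (α : ℝ) + β := by rw [hS]; push_cast; rfl
  have hDu : D (x + y) = S • (1 : P) := by rw [map_add, hx, hy, hS', add_smul]
  have hDv : D v = 0 := by
    rw [hv, map_add, Derivation.map_smul, Derivation.map_smul, hx, hy, smul_smul, smul_smul,
      ← add_smul]
    rw [show (β : ℝ) * α + -(α : ℝ) * β = 0 by ring, zero_smul]
  refine ⟨fun l => B (v ^ l) (v ^ l), fun l => ?_, fun m k m' k' hd => ?_⟩
  · have e : v ^ l = ∑ s ∈ range (l + 1),
        ((β : ℝ) ^ s * (-(α : ℝ)) ^ (l - s) * l.choose s) • (x ^ s * y ^ (l - s)) := by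
      rw [hv, add_pow]
      refine sum_congr rfl fun s _ => ?_
      simp only [Algebra.smul_def, map_mul, map_pow, map_natCast]
      ring
    have := hp l fun s => (β : ℝ) ^ s * (-(α : ℝ)) ^ (l - s) * l.choose s
    refine this.trans_eq ?_
    simp only [e, map_sum, map_smul, LinearMap.sum_apply, LinearMap.smul_apply, smul_eq_mul, hG]
    rw [sum_comm]
    refine sum_congr rfl fun s _ => ?_
    rw [mul_sum]
    exact sum_congr rfl fun s' _ => by ring
  · have e1 : (α : ℝ) • (x + y) + v = S • x := by rw [hv, hS']; module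
    have e2 : (β : ℝ) • (x + y) - v = S • y := by rw [hv, hS']; module
    have e : ∀ m k : ℕ, S ^ (m + k) • (x ^ m * y ^ k) = ∑ l ∈ range (m + k + 1),
        ((oscT α β m k l : ℤ) : ℝ) • ((x + y) ^ (m + k - l) * v ^ l) := by
      intro m k
      rw [← osc_expand, e1, e2, smul_pow, smul_pow, smul_mul_smul_comm, pow_add]
    have e3 : S ^ (m + k) * S ^ (m + k) * G m k m' k' = ∑ l ∈ range (m + k + 1),
        ((oscT α β m k l : ℤ) : ℝ) * ((oscT α β m' k' l : ℤ) : ℝ) *
          (S ^ (m + k - l) * (m + k - l).factorial * B (v ^ l) (v ^ l)) := by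
      have : S ^ (m + k) * S ^ (m + k) * G m k m' k' =
          B (S ^ (m + k) • (x ^ m * y ^ k)) (S ^ (m' + k') • (x ^ m' * y ^ k')) := by
        simp only [map_smul, LinearMap.smul_apply, smul_eq_mul, hG, hd]
        ring
      rw [this, e, e, ← hd, map_sum B, LinearMap.sum_apply]
      refine sum_congr rfl fun l hl => ?_
      rw [map_sum, sum_eq_single l]
      · simp only [map_smul, LinearMap.smul_apply, smul_eq_mul]
        rw [osc_orth B D _ v S hs hr hDu hDv _ _ _ _ rfl, if_pos rfl]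
        ring
      · intro l' hl' hne
        rw [mem_range] at hl hl'
        simp only [map_smul, LinearMap.smul_apply, smul_eq_mul]
        rw [osc_orth B D _ v S hs hr hDu hDv _ _ _ _ (by omega), if_neg hne.symm]
        ring
      · intro h; exact absurd hl h
    have e4 : G m k m' k' = (S ^ (m + k) * S ^ (m + k))⁻¹ *
        (S ^ (m + k) * S ^ (m + k) * G m k m' k') := by field_simp
    rw [e4, e3, mul_sum, ← hS]
    refine sum_congr rfl fun l hl => ?_
    rw [mem_range] at hl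
    have e5 : S ^ (m + k) * S ^ (m + k) = S ^ (m + k + l) * S ^ (m + k - l) := by
      rw [← pow_add, ← pow_add]; congr 1; omega
    rw [e5]
    push_cast
    field_simp

end abs

open MvPolynomial in
lemma osc_mon (s : Fin 2 →₀ ℕ) :
    (basisMonomials (Fin 2) ℝ) s = X 0 ^ s 0 * X 1 ^ s 1 := by
  rw [coe_basisMonomials]
  simp only [monomial_eq, Finsupp.prod_fintype _ _ (fun _ => pow_zero _), Fin.prod_univ_two, map_one,
    one_mul]

open MvPolynomial in
theorem osc_structure (α β : ℕ) (hαβ : 0 < α + β) (G : ℕ → ℕ → ℕ → ℕ → ℝ)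
    (h : OscRel (fun m => (α : ℝ) * m) (fun k => (β : ℝ) * k) G) :
    ∃ γ : ℕ → ℝ, (∀ l, 0 ≤ γ l) ∧ ∀ m k m' k', m + k = m' + k' →
      G m k m' k' = ∑ l ∈ range (m + k + 1), γ l * (((m + k - l).factorial : ℝ) *
        ((oscT α β m k l * oscT α β m' k' l : ℤ) : ℝ) / ((α + β : ℕ) : ℝ) ^ (m + k + l)) := by
  obtain ⟨B, hB⟩ : ∃ B : MvPolynomial (Fin 2) ℝ →ₗ[ℝ] MvPolynomial (Fin 2) ℝ →ₗ[ℝ] ℝ,
      ∀ s t, B (basisMonomials (Fin 2) ℝ s) (basisMonomials (Fin 2) ℝ t) =
        G (s 0) (s 1) (t 0) (t 1) :=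
    ⟨(basisMonomials (Fin 2) ℝ).constr ℝ fun s => (basisMonomials (Fin 2) ℝ).constr ℝ
      fun t => G (s 0) (s 1) (t 0) (t 1), fun s t => by
        rw [Module.Basis.constr_basis, Module.Basis.constr_basis]⟩
  have hG : ∀ m k m' k', B (X 0 ^ m * X 1 ^ k) (X 0 ^ m' * X 1 ^ k') = G m k m' k' := by
    intro m k m' k'
    have := hB (Finsupp.single 0 m + Finsupp.single 1 k) (Finsupp.single 0 m' + Finsupp.single 1 k')
    rw [osc_mon, osc_mon] at this
    simpa using this
  obtain ⟨D, hx, hy⟩ : ∃ D : Derivation ℝ (MvPolynomial (Fin 2) ℝ) (MvPolynomial (Fin 2) ℝ),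
      D (X 0) = (α : ℝ) • 1 ∧ D (X 1) = (β : ℝ) • 1 :=
    ⟨mkDerivation ℝ ![(α : ℝ) • 1, (β : ℝ) • 1], by rw [mkDerivation_X]; rfl,
      by rw [mkDerivation_X]; rfl⟩
  refine osc_abs α β hαβ G h.psd B D (X 0) (X 1) hG (fun p q => ?_) (fun p q => ?_) hx hy
  · have : B = B.flip := LinearMap.ext_basis (basisMonomials (Fin 2) ℝ) (basisMonomials (Fin 2) ℝ)
      fun s t => by rw [LinearMap.flip_apply, hB, hB, h.symm]
    conv_lhs => rw [this]
    rfl
  · have : B.compl₁₂ (LinearMap.mulLeft ℝ (X 0 + X 1)) LinearMap.id =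
        B.compl₁₂ LinearMap.id D.toLinearMap :=
      LinearMap.ext_basis (basisMonomials (Fin 2) ℝ) (basisMonomials (Fin 2) ℝ) fun s t => by
        simp only [LinearMap.compl₁₂_apply, LinearMap.mulLeft_apply, LinearMap.id_apply, osc_mon,
          Derivation.coeFn_coe]
        have e1 : (X 0 + X 1) * (X 0 ^ s 0 * X 1 ^ s 1 : MvPolynomial (Fin 2) ℝ) =
            X 0 ^ (s 0 + 1) * X 1 ^ s 1 + X 0 ^ s 0 * X 1 ^ (s 1 + 1) := by ring
        have e2 : D (X 0 ^ t 0 * X 1 ^ t 1) =
            ((α : ℝ) * t 0) • (X 0 ^ (t 0 - 1) * X 1 ^ t 1) +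
              ((β : ℝ) * t 1) • (X 0 ^ t 0 * X 1 ^ (t 1 - 1)) := by
          rw [Derivation.leibniz, Derivation.leibniz_pow, Derivation.leibniz_pow, hx, hy]
          simp only [Algebra.smul_def, map_mul, map_natCast, Algebra.algebraMap_self,
            RingHom.id_apply, eq_natCast]
          ring
        rw [e1, e2]
        simp only [map_add, map_smul, LinearMap.add_apply, smul_eq_mul, hG]
        exact h.rel _ _ _ _
    exact congrFun (congrArg DFunLike.coe (congrFun (congrArg DFunLike.coe this) p)) q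

end Crest.Agent.R340
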