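import Crest.Agent.R340.FgOsc

/-! Row 340: soundness of the coefficient checks. -/

set_option autoImplicit false

namespace Crest.Agent.R340

open Matrix Finset Filter Topology

theorem pl_lin_cons (e : ℕ × ℕ × ℕ × ℕ × ℚ) (c : CL) (G : ℕ → ℕ → ℕ → ℕ → ℝ) :
    lin (e :: c) G = (e.2.2.2.2 : ℝ) * G e.1 e.2.1 e.2.2.1 e.2.2.2.1 + lin c G := by
  simp only [lin, List.map_cons, List.sum_cons]

theorem pl_lin_append (c c' : CL) (G : ℕ → ℕ → ℕ → ℕ → ℝ) :
    lin (c ++ c') G = lin c G + lin c' G := by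
  simp only [lin, List.map_append, List.sum_append]

theorem pl_lin_eq (α β D : ℕ) (G : ℕ → ℕ → ℕ → ℕ → ℝ) (γ : ℕ → ℝ)
    (hG : ∀ m k m' k', m + k = m' + k' →
      G m k m' k' = ∑ l ∈ range (m + k + 1), γ l * (((m + k - l).factorial : ℝ) *
        ((oscT α β m k l * oscT α β m' k' l : ℤ) : ℝ) / ((α + β : ℕ) : ℝ) ^ (m + k + l)))
    (c : CL) (hc : ∀ e ∈ c, e.1 + e.2.1 = e.2.2.1 + e.2.2.2.1 ∧ e.1 + e.2.1 ≤ D) :
    lin c G = ∑ l ∈ range (D + 1), γ l * (oscCoef α β c l : ℝ) := by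
  induction c with
  | nil => simp [lin, oscCoef]
  | cons e c ih =>
    obtain ⟨h1, h2⟩ := hc e List.mem_cons_self
    rw [pl_lin_cons, ih fun e' he' => hc e' (List.mem_cons_of_mem _ he'), hG _ _ _ _ h1]
    simp only [oscCoef, List.map_cons, List.sum_cons, Rat.cast_add, mul_add, sum_add_distrib]
    congr 1
    rw [mul_sum]
    have hs : range (e.1 + e.2.1 + 1) = (range (D + 1)).filter fun l => l ≤ e.1 + e.2.1 := by
      ext l
      simp only [mem_range, mem_filter]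
      omega
    rw [hs, sum_filter]
    refine sum_congr rfl fun l _ => ?_
    split_ifs
    · push_cast
      ring
    · simp

theorem lin_nonneg_of_oscOK (α β D : ℕ) (hαβ : 0 < α + β) (c : CL) (hc : oscOK α β D c = true)
    (G : ℕ → ℕ → ℕ → ℕ → ℝ) (h : OscRel (fun m => (α : ℝ) * m) (fun k => (β : ℝ) * k) G) :
    0 ≤ lin c G := by
  obtain ⟨γ, h0, hG⟩ := osc_structure α β hαβ G h
  simp only [oscOK, Bool.and_eq_true, List.all_eq_true, decide_eq_true_eq, List.mem_range] at hc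
  rw [pl_lin_eq α β D G γ hG c hc.1]
  refine sum_nonneg fun l hl => mul_nonneg (h0 l) ?_
  exact_mod_cast hc.2 l (mem_range.1 hl)

/-- The list with the opposite coefficients. -/
def negCL (c : CL) : CL := c.map fun e => (e.1, e.2.1, e.2.2.1, e.2.2.2.1, -e.2.2.2.2)

/-- The tail terms `a_k (1 - n_k)`. -/
def tailCL (a : List (ℕ × ℚ)) : CL := a.map fun e => (0, e.1, 0, e.1, e.2 / (e.1.factorial : ℚ))

/-- The cost of a certificate. -/
def certCost (c2 a : List (ℕ × ℚ)) : ℚ :=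
  (c2.map fun e => e.2 * ((e.1.factorial : ℚ) * 2 ^ e.1)).sum + (a.map fun e => e.2).sum

theorem pl_lin_neg (c : CL) (G : ℕ → ℕ → ℕ → ℕ → ℝ) : lin (negCL c) G = -lin c G := by
  induction c with
  | nil => simp [lin, negCL]
  | cons e c ih =>
    have : negCL (e :: c) = (e.1, e.2.1, e.2.2.1, e.2.2.2.1, -e.2.2.2.2) :: negCL c := rfl
    rw [this, pl_lin_cons, pl_lin_cons, ih]
    push_cast
    ring

theorem pl_lin_tail (a : List (ℕ × ℚ)) (ha : ∀ e ∈ a, 0 ≤ e.2) (G : ℕ → ℕ → ℕ → ℕ → ℝ)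
    (hG : ∀ k, G 0 k 0 k ≤ (k.factorial : ℝ)) :
    lin (tailCL a) G ≤ (((a.map fun e => e.2).sum : ℚ) : ℝ) := by
  induction a with
  | nil => simp [lin, tailCL]
  | cons e a ih =>
    have : tailCL (e :: a) = (0, e.1, 0, e.1, e.2 / (e.1.factorial : ℚ)) :: tailCL a := rfl
    rw [this, pl_lin_cons, List.map_cons, List.sum_cons, Rat.cast_add]
    refine add_le_add ?_ (ih fun e' he' => ha e' (List.mem_cons_of_mem _ he'))
    have h0 : (0 : ℝ) ≤ (e.2 : ℝ) := by exact_mod_cast ha e List.mem_cons_self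
    have h1 : (0 : ℝ) < (e.1.factorial : ℝ) := by exact_mod_cast e.1.factorial_pos
    push_cast
    rw [div_mul_eq_mul_div, div_le_iff₀ h1]
    exact mul_le_mul_of_nonneg_left (hG _) h0

theorem pl_cast (c2 : List (ℕ × ℚ)) :
    (((c2.map fun e => e.2 * ((e.1.factorial : ℚ) * 2 ^ e.1)).sum : ℚ) : ℝ) =
      (c2.map fun e => (e.2 : ℝ) * ((e.1.factorial : ℝ) * 2 ^ e.1)).sum := by
  induction c2 with
  | nil => simp
  | cons e c ih =>
    rw [List.map_cons, List.sum_cons, List.map_cons, List.sum_cons, Rat.cast_add, ih]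
    push_cast
    ring

theorem planar_of_checks (c2 a : List (ℕ × ℚ)) (c3 c4 : CL) (D3 D4 : ℕ)
    (ha : a.all (fun e => decide (0 ≤ e.2)) = true)
    (h3 : oscOK 2 1 D3 (E3 ++ negCL c3 ++ tailCL a) = true)
    (h4 : oscOK 2 2 D4 (E4 ++ negCL c4) = true) :
    PlanarBound c2 c3 c4 (certCost c2 a : ℝ) := by
  intro Γ3 Γ4 r3 r4 hk hpos
  have k3 := lin_nonneg_of_oscOK 2 1 D3 (by norm_num) _ h3 Γ3 (by simpa using r3)
  have k4 := lin_nonneg_of_oscOK 2 2 D4 (by norm_num) _ h4 Γ4 (by simpa using r4)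
  simp only [List.all_eq_true, decide_eq_true_eq] at ha
  have k5 := pl_lin_tail a ha Γ3 hk
  rw [pl_lin_append, pl_lin_append, pl_lin_neg] at k3
  rw [pl_lin_append, pl_lin_neg] at k4
  rw [certCost, Rat.cast_add, pl_cast]
  linarith

end Crest.Agent.R340
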