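import Crest.Agent.R340.FgNum

/-! Row 340: transfer of the planar local inequality to finite flux. -/

set_option autoImplicit false

namespace Crest.Agent.R340

open Matrix Finset Filter Topology

/-- The weight `∏_{k ∈ T, k ≤ J} s_Q(k)/k!`. -/
noncomputable def Dl (Q J : ℕ) (T : Finset (Fin (Q + 1))) : ℝ :=
  ∏ k ∈ T.filter (fun k : Fin (Q + 1) => (k : ℕ) ≤ J), sQ Q k / ((k : ℕ).factorial : ℝ)

/-- low part `S`, high part taken from `R` -/
def trEmb {Q : ℕ} (J : ℕ) (R : Finset (Fin (Q + 1))) (S : Finset ℕ) : Finset (Fin (Q + 1)) :=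
  univ.filter fun j => if (j : ℕ) ≤ J then (j : ℕ) ∈ S else j ∈ R

/-- the weight `∏ √s` -/
noncomputable def trW (Q : ℕ) (S : Finset ℕ) : ℝ := ∏ k ∈ S, Real.sqrt (sQ Q k)

/-- linked functions -/
def TrL {Q : ℕ} (J : ℕ) (R : Finset (Fin (Q + 1))) (Ψ : Finset (Fin (Q + 1)) → ℝ)
    (ψ : Finset ℕ → ℝ) : Prop :=
  ∀ S ⊆ range (J + 1), ψ S = trW Q S * Ψ (trEmb J R S)

lemma mem_trEmb {Q J : ℕ} {R : Finset (Fin (Q + 1))} {S : Finset ℕ} {j : Fin (Q + 1)} :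
    j ∈ trEmb J R S ↔ if (j : ℕ) ≤ J then (j : ℕ) ∈ S else j ∈ R := by
  simp only [trEmb, mem_filter, mem_univ, true_and]

lemma trEmb_low {Q J : ℕ} (hJ : J ≤ Q) (R : Finset (Fin (Q + 1))) {S : Finset ℕ}
    (hS : S ⊆ range (J + 1)) :
    ((trEmb J R S).filter fun k : Fin (Q + 1) => (k : ℕ) ≤ J).map Fin.valEmbedding = S := by
  ext k
  simp only [Finset.mem_map, mem_filter, mem_trEmb, Fin.valEmbedding_apply]
  constructor
  · rintro ⟨j, ⟨h1, h2⟩, rfl⟩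
    rwa [if_pos h2] at h1
  · intro hk
    have hk' : k ≤ J := Nat.lt_succ_iff.1 (mem_range.1 (hS hk))
    exact ⟨⟨k, by omega⟩, ⟨by rw [if_pos hk']; exact hk, hk'⟩, rfl⟩

lemma tr_sum_nonneg {Q J : ℕ} (hJ : J ≤ Q) (f : Finset (Fin (Q + 1)) → ℝ)
    (h : ∀ R, 0 ≤ ∑ S ∈ (range (J + 1)).powerset, f (trEmb J R S)) : 0 ≤ ∑ T, f T := by
  rw [← Finset.sum_fiberwise univ
    (fun T : Finset (Fin (Q + 1)) => T.filter fun k : Fin (Q + 1) => ¬ (k : ℕ) ≤ J) f]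
  refine Finset.sum_nonneg fun R _ => ?_
  by_cases hR : ∀ j ∈ R, ¬ (j : ℕ) ≤ J
  · refine (h R).trans_eq (Finset.sum_nbij' (trEmb J R)
      (fun T => (T.filter fun k : Fin (Q + 1) => (k : ℕ) ≤ J).map Fin.valEmbedding)
      (fun S _ => ?_) (fun T _ => ?_) (fun S hS => trEmb_low hJ R (mem_powerset.1 hS))
      (fun T hT => ?_) fun _ _ => rfl)
    · simp only [mem_filter, mem_univ, true_and]
      ext j
      simp only [mem_filter, mem_trEmb]
      constructor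
      · rintro ⟨h1, h2⟩
        rwa [if_neg h2] at h1
      · intro hj
        exact ⟨by rw [if_neg (hR j hj)]; exact hj, hR j hj⟩
    · refine mem_powerset.2 fun k hk => ?_
      simp only [Finset.mem_map, mem_filter, Fin.valEmbedding_apply] at hk
      obtain ⟨j, ⟨_, h2⟩, rfl⟩ := hk
      exact mem_range.2 (Nat.lt_succ_of_le h2)
    · simp only [mem_filter, mem_univ, true_and] at hT
      ext j
      rw [mem_trEmb, ← hT]
      split_ifs with hj
      · simp only [Finset.mem_map, mem_filter, Fin.valEmbedding_apply]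
        constructor
        · rintro ⟨i, ⟨h1, _⟩, h2⟩
          rwa [← Fin.ext h2]
        · intro h1
          exact ⟨j, ⟨h1, hj⟩, rfl⟩
      · simp only [mem_filter, hj, not_false_eq_true, and_true]
  · refine (Finset.sum_eq_zero fun T hT => ?_).ge
    simp only [mem_filter, mem_univ, true_and] at hT
    subst hT
    exact absurd (fun j hj => (mem_filter.1 hj).2) hR

lemma tr_Dl {Q J : ℕ} (hJ : J ≤ Q) (R : Finset (Fin (Q + 1))) {S : Finset ℕ}
    (hS : S ⊆ range (J + 1)) :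
    Dl Q J (trEmb J R S) = (∏ k ∈ S, ((k.factorial : ℝ))⁻¹) * (trW Q S * trW Q S) := by
  unfold Dl trW
  conv_rhs => rw [← trEmb_low hJ R hS]
  rw [← prod_mul_distrib, ← prod_mul_distrib, prod_map]
  refine prod_congr rfl fun k _ => ?_
  rw [Real.mul_self_sqrt (sQ_nonneg _ _), Fin.valEmbedding_apply, div_eq_inv_mul]

lemma TrL.ch {Q J : ℕ} {R : Finset (Fin (Q + 1))} {Ψ : Finset (Fin (Q + 1)) → ℝ}
    {ψ : Finset ℕ → ℝ} (h : TrL J R Ψ ψ) (hJ : J ≤ Q) {k : ℕ} (hk : k ≤ J) :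
    TrL J R (ch Q k *ᵥ Ψ) (annS k ψ) := by
  intro S hS
  have hk' : k < Q + 1 := by omega
  have hmem : (⟨k, hk'⟩ : Fin (Q + 1)) ∈ trEmb J R S ↔ k ∈ S := by
    rw [mem_trEmb, if_pos hk]
  unfold R340.ch annN annS
  rw [dif_pos hk', smul_mulVec, Pi.smul_apply, ann_mulVec, smul_eq_mul]
  by_cases hkS : k ∈ S
  · rw [if_pos hkS, if_pos (hmem.2 hkS)]
    simp
  rw [if_neg hkS, if_neg (fun h' => hkS (hmem.1 h'))]
  have hins : insert (⟨k, hk'⟩ : Fin (Q + 1)) (trEmb J R S) = trEmb J R (insert k S) := by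
    ext j
    rw [mem_insert, mem_trEmb, mem_trEmb]
    split_ifs with hj
    · rw [mem_insert, Fin.ext_iff]
    · constructor
      · rintro (rfl | h')
        · exact absurd hk hj
        · exact h'
      · exact Or.inr
  have hcard : ((trEmb J R S).filter (· < (⟨k, hk'⟩ : Fin (Q + 1)))).card
      = (S.filter (· < k)).card := by
    rw [← card_map Fin.valEmbedding]
    congr 1
    ext i
    simp only [Finset.mem_map, mem_filter, mem_trEmb, Fin.valEmbedding_apply, Fin.lt_def]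
    constructor
    · rintro ⟨j, ⟨h1, h2⟩, rfl⟩
      rw [if_pos (by omega)] at h1
      exact ⟨h1, h2⟩
    · rintro ⟨h1, h2⟩
      exact ⟨⟨i, by omega⟩, ⟨by rw [if_pos (show i ≤ J by omega)]; exact h1, h2⟩, rfl⟩
  have hS' : insert k S ⊆ range (J + 1) :=
    insert_subset (mem_range.2 (Nat.lt_succ_of_le hk)) hS
  rw [h _ hS', hins, sgn, hcard, trW, trW, prod_insert hkS]
  ring

lemma TrL.Bh {Q J : ℕ} {R : Finset (Fin (Q + 1))} {Ψ : Finset (Fin (Q + 1)) → ℝ}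
    {ψ : Finset ℕ → ℝ} (h : TrL J R Ψ ψ) (hJ : J ≤ Q) {m : ℕ} (hm : m < J) :
    TrL J R (Bh Q m *ᵥ Ψ) (BS m ψ) := by
  intro S hS
  unfold R340.Bh BS
  rw [Matrix.sum_mulVec, Finset.sum_apply, mul_sum]
  refine sum_congr rfl fun i hi => ?_
  have hi' : i < m + 1 := mem_range.1 hi
  rw [smul_mulVec, Pi.smul_apply, ← mulVec_mulVec, smul_eq_mul,
    ((h.ch hJ (show i ≤ J by omega)).ch hJ (show m + 1 - i ≤ J by omega)) S hS]
  ring

theorem transfer {J Q : ℕ} (hJ : J ≤ Q) (hQ : 1 ≤ Q) {c2 : List (ℕ × ℚ)} {c3 c4 : CL}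
    (hi : LocalIdx J c2 c3 c4) (h : LocalPSD J c2 c3 c4) (Φ : Finset (Fin (Q + 1)) → ℝ) :
    0 ≤ ∑ T, Dl Q J T *
      ((c2.map fun e => (e.2 : ℝ) * ((Bh Q e.1 *ᵥ Φ) T * (Bh Q e.1 *ᵥ Φ) T)).sum +
        lin c3 (fun m k m' k' =>
          ((ch Q k * Bh Q m) *ᵥ Φ) T * ((ch Q k' * Bh Q m') *ᵥ Φ) T) +
        lin c4 (fun m p m' p' =>
          ((Bh Q p * Bh Q m) *ᵥ Φ) T * ((Bh Q p' * Bh Q m') *ᵥ Φ) T)) := by
  refine tr_sum_nonneg hJ _ fun R => ?_
  set φ : Finset ℕ → ℝ := fun S => trW Q S * Φ (trEmb J R S) with hφ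
  have hL : TrL J R Φ φ := fun S _ => rfl
  refine (h φ).trans_eq (Finset.sum_congr rfl fun S hS => ?_)
  have hS' : S ⊆ range (J + 1) := mem_powerset.1 hS
  have key : ∀ {Ψ Ψ' : Finset (Fin (Q + 1)) → ℝ} {ψ ψ' : Finset ℕ → ℝ}, TrL J R Ψ ψ →
      TrL J R Ψ' ψ' → ψ S * ψ' S =
        (trW Q S * trW Q S) * (Ψ (trEmb J R S) * Ψ' (trEmb J R S)) := fun h1 h2 => by
    rw [h1 S hS', h2 S hS']; ring
  have e2 : (c2.map fun e => (e.2 : ℝ) * (BS e.1 φ S * BS e.1 φ S)).sum = (trW Q S * trW Q S) *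
      (c2.map fun e => (e.2 : ℝ) * ((Bh Q e.1 *ᵥ Φ) (trEmb J R S) *
        (Bh Q e.1 *ᵥ Φ) (trEmb J R S))).sum := by
    rw [← List.sum_map_mul_left]
    congr 1
    refine List.map_congr_left fun e he => ?_
    rw [key (hL.Bh hJ (hi.1 e he)) (hL.Bh hJ (hi.1 e he))]
    ring
  have e3 : lin c3 (fun m k m' k' => annS k (BS m φ) S * annS k' (BS m' φ) S) =
      (trW Q S * trW Q S) * lin c3 (fun m k m' k' => ((ch Q k * Bh Q m) *ᵥ Φ) (trEmb J R S) *
        ((ch Q k' * Bh Q m') *ᵥ Φ) (trEmb J R S)) := by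
    unfold lin
    rw [← List.sum_map_mul_left]
    congr 1
    refine List.map_congr_left fun e he => ?_
    obtain ⟨a1, a2, a3, a4⟩ := hi.2.1 e he
    simp only [← mulVec_mulVec]
    rw [key ((hL.Bh hJ a1).ch hJ a2) ((hL.Bh hJ a3).ch hJ a4)]
    ring
  have e4 : lin c4 (fun m p m' p' => BS p (BS m φ) S * BS p' (BS m' φ) S) =
      (trW Q S * trW Q S) * lin c4 (fun m p m' p' => ((Bh Q p * Bh Q m) *ᵥ Φ) (trEmb J R S) *
        ((Bh Q p' * Bh Q m') *ᵥ Φ) (trEmb J R S)) := by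
    unfold lin
    rw [← List.sum_map_mul_left]
    congr 1
    refine List.map_congr_left fun e he => ?_
    obtain ⟨a1, a2, a3, a4⟩ := hi.2.2 e he
    simp only [← mulVec_mulVec]
    rw [key ((hL.Bh hJ a1).Bh hJ a2) ((hL.Bh hJ a3).Bh hJ a4)]
    ring
  unfold locForm
  rw [e2, e3, e4, tr_Dl hJ R hS']
  ring

lemma Dl_tendsto (J : ℕ) : ∃ δ : ℕ → ℝ, Tendsto δ atTop (𝓝 0) ∧
    ∀ Q : ℕ, J ≤ Q → 1 ≤ Q → ∀ T, |Dl Q J T - 1| ≤ δ Q := by
  refine ⟨fun Q => 1 - ∏ k ∈ range (J + 1), sQ Q k / (k.factorial : ℝ), ?_, fun Q hJ hQ T => ?_⟩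
  · have h1 : Tendsto (fun Q => ∏ k ∈ range (J + 1), sQ Q k / (k.factorial : ℝ)) atTop
        (𝓝 (∏ k ∈ range (J + 1), (k.factorial : ℝ) / (k.factorial : ℝ))) :=
      tendsto_finsetProd _ fun k _ => (tendsto_sQ k).div_const _
    have h2 : ∏ k ∈ range (J + 1), (k.factorial : ℝ) / (k.factorial : ℝ) = 1 :=
      prod_eq_one fun k _ => div_self (by positivity)
    rw [h2] at h1
    simpa using h1.const_sub 1
  · have h0 : ∀ k : ℕ, 0 ≤ sQ Q k / (k.factorial : ℝ) := fun k =>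
      div_nonneg (sQ_nonneg _ _) (by positivity)
    have h1 : ∀ k : ℕ, sQ Q k / (k.factorial : ℝ) ≤ 1 := fun k =>
      div_le_one_of_le₀ (sQ_le hQ k) (by positivity)
    have e : Dl Q J T = ∏ k ∈ (T.filter fun k : Fin (Q + 1) => (k : ℕ) ≤ J).map Fin.valEmbedding,
        sQ Q k / (k.factorial : ℝ) := by
      rw [prod_map]; rfl
    have hsub : (T.filter fun k : Fin (Q + 1) => (k : ℕ) ≤ J).map Fin.valEmbedding
        ⊆ range (J + 1) := fun k hk => by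
      simp only [Finset.mem_map, mem_filter, Fin.valEmbedding_apply] at hk
      obtain ⟨j, ⟨_, h2⟩, rfl⟩ := hk
      exact mem_range.2 (Nat.lt_succ_of_le h2)
    have hle : Dl Q J T ≤ 1 := by
      rw [e]; exact prod_le_one (fun k _ => h0 k) fun k _ => h1 k
    have hge : ∏ k ∈ range (J + 1), sQ Q k / (k.factorial : ℝ) ≤ Dl Q J T := by
      rw [e]
      exact prod_le_prod_of_subset_of_le_one hsub (fun k _ => h0 k) fun k _ _ => h1 k
    rw [abs_of_nonpos (by linarith)]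
    linarith

end Crest.Agent.R340
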