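import Crest.Agent.R340.FiltQA
import Crest.Agent.R340.FiltGS

/-! # FILT: the continuity method -/

set_option autoImplicit false

namespace Crest.Agent.R340.Filt

open Matrix Set
open scoped Matrix.Norms.L2Operator MatrixOrder ComplexOrder

variable {n : Type} [Fintype n] [DecidableEq n] {Pi H V : Matrix n n ℂ} {ψ : n → ℂ}
  {w W : ℝ → ℂ} {U : ℝ → Matrix n n ℂ} {γ γ' Δ E₀ T : ℝ}

omit [Fintype n] [DecidableEq n] in
theorem fend_sa (hH : IsSelfAdjoint H) (hV : IsSelfAdjoint V) (s : ℝ) :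
    IsSelfAdjoint (H + s • V) :=
  hH.add (IsSelfAdjoint.smul (IsSelfAdjoint.all s) hV)

theorem fend_comm (cH : Commute Pi H) (cV : Commute Pi V) (s : ℝ) : Commute Pi (H + s • V) :=
  cH.add_right (cV.smul_right s)

theorem fend_norm (H V : Matrix n n ℂ) (s t : ℝ) :
    ‖(H + s • V) - (H + t • V)‖ = |s - t| * ‖V‖ := by
  rw [add_sub_add_left_eq_sub, ← sub_smul, norm_smul, Real.norm_eq_abs]

theorem fend_deriv (H V : Matrix n n ℂ) (s : ℝ) : HasDerivAt (fun s : ℝ => H + s • V) V s := by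
  simpa using ((hasDerivAt_id s).smul_const V).const_add H

theorem fend_flow (hf : IsFilt γ w W) (hH : IsSelfAdjoint H) (hV : IsSelfAdjoint V)
    (cH : Commute Pi H) (cV : Commute Pi V)
    (hU : IsFlow (fun s : ℝ => filt W (H + s • V) V) U) (s : ℝ) :
    U s ∈ unitary (Matrix n n ℂ) ∧ Commute Pi (U s) := by
  obtain ⟨h1, h2, -⟩ := qa_exists (H := fun s : ℝ => H + s • V) (H' := fun _ => V) hf
    (fend_sa hH hV) (fend_deriv H V) continuous_const
  exact ⟨hU.unitary h1 h2 s,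
    hU.commute h1 (fun r => commute_filt hf.int_W (fend_sa hH hV r) (fend_comm cH cV r) cV) s⟩

/-- as long as the gap stays above `γ' > γ`, the flow transports the ground vector -/
theorem flow_GS (hf : IsFilt γ w W) (hγ : γ < γ') (hH : IsSelfAdjoint H) (hV : IsSelfAdjoint V)
    (hPi : IsStarProjection Pi) (cH : Commute Pi H) (cV : Commute Pi V) (h0 : GS Pi H ψ E₀ γ')
    (hU : IsFlow (fun s : ℝ => filt W (H + s • V) V) U)
    (hg : ∀ s ∈ Icc (0 : ℝ) T, ∃ φ E, GS Pi (H + s • V) φ E γ') :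
    ∀ s ∈ Icc (0 : ℝ) T, ∃ E, GS Pi (H + s • V) (U s *ᵥ ψ) E γ' := by
  intro s hs
  have hγ0 : 0 < γ' := hf.pos.trans hγ
  have hT : (0 : ℝ) ∈ Icc (0 : ℝ) T := ⟨le_rfl, hs.1.trans hs.2⟩
  choose! φ E hφ using hg
  have hgap : ∀ r ∈ Icc (0 : ℝ) T,
      Gap Pi (H + r • V) (vecMulVec (φ r) (star (φ r))) (E r) (E r + γ') := fun r hr =>
    ((hφ r hr).toGap (fend_sa hH hV r) hPi (fend_comm cH cV r)).1
  have hE : ContinuousOn E (Icc 0 T) := by
    refine (LipschitzOnWith.of_dist_le_mul (K := ‖V‖₊) fun x hx y hy => ?_).continuousOn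
    have h := (hφ y hy).abs_sub_le (hφ x hx) (fend_sa hH hV y) (fend_sa hH hV x) hγ0.le hγ0.le
    rw [fend_norm] at h
    rw [Real.dist_eq, Real.dist_eq, coe_nnnorm, mul_comm]
    exact h
  have hp0 : vecMulVec (φ 0) (star (φ 0)) = vecMulVec ψ (star ψ) := by
    have h1 := hφ 0 hT
    have h2 := hgap 0 hT
    rw [zero_smul, add_zero] at h1 h2
    have h3 := h0.abs_sub_le h1 hH hH hγ0.le hγ0.le
    rw [sub_self, norm_zero, abs_nonpos_iff, sub_eq_zero] at h3
    exact h2.unique (h0.toGap hH hPi cH).1 (by linarith) (by linarith)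
  have hq := qa_intertwine (H := fun s : ℝ => H + s • V) (H' := fun _ => V)
    (p := fun r => vecMulVec (φ r) (star (φ r))) hf hγ (fend_sa hH hV) (fend_deriv H V)
    continuous_const (fun _ => cV) hE hgap hU s hs
  obtain ⟨hu, -⟩ := fend_flow hf hH hV cH cV hU s
  have hps : vecMulVec (φ s) (star (φ s)) = vecMulVec (U s *ᵥ ψ) (star (U s *ᵥ ψ)) := by
    have h1 : U s * (star (U s) * vecMulVec (φ s) (star (φ s)) * U s) * star (U s) =
        vecMulVec (φ s) (star (φ s)) := by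
      calc _ = (U s * star (U s)) * vecMulVec (φ s) (star (φ s)) * (U s * star (U s)) := by
            simp only [mul_assoc]
        _ = _ := by rw [hu.2, one_mul, mul_one]
    rw [← h1, hq, hp0, mul_vecMulVec, vecMulVec_mul, star_mulVec, star_eq_conjTranspose]
  have hn : star (U s *ᵥ ψ) ⬝ᵥ (U s *ᵥ ψ) = 1 := by
    rw [star_mulVec, ← dotProduct_mulVec, mulVec_mulVec, ← star_eq_conjTranspose, hu.1, one_mulVec,
      h0.norm]
  have h := hgap s hs
  rw [hps] at h
  obtain ⟨E', h1, h2⟩ := GS.ofGap h hn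
  exact ⟨E', h2.mono (by linarith)⟩

/-- END GAME: a self-improving gap estimate along the flow holds up to `s = 1`. -/
theorem endgame (hf : IsFilt γ w W) (hγ : γ < γ') (hΔ : γ' < Δ) (hH : IsSelfAdjoint H)
    (hV : IsSelfAdjoint V) (hPi : IsStarProjection Pi) (cH : Commute Pi H) (cV : Commute Pi V)
    (h0 : GS Pi H ψ E₀ Δ) (hU : IsFlow (fun s : ℝ => filt W (H + s • V) V) U)
    (step : ∀ s ∈ Icc (0 : ℝ) 1, (∃ E, GS Pi (H + s • V) (U s *ᵥ ψ) E γ') →
      ∃ E, GS Pi (star (U s) * (H + s • V) * U s) ψ E Δ) :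
    ∃ φ E, GS Pi (H + V) φ E Δ := by
  have hγ0 : 0 < γ' := hf.pos.trans hγ
  obtain ⟨δ, hδ, hδV⟩ : ∃ δ : ℝ, 0 < δ ∧ 2 * (δ * ‖V‖) ≤ Δ - γ' := by
    have h1 : 0 < 2 * (‖V‖ + 1) := by positivity
    refine ⟨(Δ - γ') / (2 * (‖V‖ + 1)), div_pos (by linarith) h1, ?_⟩
    rw [div_mul_eq_mul_div, ← mul_div_assoc, div_le_iff₀ h1]
    nlinarith [norm_nonneg V]
  have key : ∀ k : ℕ, ∀ s ∈ Icc (0 : ℝ) 1, s ≤ k * δ → ∃ φ E, GS Pi (H + s • V) φ E Δ := by
    intro k
    induction k with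
    | zero =>
      intro s hs h
      obtain rfl : s = 0 := le_antisymm (by simpa using h) hs.1
      exact ⟨ψ, E₀, by simpa using h0⟩
    | succ k ih =>
      intro s hs h
      have hk : (0 : ℝ) ≤ k * δ := by positivity
      have hg : ∀ r ∈ Icc (0 : ℝ) s, ∃ φ E, GS Pi (H + r • V) φ E γ' := by
        intro r hr
        obtain ⟨φ, E, h1⟩ := ih (min r (k * δ))
          ⟨le_min hr.1 hk, (min_le_left _ _).trans (hr.2.trans hs.2)⟩ (min_le_right _ _)
        have h2 : |r - min r (k * δ)| ≤ δ := by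
          push_cast at h
          rw [abs_of_nonneg (sub_nonneg.2 (min_le_left _ _)), sub_le_comm]
          exact le_min (by linarith) (by linarith [hr.2])
        obtain ⟨φ', E', h3⟩ := h1.perturb (η := δ * ‖V‖) (fend_sa hH hV _) (fend_sa hH hV r) hPi
          (fend_comm cH cV r)
          (by rw [fend_norm]; exact mul_le_mul_of_nonneg_right h2 (norm_nonneg V)) (by linarith)
        exact ⟨φ', E', h3.mono (by linarith)⟩
      obtain ⟨E, hE⟩ := step s hs
        (flow_GS hf hγ hH hV hPi cH cV (h0.mono hΔ.le) hU hg s ⟨hs.1, le_rfl⟩)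
      obtain ⟨hu, hc⟩ := fend_flow hf hH hV cH cV hU s
      exact ⟨_, E, hE.conj hu hc⟩
  obtain ⟨k, hk⟩ := exists_nat_ge (1 / δ)
  simpa using key k 1 ⟨zero_le_one, le_rfl⟩ ((div_le_iff₀ hδ).1 hk)

end Crest.Agent.R340.Filt
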