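import Crest.Agent.R340.FiltDefs

/-! # FILT: the unitary group, Duhamel, elementary properties of the filters -/

set_option autoImplicit false

namespace Crest.Agent.R340.Filt

open MeasureTheory Complex

variable {𝔄 : Type} [CStarAlgebra 𝔄] {H K A B : 𝔄} {w : ℝ → ℂ}

/-! ### part A -/

theorem ev_zero (H : 𝔄) : ev H 0 = 1 := by
  simp [ev]

theorem ev_add (H : 𝔄) (s t : ℝ) : ev H (s + t) = ev H s * ev H t := by
  let _ : NormedAlgebra ℚ 𝔄 := .restrictScalars ℚ ℂ 𝔄
  unfold ev
  rw [← NormedSpace.exp_add_of_commute (((Commute.refl H).smul_left _).smul_right _), ← add_smul]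
  congr 2
  push_cast
  ring

theorem ev_mul_neg (H : 𝔄) (t : ℝ) : ev H t * ev H (-t) = 1 := by
  rw [← ev_add, add_neg_cancel, ev_zero]

theorem ev_neg_mul (H : 𝔄) (t : ℝ) : ev H (-t) * ev H t = 1 := by
  rw [← ev_add, neg_add_cancel, ev_zero]

theorem star_ev (hH : IsSelfAdjoint H) (t : ℝ) : star (ev H t) = ev H (-t) := by
  unfold ev
  rw [NormedSpace.star_exp, star_smul, hH.star_eq]
  congr 2
  simp

theorem ev_mem_unitary (hH : IsSelfAdjoint H) (t : ℝ) : ev H t ∈ unitary 𝔄 := by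
  rw [Unitary.mem_iff, star_ev hH]
  exact ⟨ev_neg_mul H t, ev_mul_neg H t⟩

theorem norm_ev_le (hH : IsSelfAdjoint H) (t : ℝ) : ‖ev H t‖ ≤ 1 := by
  have h := CStarRing.norm_mem_unitary_mul (1 : 𝔄) (ev_mem_unitary hH t)
  rw [mul_one] at h
  rw [h]
  rcases subsingleton_or_nontrivial 𝔄 with h1 | h1
  · rw [Subsingleton.elim (1 : 𝔄) 0, norm_zero]
    exact zero_le_one
  · exact norm_one.le

theorem evA_eq (H : 𝔄) : ev H = fun t : ℝ => NormedSpace.exp (t • (I • H)) := by
  funext t
  unfold ev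
  rw [mul_smul, Complex.coe_smul]

theorem hasDerivAt_ev (H : 𝔄) (t : ℝ) : HasDerivAt (ev H) (I • (H * ev H t)) t := by
  have h := hasDerivAt_exp_smul_const' (𝕂 := ℝ) (I • H) t
  rw [smul_mul_assoc] at h
  rw [evA_eq]
  exact h

theorem ev_comm (H : 𝔄) (t : ℝ) : Commute H (ev H t) :=
  ((Commute.refl H).smul_right _).exp_right

theorem ev_intertwine (h : B * H = K * B) (t : ℝ) : B * ev H t = ev K t * B := by
  let _ : NormedAlgebra ℚ 𝔄 := .restrictScalars ℚ ℂ 𝔄
  have h1 : SemiconjBy B H K := h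
  exact (h1.smul_right ((t : ℂ) * I)).exp_right

theorem ev_sub_smul (H : 𝔄) (E t : ℝ) :
    ev (H - E • (1 : 𝔄)) t = exp (-((t : ℂ) * I * E)) • ev H t := by
  let _ : NormedAlgebra ℚ 𝔄 := .restrictScalars ℚ ℂ 𝔄
  unfold ev
  have h1 : ((t : ℂ) * I) • (H - E • (1 : 𝔄)) =
      algebraMap ℂ 𝔄 (-((t : ℂ) * I * E)) + ((t : ℂ) * I) • H := by
    rw [Algebra.algebraMap_eq_smul_one, ← Complex.coe_smul, smul_sub, smul_smul, neg_smul]
    abel
  rw [h1, NormedSpace.exp_add_of_commute (Algebra.commutes _ _),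
    ← NormedSpace.algebraMap_exp_comm, ← Complex.exp_eq_exp_ℂ, ← Algebra.smul_def]

theorem continuous_ev : Continuous fun x : 𝔄 × ℝ => ev x.1 x.2 := by
  let _ : NormedAlgebra ℚ 𝔄 := .restrictScalars ℚ ℂ 𝔄
  unfold ev
  exact NormedSpace.exp_continuous.comp (by fun_prop)

theorem tau_zero (H A : 𝔄) : tau H 0 A = A := by
  simp [tau, ev_zero]

theorem tau_add (H A : 𝔄) (s t : ℝ) : tau H (s + t) A = tau H s (tau H t A) := by
  unfold tau
  rw [neg_add_rev, ev_add, ev_add]
  simp only [mul_assoc]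

theorem tau_mul (H A B : 𝔄) (t : ℝ) : tau H t (A * B) = tau H t A * tau H t B := by
  unfold tau
  have h : ∀ X : 𝔄, ev H (-t) * (ev H t * X) = X := fun X => by
    rw [← mul_assoc, ev_neg_mul, one_mul]
  simp only [mul_assoc, h]

theorem star_tau (hH : IsSelfAdjoint H) (t : ℝ) (A : 𝔄) : star (tau H t A) = tau H t (star A) := by
  unfold tau
  rw [star_mul, star_mul, star_ev hH, star_ev hH, neg_neg, mul_assoc]

theorem norm_tau (hH : IsSelfAdjoint H) (t : ℝ) (A : 𝔄) : ‖tau H t A‖ = ‖A‖ := by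
  unfold tau
  rw [CStarRing.norm_mul_mem_unitary _ (ev_mem_unitary hH _),
    CStarRing.norm_mem_unitary_mul _ (ev_mem_unitary hH _)]

theorem tau_of_commute (h : Commute H A) (t : ℝ) : tau H t A = A := by
  unfold tau
  rw [← ev_intertwine h.symm.eq t, mul_assoc, ev_mul_neg, mul_one]

theorem evA_deriv_sub (H : 𝔄) (t s : ℝ) :
    HasDerivAt (fun s => ev H (t - s)) (-(I • (H * ev H (t - s)))) s := by
  have h := (hasDerivAt_ev H (t - s)).scomp s ((hasDerivAt_id s).const_sub t)
  rw [neg_smul, one_smul] at h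
  exact h

theorem evA_deriv_neg (H : 𝔄) (s : ℝ) :
    HasDerivAt (fun s => ev H (-s)) (-(I • (H * ev H (-s)))) s := by
  simpa using evA_deriv_sub H 0 s

theorem hasDerivAt_tau (H A : 𝔄) (t : ℝ) :
    HasDerivAt (fun t => tau H t A) (I • tau H t (H * A - A * H)) t := by
  have h := ((hasDerivAt_ev H t).mul_const A).mul (evA_deriv_neg H t)
  refine HasDerivAt.congr_deriv h ?_
  unfold tau
  rw [(ev_comm H t).eq]
  simp only [mul_sub, sub_mul, smul_sub, mul_neg, smul_mul_assoc, mul_smul_comm, mul_assoc]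
  abel

theorem evA_tau_comm (K A : 𝔄) (s : ℝ) :
    tau K s (K * A - A * K) = K * tau K s A - tau K s A * K := by
  unfold tau
  simp only [mul_sub, sub_mul, ← mul_assoc]
  rw [← (ev_comm K s).eq, mul_assoc _ K, (ev_comm K (-s)).eq, ← mul_assoc]

theorem evA_continuous (H : 𝔄) : Continuous (ev H) :=
  continuous_iff_continuousAt.2 fun t => (hasDerivAt_ev H t).continuousAt

/-- Duhamel for the unitary groups -/
theorem norm_ev_sub (hH : IsSelfAdjoint H) (hK : IsSelfAdjoint K) (t : ℝ) :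
    ‖ev H t - ev K t‖ ≤ |t| * ‖H - K‖ := by
  have hd : ∀ s, HasDerivAt (fun s => ev H (t - s) * ev K s)
      (-(I • (ev H (t - s) * (H - K) * ev K s))) s := fun s => by
    have h := (evA_deriv_sub H t s).mul (hasDerivAt_ev K s)
    refine HasDerivAt.congr_deriv h ?_
    rw [(ev_comm H (t - s)).eq]
    simp only [mul_sub, sub_mul, smul_sub, neg_mul, smul_mul_assoc, mul_smul_comm, mul_assoc]
    abel
  have hb : ∀ s, ‖-(I • (ev H (t - s) * (H - K) * ev K s))‖ ≤ ‖H - K‖ := fun s => by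
    rw [norm_neg, norm_smul, norm_I, one_mul,
      CStarRing.norm_mul_mem_unitary _ (ev_mem_unitary hK _),
      CStarRing.norm_mem_unitary_mul _ (ev_mem_unitary hH _)]
  have h := convex_univ.norm_image_sub_le_of_norm_hasDerivWithin_le
    (fun s _ => (hd s).hasDerivWithinAt) (fun s _ => hb s) (Set.mem_univ t) (Set.mem_univ 0)
  simp only [sub_zero, sub_self, ev_zero, mul_one, one_mul, zero_sub, norm_neg,
    Real.norm_eq_abs] at h
  rwa [mul_comm] at h

/-- Duhamel for the Heisenberg evolutions -/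
theorem norm_tau_sub (hH : IsSelfAdjoint H) (hK : IsSelfAdjoint K) (A : 𝔄) (t : ℝ) :
    ‖tau H t A - tau K t A‖ ≤
      |∫ s in (0 : ℝ)..t, ‖(H - K) * tau K s A - tau K s A * (H - K)‖| := by
  have hd : ∀ s, HasDerivAt (fun s => tau H (t - s) (tau K s A))
      (-(I • tau H (t - s) ((H - K) * tau K s A - tau K s A * (H - K)))) s := fun s => by
    have h3 : HasDerivAt (fun s => ev H (-(t - s))) (I • (H * ev H (-(t - s)))) s := by
      have h := (hasDerivAt_ev H (-(t - s))).scomp s ((hasDerivAt_id s).const_sub t).neg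
      rw [neg_neg, one_smul] at h
      exact h
    have h := ((evA_deriv_sub H t s).mul (hasDerivAt_tau K A s)).mul h3
    rw [evA_tau_comm] at h
    refine HasDerivAt.congr_deriv h ?_
    simp only [Pi.mul_apply]
    generalize tau K s A = B
    unfold tau
    rw [(ev_comm H (t - s)).eq]
    simp only [mul_sub, sub_mul, smul_sub, neg_mul, smul_mul_assoc, mul_smul_comm, mul_assoc,
      add_mul]
    abel
  have hc : Continuous fun s =>
      -(I • tau H (t - s) ((H - K) * tau K s A - tau K s A * (H - K))) := by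
    have h1 := evA_continuous H
    have h2 := evA_continuous K
    unfold tau
    fun_prop
  have h := intervalIntegral.integral_eq_sub_of_hasDerivAt (a := 0) (b := t) (fun s _ => hd s)
    (hc.intervalIntegrable _ _)
  simp only [sub_self, sub_zero, tau_zero] at h
  rw [norm_sub_rev, ← h]
  refine intervalIntegral.norm_integral_le_abs_integral_norm.trans (le_of_eq ?_)
  congr 2
  funext s
  rw [norm_neg, norm_smul, norm_I, one_mul, norm_tau hH]

/-! ### part B -/

theorem b1_norm (hH : IsSelfAdjoint H) (hK : IsSelfAdjoint K) (A : 𝔄) (t : ℝ) :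
    ‖ev H t * A * ev K (-t)‖ ≤ ‖A‖ := by
  have h1 := norm_ev_le hH t
  have h2 := norm_ev_le hK (-t)
  calc ‖ev H t * A * ev K (-t)‖ ≤ ‖ev H t‖ * ‖A‖ * ‖ev K (-t)‖ := norm_mul₃_le
    _ ≤ 1 * ‖A‖ * 1 := by gcongr
    _ = ‖A‖ := by ring

theorem b1_cont (H : 𝔄) : Continuous (ev H) :=
  continuous_ev.comp (continuous_const.prodMk continuous_id)

theorem b1_ev_zero (t : ℝ) : ev (0 : 𝔄) t = 1 := by simp [ev]

theorem b1_left {f : ℝ → 𝔄} (hf : Integrable f) (B : 𝔄) :
    B * ∫ t, f t = ∫ t, B * f t :=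
  ((ContinuousLinearMap.mul ℂ 𝔄 B).integral_comp_comm hf).symm

theorem b1_right {f : ℝ → 𝔄} (hf : Integrable f) (B : 𝔄) : (∫ t, f t) * B = ∫ t, f t * B :=
  (((ContinuousLinearMap.mul ℂ 𝔄).flip B).integral_comp_comm hf).symm

theorem integrable_filt2 (hw : Integrable w) (hH : IsSelfAdjoint H) (hK : IsSelfAdjoint K)
    (A : 𝔄) : Integrable fun t : ℝ => w t • (ev H t * A * ev K (-t)) := by
  refine (hw.norm.mul_const ‖A‖).mono' (hw.1.smul (Continuous.aestronglyMeasurable ?_))
    (Filter.Eventually.of_forall fun t => ?_)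
  · exact ((b1_cont H).mul continuous_const).mul ((b1_cont K).comp continuous_neg)
  · rw [norm_smul]
    exact mul_le_mul_of_nonneg_left (b1_norm hH hK A t) (norm_nonneg _)

theorem integrable_filt (hw : Integrable w) (hH : IsSelfAdjoint H) (A : 𝔄) :
    Integrable fun t : ℝ => w t • tau H t A := integrable_filt2 hw hH hH A

theorem integrable_fcal (hw : Integrable w) (hH : IsSelfAdjoint H) :
    Integrable fun t : ℝ => w t • ev H t := by
  simpa only [b1_ev_zero, mul_one] using integrable_filt2 hw hH (IsSelfAdjoint.zero 𝔄) 1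

theorem filt_eq_filt2 (w : ℝ → ℂ) (H A : 𝔄) : filt w H A = filt2 w H H A := rfl

theorem fcal_eq_filt2 (w : ℝ → ℂ) (H : 𝔄) : fcal w H = filt2 w H 0 1 := by
  simp only [fcal, filt2, b1_ev_zero, mul_one]

theorem norm_filt2_le (hw : Integrable w) (hH : IsSelfAdjoint H) (hK : IsSelfAdjoint K) (A : 𝔄) :
    ‖filt2 w H K A‖ ≤ (∫ t, ‖w t‖) * ‖A‖ := by
  rw [← integral_mul_const]
  refine norm_integral_le_of_norm_le (hw.norm.mul_const ‖A‖)
    (Filter.Eventually.of_forall fun t => ?_)
  rw [norm_smul]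
  exact mul_le_mul_of_nonneg_left (b1_norm hH hK A t) (norm_nonneg _)

theorem norm_fcal_le (hw : Integrable w) (hH : IsSelfAdjoint H) : ‖fcal w H‖ ≤ ∫ t, ‖w t‖ := by
  refine norm_integral_le_of_norm_le hw.norm (Filter.Eventually.of_forall fun t => ?_)
  rw [norm_smul]
  exact mul_le_of_le_one_right (norm_nonneg _) (norm_ev_le hH t)

theorem filt2_add (hw : Integrable w) (hH : IsSelfAdjoint H) (hK : IsSelfAdjoint K) (A B : 𝔄) :
    filt2 w H K (A + B) = filt2 w H K A + filt2 w H K B := by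
  rw [filt2, filt2, filt2,
    ← integral_add (integrable_filt2 hw hH hK A) (integrable_filt2 hw hH hK B)]
  simp only [mul_add, add_mul, smul_add]

theorem filt2_sub (hw : Integrable w) (hH : IsSelfAdjoint H) (hK : IsSelfAdjoint K) (A B : 𝔄) :
    filt2 w H K (A - B) = filt2 w H K A - filt2 w H K B := by
  rw [filt2, filt2, filt2,
    ← integral_sub (integrable_filt2 hw hH hK A) (integrable_filt2 hw hH hK B)]
  simp only [mul_sub, sub_mul, smul_sub]

theorem filt2_smul (w : ℝ → ℂ) (H K A : 𝔄) (z : ℂ) :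
    filt2 w H K (z • A) = z • filt2 w H K A := by
  rw [filt2, filt2, ← integral_smul]
  simp only [mul_smul_comm, smul_mul_assoc, smul_comm z]

theorem filt2_sum {ι : Type*} (hw : Integrable w) (hH : IsSelfAdjoint H) (hK : IsSelfAdjoint K)
    (s : Finset ι) (A : ι → 𝔄) : filt2 w H K (∑ i ∈ s, A i) = ∑ i ∈ s, filt2 w H K (A i) := by
  simp only [filt2]
  rw [← integral_finsetSum _ fun i _ => integrable_filt2 hw hH hK (A i)]
  simp only [Finset.mul_sum, Finset.sum_mul, Finset.smul_sum]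

/-- the filter as a continuous linear map (to exchange it with Bochner integrals) -/
theorem exists_filt2_clm (hw : Integrable w) (hH : IsSelfAdjoint H) (hK : IsSelfAdjoint K) :
    ∃ L : 𝔄 →L[ℂ] 𝔄, ∀ A, L A = filt2 w H K A := by
  exact ⟨LinearMap.mkContinuous
    { toFun := filt2 w H K
      map_add' := filt2_add hw hH hK
      map_smul' := fun z A => filt2_smul w H K A z } _ (norm_filt2_le hw hH hK), fun _ => rfl⟩

theorem star_filt2 (hr : ∀ t, (starRingEnd ℂ) (w t) = w t) (hH : IsSelfAdjoint H)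
    (hK : IsSelfAdjoint K) (A : 𝔄) : star (filt2 w H K A) = filt2 w K H (star A) := by
  have := (starL' ℝ : 𝔄 ≃L[ℝ] 𝔄).integral_comp_comm (μ := volume)
    fun t : ℝ => w t • (ev H t * A * ev K (-t))
  simp only [starL'_apply] at this
  rw [filt2, filt2, ← this]
  refine integral_congr_ae (Filter.Eventually.of_forall fun t => ?_)
  have h1 : star (w t) = w t := hr t
  simp only [star_smul, star_mul, star_ev hH, star_ev hK, neg_neg, h1, mul_assoc]

theorem filt_sa (hr : ∀ t, (starRingEnd ℂ) (w t) = w t) (hH : IsSelfAdjoint H)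
    (hA : IsSelfAdjoint A) : IsSelfAdjoint (filt w H A) := by
  rw [IsSelfAdjoint, filt_eq_filt2, star_filt2 hr hH hH, hA.star_eq]

theorem mul_filt2 (hw : Integrable w) {H' : 𝔄} (hH : IsSelfAdjoint H) (hK : IsSelfAdjoint K)
    (h : B * H = H' * B) (A : 𝔄) : B * filt2 w H K A = filt2 w H' K (B * A) := by
  rw [filt2, filt2, b1_left (integrable_filt2 hw hH hK A)]
  simp only [mul_smul_comm, ← mul_assoc, ev_intertwine h]

theorem filt2_mul (hw : Integrable w) {K' : 𝔄} (hH : IsSelfAdjoint H) (hK : IsSelfAdjoint K)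
    (h : K * B = B * K') (A : 𝔄) : filt2 w H K A * B = filt2 w H K' (A * B) := by
  rw [filt2, filt2, b1_right (integrable_filt2 hw hH hK A)]
  simp only [smul_mul_assoc, mul_assoc, ← ev_intertwine h.symm]

theorem commute_filt (hw : Integrable w) (hH : IsSelfAdjoint H) (h : Commute B H)
    (h' : Commute B A) : Commute B (filt w H A) := by
  rw [Commute, SemiconjBy, filt_eq_filt2, mul_filt2 hw hH hH h.eq, filt2_mul hw hH hH h.eq.symm,
    h'.eq]

theorem mul_fcal (hw : Integrable w) (hH : IsSelfAdjoint H) (hK : IsSelfAdjoint K)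
    (h : B * H = K * B) : B * fcal w H = fcal w K * B := by
  rw [fcal, fcal, b1_left (integrable_fcal hw hH), b1_right (integrable_fcal hw hK)]
  simp only [mul_smul_comm, smul_mul_assoc, ev_intertwine h]

theorem filt_of_commute (w : ℝ → ℂ) (h : Commute H A) : filt w H A = ft w 0 • A := by
  simp only [filt, ft, tau_of_commute h, ofReal_zero, mul_zero, exp_zero, mul_one]
  exact integral_smul_const w A

/-- conjugation by a unitary -/
theorem conj_filt (hw : Integrable w) (hH : IsSelfAdjoint H) {U : 𝔄} (hU : U ∈ unitary 𝔄) (A : 𝔄) :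
    star U * filt w H A * U = filt w (star U * H * U) (star U * A * U) := by
  have h1 : U * star U = 1 := Unitary.mul_star_self_of_mem hU
  have hH' : IsSelfAdjoint (star U * H * U) := hH.conjugate' U
  rw [filt_eq_filt2, filt_eq_filt2,
    mul_filt2 (H' := star U * H * U) hw hH hH (by rw [mul_assoc _ U, h1, mul_one]),
    filt2_mul (K' := star U * H * U) hw hH' hH (by rw [← mul_assoc, ← mul_assoc, h1, one_mul])]

/-- any continuous linear map (commutator with `B`, conditional expectation, ...) passes inside -/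
theorem norm_clm_filt_le {F : Type} [NormedAddCommGroup F] [NormedSpace ℂ F] [CompleteSpace F]
    (L : 𝔄 →L[ℂ] F) (hw : Integrable w) (hH : IsSelfAdjoint H) (A : 𝔄) {g : ℝ → ℝ}
    (hg : ∀ t, ‖L (tau H t A)‖ ≤ g t) (ig : Integrable fun t => ‖w t‖ * g t) :
    ‖L (filt w H A)‖ ≤ ∫ t, ‖w t‖ * g t := by
  rw [filt, ← L.integral_comp_comm (integrable_filt hw hH A)]
  refine norm_integral_le_of_norm_le ig (ae_of_all _ fun t => ?_)
  rw [map_smul, norm_smul]
  exact mul_le_mul_of_nonneg_left (hg t) (norm_nonneg _)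

theorem norm_clm_fcal_le {F : Type} [NormedAddCommGroup F] [NormedSpace ℂ F] [CompleteSpace F]
    (L : 𝔄 →L[ℂ] F) (hw : Integrable w) (hH : IsSelfAdjoint H) {g : ℝ → ℝ}
    (hg : ∀ t, ‖L (ev H t)‖ ≤ g t) (ig : Integrable fun t => ‖w t‖ * g t) :
    ‖L (fcal w H)‖ ≤ ∫ t, ‖w t‖ * g t := by
  rw [fcal, ← L.integral_comp_comm (integrable_fcal hw hH)]
  refine norm_integral_le_of_norm_le ig (ae_of_all _ fun t => ?_)
  rw [map_smul, norm_smul]
  exact mul_le_mul_of_nonneg_left (hg t) (norm_nonneg _)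

theorem norm_filt_sub_le (hw : Integrable w) (hH : IsSelfAdjoint H) (hK : IsSelfAdjoint K) (A : 𝔄)
    {g : ℝ → ℝ} (hg : ∀ t, ‖tau H t A - tau K t A‖ ≤ g t) (ig : Integrable fun t => ‖w t‖ * g t) :
    ‖filt w H A - filt w K A‖ ≤ ∫ t, ‖w t‖ * g t := by
  rw [filt, filt, ← integral_sub (integrable_filt hw hH A) (integrable_filt hw hK A)]
  refine norm_integral_le_of_norm_le ig (ae_of_all _ fun t => ?_)
  rw [← smul_sub, norm_smul]
  exact mul_le_mul_of_nonneg_left (hg t) (norm_nonneg _)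

theorem norm_fcal_sub_le (hw : Integrable w) (hw1 : Integrable fun t => |t| * ‖w t‖)
    (hH : IsSelfAdjoint H) (hK : IsSelfAdjoint K) :
    ‖fcal w H - fcal w K‖ ≤ (∫ t, |t| * ‖w t‖) * ‖H - K‖ := by
  rw [fcal, fcal, ← integral_sub (integrable_fcal hw hH) (integrable_fcal hw hK),
    ← integral_mul_const]
  refine norm_integral_le_of_norm_le (hw1.mul_const _) (ae_of_all _ fun t => ?_)
  rw [← smul_sub, norm_smul, mul_comm |t|, mul_assoc]
  exact mul_le_mul_of_nonneg_left (norm_ev_sub hH hK t) (norm_nonneg _)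

/-- `‖[f(H), B]‖ ≤ ‖t w‖₁ ‖[H, B]‖` -/
theorem norm_fcal_comm_le (hw : Integrable w) (hw1 : Integrable fun t => |t| * ‖w t‖)
    (hH : IsSelfAdjoint H) (B : 𝔄) :
    ‖fcal w H * B - B * fcal w H‖ ≤ (∫ t, |t| * ‖w t‖) * ‖H * B - B * H‖ := by
  have key : ∀ t : ℝ, ‖ev H t * B - B * ev H t‖ ≤ |t| * ‖H * B - B * H‖ := fun t => by
    have e : ev H t * B - B * ev H t = (tau H t B - B) * ev H t := by
      rw [tau, sub_mul, mul_assoc _ (ev H (-t)), ev_neg_mul, mul_one]
    have h1 := norm_tau_sub hH (IsSelfAdjoint.zero 𝔄) B t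
    simp only [tau_of_commute (Commute.zero_left B), sub_zero, intervalIntegral.integral_const,
      smul_eq_mul, abs_mul, abs_norm] at h1
    rw [e]
    calc _ ≤ ‖tau H t B - B‖ * ‖ev H t‖ := norm_mul_le _ _
      _ ≤ ‖tau H t B - B‖ * 1 := mul_le_mul_of_nonneg_left (norm_ev_le hH t) (norm_nonneg _)
      _ ≤ _ := by rwa [mul_one]
  have e : (fun t : ℝ => ‖w t‖ * (|t| * ‖H * B - B * H‖)) =
      fun t : ℝ => |t| * ‖w t‖ * ‖H * B - B * H‖ := funext fun t => by ring
  have h := norm_clm_fcal_le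
    ((ContinuousLinearMap.mul ℂ 𝔄).flip B - ContinuousLinearMap.mul ℂ 𝔄 B) hw hH
    (g := fun t => |t| * ‖H * B - B * H‖) (fun t => by simpa using key t)
    (by rw [e]; exact hw1.mul_const _)
  rw [e, integral_mul_const] at h
  simpa using h

theorem continuous_filt2 {X : Type} [TopologicalSpace X] [FirstCountableTopology X]
    (hw : Integrable w) {H K A : X → 𝔄} (cH : Continuous H) (cK : Continuous K) (cA : Continuous A)
    (hH : ∀ x, IsSelfAdjoint (H x)) (hK : ∀ x, IsSelfAdjoint (K x)) :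
    Continuous fun x => filt2 w (H x) (K x) (A x) := by
  refine continuous_iff_continuousAt.2 fun x₀ => ?_
  refine continuousAt_of_dominated (bound := fun t => ‖w t‖ * (‖A x₀‖ + 1))
    (Filter.Eventually.of_forall fun x => (integrable_filt2 hw (hH x) (hK x) (A x)).1) ?_
    (hw.norm.mul_const _) (ae_of_all _ fun t => ?_)
  · have h : ∀ᶠ x in nhds x₀, ‖A x‖ < ‖A x₀‖ + 1 :=
      cA.norm.continuousAt.eventually_lt continuousAt_const (lt_add_one _)
    filter_upwards [h] with x hx
    refine ae_of_all _ fun t => ?_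
    rw [norm_smul]
    refine mul_le_mul_of_nonneg_left ?_ (norm_nonneg _)
    calc _ ≤ ‖ev (H x) t‖ * ‖A x‖ * ‖ev (K x) (-t)‖ :=
          (norm_mul_le _ _).trans (mul_le_mul_of_nonneg_right (norm_mul_le _ _) (norm_nonneg _))
      _ ≤ 1 * ‖A x‖ * 1 := by
          gcongr
          · exact norm_ev_le (hH x) t
          · exact norm_ev_le (hK x) (-t)
      _ ≤ _ := by linarith
  · have c1 : Continuous fun x => ev (H x) t :=
      continuous_ev.comp (f := fun x => (H x, t)) (cH.prodMk continuous_const)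
    have c2 : Continuous fun x => ev (K x) (-t) :=
      continuous_ev.comp (f := fun x => (K x, -t)) (cK.prodMk continuous_const)
    exact (((c1.mul cA).mul c2).const_smul (w t)).continuousAt

end Crest.Agent.R340.Filt
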