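import Crest.Agent.R340.FiltDefs

/-! # FILT: a band limited function with stretched exponential decay -/

set_option autoImplicit false

namespace Crest.Agent.R340.Filt

open MeasureTheory Complex

/-- `ŵ = 1` on `[-α, α]`, `ŵ = 0` off `(-β, β)` -/
structure Band (α β : ℝ) (w : ℝ → ℂ) : Prop where
  int : Integrable w
  one : ∀ ξ : ℝ, |ξ| ≤ α → ft w ξ = 1
  zero : ∀ ξ : ℝ, β ≤ |ξ| → ft w ξ = 0

open scoped FourierTransform in
theorem funA_aux {f : ℝ → ℂ} (hf : ContDiff ℝ (⊤ : ℕ∞) f) (hc : HasCompactSupport f) :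
    ∃ g : ℝ → ℂ, Continuous g ∧ (∀ k : ℕ, Integrable fun t : ℝ => |t| ^ k * ‖g t‖) ∧
      Integrable g ∧ (∃ M, ∀ t, ‖g t‖ ≤ M) ∧ (∀ ξ, ft g ξ = f ξ) ∧
      ∀ t : ℝ, g t = ∫ v : ℝ, exp (((-2 * Real.pi * v * t : ℝ) : ℂ) * I) * f (2 * Real.pi * v) := by
  have hpi : (2 * Real.pi) ≠ 0 := by positivity
  have hc' : HasCompactSupport fun v : ℝ => f (2 * Real.pi * v) :=
    hc.comp_homeomorph (Homeomorph.mulLeft₀ _ hpi)
  have hf' : ContDiff ℝ (⊤ : ℕ∞) fun v : ℝ => f (2 * Real.pi * v) :=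
    hf.comp (contDiff_const.mul contDiff_id)
  set F : SchwartzMap ℝ ℂ := hc'.toSchwartzMap hf' with hF
  have hFv : ∀ v, F v = f (2 * Real.pi * v) := fun v => rfl
  refine ⟨(𝓕 F : SchwartzMap ℝ ℂ), (𝓕 F).continuous, fun k => ?_, (𝓕 F).integrable,
    ⟨_, (𝓕 F).norm_le_seminorm ℝ⟩, fun ξ => ?_, fun t => ?_⟩
  · simpa [Real.norm_eq_abs] using (𝓕 F).integrable_pow_mul volume k
  · have h1 : (𝓕⁻ (𝓕 F) : SchwartzMap ℝ ℂ) = F := FourierTransform.fourierInv_fourier_eq F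
    have h2 := congrArg (fun G : SchwartzMap ℝ ℂ => G (ξ / (2 * Real.pi))) h1
    simp only [hFv] at h2
    rw [mul_div_cancel₀ _ hpi] at h2
    rw [← h2, SchwartzMap.fourierInv_coe, Real.fourierInv_eq']
    unfold ft
    refine integral_congr_ae (Filter.Eventually.of_forall fun t => ?_)
    simp only [smul_eq_mul]
    rw [mul_comm]
    congr 2
    have : (2 * Real.pi * inner ℝ t (ξ / (2 * Real.pi)) : ℝ) = t * ξ := by
      simp only [RCLike.inner_apply, conj_trivial]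
      field_simp
    rw [this]
    push_cast
    ring
  · rw [SchwartzMap.fourier_coe, Real.fourier_real_eq_integral_exp_smul]
    rfl

/-- every smooth compactly supported function is a Fourier transform, all moments finite -/
theorem exists_ft_smooth {f : ℝ → ℂ} (hf : ContDiff ℝ (⊤ : ℕ∞) f) (hc : HasCompactSupport f) :
    ∃ g : ℝ → ℂ, Continuous g ∧ (∀ k : ℕ, Integrable fun t : ℝ => |t| ^ k * ‖g t‖) ∧
      Integrable g ∧ (∃ M, ∀ t, ‖g t‖ ≤ M) ∧ ∀ ξ, ft g ξ = f ξ := by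
  obtain ⟨g, h1, h2, h3, h4, h5, -⟩ := funA_aux hf hc
  exact ⟨g, h1, h2, h3, h4, h5⟩

/-- a bounded continuous real even band function -/
theorem exists_band0 {α β : ℝ} (h0 : 0 < α) (h : α < β) :
    ∃ ψ : ℝ → ℂ, Continuous ψ ∧ Band α β ψ ∧ (∃ M, ∀ t, ‖ψ t‖ ≤ M) ∧
      (∀ t, (starRingEnd ℂ) (ψ t) = ψ t) ∧ ∀ t, ψ (-t) = ψ t := by
  let b : ContDiffBump (0 : ℝ) := ⟨α, β, h0, h⟩
  have hf : ContDiff ℝ (⊤ : ℕ∞) fun x : ℝ => (b x : ℂ) := ofRealCLM.contDiff.comp b.contDiff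
  have hc : HasCompactSupport fun x : ℝ => (b x : ℂ) :=
    b.hasCompactSupport.comp_left (g := fun y : ℝ => (y : ℂ)) ofReal_zero
  obtain ⟨g, h1, -, h3, h4, h5, h6⟩ := funA_aux hf hc
  have hev : ∀ t, g (-t) = g t := fun t => by
    rw [h6, h6, ← integral_neg_eq_self]
    refine integral_congr_ae (Filter.Eventually.of_forall fun v => ?_)
    simp only [mul_neg, neg_mul, neg_neg, b.neg]
  refine ⟨g, h1, ⟨h3, fun ξ hξ => ?_, fun ξ hξ => ?_⟩, h4, fun t => ?_, hev⟩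
  · rw [h5, b.one_of_mem_closedBall (by simpa using hξ), ofReal_one]
  · rw [h5, b.zero_of_le_dist (by simpa using hξ), ofReal_zero]
  · refine Eq.trans ?_ (hev t)
    rw [h6 t, h6 (-t), ← integral_conj]
    refine integral_congr_ae (Filter.Eventually.of_forall fun v => ?_)
    simp only [map_mul, conj_ofReal, ← exp_conj, conj_I]
    congr 2
    push_cast
    ring

end Crest.Agent.R340.Filt
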