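import Crest.Agent.R340.FiltFunA

/-! # FILT: multiplying a band function by an infinite product of `sinc` -/

set_option autoImplicit false

namespace Crest.Agent.R340.Filt

open MeasureTheory Complex

theorem fb95_sinc (x : ℝ) :
    (Real.sinc x : ℂ) = (1 / 2 : ℂ) * ∫ s in Set.Ioc (-1 : ℝ) 1, exp (((x : ℂ) * I) * (s : ℂ)) := by
  rw [← intervalIntegral.integral_of_le (by norm_num)]
  by_cases hx : x = 0
  · simp [hx]
    norm_num
  · have hx' : (x : ℂ) ≠ 0 := by exact_mod_cast hx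
    rw [integral_exp_mul_complex (mul_ne_zero hx' I_ne_zero), Real.sinc_of_ne_zero hx]
    push_cast
    rw [Complex.sin]
    field_simp
    ring_nf
    rw [I_sq]
    ring

theorem fb95_norm (t ξ : ℝ) : ‖exp ((t : ℂ) * I * (ξ : ℂ))‖ = 1 := by
  rw [show (t : ℂ) * I * (ξ : ℂ) = ((t * ξ : ℝ) : ℂ) * I by push_cast; ring, norm_exp_ofReal_mul_I]

theorem fb95_ft {w : ℝ → ℂ} (hw : Integrable w) (a ξ : ℝ) :
    ft (fun t => w t * (Real.sinc (a * t) : ℂ)) ξ =
      (1 / 2 : ℂ) * ∫ s in Set.Ioc (-1 : ℝ) 1, ft w (ξ + a * s) := by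
  have h1 : Integrable (fun p : ℝ × ℝ => w p.1) (volume.prod (volume.restrict (Set.Ioc (-1 : ℝ) 1))) :=
    hw.comp_fst _
  have h2 : Integrable (Function.uncurry fun t s : ℝ => w t * exp ((t : ℂ) * I * ((ξ + a * s : ℝ) : ℂ)))
      (volume.prod (volume.restrict (Set.Ioc (-1 : ℝ) 1))) :=
    h1.mul_bdd (c := 1) (Continuous.aestronglyMeasurable (by fun_prop))
      (Filter.Eventually.of_forall fun p => (fb95_norm _ _).le)
  unfold ft
  rw [← integral_integral_swap h2, ← integral_const_mul]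
  refine integral_congr_ae (Filter.Eventually.of_forall fun t => ?_)
  simp only
  rw [fb95_sinc, ← integral_const_mul, ← integral_const_mul, ← integral_const_mul, ← integral_mul_const]
  refine integral_congr_ae (Filter.Eventually.of_forall fun s => ?_)
  simp only
  rw [show (t : ℂ) * I * ((ξ + a * s : ℝ) : ℂ) = ((a * t : ℝ) : ℂ) * I * (s : ℂ) + (t : ℂ) * I * (ξ : ℂ) by
    push_cast; ring, Complex.exp_add]
  ring

theorem Band.fb95_mono {α β α' β' : ℝ} {w : ℝ → ℂ} (h : Band α β w) (h1 : α' ≤ α) (h2 : β ≤ β') :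
    Band α' β' w :=
  ⟨h.int, fun ξ hξ => h.one ξ (hξ.trans h1), fun ξ hξ => h.zero ξ (h2.trans hξ)⟩

theorem Band.mul_sinc {α β a : ℝ} {w : ℝ → ℂ} (h : Band α β w) (ha : 0 < a) :
    Band (α - a) (β + a) fun t => w t * (Real.sinc (a * t) : ℂ) := by
  have hs : ∀ s ∈ Set.Ioc (-1 : ℝ) 1, |a * s| ≤ a := fun s hs => by
    rw [abs_mul, abs_of_pos ha]
    exact mul_le_of_le_one_right ha.le (abs_le.2 ⟨hs.1.le, hs.2⟩)
  refine ⟨h.int.mul_bdd (c := 1) (Continuous.aestronglyMeasurable
      (continuous_ofReal.comp (Real.continuous_sinc.comp (by fun_prop))))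
      (Filter.Eventually.of_forall fun t => by
        rw [norm_real, Real.norm_eq_abs]; exact Real.abs_sinc_le_one _), fun ξ hξ => ?_, fun ξ hξ => ?_⟩
  · rw [fb95_ft h.int, setIntegral_congr_fun (g := fun _ => (1 : ℂ)) measurableSet_Ioc fun s hs' =>
      h.one _ ((abs_add_le _ _).trans (by linarith [hs s hs']))]
    simp
    norm_num
  · rw [fb95_ft h.int, setIntegral_congr_fun (g := fun _ => (0 : ℂ)) measurableSet_Ioc fun s hs' =>
      h.zero _ (by
        have := abs_sub (ξ + a * s) (a * s)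
        rw [add_sub_cancel_right] at this
        linarith [hs s hs'])]
    simp

/-- the finite products -/
noncomputable def fb95P (n : ℕ) (t : ℝ) : ℝ :=
  ∏ k ∈ Finset.range n, Real.sinc (1 / (16 * ((k : ℝ) + 1) ^ 2) * t) ^ 2

theorem fb95P_nonneg (n : ℕ) (t : ℝ) : 0 ≤ fb95P n t :=
  Finset.prod_nonneg fun _ _ => sq_nonneg _

theorem fb95P_anti (t : ℝ) : Antitone fun n => fb95P n t := by
  refine antitone_nat_of_succ_le fun n => ?_
  have h := fb95P_nonneg n t
  unfold fb95P at h ⊢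
  rw [Finset.prod_range_succ]
  exact mul_le_of_le_one_right h ((sq_le_one_iff_abs_le_one _).2 (Real.abs_sinc_le_one _))

theorem fb95P_le_one (n : ℕ) (t : ℝ) : fb95P n t ≤ 1 :=
  (fb95P_anti t (Nat.zero_le n)).trans_eq (by simp [fb95P])

theorem fb95P_cont (n : ℕ) : Continuous (fb95P n) :=
  continuous_finsetProd _ fun _ _ => (Real.continuous_sinc.comp (by fun_prop)).pow 2

theorem fb95P_neg (n : ℕ) (t : ℝ) : fb95P n (-t) = fb95P n t := by
  simp only [fb95P, mul_neg, Real.sinc_neg]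

theorem fb95P_band {ψ : ℝ → ℂ} (h : Band (1 / 2) (3 / 4) ψ) (n : ℕ) :
    Band (1 / 4 + 1 / (4 * ((n : ℝ) + 1))) (1 - 1 / (4 * ((n : ℝ) + 1))) fun t => ψ t * (fb95P n t : ℂ) := by
  induction n with
  | zero => simpa [fb95P] using h.fb95_mono (by norm_num) (by norm_num)
  | succ n ih =>
    have hn : (0 : ℝ) < (n : ℝ) + 1 := by positivity
    have ha : (0 : ℝ) < 1 / (16 * ((n : ℝ) + 1) ^ 2) := by positivity
    have key : 1 / (4 * ((n : ℝ) + 1 + 1)) + 2 * (1 / (16 * ((n : ℝ) + 1) ^ 2)) ≤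
        1 / (4 * ((n : ℝ) + 1)) := by
      rw [← sub_nonneg]
      have : 1 / (4 * ((n : ℝ) + 1)) - (1 / (4 * ((n : ℝ) + 1 + 1)) + 2 * (1 / (16 * ((n : ℝ) + 1) ^ 2))) =
          n / (8 * ((n : ℝ) + 1) ^ 2 * ((n : ℝ) + 1 + 1)) := by
        field_simp
        ring
      rw [this]
      positivity
    have h2 := ((ih.mul_sinc ha).mul_sinc ha).fb95_mono
      (α' := 1 / 4 + 1 / (4 * (((n + 1 : ℕ) : ℝ) + 1))) (β' := 1 - 1 / (4 * (((n + 1 : ℕ) : ℝ) + 1)))
      (by push_cast; linarith) (by push_cast; linarith)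
    convert h2 using 2 with t
    simp only [fb95P, Finset.prod_range_succ]
    push_cast
    ring

theorem fb95P_decay (t : ℝ) :
    fb95P ⌊Real.sqrt |t| / 8⌋₊ t ≤ Real.exp 1 * Real.exp (-(1 / 8) * Real.sqrt |t|) := by
  set n := ⌊Real.sqrt |t| / 8⌋₊ with hn
  have h1 : (n : ℝ) ≤ Real.sqrt |t| / 8 := Nat.floor_le (by positivity)
  have h2 : Real.sqrt |t| / 8 < n + 1 := Nat.lt_floor_add_one _
  have h3 : 64 * (n : ℝ) ^ 2 ≤ |t| := by
    have := Real.sq_sqrt (abs_nonneg t)
    nlinarith [Nat.cast_nonneg (α := ℝ) n]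
  calc fb95P n t ≤ ∏ _k ∈ Finset.range n, Real.exp (-1) := by
        refine Finset.prod_le_prod (fun _ _ => sq_nonneg _) fun k hk => ?_
        have hk : (k : ℝ) + 1 ≤ n := by exact_mod_cast Finset.mem_range.1 hk
        have hk0 : (0 : ℝ) < (k : ℝ) + 1 := by positivity
        set x := 1 / (16 * ((k : ℝ) + 1) ^ 2) * t with hx
        have hx4 : 4 ≤ |x| := by
          rw [hx, abs_mul, abs_of_pos (by positivity), one_div, inv_mul_eq_div, le_div_iff₀ (by positivity)]
          nlinarith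
        have hx0 : x ≠ 0 := fun h => by rw [h, abs_zero] at hx4; linarith
        have hs : |Real.sinc x| ≤ 1 / 4 := by
          rw [Real.sinc_of_ne_zero hx0, abs_div]
          exact div_le_div₀ zero_le_one (Real.abs_sin_le_one x) (by norm_num) hx4
        have := Real.exp_neg_one_gt_d9
        rw [← sq_abs]
        nlinarith [abs_nonneg (Real.sinc x)]
    _ = Real.exp (-n) := by
        rw [Finset.prod_const, Finset.card_range, ← Real.exp_nat_mul]
        simp
    _ ≤ _ := by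
        rw [← Real.exp_add]
        exact Real.exp_le_exp.2 (by linarith)

/-- the filter function for `γ = 1` -/
theorem exists_w1 : ∃ (w : ℝ → ℂ) (C c : ℝ), 0 < C ∧ 0 < c ∧ Measurable w ∧ Band (1 / 4) 1 w ∧
    (∀ t, (starRingEnd ℂ) (w t) = w t) ∧ (∀ t, w (-t) = w t) ∧ Decay C c w := by
  obtain ⟨ψ, hc, hb, ⟨M, hM⟩, hr, he⟩ := exists_band0 (α := 1 / 2) (β := 3 / 4) (by norm_num) (by norm_num)
  have hM0 : 0 ≤ M := (norm_nonneg _).trans (hM 0)
  have hbd : ∀ t, BddBelow (Set.range fun n => fb95P n t) := fun t =>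
    ⟨0, by rintro _ ⟨n, rfl⟩; exact fb95P_nonneg n t⟩
  set p : ℝ → ℝ := fun t => ⨅ n, fb95P n t with hp
  have hp0 : ∀ t, 0 ≤ p t := fun t => le_ciInf fun n => fb95P_nonneg n t
  have hple : ∀ t n, p t ≤ fb95P n t := fun t n => ciInf_le (hbd t) n
  have hpm : Measurable p := Measurable.iInf fun n => (fb95P_cont n).measurable
  have hlim : ∀ t, Filter.Tendsto (fun n => fb95P n t) Filter.atTop (nhds (p t)) := fun t =>
    tendsto_atTop_ciInf (fb95P_anti t) (hbd t)
  have hft : ∀ ξ : ℝ, Filter.Tendsto (fun n => ft (fun t => ψ t * (fb95P n t : ℂ)) ξ) Filter.atTop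
      (nhds (ft (fun t => ψ t * (p t : ℂ)) ξ)) := fun ξ => by
    unfold ft
    refine tendsto_integral_of_dominated_convergence (fun t => ‖ψ t‖) (fun n => ?_) hb.int.norm
      (fun n => Filter.Eventually.of_forall fun t => ?_) (Filter.Eventually.of_forall fun t => ?_)
    · have := fb95P_cont n
      exact Continuous.aestronglyMeasurable (by fun_prop)
    · rw [norm_mul, norm_mul, fb95_norm, mul_one, norm_real, Real.norm_eq_abs,
        abs_of_nonneg (fb95P_nonneg n t)]
      exact mul_le_of_le_one_right (norm_nonneg _) (fb95P_le_one n t)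
    · exact (((continuous_ofReal.tendsto _).comp (hlim t)).const_mul _).mul_const _
  have hB : ∀ n : ℕ, Band (1 / 4) 1 fun t => ψ t * (fb95P n t : ℂ) := fun n =>
    (fb95P_band hb n).fb95_mono (le_add_of_nonneg_right (by positivity)) (sub_le_self _ (by positivity))
  refine ⟨fun t => ψ t * (p t : ℂ), (M + 1) * Real.exp 1, 1 / 8, by positivity, by norm_num,
    hc.measurable.mul (measurable_ofReal.comp hpm), ⟨?_, fun ξ hξ => ?_, fun ξ hξ => ?_⟩,
    fun t => ?_, fun t => ?_, fun t => ?_⟩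
  · refine hb.int.mul_bdd (c := 1) (measurable_ofReal.comp hpm).aestronglyMeasurable
      (Filter.Eventually.of_forall fun t => ?_)
    rw [norm_real, Real.norm_eq_abs, abs_of_nonneg (hp0 t)]
    exact (hple t 0).trans (fb95P_le_one 0 t)
  · exact tendsto_nhds_unique (hft ξ) (by simpa only [fun n => (hB n).one ξ hξ] using tendsto_const_nhds)
  · exact tendsto_nhds_unique (hft ξ) (by simpa only [fun n => (hB n).zero ξ hξ] using tendsto_const_nhds)
  · rw [map_mul, hr, conj_ofReal]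
  · simp only [hp, he, fb95P_neg]
  · rw [norm_mul, norm_real, Real.norm_eq_abs, abs_of_nonneg (hp0 t), mul_assoc]
    exact mul_le_mul ((hM t).trans (by linarith)) ((hple t _).trans (fb95P_decay t)) (hp0 t) (by linarith)

end Crest.Agent.R340.Filt
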