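import Crest.Agent.R340.FiltSpec
import Crest.Agent.R340.FiltFlow

/-! # FILT: the quasi-adiabatic (spectral) flow intertwines the projections below a gap -/

set_option autoImplicit false

namespace Crest.Agent.R340.Filt

open MeasureTheory Complex Set Filter Topology

variable {𝔄 : Type} [CStarAlgebra 𝔄] [FiniteDimensional ℂ 𝔄] [PartialOrder 𝔄] [StarOrderedRing 𝔄]
  {w W : ℝ → ℂ} {H H' p U : ℝ → 𝔄} {Pi : 𝔄} {a : ℝ → ℝ} {γ γ' T : ℝ}

omit [FiniteDimensional ℂ 𝔄] [StarOrderedRing 𝔄] in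
theorem Gap.mul_Pi {H p : 𝔄} {a b : ℝ} (h : Gap Pi H p a b) : p * Pi = p := by
  have := congrArg star h.le
  rwa [star_mul, h.proj.isSelfAdjoint.star_eq, h.projPi.isSelfAdjoint.star_eq] at this

/-- the difference of two projections below a common gap -/
theorem Gap.sub_eq {H K p q : 𝔄} {a b a' b' : ℝ} (hf : IsFilt γ w W) (h : Gap Pi H p a b)
    (h' : Gap Pi K q a' b') (h1 : a' + γ ≤ b) (h2 : a + γ ≤ b') :
    q - p = I • filt2 W H K ((Pi - p) * (K - H) * q - p * (K - H) * (Pi - q)) := by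
  have c1 : Commute (Pi - p) H := h.cPi.sub_left h.cp
  have c2 : Commute (Pi - q) K := h'.cPi.sub_left h'.cp
  have e0 : ∀ x y : 𝔄, Commute x H → Commute y K → x * filt2 w H K 1 * y = 0 →
      filt2 W H K (x * (H - K) * y) = I • (x * y) := by
    intro x y hx hy h0
    have e1 : x * (H - K) * y = H * (x * y) - x * y * K := by
      rw [mul_sub, sub_mul, hx.eq, mul_assoc x y K, hy.eq]
      simp only [mul_assoc]
    rw [mul_filt2 hf.int_w h.sa h'.sa hx.eq, filt2_mul hf.int_w h.sa h'.sa hy.eq.symm,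
      mul_one] at h0
    rw [e1, filt2_comm hf h.sa h'.sa, h0, sub_zero]
  have e1 := e0 _ _ c1 h'.cp (Gap.filt2_high_low hf h h' h1 1)
  have e2 := e0 _ _ h.cp c2 (Gap.filt2_low_high hf h h' h2 1)
  have e3 : (Pi - p) * (K - H) * q - p * (K - H) * (Pi - q) =
      p * (H - K) * (Pi - q) - (Pi - p) * (H - K) * q := by noncomm_ring
  rw [e3, filt2_sub hf.int_W h.sa h'.sa, e1, e2, ← smul_sub, smul_smul, I_mul_I, neg_smul,
    one_smul, mul_sub, sub_mul, h.mul_Pi, h'.le]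
  abel

theorem qa_deriv (hf : IsFilt γ w W) (hγ : γ < γ') (ha : ContinuousOn a (Icc 0 T))
    (hg : ∀ s ∈ Icc 0 T, Gap Pi (H s) (p s) (a s) (a s + γ')) {s : ℝ} (hs : s ∈ Icc 0 T)
    (hd : HasDerivAt H (H' s) s) (hc : Commute Pi (H' s)) :
    HasDerivWithinAt p (I • (filt W (H s) (H' s) * p s - p s * filt W (H s) (H' s)))
      (Icc 0 T) s := by
  have g0 := hg s hs
  set F : Filter ℝ := 𝓝[Icc 0 T \ {s}] s with hF
  have hFle : F ≤ 𝓝[Icc 0 T] s := nhdsWithin_mono _ sdiff_subset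
  have hF1 : F ≤ 𝓝[≠] s := nhdsWithin_mono _ fun x hx => hx.2
  have hF2 : F ≤ 𝓝 s := nhdsWithin_le_nhds
  have ev1 : ∀ᶠ r in F, r ∈ Icc 0 T ∧ a r + γ ≤ a s + γ' ∧ a s + γ ≤ a r + γ' := by
    have t1 : Tendsto a F (𝓝 (a s)) := (ha s hs).mono_left hFle
    have t2 : ∀ᶠ r in F, r ∈ Icc 0 T := hFle self_mem_nhdsWithin
    filter_upwards [t2, t1.eventually (gt_mem_nhds (show a s < a s + γ' - γ by linarith)),
      t1.eventually (lt_mem_nhds (show a s + γ - γ' < a s by linarith))] with r h1 h2 h3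
    exact ⟨h1, by linarith, by linarith⟩
  have tH : Tendsto H F (𝓝 (H s)) := hd.continuousAt.tendsto.mono_left hF2
  have tS : Tendsto (slope H s) F (𝓝 (H' s)) := (hasDerivAt_iff_tendsto_slope.1 hd).mono_left hF1
  have tp : Tendsto p F (𝓝 (p s)) := by
    rw [tendsto_iff_norm_sub_tendsto_zero]
    have t1 : Tendsto (fun r => 2 * (∫ t, ‖W t‖) * ‖H r - H s‖) F (𝓝 0) := by
      simpa using (tendsto_iff_norm_sub_tendsto_zero.1 tH).const_mul (2 * ∫ t, ‖W t‖)
    refine squeeze_zero' (Eventually.of_forall fun _ => norm_nonneg _) ?_ t1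
    filter_upwards [ev1] with r hr
    exact Gap.norm_sub_le hf g0 (hg r hr.1) hr.2.1 hr.2.2
  have hsa : ∀ x : 𝔄, IsSelfAdjoint ((1 / 2 : ℝ) • (x + star x)) := fun x =>
    (IsSelfAdjoint.all _).smul (IsSelfAdjoint.add_star_self x)
  have hre : ∀ x : 𝔄, IsSelfAdjoint x → (1 / 2 : ℝ) • (x + star x) = x := fun x hx => by
    rw [hx.star_eq, ← two_smul ℝ x, smul_smul]; norm_num
  have cF : Continuous fun x : 𝔄 × 𝔄 => filt2 W (H s) ((1 / 2 : ℝ) • (x.1 + star x.1)) x.2 :=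
    continuous_filt2 hf.int_W continuous_const (by fun_prop) continuous_snd (fun _ => g0.sa)
      fun x => hsa x.1
  have tA : Tendsto (fun r => (Pi - p s) * slope H s r * p r - p s * slope H s r * (Pi - p r)) F
      (𝓝 ((Pi - p s) * H' s * p s - p s * H' s * (Pi - p s))) :=
    ((tS.const_mul _).mul tp).sub ((tS.const_mul _).mul (tp.const_sub _))
  have tB := ((cF.tendsto _).comp (tH.prodMk_nhds tA)).const_smul I
  have c1 : Commute (Pi - p s) (H s) := g0.cPi.sub_left g0.cp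
  have cD : Commute Pi (filt W (H s) (H' s)) := commute_filt hf.int_W g0.sa g0.cPi hc
  have lim : filt2 W (H s) (H s) ((Pi - p s) * H' s * p s - p s * H' s * (Pi - p s)) =
      filt W (H s) (H' s) * p s - p s * filt W (H s) (H' s) := by
    rw [filt2_sub hf.int_W g0.sa g0.sa, ← filt2_mul hf.int_W g0.sa g0.sa g0.cp.eq.symm,
      ← filt2_mul hf.int_W g0.sa g0.sa c1.eq.symm, ← mul_filt2 hf.int_W g0.sa g0.sa c1.eq,
      ← mul_filt2 hf.int_W g0.sa g0.sa g0.cp.eq, ← filt_eq_filt2, sub_mul, sub_mul, mul_sub, cD.eq,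
      mul_assoc _ Pi, g0.le, mul_assoc (p s) _ Pi, ← cD.eq, ← mul_assoc, g0.mul_Pi]
    abel
  rw [hasDerivWithinAt_iff_tendsto_slope]
  simp only [hre _ g0.sa, lim] at tB
  refine tB.congr' ?_
  filter_upwards [ev1] with r hr
  have g1 := hg r hr.1
  simp only [Function.comp_apply, hre _ g1.sa, slope_def_module]
  have hsm : ∀ (c : ℝ) (X : 𝔄), filt2 W (H s) (H r) (c • X) = c • filt2 W (H s) (H r) X := by
    intro c X
    rw [← Complex.coe_smul, filt2_smul, Complex.coe_smul]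
  rw [Gap.sub_eq hf g0 g1 hr.2.1 hr.2.2, smul_comm (r - s)⁻¹, ← hsm]
  simp only [mul_smul_comm, smul_mul_assoc, ← smul_sub]

omit [FiniteDimensional ℂ 𝔄] [PartialOrder 𝔄] [StarOrderedRing 𝔄] in
theorem deriv_sa (hsa : ∀ s, IsSelfAdjoint (H s)) (hd : ∀ s, HasDerivAt H (H' s) s) (s : ℝ) :
    IsSelfAdjoint (H' s) := by
  have h1 : HasDerivAt (fun s => star (H s)) (star (H' s)) s := (hd s).star
  have h2 : (fun s => star (H s)) = H := funext fun s => (hsa s).star_eq
  rw [h2] at h1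
  exact h1.unique (hd s)

omit [FiniteDimensional ℂ 𝔄] [PartialOrder 𝔄] [StarOrderedRing 𝔄] in
theorem qa_exists (hf : IsFilt γ w W) (hsa : ∀ s, IsSelfAdjoint (H s))
    (hd : ∀ s, HasDerivAt H (H' s) s) (hc : Continuous H') :
    Continuous (fun s => filt W (H s) (H' s)) ∧ (∀ s, IsSelfAdjoint (filt W (H s) (H' s))) ∧
      ∃ U : ℝ → 𝔄, IsFlow (fun s => filt W (H s) (H' s)) U := by
  have cH : Continuous H := continuous_iff_continuousAt.2 fun s => (hd s).continuousAt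
  have c : Continuous (fun s => filt W (H s) (H' s)) := continuous_filt2 hf.int_W cH cH hc hsa hsa
  exact ⟨c, fun s => filt_sa hf.real_W (hsa s) (deriv_sa hsa hd s), exists_flow c⟩

theorem qa_intertwine (hf : IsFilt γ w W) (hγ : γ < γ') (hsa : ∀ s, IsSelfAdjoint (H s))
    (hd : ∀ s, HasDerivAt H (H' s) s) (hc : Continuous H') (hPi : ∀ s, Commute Pi (H' s))
    (ha : ContinuousOn a (Icc 0 T)) (hg : ∀ s ∈ Icc 0 T, Gap Pi (H s) (p s) (a s) (a s + γ'))
    (hU : IsFlow (fun s => filt W (H s) (H' s)) U) :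
    ∀ s ∈ Icc 0 T, star (U s) * p s * U s = p 0 := by
  obtain ⟨-, hD, -⟩ := qa_exists hf hsa hd hc
  have h0 : ∀ s ∈ Icc 0 T, HasDerivWithinAt (fun s => star (U s) * p s * U s) 0 (Icc 0 T) s := by
    intro s hs
    have := hU.deriv_conj hD (qa_deriv hf hγ ha hg hs (hd s) (hPi s))
    simpa using this
  intro s hs
  have := constant_of_has_deriv_right_zero (f := fun s => star (U s) * p s * U s) (a := 0) (b := T)
    (fun x hx => (h0 x hx).continuousWithinAt)
    (fun x hx => (h0 x (Ico_subset_Icc_self hx)).mono_of_mem_nhdsWithin (Icc_mem_nhdsGE_of_mem hx))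
    s hs
  simpa [hU.zero] using this

end Crest.Agent.R340.Filt
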