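import Crest.Agent.R340.G0Dat
import Crest.Agent.R340.FgPlanar

/-! Row 340: planar checks. -/

set_option autoImplicit false
set_option maxRecDepth 100000

namespace Crest.Agent.R340.G0

open Crest.Agent.R340

theorem oscok : oscOK 2 1 41 (E30 ++ negCL (q3 den0 c30) ++ tailCL a0) = true := by
  decide +kernel
theorem aok : a0.all (fun e => decide (0 ≤ e.2)) = true := by decide +kernel
theorem costok : certCost (q2 den0 c20) a0 < 9860 / 10000 := by decide +kernel

end Crest.Agent.R340.G0
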