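import Crest.Agent.R340.G0Dat

/-! Row 340: table checks. -/

set_option autoImplicit false
set_option maxRecDepth 100000

namespace Crest.Agent.R340.G0

open Crest.Agent.R340

theorem tbok : tb0.ok = true := by decide +kernel
theorem tagsok : tagsOK tb0 ks0 = true := by decide +kernel
theorem bksok : bksOK 10 ks0 = true := by decide +kernel

end Crest.Agent.R340.G0
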