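import Crest.Agent.R340.G0Dat

/-! Row 340: block checks (generated). -/

set_option autoImplicit false
set_option maxRecDepth 100000

namespace Crest.Agent.R340.G0

open Crest.Agent.R340

theorem blk797 : blkOK tb0 797 = true := by decide +kernel
theorem blk536 : blkOK tb0 536 = true := by decide +kernel
theorem blk1201 : blkOK tb0 1201 = true := by decide +kernel
theorem blk1191 : blkOK tb0 1191 = true := by decide +kernel
theorem blk921 : blkOK tb0 921 = true := by decide +kernel
theorem blk394 : blkOK tb0 394 = true := by decide +kernel
theorem blk392 : blkOK tb0 392 = true := by decide +kernel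
theorem blk679 : blkOK tb0 679 = true := by decide +kernel
theorem blk128 : blkOK tb0 128 = true := by decide +kernel

theorem blks0 : ∀ κ ∈ [797, 536, 1201, 1191, 921, 394, 392, 679, 128], blkOK tb0 κ = true := by
  simp only [List.forall_mem_cons, List.not_mem_nil, false_imp_iff, implies_true, and_true]
  exact ⟨blk797, blk536, blk1201, blk1191, blk921, blk394, blk392, blk679, blk128⟩

end Crest.Agent.R340.G0
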