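import Crest.Agent.R340.G0Dat

/-! Row 340: block checks (generated). -/

set_option autoImplicit false
set_option maxRecDepth 100000

namespace Crest.Agent.R340.G0

open Crest.Agent.R340

theorem blk798 : blkOK tb0 798 = true := by decide +kernel
theorem blk1059 : blkOK tb0 1059 = true := by decide +kernel
theorem blk1194 : blkOK tb0 1194 = true := by decide +kernel
theorem blk398 : blkOK tb0 398 = true := by decide +kernel
theorem blk1328 : blkOK tb0 1328 = true := by decide +kernel
theorem blk809 : blkOK tb0 809 = true := by decide +kernel
theorem blk784 : blkOK tb0 784 = true := by decide +kernel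
theorem blk546 : blkOK tb0 546 = true := by decide +kernel
theorem blk0 : blkOK tb0 0 = true := by decide +kernel

theorem blks1 : ∀ κ ∈ [798, 1059, 1194, 398, 1328, 809, 784, 546, 0], blkOK tb0 κ = true := by
  simp only [List.forall_mem_cons, List.not_mem_nil, false_imp_iff, implies_true, and_true]
  exact ⟨blk798, blk1059, blk1194, blk398, blk1328, blk809, blk784, blk546, blk0⟩

end Crest.Agent.R340.G0
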