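import Crest.Agent.R340.G0Dat

/-! Row 340: block checks (generated). -/

set_option autoImplicit false
set_option maxRecDepth 100000

namespace Crest.Agent.R340.G0

open Crest.Agent.R340

theorem blk667 : blkOK tb0 667 = true := by decide +kernel
theorem blk1062 : blkOK tb0 1062 = true := by decide +kernel
theorem blk528 : blkOK tb0 528 = true := by decide +kernel
theorem blk1193 : blkOK tb0 1193 = true := by decide +kernel
theorem blk674 : blkOK tb0 674 = true := by decide +kernel
theorem blk1335 : blkOK tb0 1335 = true := by decide +kernel
theorem blk1075 : blkOK tb0 1075 = true := by decide +kernel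
theorem blk677 : blkOK tb0 677 = true := by decide +kernel
theorem blk408 : blkOK tb0 408 = true := by decide +kernel
theorem blk260 : blkOK tb0 260 = true := by decide +kernel

theorem blks11 : ∀ κ ∈ [667, 1062, 528, 1193, 674, 1335, 1075, 677, 408, 260], blkOK tb0 κ = true := by
  simp only [List.forall_mem_cons, List.not_mem_nil, false_imp_iff, implies_true, and_true]
  exact ⟨blk667, blk1062, blk528, blk1193, blk674, blk1335, blk1075, blk677, blk408, blk260⟩

end Crest.Agent.R340.G0
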