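import Crest.Agent.R340.G0Dat

/-! Row 340: block checks (generated). -/

set_option autoImplicit false
set_option maxRecDepth 100000

namespace Crest.Agent.R340.G0

open Crest.Agent.R340

theorem blk931 : blkOK tb0 931 = true := by decide +kernel
theorem blk533 : blkOK tb0 533 = true := by decide +kernel
theorem blk805 : blkOK tb0 805 = true := by decide +kernel
theorem blk923 : blkOK tb0 923 = true := by decide +kernel
theorem blk525 : blkOK tb0 525 = true := by decide +kernel
theorem blk396 : blkOK tb0 396 = true := by decide +kernel
theorem blk654 : blkOK tb0 654 = true := by decide +kernel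
theorem blk522 : blkOK tb0 522 = true := by decide +kernel
theorem blk520 : blkOK tb0 520 = true := by decide +kernel
theorem blk257 : blkOK tb0 257 = true := by decide +kernel

theorem blks12 : ∀ κ ∈ [931, 533, 805, 923, 525, 396, 654, 522, 520, 257], blkOK tb0 κ = true := by
  simp only [List.forall_mem_cons, List.not_mem_nil, false_imp_iff, implies_true, and_true]
  exact ⟨blk931, blk533, blk805, blk923, blk525, blk396, blk654, blk522, blk520, blk257⟩

end Crest.Agent.R340.G0
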