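import Crest.Agent.R340.G0Dat

/-! Row 340: block checks (generated). -/

set_option autoImplicit false
set_option maxRecDepth 100000

namespace Crest.Agent.R340.G0

open Crest.Agent.R340

theorem blk662 : blkOK tb0 662 = true := by decide +kernel
theorem blk530 : blkOK tb0 530 = true := by decide +kernel
theorem blk1068 : blkOK tb0 1068 = true := by decide +kernel
theorem blk538 : blkOK tb0 538 = true := by decide +kernel
theorem blk1072 : blkOK tb0 1072 = true := by decide +kernel
theorem blk1073 : blkOK tb0 1073 = true := by decide +kernel
theorem blk919 : blkOK tb0 919 = true := by decide +kernel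
theorem blk811 : blkOK tb0 811 = true := by decide +kernel
theorem blk264 : blkOK tb0 264 = true := by decide +kernel
theorem blk387 : blkOK tb0 387 = true := by decide +kernel

theorem blks13 : ∀ κ ∈ [662, 530, 1068, 538, 1072, 1073, 919, 811, 264, 387], blkOK tb0 κ = true := by
  simp only [List.forall_mem_cons, List.not_mem_nil, false_imp_iff, implies_true, and_true]
  exact ⟨blk662, blk530, blk1068, blk538, blk1072, blk1073, blk919, blk811, blk264, blk387⟩

end Crest.Agent.R340.G0
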