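import Crest.Agent.R340.G0Dat

/-! Row 340: block checks (generated). -/

set_option autoImplicit false
set_option maxRecDepth 100000

namespace Crest.Agent.R340.G0

open Crest.Agent.R340

theorem blk668 : blkOK tb0 668 = true := by decide +kernel
theorem blk531 : blkOK tb0 531 = true := by decide +kernel
theorem blk791 : blkOK tb0 791 = true := by decide +kernel
theorem blk1199 : blkOK tb0 1199 = true := by decide +kernel
theorem blk401 : blkOK tb0 401 = true := by decide +kernel
theorem blk1330 : blkOK tb0 1330 = true := by decide +kernel
theorem blk405 : blkOK tb0 405 = true := by decide +kernel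
theorem blk785 : blkOK tb0 785 = true := by decide +kernel
theorem blk813 : blkOK tb0 813 = true := by decide +kernel
theorem blk411 : blkOK tb0 411 = true := by decide +kernel

theorem blks14 : ∀ κ ∈ [668, 531, 791, 1199, 401, 1330, 405, 785, 813, 411], blkOK tb0 κ = true := by
  simp only [List.forall_mem_cons, List.not_mem_nil, false_imp_iff, implies_true, and_true]
  exact ⟨blk668, blk531, blk791, blk1199, blk401, blk1330, blk405, blk785, blk813, blk411⟩

end Crest.Agent.R340.G0
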