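import Crest.Agent.R340.G0Dat

/-! Row 340: block checks (generated). -/

set_option autoImplicit false
set_option maxRecDepth 100000

namespace Crest.Agent.R340.G0

open Crest.Agent.R340

theorem blk929 : blkOK tb0 929 = true := by decide +kernel
theorem blk660 : blkOK tb0 660 = true := by decide +kernel
theorem blk535 : blkOK tb0 535 = true := by decide +kernel
theorem blk1192 : blkOK tb0 1192 = true := by decide +kernel
theorem blk807 : blkOK tb0 807 = true := by decide +kernel
theorem blk1054 : blkOK tb0 1054 = true := by decide +kernel
theorem blk675 : blkOK tb0 675 = true := by decide +kernel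
theorem blk267 : blkOK tb0 267 = true := by decide +kernel
theorem blk261 : blkOK tb0 261 = true := by decide +kernel
theorem blk130 : blkOK tb0 130 = true := by decide +kernel

theorem blks15 : ∀ κ ∈ [929, 660, 535, 1192, 807, 1054, 675, 267, 261, 130], blkOK tb0 κ = true := by
  simp only [List.forall_mem_cons, List.not_mem_nil, false_imp_iff, implies_true, and_true]
  exact ⟨blk929, blk660, blk535, blk1192, blk807, blk1054, blk675, blk267, blk261, blk130⟩

end Crest.Agent.R340.G0
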