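import Crest.Agent.R340.G0Dat

/-! Row 340: block checks (generated). -/

set_option autoImplicit false
set_option maxRecDepth 100000

namespace Crest.Agent.R340.G0

open Crest.Agent.R340

theorem blk930 : blkOK tb0 930 = true := by decide +kernel
theorem blk670 : blkOK tb0 670 = true := by decide +kernel
theorem blk1060 : blkOK tb0 1060 = true := by decide +kernel
theorem blk1463 : blkOK tb0 1463 = true := by decide +kernel
theorem blk922 : blkOK tb0 922 = true := by decide +kernel
theorem blk1331 : blkOK tb0 1331 = true := by decide +kernel
theorem blk523 : blkOK tb0 523 = true := by decide +kernel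
theorem blk918 : blkOK tb0 918 = true := by decide +kernel
theorem blk263 : blkOK tb0 263 = true := by decide +kernel
theorem blk273 : blkOK tb0 273 = true := by decide +kernel

theorem blks16 : ∀ κ ∈ [930, 670, 1060, 1463, 922, 1331, 523, 918, 263, 273], blkOK tb0 κ = true := by
  simp only [List.forall_mem_cons, List.not_mem_nil, false_imp_iff, implies_true, and_true]
  exact ⟨blk930, blk670, blk1060, blk1463, blk922, blk1331, blk523, blk918, blk263, blk273⟩

end Crest.Agent.R340.G0
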