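import Crest.Agent.R340.G0Dat

/-! Row 340: block checks (generated). -/

set_option autoImplicit false
set_option maxRecDepth 100000

namespace Crest.Agent.R340.G0

open Crest.Agent.R340

theorem blk932 : blkOK tb0 932 = true := by decide +kernel
theorem blk532 : blkOK tb0 532 = true := by decide +kernel
theorem blk529 : blkOK tb0 529 = true := by decide +kernel
theorem blk939 : blkOK tb0 939 = true := by decide +kernel
theorem blk539 : blkOK tb0 539 = true := by decide +kernel
theorem blk402 : blkOK tb0 402 = true := by decide +kernel
theorem blk676 : blkOK tb0 676 = true := by decide +kernel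
theorem blk542 : blkOK tb0 542 = true := by decide +kernel
theorem blk544 : blkOK tb0 544 = true := by decide +kernel
theorem blk258 : blkOK tb0 258 = true := by decide +kernel

theorem blks17 : ∀ κ ∈ [932, 532, 529, 939, 539, 402, 676, 542, 544, 258], blkOK tb0 κ = true := by
  simp only [List.forall_mem_cons, List.not_mem_nil, false_imp_iff, implies_true, and_true]
  exact ⟨blk932, blk532, blk529, blk939, blk539, blk402, blk676, blk542, blk544, blk258⟩

end Crest.Agent.R340.G0
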