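import Crest.Agent.R340.G0Dat

/-! Row 340: block checks (generated). -/

set_option autoImplicit false
set_option maxRecDepth 100000

namespace Crest.Agent.R340.G0

open Crest.Agent.R340

theorem blk933 : blkOK tb0 933 = true := by decide +kernel
theorem blk1064 : blkOK tb0 1064 = true := by decide +kernel
theorem blk937 : blkOK tb0 937 = true := by decide +kernel
theorem blk1200 : blkOK tb0 1200 = true := by decide +kernel
theorem blk656 : blkOK tb0 656 = true := by decide +kernel
theorem blk1332 : blkOK tb0 1332 = true := by decide +kernel
theorem blk541 : blkOK tb0 541 = true := by decide +kernel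
theorem blk944 : blkOK tb0 944 = true := by decide +kernel
theorem blk268 : blkOK tb0 268 = true := by decide +kernel
theorem blk388 : blkOK tb0 388 = true := by decide +kernel

theorem blks18 : ∀ κ ∈ [933, 1064, 937, 1200, 656, 1332, 541, 944, 268, 388], blkOK tb0 κ = true := by
  simp only [List.forall_mem_cons, List.not_mem_nil, false_imp_iff, implies_true, and_true]
  exact ⟨blk933, blk1064, blk937, blk1200, blk656, blk1332, blk541, blk944, blk268, blk388⟩

end Crest.Agent.R340.G0
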