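import Crest.Agent.R340.G0Dat

/-! Row 340: block checks (generated). -/

set_option autoImplicit false
set_option maxRecDepth 100000

namespace Crest.Agent.R340.G0

open Crest.Agent.R340

theorem blk794 : blkOK tb0 794 = true := by decide +kernel
theorem blk927 : blkOK tb0 927 = true := by decide +kernel
theorem blk659 : blkOK tb0 659 = true := by decide +kernel
theorem blk790 : blkOK tb0 790 = true := by decide +kernel
theorem blk940 : blkOK tb0 940 = true := by decide +kernel
theorem blk941 : blkOK tb0 941 = true := by decide +kernel
theorem blk404 : blkOK tb0 404 = true := by decide +kernel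
theorem blk406 : blkOK tb0 406 = true := by decide +kernel
theorem blk680 : blkOK tb0 680 = true := by decide +kernel
theorem blk129 : blkOK tb0 129 = true := by decide +kernel

theorem blks19 : ∀ κ ∈ [794, 927, 659, 790, 940, 941, 404, 406, 680, 129], blkOK tb0 κ = true := by
  simp only [List.forall_mem_cons, List.not_mem_nil, false_imp_iff, implies_true, and_true]
  exact ⟨blk794, blk927, blk659, blk790, blk940, blk941, blk404, blk406, blk680, blk129⟩

end Crest.Agent.R340.G0
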