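import Crest.Agent.R340.G0Dat

/-! Row 340: block checks (generated). -/

set_option autoImplicit false
set_option maxRecDepth 100000

namespace Crest.Agent.R340.G0

open Crest.Agent.R340

theorem blk799 : blkOK tb0 799 = true := by decide +kernel
theorem blk1069 : blkOK tb0 1069 = true := by decide +kernel
theorem blk1195 : blkOK tb0 1195 = true := by decide +kernel
theorem blk400 : blkOK tb0 400 = true := by decide +kernel
theorem blk1329 : blkOK tb0 1329 = true := by decide +kernel
theorem blk920 : blkOK tb0 920 = true := by decide +kernel
theorem blk407 : blkOK tb0 407 = true := by decide +kernel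
theorem blk271 : blkOK tb0 271 = true := by decide +kernel
theorem blk134 : blkOK tb0 134 = true := by decide +kernel

theorem blks2 : ∀ κ ∈ [799, 1069, 1195, 400, 1329, 920, 407, 271, 134], blkOK tb0 κ = true := by
  simp only [List.forall_mem_cons, List.not_mem_nil, false_imp_iff, implies_true, and_true]
  exact ⟨blk799, blk1069, blk1195, blk400, blk1329, blk920, blk407, blk271, blk134⟩

end Crest.Agent.R340.G0
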