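import Crest.Agent.R340.G0Dat

/-! Row 340: block checks (generated). -/

set_option autoImplicit false
set_option maxRecDepth 100000

namespace Crest.Agent.R340.G0

open Crest.Agent.R340

theorem blk802 : blkOK tb0 802 = true := by decide +kernel
theorem blk935 : blkOK tb0 935 = true := by decide +kernel
theorem blk671 : blkOK tb0 671 = true := by decide +kernel
theorem blk806 : blkOK tb0 806 = true := by decide +kernel
theorem blk397 : blkOK tb0 397 = true := by decide +kernel
theorem blk1327 : blkOK tb0 1327 = true := by decide +kernel
theorem blk787 : blkOK tb0 787 = true := by decide +kernel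
theorem blk543 : blkOK tb0 543 = true := by decide +kernel
theorem blk545 : blkOK tb0 545 = true := by decide +kernel
theorem blk138 : blkOK tb0 138 = true := by decide +kernel

theorem blks20 : ∀ κ ∈ [802, 935, 671, 806, 397, 1327, 787, 543, 545, 138], blkOK tb0 κ = true := by
  simp only [List.forall_mem_cons, List.not_mem_nil, false_imp_iff, implies_true, and_true]
  exact ⟨blk802, blk935, blk671, blk806, blk397, blk1327, blk787, blk543, blk545, blk138⟩

end Crest.Agent.R340.G0
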