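import Crest.Agent.R340.G0Dat

/-! Row 340: block checks (generated). -/

set_option autoImplicit false
set_option maxRecDepth 100000

namespace Crest.Agent.R340.G0

open Crest.Agent.R340

theorem blk928 : blkOK tb0 928 = true := by decide +kernel
theorem blk793 : blkOK tb0 793 = true := by decide +kernel
theorem blk1067 : blkOK tb0 1067 = true := by decide +kernel
theorem blk537 : blkOK tb0 537 = true := by decide +kernel
theorem blk673 : blkOK tb0 673 = true := by decide +kernel
theorem blk403 : blkOK tb0 403 = true := by decide +kernel
theorem blk1206 : blkOK tb0 1206 = true := by decide +kernel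
theorem blk783 : blkOK tb0 783 = true := by decide +kernel
theorem blk409 : blkOK tb0 409 = true := by decide +kernel
theorem blk137 : blkOK tb0 137 = true := by decide +kernel

theorem blks21 : ∀ κ ∈ [928, 793, 1067, 537, 673, 403, 1206, 783, 409, 137], blkOK tb0 κ = true := by
  simp only [List.forall_mem_cons, List.not_mem_nil, false_imp_iff, implies_true, and_true]
  exact ⟨blk928, blk793, blk1067, blk537, blk673, blk403, blk1206, blk783, blk409, blk137⟩

end Crest.Agent.R340.G0
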