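import Crest.Agent.R340.G0Dat

/-! Row 340: block checks (generated). -/

set_option autoImplicit false
set_option maxRecDepth 100000

namespace Crest.Agent.R340.G0

open Crest.Agent.R340

theorem blk934 : blkOK tb0 934 = true := by decide +kernel
theorem blk803 : blkOK tb0 803 = true := by decide +kernel
theorem blk925 : blkOK tb0 925 = true := by decide +kernel
theorem blk658 : blkOK tb0 658 = true := by decide +kernel
theorem blk1071 : blkOK tb0 1071 = true := by decide +kernel
theorem blk524 : blkOK tb0 524 = true := by decide +kernel
theorem blk1188 : blkOK tb0 1188 = true := by decide +kernel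
theorem blk391 : blkOK tb0 391 = true := by decide +kernel
theorem blk270 : blkOK tb0 270 = true := by decide +kernel
theorem blk132 : blkOK tb0 132 = true := by decide +kernel

theorem blks22 : ∀ κ ∈ [934, 803, 925, 658, 1071, 524, 1188, 391, 270, 132], blkOK tb0 κ = true := by
  simp only [List.forall_mem_cons, List.not_mem_nil, false_imp_iff, implies_true, and_true]
  exact ⟨blk934, blk803, blk925, blk658, blk1071, blk524, blk1188, blk391, blk270, blk132⟩

end Crest.Agent.R340.G0
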