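import Crest.Agent.R340.G0Dat

/-! Row 340: block checks (generated). -/

set_option autoImplicit false
set_option maxRecDepth 100000

namespace Crest.Agent.R340.G0

open Crest.Agent.R340

theorem blk661 : blkOK tb0 661 = true := by decide +kernel
theorem blk669 : blkOK tb0 669 = true := by decide +kernel
theorem blk1061 : blkOK tb0 1061 = true := by decide +kernel
theorem blk672 : blkOK tb0 672 = true := by decide +kernel
theorem blk1190 : blkOK tb0 1190 = true := by decide +kernel
theorem blk1333 : blkOK tb0 1333 = true := by decide +kernel
theorem blk1052 : blkOK tb0 1052 = true := by decide +kernel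
theorem blk945 : blkOK tb0 945 = true := by decide +kernel
theorem blk390 : blkOK tb0 390 = true := by decide +kernel
theorem blk259 : blkOK tb0 259 = true := by decide +kernel

theorem blks23 : ∀ κ ∈ [661, 669, 1061, 672, 1190, 1333, 1052, 945, 390, 259], blkOK tb0 κ = true := by
  simp only [List.forall_mem_cons, List.not_mem_nil, false_imp_iff, implies_true, and_true]
  exact ⟨blk661, blk669, blk1061, blk672, blk1190, blk1333, blk1052, blk945, blk390, blk259⟩

end Crest.Agent.R340.G0
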