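import Crest.Agent.R340.G0Dat

/-! Row 340: block checks (generated). -/

set_option autoImplicit false
set_option maxRecDepth 100000

namespace Crest.Agent.R340.G0

open Crest.Agent.R340

theorem blk664 : blkOK tb0 664 = true := by decide +kernel
theorem blk936 : blkOK tb0 936 = true := by decide +kernel
theorem blk527 : blkOK tb0 527 = true := by decide +kernel
theorem blk657 : blkOK tb0 657 = true := by decide +kernel
theorem blk395 : blkOK tb0 395 = true := by decide +kernel
theorem blk1205 : blkOK tb0 1205 = true := by decide +kernel
theorem blk521 : blkOK tb0 521 = true := by decide +kernel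
theorem blk519 : blkOK tb0 519 = true := by decide +kernel
theorem blk136 : blkOK tb0 136 = true := by decide +kernel

theorem blks3 : ∀ κ ∈ [664, 936, 527, 657, 395, 1205, 521, 519, 136], blkOK tb0 κ = true := by
  simp only [List.forall_mem_cons, List.not_mem_nil, false_imp_iff, implies_true, and_true]
  exact ⟨blk664, blk936, blk527, blk657, blk395, blk1205, blk521, blk519, blk136⟩

end Crest.Agent.R340.G0
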