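import Crest.Agent.R340.G0Dat

/-! Row 340: block checks (generated). -/

set_option autoImplicit false
set_option maxRecDepth 100000

namespace Crest.Agent.R340.G0

open Crest.Agent.R340

theorem blk665 : blkOK tb0 665 = true := by decide +kernel
theorem blk792 : blkOK tb0 792 = true := by decide +kernel
theorem blk924 : blkOK tb0 924 = true := by decide +kernel
theorem blk1203 : blkOK tb0 1203 = true := by decide +kernel
theorem blk788 : blkOK tb0 788 = true := by decide +kernel
theorem blk943 : blkOK tb0 943 = true := by decide +kernel
theorem blk917 : blkOK tb0 917 = true := by decide +kernel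
theorem blk812 : blkOK tb0 812 = true := by decide +kernel
theorem blk272 : blkOK tb0 272 = true := by decide +kernel

theorem blks4 : ∀ κ ∈ [665, 792, 924, 1203, 788, 943, 917, 812, 272], blkOK tb0 κ = true := by
  simp only [List.forall_mem_cons, List.not_mem_nil, false_imp_iff, implies_true, and_true]
  exact ⟨blk665, blk792, blk924, blk1203, blk788, blk943, blk917, blk812, blk272⟩

end Crest.Agent.R340.G0
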