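import Crest.Agent.R340.G0Dat

/-! Row 340: block checks (generated). -/

set_option autoImplicit false
set_option maxRecDepth 100000

namespace Crest.Agent.R340.G0

open Crest.Agent.R340

theorem blk666 : blkOK tb0 666 = true := by decide +kernel
theorem blk804 : blkOK tb0 804 = true := by decide +kernel
theorem blk938 : blkOK tb0 938 = true := by decide +kernel
theorem blk1204 : blkOK tb0 1204 = true := by decide +kernel
theorem blk808 : blkOK tb0 808 = true := by decide +kernel
theorem blk393 : blkOK tb0 393 = true := by decide +kernel
theorem blk810 : blkOK tb0 810 = true := by decide +kernel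
theorem blk262 : blkOK tb0 262 = true := by decide +kernel
theorem blk131 : blkOK tb0 131 = true := by decide +kernel

theorem blks5 : ∀ κ ∈ [666, 804, 938, 1204, 808, 393, 810, 262, 131], blkOK tb0 κ = true := by
  simp only [List.forall_mem_cons, List.not_mem_nil, false_imp_iff, implies_true, and_true]
  exact ⟨blk666, blk804, blk938, blk1204, blk808, blk393, blk810, blk262, blk131⟩

end Crest.Agent.R340.G0
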