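import Crest.Agent.R340.G0Dat

/-! Row 340: block checks (generated). -/

set_option autoImplicit false
set_option maxRecDepth 100000

namespace Crest.Agent.R340.G0

open Crest.Agent.R340

theorem blk796 : blkOK tb0 796 = true := by decide +kernel
theorem blk1066 : blkOK tb0 1066 = true := by decide +kernel
theorem blk1070 : blkOK tb0 1070 = true := by decide +kernel
theorem blk399 : blkOK tb0 399 = true := by decide +kernel
theorem blk1334 : blkOK tb0 1334 = true := by decide +kernel
theorem blk1053 : blkOK tb0 1053 = true := by decide +kernel
theorem blk653 : blkOK tb0 653 = true := by decide +kernel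
theorem blk269 : blkOK tb0 269 = true := by decide +kernel
theorem blk410 : blkOK tb0 410 = true := by decide +kernel

theorem blks6 : ∀ κ ∈ [796, 1066, 1070, 399, 1334, 1053, 653, 269, 410], blkOK tb0 κ = true := by
  simp only [List.forall_mem_cons, List.not_mem_nil, false_imp_iff, implies_true, and_true]
  exact ⟨blk796, blk1066, blk1070, blk399, blk1334, blk1053, blk653, blk269, blk410⟩

end Crest.Agent.R340.G0
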