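import Crest.Agent.R340.G0Dat

/-! Row 340: block checks (generated). -/

set_option autoImplicit false
set_option maxRecDepth 100000

namespace Crest.Agent.R340.G0

open Crest.Agent.R340

theorem blk800 : blkOK tb0 800 = true := by decide +kernel
theorem blk926 : blkOK tb0 926 = true := by decide +kernel
theorem blk1058 : blkOK tb0 1058 = true := by decide +kernel
theorem blk789 : blkOK tb0 789 = true := by decide +kernel
theorem blk540 : blkOK tb0 540 = true := by decide +kernel
theorem blk1189 : blkOK tb0 1189 = true := by decide +kernel
theorem blk678 : blkOK tb0 678 = true := by decide +kernel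
theorem blk518 : blkOK tb0 518 = true := by decide +kernel
theorem blk135 : blkOK tb0 135 = true := by decide +kernel

theorem blks7 : ∀ κ ∈ [800, 926, 1058, 789, 540, 1189, 678, 518, 135], blkOK tb0 κ = true := by
  simp only [List.forall_mem_cons, List.not_mem_nil, false_imp_iff, implies_true, and_true]
  exact ⟨blk800, blk926, blk1058, blk789, blk540, blk1189, blk678, blk518, blk135⟩

end Crest.Agent.R340.G0
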