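import Crest.Agent.R340.G0Dat

/-! Row 340: block checks (generated). -/

set_option autoImplicit false
set_option maxRecDepth 100000

namespace Crest.Agent.R340.G0

open Crest.Agent.R340

theorem blk795 : blkOK tb0 795 = true := by decide +kernel
theorem blk1063 : blkOK tb0 1063 = true := by decide +kernel
theorem blk1197 : blkOK tb0 1197 = true := by decide +kernel
theorem blk1202 : blkOK tb0 1202 = true := by decide +kernel
theorem blk1326 : blkOK tb0 1326 = true := by decide +kernel
theorem blk655 : blkOK tb0 655 = true := by decide +kernel
theorem blk1076 : blkOK tb0 1076 = true := by decide +kernel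
theorem blk266 : blkOK tb0 266 = true := by decide +kernel
theorem blk651 : blkOK tb0 651 = true := by decide +kernel
theorem blk275 : blkOK tb0 275 = true := by decide +kernel

theorem blks8 : ∀ κ ∈ [795, 1063, 1197, 1202, 1326, 655, 1076, 266, 651, 275], blkOK tb0 κ = true := by
  simp only [List.forall_mem_cons, List.not_mem_nil, false_imp_iff, implies_true, and_true]
  exact ⟨blk795, blk1063, blk1197, blk1202, blk1326, blk655, blk1076, blk266, blk651, blk275⟩

end Crest.Agent.R340.G0
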