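import Crest.Agent.R340.G0Dat

/-! Row 340: block checks (generated). -/

set_option autoImplicit false
set_option maxRecDepth 100000

namespace Crest.Agent.R340.G0

open Crest.Agent.R340

theorem blk801 : blkOK tb0 801 = true := by decide +kernel
theorem blk1065 : blkOK tb0 1065 = true := by decide +kernel
theorem blk1198 : blkOK tb0 1198 = true := by decide +kernel
theorem blk1057 : blkOK tb0 1057 = true := by decide +kernel
theorem blk1325 : blkOK tb0 1325 = true := by decide +kernel
theorem blk1074 : blkOK tb0 1074 = true := by decide +kernel
theorem blk786 : blkOK tb0 786 = true := by decide +kernel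
theorem blk265 : blkOK tb0 265 = true := by decide +kernel
theorem blk650 : blkOK tb0 650 = true := by decide +kernel
theorem blk274 : blkOK tb0 274 = true := by decide +kernel

theorem blks9 : ∀ κ ∈ [801, 1065, 1198, 1057, 1325, 1074, 786, 265, 650, 274], blkOK tb0 κ = true := by
  simp only [List.forall_mem_cons, List.not_mem_nil, false_imp_iff, implies_true, and_true]
  exact ⟨blk801, blk1065, blk1198, blk1057, blk1325, blk1074, blk786, blk265, blk650, blk274⟩

end Crest.Agent.R340.G0
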