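import Crest.Agent.R340.G0Dat

/-! Row 340: group checks (generated). -/

set_option autoImplicit false
set_option maxRecDepth 100000

namespace Crest.Agent.R340.G0

open Crest.Agent.R340

theorem grp665 : grpOK tb0 ks0 665 = true := by decide +kernel
theorem grp530 : grpOK tb0 ks0 530 = true := by decide +kernel
theorem grp660 : grpOK tb0 ks0 660 = true := by decide +kernel
theorem grp527 : grpOK tb0 ks0 527 = true := by decide +kernel
theorem grp658 : grpOK tb0 ks0 658 = true := by decide +kernel
theorem grp657 : grpOK tb0 ks0 657 = true := by decide +kernel
theorem grp403 : grpOK tb0 ks0 403 = true := by decide +kernel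
theorem grp393 : grpOK tb0 ks0 393 = true := by decide +kernel
theorem grp522 : grpOK tb0 ks0 522 = true := by decide +kernel
theorem grp262 : grpOK tb0 ks0 262 = true := by decide +kernel
theorem grp389 : grpOK tb0 ks0 389 = true := by decide +kernel
theorem grp388 : grpOK tb0 ks0 388 = true := by decide +kernel
theorem grp386 : grpOK tb0 ks0 386 = true := by decide +kernel

theorem grps1 : ∀ κ ∈ [665, 530, 660, 527, 658, 657, 403, 393, 522, 262, 389, 388, 386], grpOK tb0 ks0 κ = true := by
  simp only [List.forall_mem_cons, List.not_mem_nil, false_imp_iff, implies_true, and_true]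
  exact ⟨grp665, grp530, grp660, grp527, grp658, grp657, grp403, grp393, grp522, grp262, grp389, grp388, grp386⟩

end Crest.Agent.R340.G0
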