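import Crest.Agent.R340.G0Dat

/-! Row 340: group checks (generated). -/

set_option autoImplicit false
set_option maxRecDepth 100000

namespace Crest.Agent.R340.G0

open Crest.Agent.R340

theorem grp666 : grpOK tb0 ks0 666 = true := by decide +kernel
theorem grp531 : grpOK tb0 ks0 531 = true := by decide +kernel
theorem grp670 : grpOK tb0 ks0 670 = true := by decide +kernel
theorem grp537 : grpOK tb0 ks0 537 = true := by decide +kernel
theorem grp672 : grpOK tb0 ks0 672 = true := by decide +kernel
theorem grp673 : grpOK tb0 ks0 673 = true := by decide +kernel
theorem grp656 : grpOK tb0 ks0 656 = true := by decide +kernel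
theorem grp655 : grpOK tb0 ks0 655 = true := by decide +kernel
theorem grp654 : grpOK tb0 ks0 654 = true := by decide +kernel
theorem grp390 : grpOK tb0 ks0 390 = true := by decide +kernel
theorem grp520 : grpOK tb0 ks0 520 = true := by decide +kernel
theorem grp518 : grpOK tb0 ks0 518 = true := by decide +kernel

theorem grps2 : ∀ κ ∈ [666, 531, 670, 537, 672, 673, 656, 655, 654, 390, 520, 518], grpOK tb0 ks0 κ = true := by
  simp only [List.forall_mem_cons, List.not_mem_nil, false_imp_iff, implies_true, and_true]
  exact ⟨grp666, grp531, grp670, grp537, grp672, grp673, grp656, grp655, grp654, grp390, grp520, grp518⟩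

end Crest.Agent.R340.G0
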