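import Crest.Agent.R340.G0Dat

/-! Row 340: group checks (generated). -/

set_option autoImplicit false
set_option maxRecDepth 100000

namespace Crest.Agent.R340.G0

open Crest.Agent.R340

theorem grp663 : grpOK tb0 ks0 663 = true := by decide +kernel
theorem grp661 : grpOK tb0 ks0 661 = true := by decide +kernel
theorem grp533 : grpOK tb0 ks0 533 = true := by decide +kernel
theorem grp536 : grpOK tb0 ks0 536 = true := by decide +kernel
theorem grp538 : grpOK tb0 ks0 538 = true := by decide +kernel
theorem grp401 : grpOK tb0 ks0 401 = true := by decide +kernel
theorem grp539 : grpOK tb0 ks0 539 = true := by decide +kernel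
theorem grp394 : grpOK tb0 ks0 394 = true := by decide +kernel
theorem grp265 : grpOK tb0 ks0 265 = true := by decide +kernel
theorem grp263 : grpOK tb0 ks0 263 = true := by decide +kernel
theorem grp521 : grpOK tb0 ks0 521 = true := by decide +kernel
theorem grp652 : grpOK tb0 ks0 652 = true := by decide +kernel
theorem grp519 : grpOK tb0 ks0 519 = true := by decide +kernel

theorem grps3 : ∀ κ ∈ [663, 661, 533, 536, 538, 401, 539, 394, 265, 263, 521, 652, 519], grpOK tb0 ks0 κ = true := by
  simp only [List.forall_mem_cons, List.not_mem_nil, false_imp_iff, implies_true, and_true]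
  exact ⟨grp663, grp661, grp533, grp536, grp538, grp401, grp539, grp394, grp265, grp263, grp521, grp652, grp519⟩

end Crest.Agent.R340.G0
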