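import Crest.Agent.R340.G0Dat

/-! Row 340: group checks (generated). -/

set_option autoImplicit false
set_option maxRecDepth 100000

namespace Crest.Agent.R340.G0

open Crest.Agent.R340

theorem grp667 : grpOK tb0 ks0 667 = true := by decide +kernel
theorem grp669 : grpOK tb0 ks0 669 = true := by decide +kernel
theorem grp534 : grpOK tb0 ks0 534 = true := by decide +kernel
theorem grp659 : grpOK tb0 ks0 659 = true := by decide +kernel
theorem grp399 : grpOK tb0 ks0 399 = true := by decide +kernel
theorem grp398 : grpOK tb0 ks0 398 = true := by decide +kernel
theorem grp402 : grpOK tb0 ks0 402 = true := by decide +kernel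
theorem grp674 : grpOK tb0 ks0 674 = true := by decide +kernel
theorem grp523 : grpOK tb0 ks0 523 = true := by decide +kernel
theorem grp391 : grpOK tb0 ks0 391 = true := by decide +kernel
theorem grp259 : grpOK tb0 ks0 259 = true := by decide +kernel
theorem grp257 : grpOK tb0 ks0 257 = true := by decide +kernel
theorem grp650 : grpOK tb0 ks0 650 = true := by decide +kernel

theorem grps4 : ∀ κ ∈ [667, 669, 534, 659, 399, 398, 402, 674, 523, 391, 259, 257, 650], grpOK tb0 ks0 κ = true := by
  simp only [List.forall_mem_cons, List.not_mem_nil, false_imp_iff, implies_true, and_true]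
  exact ⟨grp667, grp669, grp534, grp659, grp399, grp398, grp402, grp674, grp523, grp391, grp259, grp257, grp650⟩

end Crest.Agent.R340.G0
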