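import Crest.Agent.R340.G0Dat

/-! Row 340: group checks (generated). -/

set_option autoImplicit false
set_option maxRecDepth 100000

namespace Crest.Agent.R340.G0

open Crest.Agent.R340

theorem grp662 : grpOK tb0 ks0 662 = true := by decide +kernel
theorem grp668 : grpOK tb0 ks0 668 = true := by decide +kernel
theorem grp535 : grpOK tb0 ks0 535 = true := by decide +kernel
theorem grp671 : grpOK tb0 ks0 671 = true := by decide +kernel
theorem grp397 : grpOK tb0 ks0 397 = true := by decide +kernel
theorem grp396 : grpOK tb0 ks0 396 = true := by decide +kernel
theorem grp395 : grpOK tb0 ks0 395 = true := by decide +kernel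
theorem grp404 : grpOK tb0 ks0 404 = true := by decide +kernel
theorem grp392 : grpOK tb0 ks0 392 = true := by decide +kernel
theorem grp261 : grpOK tb0 ks0 261 = true := by decide +kernel
theorem grp260 : grpOK tb0 ks0 260 = true := by decide +kernel
theorem grp387 : grpOK tb0 ks0 387 = true := by decide +kernel
theorem grp385 : grpOK tb0 ks0 385 = true := by decide +kernel

theorem grps5 : ∀ κ ∈ [662, 668, 535, 671, 397, 396, 395, 404, 392, 261, 260, 387, 385], grpOK tb0 ks0 κ = true := by
  simp only [List.forall_mem_cons, List.not_mem_nil, false_imp_iff, implies_true, and_true]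
  exact ⟨grp662, grp668, grp535, grp671, grp397, grp396, grp395, grp404, grp392, grp261, grp260, grp387, grp385⟩

end Crest.Agent.R340.G0
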