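import Crest.Agent.R340.G0Chk

/-! Row 340: soundness of the fraction-free elimination. -/

set_option autoImplicit false

namespace Crest.Agent.R340.G0

open Finset Crest.Agent.R340

/-- pairing of an integer row with a real vector -/
noncomputable def dotL (b : List ℤ) (xs : List ℝ) : ℝ :=
  (List.zipWith (fun (c : ℤ) (y : ℝ) => (c : ℝ) * y) b xs).sum

theorem dotL_cons (c : ℤ) (b : List ℤ) (y : ℝ) (xs : List ℝ) :
    dotL (c :: b) (y :: xs) = c * y + dotL b xs := by
  simp [dotL]

theorem dotL_nil (xs : List ℝ) : dotL [] xs = 0 := by simp [dotL]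

theorem dotL_nil' (b : List ℤ) : dotL b [] = 0 := by simp [dotL]

theorem Qf_cons (a : ℤ) (b : List ℤ) (rs : List (List ℤ)) (x : ℝ) (xs : List ℝ) :
    Qf ((a :: b) :: rs) (x :: xs) = (a : ℝ) * x * x + 2 * x * dotL b xs + Qf rs xs := rfl

theorem Qf_nil (xs : List ℝ) : Qf [] xs = 0 := rfl

theorem shapeOK_cons (r : List ℤ) (rs : List (List ℤ)) :
    shapeOK (r :: rs) = true ↔ r.length = rs.length + 1 ∧ shapeOK rs = true := by
  show (Nat.beq r.length (rs.length + 1) && shapeOK rs) = true ↔ _
  rw [Bool.and_eq_true, Nat.beq_eq]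

theorem elimRow_cons (a bi bj x : ℤ) (b r : List ℤ) :
    elimRow a bi (bj :: b) (x :: r) = (a * x - bi * bj) :: elimRow a bi b r := rfl

theorem elim_cons (a bi : ℤ) (bs r : List ℤ) (rs : List (List ℤ)) :
    elim a (bi :: bs) (r :: rs) = elimRow a bi (bi :: bs) r :: elim a bs rs := rfl

theorem elimRow_spec (a bi : ℤ) : ∀ (b r : List ℤ) (xs : List ℝ), b.length = r.length →
    (elimRow a bi b r).length = r.length ∧
      dotL (elimRow a bi b r) xs = a * dotL r xs - bi * dotL b xs
  | [], [], xs, _ => ⟨rfl, by
      show dotL [] xs = _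
      rw [dotL_nil]; ring⟩
  | [], _ :: _, _, h => by simp at h
  | _ :: _, [], _, h => by simp at h
  | bj :: b, x :: r, xs, h => by
      have h' : b.length = r.length := by simpa using h
      rw [elimRow_cons]
      refine ⟨by rw [List.length_cons, List.length_cons, (elimRow_spec a bi b r [] h').1], ?_⟩
      cases xs with
      | nil => simp only [dotL_nil']; ring
      | cons y xs =>
        rw [dotL_cons, dotL_cons, dotL_cons, (elimRow_spec a bi b r xs h').2]
        push_cast; ring

theorem elim_spec (a : ℤ) : ∀ (b : List ℤ) (rs : List (List ℤ)) (xs : List ℝ),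
    shapeOK rs = true → b.length = rs.length → xs.length = rs.length →
    (elim a b rs).length = rs.length ∧ shapeOK (elim a b rs) = true ∧
      Qf (elim a b rs) xs = a * Qf rs xs - dotL b xs ^ 2
  | [], [], xs, _, _, _ => ⟨rfl, rfl, by
      show Qf [] xs = _
      rw [Qf_nil, dotL_nil]; ring⟩
  | [], _ :: _, _, _, h, _ => by simp at h
  | _ :: _, [], _, _, h, _ => by simp at h
  | _ :: _, _ :: _, [], _, _, h => by simp at h
  | _ :: _, [] :: _, _ :: _, hs, _, _ => by simp [shapeOK_cons] at hs
  | bi :: bs, (r0 :: r) :: rs, x :: xs, hs, hb, hx => by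
      obtain ⟨h1, h2⟩ := (shapeOK_cons _ _).1 hs
      have hb' : bs.length = rs.length := by simpa using hb
      have hx' : xs.length = rs.length := by simpa using hx
      have hr : r.length = rs.length := by simpa using h1
      obtain ⟨i1, i2, i3⟩ := elim_spec a bs rs xs h2 hb' hx'
      obtain ⟨j1, j2⟩ := elimRow_spec a bi bs r xs (hb'.trans hr.symm)
      rw [elim_cons, elimRow_cons]
      refine ⟨by rw [List.length_cons, List.length_cons, i1], (shapeOK_cons _ _).2 ⟨?_, i2⟩, ?_⟩
      · rw [List.length_cons, j1, i1, hr]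
      · rw [Qf_cons, Qf_cons, dotL_cons, i3, j2]
        push_cast; ring

theorem dotL_div (p : ℤ) (g : ℤ → ℤ) : ∀ (b : List ℤ) (xs : List ℝ), (∀ x ∈ b, g x * p = x) →
    dotL b xs = p * dotL (b.map g) xs
  | [], xs, _ => by rw [List.map_nil, dotL_nil]; ring
  | c :: b, [], _ => by rw [dotL_nil', dotL_nil']; ring
  | c :: b, y :: xs, h => by
      have hc : ((g c : ℤ) : ℝ) * p = c := by exact_mod_cast h c (by simp)
      rw [List.map_cons, dotL_cons, dotL_cons, dotL_div p g b xs fun x hx => h x (by simp [hx]), ← hc]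
      ring

theorem Qf_div (p : ℤ) (g : ℤ → ℤ) : ∀ (M : List (List ℤ)) (xs : List ℝ),
    (∀ r ∈ M, ∀ x ∈ r, g x * p = x) → Qf M xs = p * Qf (M.map fun r => r.map g) xs
  | [], xs, _ => by rw [List.map_nil, Qf_nil]; ring
  | [] :: M, xs, _ => by
      show (0 : ℝ) = p * 0
      ring
  | (a :: b) :: M, [], _ => by
      show (0 : ℝ) = p * 0
      ring
  | (a :: b) :: M, y :: xs, h => by
      have hc : ((g a : ℤ) : ℝ) * p = a := by exact_mod_cast h (a :: b) (by simp) a (by simp)
      rw [List.map_cons, List.map_cons, Qf_cons, Qf_cons,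
        Qf_div p g M xs fun r hr => h r (by simp [hr]),
        dotL_div p g b xs fun x hx => h (a :: b) (by simp) x (by simp [hx]), ← hc]
      ring

theorem shapeOK_map (g : ℤ → ℤ) : ∀ (M : List (List ℤ)), shapeOK M = true →
    shapeOK (M.map fun r => r.map g) = true
  | [], _ => rfl
  | r :: M, h => by
      obtain ⟨h1, h2⟩ := (shapeOK_cons _ _).1 h
      rw [List.map_cons]
      exact (shapeOK_cons _ _).2 ⟨by rw [List.length_map, List.length_map, h1], shapeOK_map g M h2⟩

theorem dotL_zero : ∀ (b : List ℤ) (xs : List ℝ), (∀ x ∈ b, x = 0) → dotL b xs = 0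
  | [], xs, _ => dotL_nil xs
  | c :: b, [], _ => dotL_nil' _
  | c :: b, y :: xs, h => by
      rw [dotL_cons, dotL_zero b xs fun x hx => h x (by simp [hx]), h c (by simp)]
      simp

theorem psdB_succ (f : ℕ) (p a : ℤ) (b : List ℤ) (rs : List (List ℤ)) :
    psdB (f + 1) p ((a :: b) :: rs) = match a == 0 with
    | true => b.all (fun x => x == 0) && psdB f p rs
    | false => decide (0 < a) &&
        ((elim a b rs).all (fun r => r.all fun x => Int.mul (Int.ediv x p) p == x) &&
          psdB f a ((elim a b rs).map fun r => r.map fun x => Int.ediv x p)) := rfl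

theorem psdB_sound (f : ℕ) (p : ℤ) (M : List (List ℤ)) (hp : 0 < p) (hs : shapeOK M = true)
    (h : psdB f p M = true) (xs : List ℝ) (hx : xs.length = M.length) : 0 ≤ Qf M xs := by
  induction f generalizing p M xs with
  | zero =>
    cases M with
    | nil => exact le_of_eq (Qf_nil xs).symm
    | cons r rs => exact absurd h (by show ¬(false = true); simp)
  | succ f ih =>
    match M, xs, hs, h, hx with
    | [], xs, _, _, _ => exact le_of_eq (Qf_nil xs).symm
    | [] :: _, _, hs, _, _ => simp [shapeOK_cons] at hs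
    | (_ :: _) :: _, [], _, _, hx => simp at hx
    | (a :: b) :: rs, x :: xs, hs, h, hx =>
      obtain ⟨h1, h2⟩ := (shapeOK_cons _ _).1 hs
      have hb : b.length = rs.length := by simpa using h1
      have hx' : xs.length = rs.length := by simpa using hx
      rw [psdB_succ] at h
      rw [Qf_cons]
      by_cases ha : a = 0
      · subst ha
        have h' : (b.all (fun x => x == 0) && psdB f p rs) = true := h
        rw [Bool.and_eq_true, List.all_eq_true] at h'
        rw [dotL_zero b xs fun y hy => by simpa using h'.1 y hy]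
        have := ih p rs hp h2 h'.2 xs hx'
        simpa using this
      · have e : (a == 0) = false := by simpa using ha
        rw [e] at h
        simp only [Bool.and_eq_true, decide_eq_true_eq, List.all_eq_true, beq_iff_eq] at h
        obtain ⟨ha0, hd, hr⟩ := h
        obtain ⟨i1, i2, i3⟩ := elim_spec a b rs xs h2 hb hx'
        have k1 := ih a _ ha0 (shapeOK_map _ _ i2) hr xs (by rw [List.length_map, i1, hx'])
        have k2 := Qf_div p (fun x => Int.ediv x p) (elim a b rs) xs hd
        have hp' : (0 : ℝ) < p := by exact_mod_cast hp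
        have ha' : (0 : ℝ) < a := by exact_mod_cast ha0
        have k3 : 0 ≤ Qf (elim a b rs) xs := by rw [k2]; positivity
        refine le_of_mul_le_mul_left ?_ ha'
        nlinarith [sq_nonneg ((a : ℝ) * x + dotL b xs)]

/-- Upper triangular rows of a function on a list. -/
def triOf {α : Type} (X : α → α → ℤ) : List α → List (List ℤ)
  | [] => []
  | a :: L => (a :: L).map (X a) :: triOf X L

theorem dotL_map {α : Type} (g : α → ℤ) (ψ : α → ℝ) (L : List α) :
    dotL (L.map g) (L.map ψ) = (L.map fun b => (g b : ℝ) * ψ b).sum := by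
  induction L with
  | nil => simp [dotL_nil]
  | cons a L ih => rw [List.map_cons, List.map_cons, dotL_cons, ih, List.map_cons, List.sum_cons]

theorem Qf_triOf {α : Type} (X : α → α → ℤ) (ψ : α → ℝ) (L : List α)
    (hX : ∀ a ∈ L, ∀ b ∈ L, X a b = X b a) :
    Qf (triOf X L) (L.map ψ) =
      (L.map fun a => (L.map fun b => (X a b : ℝ) * ψ a * ψ b).sum).sum := by
  induction L with
  | nil => simp [triOf, Qf_nil]
  | cons a L ih =>
    have e : triOf X (a :: L) = (X a a :: L.map (X a)) :: triOf X L := rfl
    have e1 : (L.map fun b => (X b a : ℝ) * ψ b * ψ a).sum =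
        ψ a * (L.map fun b => (X a b : ℝ) * ψ b).sum := by
      rw [← List.sum_map_mul_left]
      refine congrArg List.sum (List.map_congr_left fun b hb => ?_)
      rw [hX b (by simp [hb]) a (by simp)]; ring
    have e2 : (L.map fun b => (X a b : ℝ) * ψ a * ψ b).sum =
        ψ a * (L.map fun b => (X a b : ℝ) * ψ b).sum := by
      rw [← List.sum_map_mul_left]
      refine congrArg List.sum (List.map_congr_left fun b _ => ?_)
      ring
    rw [e, List.map_cons, Qf_cons, dotL_map,
      ih fun c hc d hd => hX c (by simp [hc]) d (by simp [hd])]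
    simp only [List.map_cons, List.sum_cons, List.sum_map_add]
    rw [e1, e2]
    ring

end Crest.Agent.R340.G0
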