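import Crest.Agent.R340.G0Bits
import Crest.Agent.R340.G0Psd

/-! Row 340: from Slater tables to the blocks of the local operator. -/

set_option autoImplicit false

namespace Crest.Agent.R340.G0

open Finset Crest.Agent.R340

/-- The matrix element of the local operator between the masks `s` and `s'`. -/
def Xe (τ : Tb) (s s' : ℕ) : ℤ :=
  (((subs (bitsOf τ.n s)).filter fun d => bit τ.km (τ.keyOf d)).map fun d =>
    if Nat.land (s - d) s' = s - d then
      sgnI (bit τ.par (Nat.land d (tab τ.odd 16 s))) (tab τ.wt 128 (s - d) : ℤ) *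
        sgnI (bit τ.par (Nat.land (s' - (s - d)) (tab τ.odd 16 s'))) (τ.Ws d (s' - (s - d)))
    else 0).sum

lemma G0Blk_addRow (τ : Tb) (t row : ℕ) (c : ℤ) (g : ℕ → ℤ) (L : List ℕ) :
    addRow τ t row c (L.map fun s => (s, tab τ.odd 16 s)) (L.map g) =
      L.map fun s' => (if Nat.land t s' = t then
        c * sgnI (bit τ.par (Nat.land (s' - t) (tab τ.odd 16 s'))) (τ.ent row (s' - t)) else 0) +
          g s' := by
  induction L with
  | nil => rfl
  | cons a L ih =>
    simp only [List.map_cons, addRow, ih]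
    congr 1
    by_cases h : Nat.land t a = t
    · have : Nat.beq (Nat.land t a) t = true := by rw [h]; exact Nat.beq_refl t
      rw [this, if_pos h]; rfl
    · have : Nat.beq (Nat.land t a) t = false := by
        cases hb : Nat.beq (Nat.land t a) t
        · rfl
        · exact absurd (Nat.eq_of_beq_eq_true hb) h
      rw [this, if_neg h, zero_add]

lemma G0Blk_rowX (τ : Tb) (s : ℕ) (L : List ℕ) :
    rowX τ s (tab τ.odd 16 s) (L.map fun s => (s, tab τ.odd 16 s)) = L.map (Xe τ s) := by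
  unfold rowX Xe
  generalize ((subs (bitsOf τ.n s)).filter fun d => bit τ.km (τ.keyOf d)) = D
  induction D with
  | nil =>
    rw [List.foldr_nil, List.map_map]
    exact List.map_congr_left fun _ _ => rfl
  | cons d D ih =>
    rw [List.foldr_cons, ih, G0Blk_addRow]
    refine List.map_congr_left fun s' _ => ?_
    rw [List.map_cons, List.sum_cons]
    rfl

lemma G0Blk_sgn (b : Bool) (x : ℤ) :
    ((sgnI b x : ℤ) : ℝ) = (if b = true then -1 else 1) * (x : ℝ) := by
  cases b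
  · simp [sgnI]
  · show ((-x : ℤ) : ℝ) = _
    simp

lemma G0Blk_le {n t s : ℕ} (ht : t < 2 ^ n) (h : setOf n t ⊆ setOf n s) : t ≤ s := by
  have := (land_eq_iff (s := s) ht).2 h
  rw [← this]
  exact Nat.and_le_right

lemma G0Blk_key {n t s : ℕ} (ht : t < 2 ^ n) (hs : s < 2 ^ n) (h : setOf n t ⊆ setOf n s) :
    keySpec n (s - t) + keySpec n t = keySpec n s := by
  rw [keySpec_eq, keySpec_eq, keySpec_eq, (setOf_sub ht hs h).2, Finset.sum_sdiff h]

lemma G0Blk_len {α : Type} (X : α → α → ℤ) (L : List α) : (triOf X L).length = L.length := by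
  induction L with
  | nil => rfl
  | cons a L ih => simp [triOf, ih]

lemma triX_eq (τ : Tb) (L : List ℕ) :
    triX τ (L.map fun s => (s, tab τ.odd 16 s)) = triOf (Xe τ) L := by
  induction L with
  | nil => rfl
  | cons a L ih =>
    have h := G0Blk_rowX τ a (a :: L)
    rw [List.map_cons] at h
    rw [List.map_cons, triX, triOf, ih, h]

/-- `Xe` as a sum over spectator masks. -/
lemma Xe_eq {τ : Tb} (h : τ.ok = true) {s s' : ℕ} (hs : s < 2 ^ τ.n) (hs' : s' < 2 ^ τ.n) :
    (Xe τ s s' : ℝ) = ∑ t ∈ range (2 ^ τ.n),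
      if setOf τ.n t ⊆ setOf τ.n s ∧ setOf τ.n t ⊆ setOf τ.n s' ∧
          bit τ.km (τ.keyOf (s - t)) = true then
        (wtSpec τ.n t : ℝ) * eS (setOf τ.n (s - t)) (setOf τ.n s) *
          eS (setOf τ.n (s' - t)) (setOf τ.n s') * (τ.Ws (s - t) (s' - t) : ℝ)
      else 0 := by
  classical
  obtain ⟨hnd, hmem⟩ := subs_spec hs
  have hnd' := hnd.filter fun d => bit τ.km (τ.keyOf d)
  unfold Xe
  rw [← List.sum_toFinset _ hnd']
  have hR : ∀ F : ℕ → ℝ, ∑ t ∈ range (2 ^ τ.n),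
      (if setOf τ.n t ⊆ setOf τ.n s ∧ setOf τ.n t ⊆ setOf τ.n s' ∧
          bit τ.km (τ.keyOf (s - t)) = true then F t else 0) =
      ∑ t ∈ (range (2 ^ τ.n)).filter
        (fun t => setOf τ.n t ⊆ setOf τ.n s ∧ bit τ.km (τ.keyOf (s - t)) = true),
        if setOf τ.n t ⊆ setOf τ.n s' then F t else 0 := by
    intro F
    rw [Finset.sum_filter]
    refine Finset.sum_congr rfl fun t _ => ?_
    by_cases h1 : setOf τ.n t ⊆ setOf τ.n s <;> by_cases h2 : setOf τ.n t ⊆ setOf τ.n s' <;>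
      by_cases h3 : bit τ.km (τ.keyOf (s - t)) = true <;> simp [h1, h2, h3]
  rw [hR]
  push_cast
  refine Finset.sum_nbij' (fun d => s - d) (fun t => s - t) ?_ ?_ ?_ ?_ ?_
  · intro d hd
    simp only [List.mem_toFinset, List.mem_filter, hmem] at hd
    obtain ⟨⟨hd1, hd2⟩, hd3⟩ := hd
    have h1 := setOf_sub hd1 hs hd2
    have h2 := G0Blk_le hd1 hd2
    simp only [Finset.mem_filter, Finset.mem_range]
    refine ⟨h1.1, by rw [h1.2]; exact Finset.sdiff_subset, ?_⟩
    rwa [show s - (s - d) = d by omega]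
  · intro t ht
    simp only [Finset.mem_filter, Finset.mem_range] at ht
    obtain ⟨ht1, ht2, ht3⟩ := ht
    have h1 := setOf_sub ht1 hs ht2
    simp only [List.mem_toFinset, List.mem_filter, hmem]
    exact ⟨⟨h1.1, by rw [h1.2]; exact Finset.sdiff_subset⟩, ht3⟩
  · intro d hd
    simp only [List.mem_toFinset, List.mem_filter, hmem] at hd
    have h2 := G0Blk_le hd.1.1 hd.1.2
    show s - (s - d) = d
    omega
  · intro t ht
    simp only [Finset.mem_filter, Finset.mem_range] at ht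
    have h2 := G0Blk_le ht.1 ht.2.1
    show s - (s - t) = t
    omega
  · intro d hd
    simp only [List.mem_toFinset, List.mem_filter, hmem] at hd
    obtain ⟨⟨hd1, hd2⟩, -⟩ := hd
    have h1 := setOf_sub hd1 hs hd2
    have h2 := G0Blk_le hd1 hd2
    have h3 : s - (s - d) = d := by omega
    simp only [h3]
    by_cases hc : setOf τ.n (s - d) ⊆ setOf τ.n s'
    · rw [if_pos ((land_eq_iff h1.1).2 hc), if_pos hc]
      have h4 := setOf_sub h1.1 hs' hc
      have e1 := eS_spec hd1 hs hd2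
      have e2 := eS_spec h4.1 hs' (by rw [h4.2]; exact Finset.sdiff_subset)
      rw [G0Blk_sgn, G0Blk_sgn, (Tb.ok_spec h hs).2.2.1, (Tb.ok_spec h hs').2.2.1,
        (Tb.ok_spec h e1.1).1, (Tb.ok_spec h e2.1).1, (Tb.ok_spec h h1.1).2.2.2, e1.2, e2.2]
      push_cast
      ring
    · rw [if_neg (fun hh => hc ((land_eq_iff h1.1).1 hh)), if_neg hc]

/-- Positivity of one block. -/
theorem blk_sound {τ : Tb} (h : τ.ok = true)
    (hsym : ∀ κ, bit τ.km κ = true → ∀ d ∈ τ.Lk κ, ∀ d' ∈ τ.Lk κ, τ.Ws d d' = τ.Ws d' d)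
    {κ : ℕ} (hb : blkOK τ κ = true) (ψ : ℕ → ℝ) :
    0 ≤ ((τ.Lk κ).map fun s => ((τ.Lk κ).map fun s' => (Xe τ s s' : ℝ) * ψ s * ψ s').sum).sum := by
  have hX : ∀ a ∈ τ.Lk κ, ∀ b ∈ τ.Lk κ, Xe τ a b = Xe τ b a := by
    intro a ha b hb'
    obtain ⟨ha1, ha2⟩ := (τ.mem_Lk κ a).1 ha
    obtain ⟨hb1, hb2⟩ := (τ.mem_Lk κ b).1 hb'
    have : (Xe τ a b : ℝ) = (Xe τ b a : ℝ) := by
      rw [Xe_eq h ha1 hb1, Xe_eq h hb1 ha1]
      refine Finset.sum_congr rfl fun t ht => ?_
      have ht' : t < 2 ^ τ.n := Finset.mem_range.1 ht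
      by_cases h1 : setOf τ.n t ⊆ setOf τ.n a
      · by_cases h2 : setOf τ.n t ⊆ setOf τ.n b
        · have k1 := G0Blk_key ht' ha1 h1
          have k2 := G0Blk_key ht' hb1 h2
          have s1 := (setOf_sub ht' ha1 h1).1
          have s2 := (setOf_sub ht' hb1 h2).1
          rw [← (Tb.ok_spec h ha1).2.1, ← (Tb.ok_spec h s1).2.1] at k1
          rw [← (Tb.ok_spec h hb1).2.1, ← (Tb.ok_spec h s2).2.1] at k2
          have k3 : τ.keyOf (b - t) = τ.keyOf (a - t) := by omega
          by_cases h3 : bit τ.km (τ.keyOf (a - t)) = true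
          · rw [if_pos ⟨h1, h2, h3⟩, if_pos ⟨h2, h1, by rw [k3]; exact h3⟩,
              hsym _ h3 (a - t) ((τ.mem_Lk _ _).2 ⟨s1, rfl⟩) (b - t) ((τ.mem_Lk _ _).2 ⟨s2, k3⟩)]
            ring
          · rw [if_neg (fun hh => h3 hh.2.2), if_neg (fun hh => h3 (by rw [← k3]; exact hh.2.2))]
        · rw [if_neg (fun hh => h2 hh.2.1), if_neg (fun hh => h2 hh.1)]
      · rw [if_neg (fun hh => h1 hh.1), if_neg (fun hh => h1 hh.2.1)]
    exact_mod_cast this
  rw [← Qf_triOf (Xe τ) ψ (τ.Lk κ) hX]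
  unfold blkOK at hb
  simp only [triX_eq, Bool.and_eq_true] at hb
  exact psdB_sound 4096 1 _ one_pos hb.1 hb.2 _ (by rw [List.length_map, G0Blk_len])

end Crest.Agent.R340.G0
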