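import Crest.Agent.R340.G0Grp
import Crest.Agent.R340.G0Blk

/-! Row 340: soundness of the checker for `LocalBk`. -/

set_option autoImplicit false

namespace Crest.Agent.R340.G0

open Finset Crest.Agent.R340

lemma loc_list (τ : Tb) (κ : ℕ) (g : ℕ → ℝ) :
    ((τ.Lk κ).map g).sum = ∑ d ∈ range (2 ^ τ.n), if τ.keyOf d = κ then g d else 0 := by
  rw [← List.sum_toFinset _ (τ.nodup_Lk κ), ← Finset.sum_filter]
  refine Finset.sum_congr ?_ fun _ _ => rfl
  ext d
  simp [τ.mem_Lk]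

lemma loc_grp (τ : Tb) (K : ℕ) (hK : ∀ t < 2 ^ τ.n, τ.keyOf t < K) (P : ℕ → Prop)
    [DecidablePred P] (g : ℕ → ℕ → ℝ) :
    ∑ κ ∈ (range K).filter P, ((τ.Lk κ).map fun d => ((τ.Lk κ).map fun d' => g d d').sum).sum =
      ∑ d ∈ range (2 ^ τ.n), ∑ d' ∈ range (2 ^ τ.n),
        if P (τ.keyOf d) ∧ τ.keyOf d' = τ.keyOf d then g d d' else 0 := by
  simp only [loc_list]
  rw [Finset.sum_comm]
  refine Finset.sum_congr rfl fun d hd => ?_
  rw [Finset.sum_ite_eq]
  by_cases hP : P (τ.keyOf d)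
  · rw [if_pos (Finset.mem_filter.2 ⟨Finset.mem_range.2 (hK d (Finset.mem_range.1 hd)), hP⟩)]
    simp [hP]
  · rw [if_neg fun h => hP (Finset.mem_filter.1 h).2]
    simp [hP]

lemma loc_surj {n : ℕ} {T : Finset ℕ} (hT : T ⊆ range n) : ∃ s < 2 ^ n, setOf n s = T := by
  by_contra hcon
  push Not at hcon
  have h := sum_powerset_eq n fun U => if U = T then 1 else 0
  rw [Finset.sum_ite_eq', if_pos (Finset.mem_powerset.2 hT),
    Finset.sum_eq_zero fun t ht => if_neg (hcon t (Finset.mem_range.1 ht))] at h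
  exact one_ne_zero h

lemma loc_shift {n t : ℕ} (ht : t < 2 ^ n) (φ : Finset ℕ → ℝ) (H : ℕ → ℝ) :
    ∑ d ∈ range (2 ^ n), H d * fT φ (setOf n t) (setOf n d) =
      ∑ s ∈ range (2 ^ n), if setOf n t ⊆ setOf n s then
        H (s - t) * (eS (setOf n (s - t)) (setOf n s) * φ (setOf n s)) else 0 := by
  simp only [fT, mul_ite, mul_zero]
  rw [← Finset.sum_filter, ← Finset.sum_filter]
  symm
  refine Finset.sum_bij (fun s _ => s - t) ?_ ?_ ?_ ?_
  · intro s hs
    obtain ⟨h1, h2⟩ := Finset.mem_filter.1 hs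
    obtain ⟨k1, k2⟩ := setOf_sub ht (Finset.mem_range.1 h1) h2
    refine Finset.mem_filter.2 ⟨Finset.mem_range.2 k1, ?_⟩
    rw [k2]
    exact Finset.sdiff_disjoint
  · intro s hs s' hs' e
    obtain ⟨h1, h2⟩ := Finset.mem_filter.1 hs
    obtain ⟨h1', h2'⟩ := Finset.mem_filter.1 hs'
    obtain ⟨-, k2⟩ := setOf_sub ht (Finset.mem_range.1 h1) h2
    obtain ⟨-, k2'⟩ := setOf_sub ht (Finset.mem_range.1 h1') h2'
    refine setOf_inj (Finset.mem_range.1 h1) (Finset.mem_range.1 h1') ?_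
    rw [← Finset.union_sdiff_of_subset h2, ← Finset.union_sdiff_of_subset h2', ← k2, ← k2', e]
  · intro d hd
    obtain ⟨h1, h2⟩ := Finset.mem_filter.1 hd
    obtain ⟨s, hs, e⟩ := loc_surj (Finset.union_subset (setOf_subset n t) (setOf_subset n d))
    have hsub : setOf n t ⊆ setOf n s := by rw [e]; exact Finset.subset_union_left
    obtain ⟨k1, k2⟩ := setOf_sub ht hs hsub
    refine ⟨s, Finset.mem_filter.2 ⟨Finset.mem_range.2 hs, hsub⟩,
      setOf_inj k1 (Finset.mem_range.1 h1) ?_⟩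
    rw [k2, e, Finset.union_sdiff_cancel_left h2.symm]
  · intro s hs
    obtain ⟨h1, h2⟩ := Finset.mem_filter.1 hs
    obtain ⟨-, k2⟩ := setOf_sub ht (Finset.mem_range.1 h1) h2
    rw [k2, Finset.union_sdiff_of_subset h2]

lemma loc_key {τ : Tb} (h : τ.ok = true) {t s : ℕ} (ht : t < 2 ^ τ.n) (hs : s < 2 ^ τ.n)
    (hsub : setOf τ.n t ⊆ setOf τ.n s) : τ.keyOf s = τ.keyOf (s - t) + τ.keyOf t := by
  obtain ⟨k1, k2⟩ := setOf_sub ht hs hsub
  rw [(Tb.ok_spec h hs).2.1, (Tb.ok_spec h k1).2.1, (Tb.ok_spec h ht).2.1, keySpec_eq, keySpec_eq,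
    keySpec_eq, k2, Finset.sum_sdiff hsub]

lemma loc_split (G : Wd → Wd → ℝ) (A : Finset ℕ) (ks : List Bk) (h : ∀ k ∈ ks, tag k ∈ A) :
    bksVal G ks = ∑ κ ∈ A, bksVal G (ks.filter fun k => Nat.beq (tag k) κ) := by
  induction ks with
  | nil => simp [bksVal]
  | cons k ks ih =>
    have e : ∀ κ, bksVal G ((k :: ks).filter fun k => Nat.beq (tag k) κ) =
        (if tag k = κ then bkVal G k else 0) + bksVal G (ks.filter fun k => Nat.beq (tag k) κ) := by
      intro κ
      by_cases hk : tag k = κ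
      · rw [List.filter_cons_of_pos (by simp [hk]), if_pos hk]
        simp [bksVal]
      · rw [List.filter_cons_of_neg (by simp [hk]), if_neg hk, zero_add]
    simp only [e]
    rw [Finset.sum_add_distrib, Finset.sum_ite_eq, if_pos (h k (by simp)),
      ← ih fun k hk => h k (List.mem_cons_of_mem _ hk)]
    simp [bksVal]

/-- Regrouping: the sum over spectators and groups is the sum over blocks. -/
theorem regroup {τ : Tb} (h : τ.ok = true) (K : ℕ) (hK : ∀ t < 2 ^ τ.n, τ.keyOf t < K)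
    (φ : Finset ℕ → ℝ) :
    ∑ t ∈ range (2 ^ τ.n), (wtSpec τ.n t : ℝ) *
        ∑ κ ∈ (range K).filter (fun κ => bit τ.km κ = true),
          ((τ.Lk κ).map fun d => ((τ.Lk κ).map fun d' =>
            (τ.Ws d d' : ℝ) * fT φ (setOf τ.n t) (setOf τ.n d) *
              fT φ (setOf τ.n t) (setOf τ.n d')).sum).sum =
      ∑ κ ∈ range K, ((τ.Lk κ).map fun s => ((τ.Lk κ).map fun s' =>
        (Xe τ s s' : ℝ) * φ (setOf τ.n s) * φ (setOf τ.n s')).sum).sum := by
  have hR := loc_grp τ K hK (fun _ => True) fun s s' =>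
    (Xe τ s s' : ℝ) * φ (setOf τ.n s) * φ (setOf τ.n s')
  rw [Finset.filter_true] at hR
  rw [hR]
  have hL : ∀ t ∈ range (2 ^ τ.n), (wtSpec τ.n t : ℝ) *
        ∑ κ ∈ (range K).filter (fun κ => bit τ.km κ = true),
          ((τ.Lk κ).map fun d => ((τ.Lk κ).map fun d' =>
            (τ.Ws d d' : ℝ) * fT φ (setOf τ.n t) (setOf τ.n d) *
              fT φ (setOf τ.n t) (setOf τ.n d')).sum).sum =
      ∑ s ∈ range (2 ^ τ.n), ∑ s' ∈ range (2 ^ τ.n), if τ.keyOf s' = τ.keyOf s then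
        (if setOf τ.n t ⊆ setOf τ.n s ∧ setOf τ.n t ⊆ setOf τ.n s' ∧
            bit τ.km (τ.keyOf (s - t)) = true then
          (wtSpec τ.n t : ℝ) * eS (setOf τ.n (s - t)) (setOf τ.n s) *
            eS (setOf τ.n (s' - t)) (setOf τ.n s') * (τ.Ws (s - t) (s' - t) : ℝ)
        else 0) * φ (setOf τ.n s) * φ (setOf τ.n s') else 0 := by
    intro t ht
    have ht' := Finset.mem_range.1 ht
    rw [loc_grp τ K hK]
    have e1 : ∀ d, (∑ d' ∈ range (2 ^ τ.n),
        if bit τ.km (τ.keyOf d) = true ∧ τ.keyOf d' = τ.keyOf d then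
          (τ.Ws d d' : ℝ) * fT φ (setOf τ.n t) (setOf τ.n d) * fT φ (setOf τ.n t) (setOf τ.n d')
        else 0) = (∑ d' ∈ range (2 ^ τ.n),
          (if bit τ.km (τ.keyOf d) = true ∧ τ.keyOf d' = τ.keyOf d then (τ.Ws d d' : ℝ) else 0) *
            fT φ (setOf τ.n t) (setOf τ.n d')) * fT φ (setOf τ.n t) (setOf τ.n d) := by
      intro d
      rw [Finset.sum_mul]
      refine Finset.sum_congr rfl fun d' _ => ?_
      split_ifs <;> ring
    simp only [e1]
    rw [loc_shift ht', Finset.mul_sum]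
    refine Finset.sum_congr rfl fun s hs => ?_
    have hs' := Finset.mem_range.1 hs
    by_cases h1 : setOf τ.n t ⊆ setOf τ.n s
    · rw [if_pos h1, loc_shift ht', Finset.sum_mul, Finset.mul_sum]
      refine Finset.sum_congr rfl fun s' hs2 => ?_
      have hs2' := Finset.mem_range.1 hs2
      by_cases h2 : setOf τ.n t ⊆ setOf τ.n s'
      · have e2 : τ.keyOf s' = τ.keyOf s ↔ τ.keyOf (s' - t) = τ.keyOf (s - t) := by
          rw [loc_key h ht' hs' h1, loc_key h ht' hs2' h2]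
          omega
        simp only [h1, h2, e2, true_and, if_true]
        by_cases h3 : bit τ.km (τ.keyOf (s - t)) = true <;>
          by_cases h4 : τ.keyOf (s' - t) = τ.keyOf (s - t) <;> simp [h3, h4]
        ring
      · simp [h2]
    · simp [h1]
  rw [Finset.sum_congr rfl hL, Finset.sum_comm]
  refine Finset.sum_congr rfl fun s hs => ?_
  rw [Finset.sum_comm]
  refine Finset.sum_congr rfl fun s' hs' => ?_
  by_cases h4 : τ.keyOf s' = τ.keyOf s
  · simp only [h4, if_true, and_self]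
    rw [Xe_eq h (Finset.mem_range.1 hs) (Finset.mem_range.1 hs'), Finset.sum_mul, Finset.sum_mul]
  · simp [h4]

theorem localBk_of_checks {τ : Tb} {J : ℕ} (hn : τ.n = J + 1) (h : τ.ok = true) (K : ℕ)
    (hK : ∀ t < 2 ^ τ.n, τ.keyOf t < K) (hkm : τ.km < 2 ^ K) {ks : List Bk}
    (hi : bksOK J ks = true) (ht : tagsOK τ ks = true)
    (hg : ∀ κ < K, bit τ.km κ = true → grpOK τ ks κ = true)
    (hb : ∀ κ < K, blkOK τ κ = true) : LocalBk J ks := by
  intro φ
  have hlt : ∀ κ, bit τ.km κ = true → κ < K := by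
    intro κ hκ
    by_contra hc
    rw [bit_eq, Nat.testBit_lt_two_pow
      (hkm.trans_le (Nat.pow_le_pow_right two_pos (not_lt.1 hc)))] at hκ
    exact Bool.false_ne_true hκ
  have hA : ∀ k ∈ ks, tag k ∈ (range K).filter fun κ => bit τ.km κ = true := by
    intro k hk
    have := List.all_eq_true.1 ht k hk
    exact Finset.mem_filter.2 ⟨Finset.mem_range.2 (hlt _ this), this⟩
  have hc : (0 : ℝ) < 2 * ∏ k ∈ range τ.n, (k.factorial : ℝ) := by positivity
  refine (mul_nonneg_iff_of_pos_left hc).1 ?_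
  have h0 := Finset.sum_nonneg (s := range K) fun κ hκ =>
    blk_sound h (fun κ hκ => Ws_symm (hg κ (hlt κ hκ) hκ)) (hb κ (Finset.mem_range.1 hκ))
      fun s => φ (setOf τ.n s)
  rw [← regroup h K hK φ] at h0
  refine h0.trans (le_of_eq ?_)
  rw [← hn, sum_powerset_eq, Finset.mul_sum]
  refine Finset.sum_congr rfl fun t _ => ?_
  rw [loc_split _ _ ks hA, wtSpec_eq, ← Finset.sum_congr rfl fun κ hκ =>
    grp_sound h hn hi (hg κ (Finset.mem_range.1 (Finset.mem_filter.1 hκ).1)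
      (Finset.mem_filter.1 hκ).2) φ (setOf τ.n t), ← Finset.mul_sum]
  ring

end Crest.Agent.R340.G0
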