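import Crest.Agent.R340.G0Cg0
import Crest.Agent.R340.G0Cg1
import Crest.Agent.R340.G0Cg2
import Crest.Agent.R340.G0Cg3
import Crest.Agent.R340.G0Cg4
import Crest.Agent.R340.G0Cg5
import Crest.Agent.R340.G0Cb0
import Crest.Agent.R340.G0Cb1
import Crest.Agent.R340.G0Cb2
import Crest.Agent.R340.G0Cb3
import Crest.Agent.R340.G0Cb4
import Crest.Agent.R340.G0Cb5
import Crest.Agent.R340.G0Cb6
import Crest.Agent.R340.G0Cb7
import Crest.Agent.R340.G0Cb8
import Crest.Agent.R340.G0Cb9
import Crest.Agent.R340.G0Cb10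
import Crest.Agent.R340.G0Cb11
import Crest.Agent.R340.G0Cb12
import Crest.Agent.R340.G0Cb13
import Crest.Agent.R340.G0Cb14
import Crest.Agent.R340.G0Cb15
import Crest.Agent.R340.G0Cb16
import Crest.Agent.R340.G0Cb17
import Crest.Agent.R340.G0Cb18
import Crest.Agent.R340.G0Cb19
import Crest.Agent.R340.G0Cb20
import Crest.Agent.R340.G0Cb21
import Crest.Agent.R340.G0Cb22
import Crest.Agent.R340.G0Cb23
import Crest.Agent.R340.G0Ca
import Crest.Agent.R340.G0Loc

/-! Row 340: the local inequality of the `T4`-free certificate. -/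

set_option autoImplicit false
set_option maxRecDepth 100000

namespace Crest.Agent.R340.G0

open Crest.Agent.R340

def grpKeys : List ℕ := [664, 532, 529, 528, 526, 400, 525, 524, 266, 264, 653, 258, 651] ++ [665, 530, 660, 527, 658, 657, 403, 393, 522, 262, 389, 388, 386] ++ [666, 531, 670, 537, 672, 673, 656, 655, 654, 390, 520, 518] ++ [663, 661, 533, 536, 538, 401, 539, 394, 265, 263, 521, 652, 519] ++ [667, 669, 534, 659, 399, 398, 402, 674, 523, 391, 259, 257, 650] ++ [662, 668, 535, 671, 397, 396, 395, 404, 392, 261, 260, 387, 385]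

def blkKeys : List ℕ := [797, 536, 1201, 1191, 921, 394, 392, 679, 128] ++ [798, 1059, 1194, 398, 1328, 809, 784, 546, 0] ++ [799, 1069, 1195, 400, 1329, 920, 407, 271, 134] ++ [664, 936, 527, 657, 395, 1205, 521, 519, 136] ++ [665, 792, 924, 1203, 788, 943, 917, 812, 272] ++ [666, 804, 938, 1204, 808, 393, 810, 262, 131] ++ [796, 1066, 1070, 399, 1334, 1053, 653, 269, 410] ++ [800, 926, 1058, 789, 540, 1189, 678, 518, 135] ++ [795, 1063, 1197, 1202, 1326, 655, 1076, 266, 651, 275] ++ [801, 1065, 1198, 1057, 1325, 1074, 786, 265, 650, 274] ++ [663, 534, 1196, 526, 1056, 1055, 942, 652, 389, 133] ++ [667, 1062, 528, 1193, 674, 1335, 1075, 677, 408, 260] ++ [931, 533, 805, 923, 525, 396, 654, 522, 520, 257] ++ [662, 530, 1068, 538, 1072, 1073, 919, 811, 264, 387] ++ [668, 531, 791, 1199, 401, 1330, 405, 785, 813, 411] ++ [929, 660, 535, 1192, 807, 1054, 675, 267, 261, 130] ++ [930, 670, 1060, 1463, 922, 1331, 523, 918, 263, 273] ++ [932, 532, 529, 939, 539, 402, 676, 542, 544, 258] ++ [933,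 1064, 937, 1200, 656, 1332, 541, 944, 268, 388] ++ [794, 927, 659, 790, 940, 941, 404, 406, 680, 129] ++ [802, 935, 671, 806, 397, 1327, 787, 543, 545, 138] ++ [928, 793, 1067, 537, 673, 403, 1206, 783, 409, 137] ++ [934, 803, 925, 658, 1071, 524, 1188, 391, 270, 132] ++ [661, 669, 1061, 672, 1190, 1333, 1052, 945, 390, 259]

theorem grp_all : ∀ κ ∈ grpKeys, grpOK tb0 ks0 κ = true := by
  intro κ hκ
  unfold grpKeys at hκ
  rcases List.mem_append.mp hκ with hκ | hκ
  swap
  · exact grps5 κ hκ
  rcases List.mem_append.mp hκ with hκ | hκ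
  swap
  · exact grps4 κ hκ
  rcases List.mem_append.mp hκ with hκ | hκ
  swap
  · exact grps3 κ hκ
  rcases List.mem_append.mp hκ with hκ | hκ
  swap
  · exact grps2 κ hκ
  rcases List.mem_append.mp hκ with hκ | hκ
  swap
  · exact grps1 κ hκ
  exact grps0 κ hκ

theorem blk_all : ∀ κ ∈ blkKeys, blkOK tb0 κ = true := by
  intro κ hκ
  unfold blkKeys at hκ
  rcases List.mem_append.mp hκ with hκ | hκ
  swap
  · exact blks23 κ hκ
  rcases List.mem_append.mp hκ with hκ | hκ
  swap
  · exact blks22 κ hκ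
  rcases List.mem_append.mp hκ with hκ | hκ
  swap
  · exact blks21 κ hκ
  rcases List.mem_append.mp hκ with hκ | hκ
  swap
  · exact blks20 κ hκ
  rcases List.mem_append.mp hκ with hκ | hκ
  swap
  · exact blks19 κ hκ
  rcases List.mem_append.mp hκ with hκ | hκ
  swap
  · exact blks18 κ hκ
  rcases List.mem_append.mp hκ with hκ | hκ
  swap
  · exact blks17 κ hκ
  rcases List.mem_append.mp hκ with hκ | hκ
  swap
  · exact blks16 κ hκ
  rcases List.mem_append.mp hκ with hκ | hκ
  swap
  · exact blks15 κ hκ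
  rcases List.mem_append.mp hκ with hκ | hκ
  swap
  · exact blks14 κ hκ
  rcases List.mem_append.mp hκ with hκ | hκ
  swap
  · exact blks13 κ hκ
  rcases List.mem_append.mp hκ with hκ | hκ
  swap
  · exact blks12 κ hκ
  rcases List.mem_append.mp hκ with hκ | hκ
  swap
  · exact blks11 κ hκ
  rcases List.mem_append.mp hκ with hκ | hκ
  swap
  · exact blks10 κ hκ
  rcases List.mem_append.mp hκ with hκ | hκ
  swap
  · exact blks9 κ hκ
  rcases List.mem_append.mp hκ with hκ | hκ
  swap
  · exact blks8 κ hκ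
  rcases List.mem_append.mp hκ with hκ | hκ
  swap
  · exact blks7 κ hκ
  rcases List.mem_append.mp hκ with hκ | hκ
  swap
  · exact blks6 κ hκ
  rcases List.mem_append.mp hκ with hκ | hκ
  swap
  · exact blks5 κ hκ
  rcases List.mem_append.mp hκ with hκ | hκ
  swap
  · exact blks4 κ hκ
  rcases List.mem_append.mp hκ with hκ | hκ
  swap
  · exact blks3 κ hκ
  rcases List.mem_append.mp hκ with hκ | hκ
  swap
  · exact blks2 κ hκ
  rcases List.mem_append.mp hκ with hκ | hκ
  swap
  · exact blks1 κ hκ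
  exact blks0 κ hκ

lemma memN_mem (x : ℕ) (L : List ℕ) (h : memN x L = true) : x ∈ L := by
  induction L with
  | nil => simp [memN] at h
  | cons y L ih =>
    unfold memN at h
    cases hxy : Nat.beq x y with
    | true => rw [Nat.eq_of_beq_eq_true hxy]; exact List.mem_cons_self
    | false => rw [hxy] at h; exact List.mem_cons_of_mem _ (ih h)

theorem keys_chk : (List.range 2048).all
    (fun t => Nat.blt (tb0.keyOf t) 1500 && memN (tb0.keyOf t) blkKeys) = true := by
  decide +kernel

theorem km_chk : (List.range 1500).all (fun κ => !(bit tb0.km κ) || memN κ grpKeys) = true := by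
  decide +kernel

theorem km_lt : Nat.blt tb0.km (Nat.pow 2 1500) = true := by decide +kernel

theorem localBk0 : LocalBk 10 ks0 := by
  have hk : ∀ t < 2 ^ tb0.n, tb0.keyOf t < 1500 ∧ tb0.keyOf t ∈ blkKeys := by
    intro t ht
    have := List.all_eq_true.mp keys_chk t (List.mem_range.mpr ht)
    rw [Bool.and_eq_true] at this
    exact ⟨Nat.blt_eq.mp this.1, memN_mem _ _ this.2⟩
  refine localBk_of_checks (τ := tb0) rfl tbok 1500 (fun t ht => (hk t ht).1)
    (Nat.blt_eq.mp km_lt) bksok tagsok ?_ ?_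
  · intro κ hκ hb
    have := List.all_eq_true.mp km_chk κ (List.mem_range.mpr hκ)
    rw [hb] at this
    exact grp_all κ (memN_mem _ _ (by simpa using this))
  · intro κ _
    by_cases hm : κ ∈ blkKeys
    · exact blk_all κ hm
    · have : tb0.Lk κ = [] := by
        rw [List.eq_nil_iff_forall_not_mem]
        intro d hd
        obtain ⟨h1, h2⟩ := (Tb.mem_Lk tb0 κ d).mp hd
        exact hm (h2 ▸ (hk d h1).2)
      unfold blkOK
      rw [this]
      rfl

end Crest.Agent.R340.G0
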