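import Crest.Agent.R340.G0Gap
import Crest.Agent.R340.G0Fin
import Crest.Agent.R340.G0Co

/-! Row 340: the `T4`-free Fock-space inequality (input of S0532). -/

set_option autoImplicit false

namespace Crest.Agent.R340

theorem fockGap0_main' : ∃ Q₀ : ℕ, ∀ Q : ℕ, Q₀ ≤ Q → FockGap0 Q (1 / 100) := by
  have hc : ((certCost (q2 G0.den0 G0.c20) G0.a0 : ℚ) : ℝ) < 9860 / 10000 := by
    have h := (Rat.cast_lt (K := ℝ)).mpr G0.costok
    have e : (((9860 / 10000 : ℚ)) : ℝ) = 9860 / 10000 := by norm_num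
    rwa [e] at h
  exact fockGap0_of_cert (J := 10) (den := G0.den0) (by unfold G0.den0; norm_num) G0.bksok
    G0.localBk0 (planar0_of_checks _ G0.a0 _ 41 G0.aok G0.oscok) (by linarith)

theorem fockGap0_main : ∃ γ : ℝ, 0 < γ ∧ ∃ Q₀ : ℕ, ∀ Q : ℕ, Q₀ ≤ Q → FockGap0 Q γ :=
  ⟨1 / 100, by norm_num, fockGap0_main'⟩

end Crest.Agent.R340
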