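import Crest.Agent.R340.SiSq
import Crest.Agent.R340.GeoFrame

/-! # SELF-INST: the pair field on the sphere -/

set_option autoImplicit false

namespace Crest.Agent.R340.Si

open MeasureTheory Matrix Crest.Agent.R340.Filt Crest.Agent.R340.Fw Crest.MathPhysics.Laughlin
open scoped ComplexConjugate Matrix.Norms.L2Operator MatrixOrder ComplexOrder

variable {q : ℕ}

/-! ### part A -/

theorem h11_orb (hq : 1 ≤ q) (x y : S2) :
    ‖star (coh q y) ⬝ᵥ orb q x 1‖ ≤ 6 * Real.exp (-dq q x y) := by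
  have o2 := orb_overlap_le q y x 1
  have e1 : (((1 : Fin (q + 1)) : ℕ) : ℝ) = 1 := by
    rw [Fin.val_one', Nat.mod_eq_of_lt (by omega), Nat.cast_one]
  rw [dq_symm q y x, e1, Real.sqrt_one] at o2
  exact o2.trans (gfA_exp (gfA_three (by nlinarith [sq_nonneg (dq q x y - 2)])))

theorem h11_loc (hq : 1 ≤ q) (x y : S2) :
    Fw.loc (ca q) (By q x) y ≤ 10 * Real.exp (-dq q x y) := by
  have n1 := norm_ca_le q x
  have n2 := norm_cC_orb_le q x 1
  have h1 := gfA_comm (Z := ca q y) n2 n1 (gfA_anti _ _) (gfA_anti _ _)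
  have h2 := gfA_comm (Z := star (ca q y)) n2 n1 (cC_car (coh q x) (coh q y))
    (cC_car (orb q x 1) (coh q y))
  have o1 := coh_overlap_le q x y
  have o2 := h11_orb hq x y
  have e2 : ‖star (orb q x 1) ⬝ᵥ coh q y‖ = ‖star (coh q y) ⬝ᵥ orb q x 1‖ := by
    rw [← norm_star, star_dotProduct, star_star]
  have o3 : Real.exp (-dq q x y ^ 2 / 2) ≤ 2 * Real.exp (-dq q x y) :=
    gfA_exp (gfA_half (by nlinarith [sq_nonneg (dq q x y - 1)]))
  have o4 := Real.exp_pos (-dq q x y)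
  rw [norm_zero] at h1
  unfold Fw.loc
  rw [By_eq hq]
  linarith

theorem h11_comm (hq : 1 ≤ q) (y : S2) (A : Fk (q + 1)) : ‖By q y * A - A * By q y‖ ≤
    10 * (loc (ca q) A y + ∫ u, Real.exp (-dq q y u) * loc (ca q) A u ∂muq q) := by
  have n1 := norm_ca_le q y
  have n2 := norm_cC_orb_le q y 1
  have e : cC (orb q y 1) * ca q y * A - A * (cC (orb q y 1) * ca q y) =
      -(cC (orb q y 1) * (A * ca q y - ca q y * A)) -
        (A * cC (orb q y 1) - cC (orb q y 1) * A) * ca q y := by noncomm_ring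
  have h1 : ‖cC (orb q y 1) * (A * ca q y - ca q y * A)‖ ≤ loc (ca q) A y :=
    (norm_mul_le _ _).trans ((mul_le_of_le_one_left (norm_nonneg _) n2).trans
      (le_add_of_nonneg_right (norm_nonneg _)))
  have hi : Integrable (fun u => Real.exp (-dq q y u) * loc (ca q) A u) (muq q) := by
    simpa using h54_int_loc q zero_le_one A y
  have h2 : ‖(A * cC (orb q y 1) - cC (orb q y 1) * A) * ca q y‖ ≤
      6 * ∫ u, Real.exp (-dq q y u) * loc (ca q) A u ∂muq q := by
    refine (norm_mul_le _ _).trans ((mul_le_of_le_one_right (norm_nonneg _) n1).trans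
      ((le_add_of_nonneg_right (norm_nonneg _)).trans ((comm_cC_le q A (orb q y 1)).trans ?_)))
    rw [← integral_const_mul]
    refine integral_mono_of_nonneg (Filter.Eventually.of_forall fun u =>
      mul_nonneg (norm_nonneg _) (loc_nonneg _ _ _)) (hi.const_mul 6)
      (Filter.Eventually.of_forall fun u => ?_)
    show _ ≤ 6 * (_ * _)
    rw [← mul_assoc]
    exact mul_le_mul_of_nonneg_right (h11_orb hq y u) (loc_nonneg _ _ _)
  have h3 : 0 ≤ ∫ u, Real.exp (-dq q y u) * loc (ca q) A u ∂muq q :=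
    integral_nonneg fun u => mul_nonneg (Real.exp_pos _).le (loc_nonneg _ _ _)
  have h4 := loc_nonneg (ca q) A y
  rw [By_eq hq, e]
  refine (norm_sub_le _ _).trans ?_
  rw [norm_neg]
  linarith

theorem pair_S2 (hq : 1 ≤ q) : Pair 10 (muq q) (dq q) (ca q) (By q) (numC (q + 1)) := by
  refine ⟨?_, fun y => ⟨(norm_By_le hq y).trans (by norm_num), h11_loc hq y⟩, h11_comm hq,
    fun y => numC_mul_bC _, numC_sa _⟩
  have e : By q = fun x => Bx q x 0 := funext fun x => (Bx_zero q x).symm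
  rw [e]
  exact (integrable_Bx q 0).1

/-! ### part B -/

theorem sqc_eq_integral (hq : 1 ≤ q) (M : Fk (q + 1)) :
    Self.sqc (BC q) M = ∫ y, ((2 * (q : ℝ) - 1) / ((q : ℝ) + 1)) •
      (star (By q y * M - M * By q y) * (By q y * M - M * By q y)) ∂muq q := by
  have e : ((2 * q - 2 : ℕ) : ℝ) + 1 = 2 * (q : ℝ) - 1 := by
    rw [Nat.cast_sub (by omega)]; push_cast; ring
  have h1 : (1 : ℝ) ≤ q := by exact_mod_cast hq
  obtain ⟨T, hT⟩ : ∃ T : Fin (2 * q - 2 + 1) → Fk (q + 1), ∀ p, T p = Bn q p * M - M * Bn q p :=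
    ⟨_, fun _ => rfl⟩
  have hB : ∀ y, By q y * M - M * By q y = ∑ p, conj (orb (2 * q - 2) y 0 p) • T p := by
    intro y
    rw [By, ← R340.orb_zero, bC, Finset.sum_mul, Finset.mul_sum, ← Finset.sum_sub_distrib]
    refine Finset.sum_congr rfl fun p _ => ?_
    rw [hT, smul_sub, smul_mul_assoc, mul_smul_comm]
  have hE : ∀ y, star (By q y * M - M * By q y) * (By q y * M - M * By q y) =
      ∑ j, ∑ j', (orb (2 * q - 2) y 0 j * conj (orb (2 * q - 2) y 0 j')) • (star (T j) * T j') := by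
    intro y
    rw [hB, star_sum, Finset.sum_mul_sum]
    refine Finset.sum_congr rfl fun j _ => Finset.sum_congr rfl fun j' _ => ?_
    rw [star_smul, smul_mul_smul_comm, Complex.star_def, Complex.conj_conj]
  have hi : ∀ j j', Integrable (fun y => (orb (2 * q - 2) y 0 j * conj (orb (2 * q - 2) y 0 j')) •
      (star (T j) * T j')) (muq q) := by
    intro j j'
    have := integrable_orb q (2 * q - 2) 0 j j' (φ := fun _ => 1) measurable_const (C := 1) (by simp)
    simp only [one_mul] at this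
    exact this.smul_const _
  have hS : Self.sqc (BC q) M = ∑ j, star (T j) * T j := by
    unfold Self.sqc
    refine Fintype.sum_equiv (finCongr (by omega : 2 * q - 1 = 2 * q - 2 + 1)) _ _ fun p => ?_
    have : Bn q (finCongr (by omega : 2 * q - 1 = 2 * q - 2 + 1) p) = BC q p := by
      simp [Bn]
    rw [hT, this]
  simp only [hE]
  rw [integral_smul, integral_finsetSum _ fun j _ => integrable_finsetSum _ fun j' _ => hi j j', hS,
    Finset.smul_sum]
  refine Finset.sum_congr rfl fun j _ => ?_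
  rw [integral_finsetSum _ fun j' _ => hi j j']
  simp only [integral_smul_const, integral_orb, e]
  rw [Finset.sum_eq_single j]
  · have : (2 * (q : ℝ) - 1) / ((q : ℝ) + 1) * (((q : ℝ) + 1) / (2 * (q : ℝ) - 1)) = 1 := by
      have h2 : (2 * (q : ℝ) - 1) ≠ 0 := by linarith
      have h3 : ((q : ℝ) + 1) ≠ 0 := by linarith
      field_simp
    rw [if_pos rfl, Complex.coe_smul, smul_smul, this, one_smul]
  · intro j' _ hj
    rw [if_neg (Ne.symm hj)]
    simp
  · simp

/-- every normalised zero mode of the sector is the ground vector -/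
theorem GS_of_zero {n : Type} [Fintype n] [DecidableEq n] {P H : Matrix n n ℂ} {ψ₀ ψ : n → ℂ}
    {Δ : ℝ} (h : GS P H ψ₀ 0 Δ) (hΔ : 0 < Δ) (hP : P *ᵥ ψ = ψ) (hn : star ψ ⬝ᵥ ψ = 1)
    (h0 : H *ᵥ ψ = 0) : GS P H ψ 0 Δ := by
  refine ⟨hP, hn, by rw [h0]; simp, fun φ hφ hψφ => h.gap φ hφ ?_⟩
  have h1 : (1 - vecMulVec ψ₀ (star ψ₀)) *ᵥ ψ = 0 :=
    Self.kill_of_GS (M := 1 - vecMulVec ψ₀ (star ψ₀)) h hΔ
      (by rw [sub_mulVec, one_mulVec, vecMulVec_mulVec, h.norm]; simp) hP h0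
  rw [sub_mulVec, one_mulVec, vecMulVec_mulVec, sub_eq_zero] at h1
  obtain ⟨c, hc⟩ : ∃ c : ℂ, ψ = c • ψ₀ := ⟨star ψ₀ ⬝ᵥ ψ, by simpa using h1⟩
  have hc0 : c ≠ 0 := by
    rintro rfl
    rw [hc] at hn
    simp at hn
  rw [hc, star_smul, smul_dotProduct, smul_eq_mul] at hψφ
  exact (mul_eq_zero.1 hψφ).resolve_left (star_ne_zero.2 hc0)

/-- the trivial form of (Q) -/
theorem QB_triv {N : ℕ} {ψ : Finset (Fin (q + 1)) → ℂ} {Δ : ℝ}
    (h : GS (secP (q + 1) N) (HC q) ψ 0 Δ) (hΔ : 0 < Δ) (a : ℝ) :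
    QB (muq q) (dq q) (ca q) (numC (q + 1)) (HC q) (secP (q + 1)) N ψ a ((q : ℝ) + 1) := by
  intro M hM hk N' hN' φ hφ h0
  rcases hN'.eq_or_lt with rfl | hlt
  · have h1 := Self.kill_of_GS h hΔ (int_kill hM.int hk) hφ h0
    simp [Self.qf, h1]
  · haveI : IsFiniteMeasure (muq q) := ⟨by rw [muq_univ]; exact ENNReal.add_lt_top.2 ⟨by simp, by simp⟩⟩
    have h1 : Self.qf (∫ x, M x ∂muq q) φ ≤ ‖∫ x, M x ∂muq q‖ * Self.nsq φ :=
      (abs_le.1 (abs_re_dot_le _ φ)).2
    have h2 := hM.norm_le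
    have h3 : (muq q).real Set.univ = (q : ℝ) + 1 := by
      rw [Measure.real, muq_univ, ENNReal.toReal_add (by simp) (by simp)]
      simp
    rw [h3, one_mul] at h2
    have h4 : (1 : ℝ) ≤ (N : ℝ) - N' := by
      have : ((N' + 1 : ℕ) : ℝ) ≤ N := Nat.cast_le.2 hlt
      push_cast at this
      linarith
    refine h1.trans (mul_le_mul_of_nonneg_right (h2.trans ?_) (Self.nsq_nonneg φ))
    exact le_mul_of_one_le_right (by positivity) h4

theorem QB.mono {N : ℕ} {ψ : Finset (Fin (q + 1)) → ℂ} {a s s' : ℝ}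
    (h : QB (muq q) (dq q) (ca q) (numC (q + 1)) (HC q) (secP (q + 1)) N ψ a s) (hs : s ≤ s') :
    QB (muq q) (dq q) (ca q) (numC (q + 1)) (HC q) (secP (q + 1)) N ψ a s' :=
  fun M hM hk => qb_mono (h M hM hk) hs

end Crest.Agent.R340.Si
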