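import Crest.Agent.R340.SiMain
import Crest.Agent.R340.SiGeo
import Crest.Agent.R340.Main0

/-! # SELF-INST: `RelOut` from LOC, the field Lieb-Robinson bound and (Q) -/

set_option autoImplicit false

namespace Crest.Agent.R340.Si

open MeasureTheory Matrix Crest.Agent.R340.Filt Crest.Agent.R340.Fw Crest.MathPhysics.Laughlin
open scoped Matrix.Norms.L2Operator MatrixOrder ComplexOrder

theorem relOut_of (hL : LocOut muq dq ca hx) (hO : LRoOut) (hQ : QOut) : RelOut muq dq ca := by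
  obtain ⟨cv, cr, K0, v₀, Q₀, -, hcr, hL⟩ := hL
  obtain ⟨v, Q₁, hv, hO⟩ := hO
  obtain ⟨cq, hcq, hQ⟩ := hQ
  obtain ⟨γ, hγ, Q₂, hG⟩ := fockGap0_main
  intro a ha ha1
  obtain ⟨R, hR⟩ := rel_main (cv := fun a => 48 / a ^ 4) (cr := cr) (cq := fun a => 3 * cq a)
    K0 10 v γ a (tame_poly 48 4) (hcq.const_mul (by norm_num)) hγ hv hcr ha ha1
  refine ⟨R, Q₀ + Q₁ + Q₂ + 2, fun N hN ψ h1 h2 h3 => ?_⟩
  have hN2 : 2 ≤ N := by omega
  have hq : 1 ≤ 3 * (N - 1) := by omega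
  obtain ⟨F, -⟩ := hL (3 * (N - 1)) (by omega)
  have hF := hG (3 * (N - 1)) (by omega)
  obtain ⟨ψ₀, -, h0⟩ := exists_GS0 N hN2 hγ.le (Self.fockGap_of_fockGap0 hF)
  have hg := GS_of_zero h0 hγ h1 h2 h3
  haveI : Nonempty S2 := ⟨⟨EuclideanSpace.single 0 1, by simp⟩⟩
  have hq0 : (0 : ℝ) ≤ ((3 * (N - 1) : ℕ) : ℝ) := Nat.cast_nonneg _
  have hq1 : (1 : ℝ) ≤ ((3 * (N - 1) : ℕ) : ℝ) := Nat.one_le_cast.2 hq
  refine hR (muq _) (dq _) (ca _) (By _) (BC _) _ _ (secP _) N ψ _ γ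
    { F with vol := fun a ha x => integral_exp_sqrt_dq hq x ha } (pair_S2 hq)
    (Self.sys_of_fockGap0 hγ hF) (commute_numC_HC _) (fun A hA N => commute_secP hA N)
    (hO _ (by omega)) ?_ (sqc_eq_integral hq) hγ hg (fun y => bC_zero_mode hq h3 _)
    fun a' ha' ha1' => ?_
  · rw [abs_of_nonneg (div_nonneg (by linarith) (by linarith)), div_le_iff₀ (by linarith)]
    linarith
  · rcases le_total (cq a') N with h | h
    · intro M hM hk N' hN' φ hφ hz
      have h5 := hQ a' ha' ha1' N hN2 h ψ h1 h2 h3 M hM hk N' hN' φ hφ hz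
      have h6 := hQ a' ha' ha1' N hN2 h ψ h1 h2 h3 (fun x => (-1 : ℝ) • M x)
        (by simpa using hM.smul (-1)) (fun x => by rw [Matrix.smul_mulVec, hk, smul_zero])
        N' hN' φ hφ hz
      rw [integral_smul, Self.qf_smul] at h6
      linarith
    · refine (QB_triv hg hγ a').mono ?_
      have : ((3 * (N - 1) : ℕ) : ℝ) + 1 ≤ 3 * N := by
        have : 3 * (N - 1) + 1 ≤ 3 * N := by omega
        exact_mod_cast this
      linarith

end Crest.Agent.R340.Si
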