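import Crest.Agent.R340.GeoLRo
import Crest.Agent.R340.SiFinal

/-! # Row 340: S0532 from the reconstruction property and property (Q) -/

set_option autoImplicit false

namespace Crest.Agent.R340

open Crest.MathPhysics.Laughlin

/-- output of LOC for FLOW -/
def ReconOut : Prop := ∃ cr : ℝ → ℝ, (∀ a, 0 ≤ cr a) ∧ ∀ q, 1 ≤ q → Recon cr q

theorem s0532_of_out (hR : ReconOut) (hQ : Si.QOut) :
    ∃ c₀ Δ : ℝ, 0 < c₀ ∧ 0 < Δ ∧ ∃ N₀ : ℕ, ∀ N : ℕ, N₀ ≤ N →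
      ∀ φ : S2 → ℝ, Measurable φ → (∀ x, |φ x| ≤ 1) → ∀ c : ℝ, |c| ≤ c₀ →
        HasFermionicGap
          (interaction (3 * (N - 1)) N +
            (c : ℂ) • oneBody N (toeplitz (3 * (N - 1)) φ)) Δ := by
  obtain ⟨cr, h0, h⟩ := hR
  have hL := locOut_of_recon h0 h
  exact Fw.s0532_of hL (Si.relOut_of hL geo_lro hQ)

end Crest.Agent.R340
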