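import Crest.Agent.R340.FwDefs
import Crest.Agent.R340.FiltEv
import Crest.Agent.R340.FiltFun

/-! # FLOW: elementary properties of `loc`, of the frame and of the potential -/

set_option autoImplicit false

namespace Crest.Agent.R340.Fw

open MeasureTheory Crest.Agent.R340.Filt

variable {𝔄 : Type} [CStarAlgebra 𝔄] {X : Type} {c : X → 𝔄} {A B K : 𝔄} {y : X}

/-- moments of a filter -/
def Mom (w : ℝ → ℂ) (β J : ℝ) : Prop :=
  Integrable w ∧ Integrable (fun t : ℝ => ‖w t‖ * ((1 + |t|) * Real.exp (β * Real.sqrt |t|))) ∧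
    ∫ t : ℝ, ‖w t‖ * ((1 + |t|) * Real.exp (β * Real.sqrt |t|)) ≤ J

theorem loc_nonneg (c : X → 𝔄) (A : 𝔄) (y : X) : 0 ≤ loc c A y := by
  unfold loc; positivity

theorem h40_comm_le (A e : 𝔄) (he : ‖e‖ ≤ 1) : ‖A * e - e * A‖ ≤ 2 * ‖A‖ := by
  have h1 : ‖A * e‖ ≤ ‖A‖ := (norm_mul_le _ _).trans (mul_le_of_le_one_right (norm_nonneg _) he)
  have h2 : ‖e * A‖ ≤ ‖A‖ := (norm_mul_le _ _).trans (mul_le_of_le_one_left (norm_nonneg _) he)
  have := norm_sub_le (A * e) (e * A)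
  linarith

theorem loc_le (hc : ∀ x, ‖c x‖ ≤ 1) (A : 𝔄) (y : X) : loc c A y ≤ 4 * ‖A‖ := by
  have h1 := h40_comm_le A (c y) (hc y)
  have h2 := h40_comm_le A (star (c y)) (by rw [norm_star]; exact hc y)
  unfold loc; linarith

theorem loc_add_le (c : X → 𝔄) (A B : 𝔄) (y : X) : loc c (A + B) y ≤ loc c A y + loc c B y := by
  have e : ∀ e : 𝔄, (A + B) * e - e * (A + B) = (A * e - e * A) + (B * e - e * B) := fun e => by
    noncomm_ring
  unfold loc
  rw [e, e]
  have h1 := norm_add_le (A * c y - c y * A) (B * c y - c y * B)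
  have h2 := norm_add_le (A * star (c y) - star (c y) * A) (B * star (c y) - star (c y) * B)
  linarith

theorem loc_sub_le (c : X → 𝔄) (A B : 𝔄) (y : X) : loc c (A - B) y ≤ loc c A y + loc c B y := by
  have e : ∀ e : 𝔄, (A - B) * e - e * (A - B) = (A * e - e * A) - (B * e - e * B) := fun e => by
    noncomm_ring
  unfold loc
  rw [e, e]
  have h1 := norm_sub_le (A * c y - c y * A) (B * c y - c y * B)
  have h2 := norm_sub_le (A * star (c y) - star (c y) * A) (B * star (c y) - star (c y) * B)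
  linarith

theorem loc_smul (c : X → 𝔄) (z : ℂ) (A : 𝔄) (y : X) : loc c (z • A) y = ‖z‖ * loc c A y := by
  unfold loc
  simp only [smul_mul_assoc, mul_smul_comm, ← smul_sub, norm_smul, mul_add]

theorem loc_rsmul (c : X → 𝔄) (r : ℝ) (A : 𝔄) (y : X) : loc c (r • A) y = |r| * loc c A y := by
  unfold loc
  simp only [smul_mul_assoc, mul_smul_comm, ← smul_sub, norm_smul, mul_add, Real.norm_eq_abs]

theorem loc_sub_smul_one (c : X → 𝔄) (z : ℂ) (A : 𝔄) (y : X) :
    loc c (A - z • (1 : 𝔄)) y = loc c A y := by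
  have e : ∀ e : 𝔄, (A - z • (1 : 𝔄)) * e - e * (A - z • (1 : 𝔄)) = A * e - e * A := fun e => by
    simp only [sub_mul, mul_sub, smul_mul_assoc, mul_smul_comm, one_mul, mul_one]; abel
  unfold loc
  rw [e, e]

theorem h40_comm_int {Y : Type} [MeasurableSpace Y] {ν : Measure Y} {f : Y → 𝔄}
    (hf : Integrable f ν) (e : 𝔄) :
    Integrable (fun u => ‖f u * e - e * f u‖) ν ∧
      ‖(∫ u, f u ∂ν) * e - e * ∫ u, f u ∂ν‖ ≤ ∫ u, ‖f u * e - e * f u‖ ∂ν := by
  let L : 𝔄 →L[ℂ] 𝔄 := (ContinuousLinearMap.mul ℂ 𝔄).flip e - ContinuousLinearMap.mul ℂ 𝔄 e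
  have hL : ∀ A, L A = A * e - e * A := fun A => rfl
  simp only [← hL]
  refine ⟨(L.integrable_comp hf).norm, ?_⟩
  rw [← L.integral_comp_comm hf]
  exact norm_integral_le_integral_norm _

theorem loc_integral_le {Y : Type} [MeasurableSpace Y] {ν : Measure Y} {f : Y → 𝔄}
    (hf : Integrable f ν) {g : Y → ℝ} (hg : ∀ u, loc c (f u) y ≤ g u) (ig : Integrable g ν) :
    loc c (∫ u, f u ∂ν) y ≤ ∫ u, g u ∂ν := by
  obtain ⟨i1, h1⟩ := h40_comm_int hf (c y)
  obtain ⟨i2, h2⟩ := h40_comm_int hf (star (c y))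
  unfold loc
  refine (add_le_add h1 h2).trans ?_
  rw [← integral_add i1 i2]
  exact integral_mono (i1.add i2) ig fun u => hg u

theorem loc_filt_le {w : ℝ → ℂ} (hw : Integrable w) (hK : IsSelfAdjoint K) {g : ℝ → ℝ}
    (hg : ∀ t, loc c (tau K t A) y ≤ g t) (ig : Integrable fun t => ‖w t‖ * g t) :
    loc c (filt w K A) y ≤ ∫ t, ‖w t‖ * g t := by
  refine loc_integral_le (integrable_filt hw hK A) (fun t => ?_) ig
  rw [loc_smul]
  exact mul_le_mul_of_nonneg_left (hg t) (norm_nonneg _)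

theorem commute_tau {Nn : 𝔄} (hK : Commute Nn K) (hA : Commute Nn A) (t : ℝ) :
    Commute Nn (tau K t A) := by
  have h : ∀ s, Commute Nn (ev K s) := fun s => ev_intertwine hK.eq s
  exact ((h t).mul_right hA).mul_right (h (-t))

theorem min_exp_le {b T D : ℝ} (hb : 0 ≤ b) (hT : 0 ≤ T) (hD : 0 ≤ D) :
    min 1 (Real.exp (T - D)) ≤ Real.exp (b ^ 2 + b * Real.sqrt T - b * Real.sqrt D) := by
  have hp := Real.sqrt_nonneg T
  have hq := Real.sqrt_nonneg D
  have hT2 := Real.mul_self_sqrt hT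
  have hD2 := Real.mul_self_sqrt hD
  set p := Real.sqrt T
  set q := Real.sqrt D
  rcases le_or_gt 0 (b ^ 2 + b * p - b * q) with h | h
  · exact (min_le_left _ _).trans (Real.one_le_exp h)
  · refine (min_le_right _ _).trans (Real.exp_le_exp.2 ?_)
    have h1 : p + b < q := by
      by_contra hc
      have : 0 ≤ b * (b + p - q) := mul_nonneg hb (by linarith [not_lt.1 hc])
      nlinarith
    have h2 : 0 ≤ (q - p) * (p + q - b) := mul_nonneg (by linarith) (by linarith)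
    nlinarith

/-- small norm + locality of size `K` gives small locality norm at half the rate -/
theorem QL.interp {d : X → X → ℝ} (hc : ∀ x, ‖c x‖ ≤ 1) {x : X} {a ε K' : ℝ} (hK : 0 ≤ K')
    (h1 : ‖A‖ ≤ ε) (h2 : ∀ y, loc c A y ≤ K' * Real.exp (-a * Real.sqrt (d x y))) :
    QL c d A x (a / 2) (ε + 2 * Real.sqrt (ε * K')) := by
  have hε : 0 ≤ ε := (norm_nonneg A).trans h1
  have hs := Real.sqrt_nonneg (ε * K')
  refine ⟨by linarith, fun y => ?_⟩
  have hE := Real.exp_pos (-(a / 2) * Real.sqrt (d x y))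
  have e : Real.exp (-a * Real.sqrt (d x y)) =
      Real.exp (-(a / 2) * Real.sqrt (d x y)) * Real.exp (-(a / 2) * Real.sqrt (d x y)) := by
    rw [← Real.exp_add]; congr 1; ring
  have l0 := loc_nonneg c A y
  have l1 : loc c A y ≤ 4 * ε := (loc_le hc A y).trans (by linarith)
  have l2 := h2 y
  rw [e] at l2
  set E := Real.exp (-(a / 2) * Real.sqrt (d x y))
  have l3 : loc c A y ≤ 2 * Real.sqrt (ε * K') * E := by
    refine abs_le_of_sq_le_sq' ?_ (by positivity) |>.2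
    calc loc c A y ^ 2 = loc c A y * loc c A y := sq _
      _ ≤ (4 * ε) * (K' * (E * E)) := mul_le_mul l1 l2 l0 (by positivity)
      _ = (2 * Real.sqrt (ε * K') * E) ^ 2 := by
        rw [mul_pow, mul_pow, Real.sq_sqrt (mul_nonneg hε hK)]; ring
  have : 0 ≤ ε * E := by positivity
  linarith

theorem QL.mono {d : X → X → ℝ} {x : X} {a a' K₁ K₂ : ℝ} (h : QL c d A x a K₁) (ha : a' ≤ a)
    (hK : K₁ ≤ K₂) : QL c d A x a' K₂ := by
  have h0 : 0 ≤ K₁ := (norm_nonneg A).trans h.1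
  refine ⟨h.1.trans hK, fun y => (h.2 y).trans ?_⟩
  refine mul_le_mul hK (Real.exp_le_exp.2 ?_) (Real.exp_pos _).le (h0.trans hK)
  exact mul_le_mul_of_nonneg_right (by linarith) (Real.sqrt_nonneg _)

theorem fwB_dom {w : ℝ → ℂ} {β J : ℝ} (h : Mom w β J) {g : ℝ → ℝ} (hg : Continuous g)
    (h0 : ∀ t, 0 ≤ g t) (h1 : ∀ t, g t ≤ (1 + |t|) * Real.exp (β * Real.sqrt |t|)) :
    Integrable (fun t : ℝ => ‖w t‖ * g t) ∧ ∫ t : ℝ, ‖w t‖ * g t ≤ J := by
  have hle : ∀ t, ‖w t‖ * g t ≤ ‖w t‖ * ((1 + |t|) * Real.exp (β * Real.sqrt |t|)) := fun t =>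
    mul_le_mul_of_nonneg_left (h1 t) (norm_nonneg _)
  have hi : Integrable (fun t : ℝ => ‖w t‖ * g t) :=
    h.2.1.mono' (h.1.aestronglyMeasurable.norm.mul hg.aestronglyMeasurable)
      (Filter.Eventually.of_forall fun t => by
        rw [Real.norm_eq_abs, abs_of_nonneg (mul_nonneg (norm_nonneg _) (h0 t))]
        exact hle t)
  exact ⟨hi, (integral_mono hi h.2.1 hle).trans h.2.2⟩

theorem Mom.norm_le {w : ℝ → ℂ} {β J : ℝ} (h : Mom w β J) (hβ : 0 ≤ β) : ∫ t, ‖w t‖ ≤ J := by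
  have := (fwB_dom h (g := fun _ => 1) continuous_const (fun _ => zero_le_one) fun t => by
    have h1 : 1 ≤ Real.exp (β * Real.sqrt |t|) :=
      Real.one_le_exp (mul_nonneg hβ (Real.sqrt_nonneg _))
    have h2 := abs_nonneg t
    nlinarith).2
  simpa using this

/-- the weight `exp (β √|t|)` alone -/
theorem Mom.exp {w : ℝ → ℂ} {β J : ℝ} (h : Mom w β J) :
    Integrable (fun t : ℝ => ‖w t‖ * Real.exp (β * Real.sqrt |t|)) ∧
      ∫ t : ℝ, ‖w t‖ * Real.exp (β * Real.sqrt |t|) ≤ J := by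
  refine fwB_dom h (by fun_prop) (fun t => (Real.exp_pos _).le) fun t => ?_
  have h1 := Real.exp_pos (β * Real.sqrt |t|)
  have h2 := abs_nonneg t
  nlinarith

/-- the weight `|t| exp (β √|t|)` -/
theorem Mom.abs_exp {w : ℝ → ℂ} {β J : ℝ} (h : Mom w β J) :
    Integrable (fun t : ℝ => ‖w t‖ * (|t| * Real.exp (β * Real.sqrt |t|))) ∧
      ∫ t : ℝ, ‖w t‖ * (|t| * Real.exp (β * Real.sqrt |t|)) ≤ J := by
  refine fwB_dom h (by fun_prop) (fun t => by positivity) fun t => ?_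
  have h1 := Real.exp_pos (β * Real.sqrt |t|)
  nlinarith

theorem fwB_int {w : ℝ → ℂ} (hw : Integrable w) {C β : ℝ} (hβ : 0 < β) (hd : Decay C (2 * β) w) :
    Integrable (fun t : ℝ => ‖w t‖ * ((1 + |t|) * Real.exp (β * Real.sqrt |t|))) := by
  have i0 := Decay.integrable_pow (C := C) hβ 0
  have i1 := Decay.integrable_pow (C := C) hβ 1
  have hc : Continuous fun t : ℝ => (1 + |t|) * Real.exp (β * Real.sqrt |t|) := by fun_prop
  refine (i0.add i1).mono' (hw.aestronglyMeasurable.norm.mul hc.aestronglyMeasurable)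
    (Filter.Eventually.of_forall fun t => ?_)
  have e : Real.exp (-β * Real.sqrt |t|) =
      Real.exp (-(2 * β) * Real.sqrt |t|) * Real.exp (β * Real.sqrt |t|) := by
    rw [← Real.exp_add]; congr 1; ring
  rw [Real.norm_eq_abs, abs_of_nonneg (by positivity)]
  calc ‖w t‖ * ((1 + |t|) * Real.exp (β * Real.sqrt |t|))
      ≤ C * Real.exp (-(2 * β) * Real.sqrt |t|) * ((1 + |t|) * Real.exp (β * Real.sqrt |t|)) :=
        mul_le_mul_of_nonneg_right (hd t) (by positivity)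
    _ = _ := by
        simp only [Pi.add_apply]
        rw [e]; ring

theorem exists_mom {γ : ℝ} (hγ : 0 < γ) : ∃ (w W : ℝ → ℂ) (β J : ℝ), 0 < β ∧ 0 ≤ J ∧
    IsFilt γ w W ∧ Mom w β J ∧ Mom W β J := by
  obtain ⟨C, c', hC, hc, h⟩ := exists_filt
  obtain ⟨w, W, hF, -, -, d1, d2⟩ := h γ hγ
  have hs : 0 < Real.sqrt γ := Real.sqrt_pos.2 hγ
  have hβ : 0 < c' * Real.sqrt γ / 2 := by positivity
  have e : c' * Real.sqrt γ = 2 * (c' * Real.sqrt γ / 2) := by ring
  rw [e] at d1 d2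
  refine ⟨w, W, c' * Real.sqrt γ / 2, max
    (∫ t : ℝ, ‖w t‖ * ((1 + |t|) * Real.exp (c' * Real.sqrt γ / 2 * Real.sqrt |t|)))
    (∫ t : ℝ, ‖W t‖ * ((1 + |t|) * Real.exp (c' * Real.sqrt γ / 2 * Real.sqrt |t|))), hβ,
    le_max_of_le_left (integral_nonneg fun t => by positivity), hF,
    ⟨hF.int_w, fwB_int hF.int_w hβ d1, le_max_left _ _⟩,
    ⟨hF.int_W, fwB_int hF.int_W hβ d2, le_max_right _ _⟩⟩

variable [MeasurableSpace X] {cv cr : ℝ → ℝ} {K0 : ℝ} {μ : Measure X} {d : X → X → ℝ} {Nn : 𝔄}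
  {φ : X → ℝ} {η : ℝ}

theorem Frame.exp_tri (F : Frame cv cr K0 μ d c Nn) {a a' : ℝ} (h0 : 0 ≤ a') (x y u : X) :
    Real.exp (-a * Real.sqrt (d y u)) * Real.exp (-a' * Real.sqrt (d x u)) ≤
      Real.exp (-a' * Real.sqrt (d x y)) * Real.exp (-(a - a') * Real.sqrt (d y u)) := by
  rw [← Real.exp_add, ← Real.exp_add]
  refine Real.exp_le_exp.2 ?_
  have h1 : Real.sqrt (d x y) ≤ Real.sqrt (d x u) + Real.sqrt (d y u) := by
    have h2 := F.d_tri x u y
    rw [F.d_symm u y] at h2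
    refine Real.sqrt_le_iff.2 ⟨by positivity, ?_⟩
    have e1 := Real.mul_self_sqrt (F.d_nonneg x u)
    have e2 := Real.mul_self_sqrt (F.d_nonneg y u)
    have e3 := mul_nonneg (Real.sqrt_nonneg (d x u)) (Real.sqrt_nonneg (d y u))
    nlinarith
  have := mul_le_mul_of_nonneg_left h1 h0
  nlinarith

theorem cC_sa {ν : Measure X} {h : X → 𝔄} (hs : ∀ x, IsSelfAdjoint (h x)) :
    IsSelfAdjoint (∫ x, h x ∂ν) := by
  have h1 := (starL' ℝ (A := 𝔄)).integral_comp_comm (μ := ν) h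
  simp only [starL'_apply, (hs _).star_eq] at h1
  exact h1.symm

theorem cC_comm {ν : Measure X} {h : X → 𝔄} (hi : Integrable h ν) (A : 𝔄) :
    (∫ x, h x ∂ν) * A - A * ∫ x, h x ∂ν = ∫ x, (h x * A - A * h x) ∂ν := by
  have h1 := ((ContinuousLinearMap.mul ℝ 𝔄).flip A - ContinuousLinearMap.mul ℝ 𝔄 A).integral_comp_comm hi
  simpa using h1.symm

theorem cC_num {ν : Measure X} {h : X → 𝔄} (hi : Integrable h ν) (hn : ∀ x, Commute Nn (h x)) :
    Commute Nn (∫ x, h x ∂ν) := by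
  have h1 := cC_comm hi Nn
  simp only [← (hn _).eq, sub_self, integral_zero] at h1
  exact (sub_eq_zero.1 h1).symm

theorem Frame.cC_star (F : Frame cv cr K0 μ d c Nn) : StronglyMeasurable fun x => star (c x) :=
  continuous_star.comp_stronglyMeasurable F.meas_c

theorem Frame.meas_loc (F : Frame cv cr K0 μ d c Nn) (A : 𝔄) : Measurable (loc c A) := by
  exact ((F.meas_c.const_mul A).sub (F.meas_c.mul_const A)).norm.measurable.add
    ((F.cC_star.const_mul A).sub (F.cC_star.mul_const A)).norm.measurable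

theorem Frame.int_loc (F : Frame cv cr K0 μ d c Nn) (A : 𝔄) : Integrable (loc c A) μ := by
  have := F.fin
  exact Integrable.of_bound (F.meas_loc A).aestronglyMeasurable (4 * ‖A‖)
    (Filter.Eventually.of_forall fun y => by
      rw [Real.norm_of_nonneg (loc_nonneg c A y)]; exact loc_le F.norm_c A y)

theorem Frame.cC_exp (F : Frame cv cr K0 μ d c Nn) (a : ℝ) (x : X) :
    Measurable fun y => Real.exp (-a * Real.sqrt (d x y)) :=
  ((F.meas_d x).sqrt.const_mul _).exp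

theorem cC_exp_le {a : ℝ} (ha : 0 ≤ a) (t : ℝ) : ‖Real.exp (-a * Real.sqrt t)‖ ≤ 1 := by
  rw [Real.norm_of_nonneg (Real.exp_pos _).le, Real.exp_le_one_iff, neg_mul, neg_nonpos]
  positivity

theorem Frame.int_exp (F : Frame cv cr K0 μ d c Nn) {a : ℝ} (ha : 0 ≤ a) (x : X) :
    Integrable (fun y => Real.exp (-a * Real.sqrt (d x y))) μ := by
  have := F.fin
  exact Integrable.of_bound (F.cC_exp a x).aestronglyMeasurable 1
    (Filter.Eventually.of_forall fun y => cC_exp_le ha _)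

theorem Frame.int_exp_loc (F : Frame cv cr K0 μ d c Nn) {a : ℝ} (ha : 0 ≤ a) (x : X) (A : 𝔄) :
    Integrable (fun y => Real.exp (-a * Real.sqrt (d x y)) * loc c A y) μ := by
  exact (F.int_loc A).bdd_mul (c := 1) (F.cC_exp a x).aestronglyMeasurable
    (Filter.Eventually.of_forall fun y => cC_exp_le ha _)

theorem Frame.cv_nonneg (F : Frame cv cr K0 μ d c Nn) {a : ℝ} (ha : 0 < a) (x : X) : 0 ≤ cv a := by
  exact (integral_nonneg fun y => (Real.exp_pos _).le).trans (F.vol a ha x)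

theorem Frame.K0_nonneg (F : Frame cv cr K0 μ d c Nn) (x : X) : 0 ≤ K0 := by
  exact (norm_nonneg _).trans (F.ov x).1

theorem Frame.int_loc_le (F : Frame cv cr K0 μ d c Nn) {a κ : ℝ} (ha : 0 < a) (hκ : 0 ≤ κ) {x : X}
    (h : ∀ y, loc c A y ≤ κ * Real.exp (-a * Real.sqrt (d x y))) :
    ∫ y, loc c A y ∂μ ≤ κ * cv a := by
  refine (integral_mono (F.int_loc A) ((F.int_exp ha.le x).const_mul κ) h).trans ?_
  rw [integral_const_mul]
  exact mul_le_mul_of_nonneg_left (F.vol a ha x) hκ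

theorem Frame.int_dens (F : Frame cv cr K0 μ d c Nn) (hφ : Measurable φ) (hb : ∀ x, |φ x| ≤ η) :
    Integrable (fun x => (φ x : ℂ) • (star (c x) * c x)) μ := by
  have := F.fin
  refine Integrable.of_bound ((Complex.measurable_ofReal.comp hφ).stronglyMeasurable.smul
    (F.cC_star.mul F.meas_c)).aestronglyMeasurable (η * K0) (Filter.Eventually.of_forall fun x => ?_)
  rw [norm_smul, Complex.norm_real, Real.norm_eq_abs]
  exact mul_le_mul (hb x) (F.ov x).1 (norm_nonneg _) ((abs_nonneg _).trans (hb x))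

theorem Frame.pot_sa (F : Frame cv cr K0 μ d c Nn) (hφ : Measurable φ) (hb : ∀ x, |φ x| ≤ η) :
    IsSelfAdjoint (pot μ c φ) := by
  refine cC_sa fun x => ?_
  rw [IsSelfAdjoint, star_smul, (IsSelfAdjoint.star_mul_self (c x)).star_eq, Complex.star_def,
    Complex.conj_ofReal]

theorem Frame.pot_num (F : Frame cv cr K0 μ d c Nn) (hφ : Measurable φ) (hb : ∀ x, |φ x| ≤ η) :
    Commute Nn (pot μ c φ) := by
  exact cC_num (F.int_dens hφ hb) fun x => (F.numN x).smul_right _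

theorem pot_mul (μ : Measure X) (c : X → 𝔄) (φ : X → ℝ) (s : ℝ) :
    pot μ c (fun x => s * φ x) = s • pot μ c φ := by
  simp only [pot]
  rw [← integral_smul]
  refine integral_congr_ae (Filter.Eventually.of_forall fun x => ?_)
  simp only [Complex.ofReal_mul, mul_smul, Complex.coe_smul]

omit [MeasurableSpace X] in
theorem cC_pt (hc : ∀ x, ‖c x‖ ≤ 1) (A : 𝔄) (y : X) :
    ‖star (c y) * c y * A - A * (star (c y) * c y)‖ ≤ loc c A y := by
  have e : star (c y) * c y * A - A * (star (c y) * c y) =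
      -(star (c y) * (A * c y - c y * A) + (A * star (c y) - star (c y) * A) * c y) := by
    noncomm_ring
  rw [e, norm_neg]
  refine (norm_add_le _ _).trans (add_le_add ((norm_mul_le _ _).trans ?_) ((norm_mul_le _ _).trans ?_))
  · rw [norm_star]
    exact mul_le_of_le_one_left (norm_nonneg _) (hc y)
  · exact mul_le_of_le_one_right (norm_nonneg _) (hc y)

theorem Frame.comm_pot (F : Frame cv cr K0 μ d c Nn) (hφ : Measurable φ) (hb : ∀ x, |φ x| ≤ η)
    (A : 𝔄) : ‖pot μ c φ * A - A * pot μ c φ‖ ≤ η * ∫ y, loc c A y ∂μ := by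
  rw [pot, cC_comm (F.int_dens hφ hb) A, ← integral_const_mul]
  refine norm_integral_le_of_norm_le ((F.int_loc A).const_mul η)
    (Filter.Eventually.of_forall fun y => ?_)
  rw [smul_mul_assoc, mul_smul_comm, ← smul_sub, norm_smul, Complex.norm_real, Real.norm_eq_abs]
  exact mul_le_mul (hb y) (cC_pt F.norm_c A y) (norm_nonneg _) ((abs_nonneg _).trans (hb y))

theorem Ham.sa' {h : X → 𝔄} {H : 𝔄} (hH : Ham K0 μ d c Nn h H) : IsSelfAdjoint H := by
  rw [hH.eq]
  exact cC_sa hH.sa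

theorem Ham.num' {h : X → 𝔄} {H : 𝔄} (hH : Ham K0 μ d c Nn h H) : Commute Nn H := by
  rw [hH.eq]
  exact cC_num hH.int hH.num

end Crest.Agent.R340.Fw
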