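import Crest.Agent.R340.FwGen
import Crest.Agent.R340.FiltEnd

/-! # FLOW: the local decomposition of `U^* (H + s V) U - H` -/

set_option autoImplicit false

namespace Crest.Agent.R340.Fw

open MeasureTheory Matrix Crest.Agent.R340.Filt
open scoped Matrix.Norms.L2Operator MatrixOrder ComplexOrder

section generic

variable {𝔄 : Type} [CStarAlgebra 𝔄] {X : Type}

/-- local density of `H + s V` -/
noncomputable def dens (c h : X → 𝔄) (φ : X → ℝ) (s : ℝ) (x : X) : 𝔄 :=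
  h x + s • ((φ x : ℂ) • (star (c x) * c x))

/-- local term of the transformed perturbation -/
noncomputable def Wx (w : ℝ → ℂ) (H V u : 𝔄) (c h : X → 𝔄) (φ : X → ℝ) (s : ℝ) (x : X) : 𝔄 :=
  star u * filt w (H + s • V) (dens c h φ s x) * u - filt w H (h x)

variable [MeasurableSpace X] {cv cr : ℝ → ℝ} {K0 : ℝ} {μ : Measure X} {d : X → X → ℝ}
  {c h : X → 𝔄} {Nn H u : 𝔄} {φ : X → ℝ} {η v b β J s γ : ℝ} {w W : ℝ → ℂ} {U : ℝ → 𝔄}

theorem decA_sa_smul {A : 𝔄} (r : ℝ) (hA : IsSelfAdjoint A) : IsSelfAdjoint (r • A) :=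
  (IsSelfAdjoint.all r).smul hA

theorem Frame.decA_sa (F : Frame cv cr K0 μ d c Nn) (hH : Ham K0 μ d c Nn h H)
    (hφ : Measurable φ) (hη : ∀ x, |φ x| ≤ η) (r : ℝ) : IsSelfAdjoint (H + r • pot μ c φ) :=
  hH.sa'.add (decA_sa_smul r (F.pot_sa hφ hη))

theorem Frame.decA_num (F : Frame cv cr K0 μ d c Nn) (hH : Ham K0 μ d c Nn h H)
    (hφ : Measurable φ) (hη : ∀ x, |φ x| ≤ η) (r : ℝ) : Commute Nn (H + r • pot μ c φ) :=
  hH.num'.add_right ((F.pot_num hφ hη).smul_right r)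

theorem Frame.el_dens (F : Frame cv cr K0 μ d c Nn) (hH : Ham K0 μ d c Nn h H)
    (hη : ∀ x, |φ x| ≤ η) (hη1 : η ≤ 1) (hs : |s| ≤ 1) (x : X) :
    EL c d (dens c h φ s x) x (2 * K0) ∧ IsSelfAdjoint (dens c h φ s x) ∧
      Commute Nn (dens c h φ s x) := by
  have hK := F.K0_nonneg x
  have h1 : |φ x| ≤ 1 := (hη x).trans hη1
  have h2 : |s| * |φ x| ≤ 1 := mul_le_one₀ hs (abs_nonneg _) h1
  have hc : ‖(φ x : ℂ)‖ = |φ x| := by rw [Complex.norm_real, Real.norm_eq_abs]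
  refine ⟨⟨?_, fun y => ?_⟩, ?_, ?_⟩
  · refine (norm_add_le _ _).trans ?_
    rw [norm_smul, norm_smul, hc, Real.norm_eq_abs, ← mul_assoc]
    have h3 := (hH.el x).1
    have h4 := (F.ov x).1
    have h5 := mul_le_mul h2 h4 (norm_nonneg _) zero_le_one
    linarith
  · refine (loc_add_le c _ _ y).trans ?_
    rw [loc_rsmul, loc_smul, hc, ← mul_assoc]
    have h3 := (hH.el x).2 y
    have h4 := (F.ov x).2 y
    have h5 := mul_le_mul h2 h4 (loc_nonneg _ _ _) zero_le_one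
    linarith
  · refine (hH.sa x).add (decA_sa_smul s ?_)
    rw [Complex.coe_smul]
    exact decA_sa_smul _ (IsSelfAdjoint.star_mul_self _)
  · exact (hH.num x).add_right (((F.numN x).smul_right _).smul_right s)

theorem Frame.wx_int (F : Frame cv cr K0 μ d c Nn) (hH : Ham K0 μ d c Nn h H)
    (hf : IsFilt γ w W) (hφ : Measurable φ) (hη : ∀ x, |φ x| ≤ η) (u : 𝔄) (s : ℝ) :
    Integrable (Wx w H (pot μ c φ) u c h φ s) μ ∧
      ∫ x, Wx w H (pot μ c φ) u c h φ s x ∂μ = star u * (H + s • pot μ c φ) * u - H := by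
  have hK := F.decA_sa hH hφ hη s
  have hi : Integrable (dens c h φ s) μ := hH.int.add ((F.int_dens hφ hη).smul s)
  have he : ∫ x, dens c h φ s x ∂μ = H + s • pot μ c φ := by
    have hi2 : Integrable (fun x => s • ((φ x : ℂ) • (star (c x) * c x))) μ :=
      (F.int_dens hφ hη).smul s
    unfold dens
    rw [integral_add hH.int hi2, integral_smul, ← hH.eq]
    rfl
  obtain ⟨L, hL⟩ := exists_filt2_clm hf.int_w hK hK
  obtain ⟨L0, hL0⟩ := exists_filt2_clm hf.int_w hH.sa' hH.sa'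
  set L1 : 𝔄 →L[ℂ] 𝔄 := (ContinuousLinearMap.mulLeftRight ℂ 𝔄 (star u) u).comp L with hL1
  have e1 : ∀ A, L1 A = star u * filt w (H + s • pot μ c φ) A * u := fun A => by
    rw [hL1, ContinuousLinearMap.comp_apply, ContinuousLinearMap.mulLeftRight_apply, hL,
      filt_eq_filt2]
  have e0 : ∀ A, L0 A = filt w H A := fun A => by rw [hL0, filt_eq_filt2]
  have e : Wx w H (pot μ c φ) u c h φ s = fun x => L1 (dens c h φ s x) - L0 (h x) := by
    funext x
    rw [e1, e0]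
    rfl
  have i1 := L1.integrable_comp hi
  have i0 := L0.integrable_comp hH.int
  rw [e]
  refine ⟨i1.sub i0, ?_⟩
  rw [integral_sub i1 i0, L1.integral_comp_comm hi, L0.integral_comp_comm hH.int, he, ← hH.eq, e1, e0,
    filt_of_commute w (Commute.refl _), filt_of_commute w (Commute.refl _),
    hf.one 0 (by have := hf.pos; rw [abs_zero]; positivity), one_smul, one_smul]

theorem Frame.wx_sa (F : Frame cv cr K0 μ d c Nn) (hH : Ham K0 μ d c Nn h H)
    (hf : IsFilt γ w W) (hφ : Measurable φ) (hη : ∀ x, |φ x| ≤ η) (hη1 : η ≤ 1) (hs : |s| ≤ 1)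
    (hu : u ∈ unitary 𝔄) (hN : Commute Nn u) (x : X) :
    IsSelfAdjoint (Wx w H (pot μ c φ) u c h φ s x) ∧
      Commute Nn (Wx w H (pot μ c φ) u c h φ s x) := by
  obtain ⟨-, h1, h2⟩ := F.el_dens hH hη hη1 hs x
  have hK := F.decA_sa hH hφ hη s
  have hN' : Commute Nn (star u) := by
    have h3 := (Unitary.mem_iff.1 hu).1
    have h4 := (Unitary.mem_iff.1 hu).2
    calc Nn * star u = star u * u * Nn * star u := by rw [h3, one_mul]
      _ = star u * (u * Nn) * star u := by rw [mul_assoc (star u) u]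
      _ = star u * (Nn * u) * star u := by rw [hN.eq]
      _ = star u * Nn * (u * star u) := by simp only [mul_assoc]
      _ = star u * Nn := by rw [h4, mul_one]
  refine ⟨IsSelfAdjoint.sub ?_ (filt_sa hf.real_w hH.sa' (hH.sa x)), Commute.sub_right ?_ ?_⟩
  · exact (filt_sa hf.real_w hK h1).conjugate' u
  · exact (hN'.mul_right (commute_filt hf.int_w hK (F.decA_num hH hφ hη s) h2)).mul_right hN
  · exact commute_filt hf.int_w hH.sa' hH.num' (hH.num x)

/-- the flow is continuous, self-adjointly generated, number conserving -/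
theorem Frame.gen_props (F : Frame cv cr K0 μ d c Nn) (hH : Ham K0 μ d c Nn h H)
    (hf : IsFilt γ w W) (hφ : Measurable φ) (hη : ∀ x, |φ x| ≤ η) :
    Continuous (fun r : ℝ => filt W (H + r • pot μ c φ) (pot μ c φ)) ∧
      (∀ r : ℝ, IsSelfAdjoint (filt W (H + r • pot μ c φ) (pot μ c φ))) ∧
      ∀ r : ℝ, Commute Nn (filt W (H + r • pot μ c φ) (pot μ c φ)) := by
  refine ⟨?_, fun r => filt_sa hf.real_W (F.decA_sa hH hφ hη r) (F.pot_sa hφ hη), fun r =>
    commute_filt hf.int_W (F.decA_sa hH hφ hη r) (F.decA_num hH hφ hη r) (F.pot_num hφ hη)⟩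
  simp only [filt_eq_filt2]
  have hc : Continuous fun r : ℝ => H + r • pot μ c φ := by fun_prop
  exact continuous_filt2 hf.int_W hc hc continuous_const (F.decA_sa hH hφ hη) (F.decA_sa hH hφ hη)

/-- the local terms are small in norm -/
theorem Frame.wx_norm (F : Frame cv cr K0 μ d c Nn) (hH : Ham K0 μ d c Nn h H)
    (hf : IsFilt γ w W) (hw : Mom w β J) (hW : Mom W β J) (hv : 1 ≤ v) (hb : 0 < b)
    (hbβ : b * Real.sqrt v ≤ β) (hφ : Measurable φ) (hη : ∀ x, |φ x| ≤ η) (hη1 : η ≤ 1)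
    (hL : ∀ r ∈ Set.Icc (0 : ℝ) 1, LR c d Nn (H + r • pot μ c φ) v)
    (hU : IsFlow (fun r : ℝ => filt W (H + r • pot μ c φ) (pot μ c φ)) U)
    (hs : s ∈ Set.Icc (0 : ℝ) 1) (x : X) :
    ‖Wx w H (pot μ c φ) (U s) c h φ s x‖ ≤
      η * ((4 + v ^ 2) * Real.exp (b ^ 2) * cv b * J ^ 2 * (2 * K0) +
        (4 + v) * Real.exp (b ^ 2) * cv b * J * K0 + J * K0) := by
  have hs1 : |s| ≤ 1 := abs_le.2 ⟨by linarith [hs.1], hs.2⟩
  have hsa : ∀ r : ℝ, IsSelfAdjoint (H + r • pot μ c φ) := fun r =>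
    hH.sa'.add ((IsSelfAdjoint.all r).smul (F.pot_sa hφ hη))
  have hnum : ∀ r : ℝ, Commute Nn (H + r • pot μ c φ) := fun r =>
    hH.num'.add_right ((F.pot_num hφ hη).smul_right r)
  obtain ⟨hel, -, hdn⟩ := F.el_dens hH hη hη1 hs1 x
  obtain ⟨g1, g2, -⟩ := F.gen_props hH hf hφ hη
  have hβ : 0 ≤ β := (mul_nonneg hb.le (Real.sqrt_nonneg v)).trans hbβ
  have hc : ∀ r ∈ Set.Icc (0 : ℝ) 1, _ := fun r hr =>
    F.gen_comm (hsa r) (hsa s) (hL r hr) (hL s hs) (hnum s) hv hb hbβ hw hW hφ hη hel hdn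
  have t1 : ‖star (U s) * filt w (H + s • pot μ c φ) (dens c h φ s x) * U s -
      filt w (H + s • pot μ c φ) (dens c h φ s x)‖ ≤
      η * ((4 + v ^ 2) * Real.exp (b ^ 2) * cv b * J ^ 2 * (2 * K0)) := by
    refine (hU.norm_conj_sub g1 g2 _ s).trans ?_
    rw [← Real.norm_eq_abs]
    refine (intervalIntegral.norm_integral_le_of_norm_le_const fun r hr => ?_).trans
      (mul_le_of_le_one_right ((norm_nonneg _).trans (hc s hs)) (by rwa [sub_zero]))
    rw [Set.uIoc_of_le hs.1] at hr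
    rw [norm_norm]
    exact hc r ⟨hr.1.le, hr.2.trans hs.2⟩
  have hL0 : LR c d Nn H v := by simpa using hL 0 ⟨le_rfl, zero_le_one⟩
  have t2 := F.filt_sub hH.sa' hL0 hv hb hbβ hw hφ hη hs1 (hH.el x) (hH.num x)
  have t3 : ‖filt w (H + s • pot μ c φ) (s • ((φ x : ℂ) • (star (c x) * c x)))‖ ≤ η * (J * K0) := by
    refine (norm_filt2_le hw.1 (hsa s) (hsa s) _).trans ?_
    have hη0 : 0 ≤ η := (abs_nonneg _).trans (hη x)
    have h1 : ‖s • ((φ x : ℂ) • (star (c x) * c x))‖ ≤ 1 * (η * K0) := by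
      rw [norm_smul, norm_smul, Complex.norm_real, Real.norm_eq_abs, Real.norm_eq_abs]
      exact mul_le_mul hs1 (mul_le_mul (hη x) (F.ov x).1 (norm_nonneg _) hη0) (by positivity)
        zero_le_one
    have h2 := hw.norm_le hβ
    have h3 : 0 ≤ J := (integral_nonneg fun _ => norm_nonneg _).trans h2
    calc _ ≤ J * (1 * (η * K0)) := mul_le_mul h2 h1 (norm_nonneg _) h3
      _ = _ := by ring
  have e : Wx w H (pot μ c φ) (U s) c h φ s x =
      (star (U s) * filt w (H + s • pot μ c φ) (dens c h φ s x) * U s -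
        filt w (H + s • pot μ c φ) (dens c h φ s x)) +
      (filt w (H + s • pot μ c φ) (h x) - filt w H (h x)) +
      filt w (H + s • pot μ c φ) (s • ((φ x : ℂ) • (star (c x) * c x))) := by
    have : filt w (H + s • pot μ c φ) (dens c h φ s x) = filt w (H + s • pot μ c φ) (h x) +
        filt w (H + s • pot μ c φ) (s • ((φ x : ℂ) • (star (c x) * c x))) :=
      filt2_add hw.1 (hsa s) (hsa s) _ _
    rw [Wx]
    generalize star (U s) * filt w (H + s • pot μ c φ) (dens c h φ s x) * U s = P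
    rw [this]
    abel
  rw [e, mul_add, mul_add]
  exact norm_add₃_le.trans (add_le_add_three t1 t2 t3)

/-- the local terms are quasi-local -/
theorem Frame.wx_loc (F : Frame cv cr K0 μ d c Nn) (hH : Ham K0 μ d c Nn h H)
    (hf : IsFilt γ w W) (hw : Mom w β J) (hW : Mom W β J) (hv : 1 ≤ v) (hb : 0 < b) (hb1 : b ≤ 1)
    (hbβ : b * Real.sqrt v ≤ β) (hφ : Measurable φ) (hη : ∀ x, |φ x| ≤ η) (hη1 : η ≤ 1)
    (hcr : 0 ≤ cr (b / 4))
    (hsm : 4 * (cr (b / 4) * (4 * (η * ((4 + v) * Real.exp (b ^ 2) * J * K0)) * cv (b / 4)) *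
      cv (b / 4 / 4)) ≤ 1)
    (hL : ∀ r ∈ Set.Icc (0 : ℝ) 1, LR c d Nn (H + r • pot μ c φ) v)
    (hU : IsFlow (fun r : ℝ => filt W (H + r • pot μ c φ) (pot μ c φ)) U)
    (hs : s ∈ Set.Icc (0 : ℝ) 1) (x y : X) :
    loc c (Wx w H (pot μ c φ) (U s) c h φ s x) y ≤
      5 * ((4 + v) * Real.exp (b ^ 2) * J * K0) * Real.exp (-(b / 4 / 4) * Real.sqrt (d x y)) := by
  have hs1 : |s| ≤ 1 := abs_le.2 ⟨by linarith [hs.1], hs.2⟩
  have hsa : ∀ r : ℝ, IsSelfAdjoint (H + r • pot μ c φ) := fun r =>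
    hH.sa'.add ((IsSelfAdjoint.all r).smul (F.pot_sa hφ hη))
  have hnum : ∀ r : ℝ, Commute Nn (H + r • pot μ c φ) := fun r =>
    hH.num'.add_right ((F.pot_num hφ hη).smul_right r)
  obtain ⟨hel, -, hdn⟩ := F.el_dens hH hη hη1 hs1 x
  obtain ⟨g1, g2, g3⟩ := F.gen_props hH hf hφ hη
  have hβ : 0 ≤ β := (mul_nonneg hb.le (Real.sqrt_nonneg v)).trans hbβ
  have hJ : 0 ≤ J := (integral_nonneg fun _ => norm_nonneg _).trans (hw.norm_le hβ)
  have hη0 : 0 ≤ η := (abs_nonneg _).trans (hη x)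
  have hK := F.K0_nonneg x
  have hb4 : 0 < b / 4 := by positivity
  have hcv := F.cv_nonneg hb4 x
  have hv0 : 0 ≤ v := zero_le_one.trans hv
  have hbb : b / 4 / 4 ≤ b := by linarith
  have hL0 : LR c d Nn H v := by simpa using hL 0 ⟨le_rfl, zero_le_one⟩
  have q1 := (F.ql_filt (hsa s) (hL s hs) hv hb.le hbβ hw hel hdn).mono hbb le_rfl
  have q2 := (F.ql_filt hH.sa' hL0 hv hb.le hbβ hw (hH.el x) (hH.num x)).mono hbb le_rfl
  have q3 := F.flow_ql g1 g2 g3 hU hb4 (by linarith) hcr (by positivity)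
    (fun r hr => F.gen_filt (hsa r) (hL r hr) hv hb hbβ hW hφ hη) hsm
    (commute_filt hw.1 (hsa s) (hnum s) hdn) q1 hs
  refine (loc_sub_le c _ _ y).trans ((add_le_add (q3.2 y) (q2.2 y)).trans_eq ?_)
  ring

end generic

variable {n : Type} [Fintype n] [DecidableEq n] {X : Type}
  {c h : X → Matrix n n ℂ} {Pi H V u : Matrix n n ℂ} {φ : X → ℝ} {s γ γ' E : ℝ}
  {w W : ℝ → ℂ} {ψ : n → ℂ}

/-- every local term has the unperturbed ground vector as an eigenvector -/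
theorem wx_eig (hf : IsFilt γ w W) (hγ : γ < γ') (hH : IsSelfAdjoint H) (hV : IsSelfAdjoint V)
    (hPi : IsStarProjection Pi) (cH : Commute Pi H) (cV : Commute Pi V)
    (hu : u ∈ unitary (Matrix n n ℂ)) (hG : GS Pi (H + s • V) (u *ᵥ ψ) E γ') (h0 : H *ᵥ ψ = 0)
    {x : X} (hx : h x *ᵥ ψ = 0) (hsa : IsSelfAdjoint (dens c h φ s x))
    (hc : Commute Pi (dens c h φ s x)) :
    ∃ e : ℝ, Wx w H V u c h φ s x *ᵥ ψ = (e : ℂ) • ψ := by
  have hK := fend_sa hH hV s
  have huu : star u * u = 1 := (Unitary.mem_iff.1 hu).1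
  have hn : star ψ ⬝ᵥ ψ = 1 := by
    rw [← hG.norm, g71_adj, Matrix.mulVec_mulVec, huu, Matrix.one_mulVec]
  have h1 := eig_of_commute hG.norm (filt_sa hf.real_w hK hsa)
    ((hG.toGap hK hPi (fend_comm cH cV s)).1.commute_filt hf (by linarith) hc)
  have h2 : filt w H (h x) * vecMulVec ψ (star ψ) = 0 := by
    rw [filt_eq_filt2, filt2_mul hf.int_w (K' := 0) hH hH (by rw [Matrix.mul_vecMulVec, h0]; simp),
      Matrix.mul_vecMulVec, hx]
    simp [filt2]
  have h3 : filt w H (h x) *ᵥ ψ = 0 := by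
    have := congrArg (· *ᵥ ψ) h2
    simpa only [← Matrix.mulVec_mulVec, ga_p_mulVec, hn, one_smul, Matrix.zero_mulVec] using this
  refine ⟨(star (u *ᵥ ψ) ⬝ᵥ filt w (H + s • V) (dens c h φ s x) *ᵥ u *ᵥ ψ).re, ?_⟩
  rw [Wx, Matrix.sub_mulVec, h3, sub_zero, ← Matrix.mulVec_mulVec, ← Matrix.mulVec_mulVec]
  conv_lhs => rw [h1]
  rw [Matrix.mulVec_smul, Matrix.mulVec_mulVec ψ (star u) u, huu, Matrix.one_mulVec]

/-- evaluation on a vector as a continuous linear map -/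
noncomputable def decC_app (ψ : n → ℂ) : Matrix n n ℂ →L[ℂ] (n → ℂ) :=
  LinearMap.toContinuousLinearMap
    { toFun := fun A => A *ᵥ ψ
      map_add' := fun A B => Matrix.add_mulVec A B ψ
      map_smul' := fun z A => Matrix.smul_mulVec z A ψ }

/-- removing the eigenvalues: `Rel` applies to terms with `ψ` as an eigenvector -/
theorem Rel.eig [MeasurableSpace X] {μ : Measure X} [IsFiniteMeasure μ] {d : X → X → ℝ}
    {Nn : Matrix n n ℂ} {a R ε : ℝ} (hR : Rel μ d c Nn Pi H ψ a R) (hn : star ψ ⬝ᵥ ψ = 1)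
    {M : X → Matrix n n ℂ} (hM : Integrable M μ) (hsa : ∀ x, IsSelfAdjoint (M x))
    (hN : ∀ x, Commute Nn (M x)) (hq : ∀ x, QL c d (M x) x a ε)
    (he : ∀ x, ∃ e : ℝ, M x *ᵥ ψ = (e : ℂ) • ψ) :
    ∃ e : ℝ, (∫ x, M x ∂μ) *ᵥ ψ = (e : ℂ) • ψ ∧ ∀ φ : n → ℂ, Pi *ᵥ φ = φ →
      e * (star φ ⬝ᵥ φ).re - R * (2 * ε) * (star φ ⬝ᵥ H *ᵥ φ).re ≤
        (star φ ⬝ᵥ (∫ x, M x ∂μ) *ᵥ φ).re := by
  choose e he using he
  have hre : ∀ x, e x = (star ψ ⬝ᵥ M x *ᵥ ψ).re := fun x => by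
    rw [he x, dotProduct_smul, hn, smul_eq_mul, mul_one, Complex.ofReal_re]
  have hb : ∀ x, |e x| ≤ ‖M x‖ := fun x => by
    have := abs_re_dot_le (M x) ψ
    rwa [hn, Complex.one_re, mul_one, ← hre] at this
  have hMi : Integrable (fun x => M x *ᵥ ψ) μ := (decC_app ψ).integrable_comp hM
  have hei : Integrable e μ := by
    have hcont : Continuous fun v : n → ℂ => (star ψ ⬝ᵥ v).re :=
      Complex.continuous_re.comp (continuous_const.dotProduct continuous_id)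
    refine hM.norm.mono' ?_ (ae_of_all _ hb)
    rw [funext hre]
    exact hcont.comp_aestronglyMeasurable hMi.aestronglyMeasurable
  have heC : Integrable (fun x => (e x : ℂ)) μ := hei.ofReal
  refine ⟨∫ x, e x ∂μ, ?_, fun φ hφ => ?_⟩
  · have h1 : (∫ x, M x ∂μ) *ᵥ ψ = ∫ x, M x *ᵥ ψ ∂μ := ((decC_app ψ).integral_comp_comm hM).symm
    rw [h1, ← integral_complex_ofReal, ← integral_smul_const]
    simp only [he]
  · have h1 := hR (2 * ε) (fun x => M x - (e x : ℂ) • (1 : Matrix n n ℂ))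
      (hM.sub (heC.smul_const _))
      (fun x => (hsa x).sub (IsSelfAdjoint.smul (by simp [IsSelfAdjoint]) (IsSelfAdjoint.one _)))
      (fun x => (hN x).sub_right ((Commute.one_right _).smul_right _))
      (fun x => ⟨?_, fun y => ?_⟩)
      (fun x => by rw [Matrix.sub_mulVec, Matrix.smul_mulVec, Matrix.one_mulVec, he, sub_self]) φ hφ
    · rw [integral_sub hM (heC.smul_const _), integral_smul_const, integral_complex_ofReal,
        Matrix.sub_mulVec, Matrix.smul_mulVec, Matrix.one_mulVec, dotProduct_sub, dotProduct_smul,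
        Complex.sub_re, smul_eq_mul, Complex.re_ofReal_mul] at h1
      linarith
    · have h2 : ‖(1 : Matrix n n ℂ)‖ ≤ 1 := (IsStarProjection.one _).norm_le
      have h3 : ‖(e x : ℂ) • (1 : Matrix n n ℂ)‖ ≤ ε := by
        rw [norm_smul, Complex.norm_real, Real.norm_eq_abs]
        exact (mul_le_of_le_one_right (abs_nonneg _) h2).trans ((hb x).trans (hq x).1)
      linarith [norm_sub_le (M x) ((e x : ℂ) • (1 : Matrix n n ℂ)), (hq x).1]
    · rw [loc_sub_smul_one]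
      have h2 : 0 ≤ ε := (norm_nonneg _).trans (hq x).1
      exact ((hq x).2 y).trans (mul_le_mul_of_nonneg_right (by linarith) (Real.exp_pos _).le)

end Crest.Agent.R340.Fw
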