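import Crest.Agent.R340.FwBasic

/-! # FLOW: evolved and filtered local operators; smallness estimates -/

set_option autoImplicit false

namespace Crest.Agent.R340.Fw

open MeasureTheory Crest.Agent.R340.Filt

variable {𝔄 : Type} [CStarAlgebra 𝔄] {X : Type} [MeasurableSpace X] {cv cr : ℝ → ℝ} {K0 : ℝ}
  {μ : Measure X} {d : X → X → ℝ} {c : X → 𝔄} {Nn A K K' : 𝔄} {x : X} {φ : X → ℝ}
  {η v b β J κ : ℝ} {w W : ℝ → ℂ}

theorem fwA_min {L u κ T D b S : ℝ} (hu : 0 ≤ u) (hκ : 0 ≤ κ) (hb : 0 ≤ b) (hT : 0 ≤ T) (hD : 0 ≤ D)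
    (h1 : L ≤ 4 * κ) (h2 : L ≤ u * κ * Real.exp (T - D)) (hS : b * Real.sqrt T ≤ S) :
    L ≤ (4 + u) * κ * Real.exp (b ^ 2 + S - b * Real.sqrt D) := by
  have h3 : L ≤ (4 + u) * κ * min 1 (Real.exp (T - D)) := by
    have := Real.exp_pos (T - D)
    rcases le_total 1 (Real.exp (T - D)) with h | h
    · rw [min_eq_left h]
      nlinarith [mul_nonneg hu hκ]
    · rw [min_eq_right h]
      nlinarith [mul_nonneg hκ this.le]
  refine h3.trans (mul_le_mul_of_nonneg_left ((min_exp_le hb hT hD).trans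
    (Real.exp_le_exp.2 (by linarith))) (by positivity))

theorem fwA_sqrt {v b β : ℝ} (hv : 1 ≤ v) (hbβ : b * Real.sqrt v ≤ β) (t : ℝ) :
    b * Real.sqrt (v * |t|) ≤ β * Real.sqrt |t| := by
  rw [Real.sqrt_mul (by linarith), ← mul_assoc]
  exact mul_le_mul_of_nonneg_right hbβ (Real.sqrt_nonneg _)

theorem Frame.loc_tau (F : Frame cv cr K0 μ d c Nn) (hK : IsSelfAdjoint K) (hL : LR c d Nn K v)
    (hv : 1 ≤ v) (hb : 0 ≤ b) (hbβ : b * Real.sqrt v ≤ β) (hA : EL c d A x κ) (hN : Commute Nn A)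
    (t : ℝ) (y : X) : loc c (tau K t A) y ≤
      (4 + v) * κ * Real.exp (b ^ 2) * Real.exp (β * Real.sqrt |t|) *
        Real.exp (-b * Real.sqrt (d x y)) := by
  have hκ : 0 ≤ κ := (norm_nonneg _).trans hA.1
  have h := fwA_min (by linarith) hκ hb (by positivity) (F.d_nonneg x y)
    ((loc_le F.norm_c (tau K t A) y).trans (by rw [norm_tau hK]; linarith [hA.1]))
    (hL A x κ hN hA.2 t y) (fwA_sqrt hv hbβ t)
  refine h.trans_eq ?_
  rw [sub_eq_add_neg, Real.exp_add, Real.exp_add, neg_mul]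
  ring

theorem Frame.loc_tau2 (F : Frame cv cr K0 μ d c Nn) (hK : IsSelfAdjoint K)
    (hK' : IsSelfAdjoint K') (hL : LR c d Nn K v) (hL' : LR c d Nn K' v) (hN' : Commute Nn K')
    (hv : 1 ≤ v) (hb : 0 ≤ b) (hbβ : b * Real.sqrt v ≤ β) (hA : EL c d A x κ) (hN : Commute Nn A)
    (t t' : ℝ) (y : X) : loc c (tau K t (tau K' t' A)) y ≤
      (4 + v ^ 2) * κ * Real.exp (b ^ 2) * Real.exp (β * Real.sqrt |t|) *
        Real.exp (β * Real.sqrt |t'|) * Real.exp (-b * Real.sqrt (d x y)) := by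
  have hκ : 0 ≤ κ := (norm_nonneg _).trans hA.1
  have h1 := hL (tau K' t' A) x (v * κ * Real.exp (v * |t'|)) (commute_tau hN' hN t')
    (fun z => (hL' A x κ hN hA.2 t' z).trans_eq (by
      rw [sub_eq_add_neg, Real.exp_add]; ring)) t y
  have p1 : 0 ≤ v * |t| := by positivity
  have p2 : 0 ≤ v * |t'| := by positivity
  have h := fwA_min (u := v ^ 2) (T := v * |t| + v * |t'|)
    (S := β * Real.sqrt |t| + β * Real.sqrt |t'|) (by positivity) hκ hb (by positivity)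
    (F.d_nonneg x y)
    ((loc_le F.norm_c (tau K t (tau K' t' A)) y).trans
      (by rw [norm_tau hK, norm_tau hK']; linarith [hA.1]))
    (h1.trans_eq (by
      rw [show v * |t| + v * |t'| - d x y = v * |t'| + (v * |t| - d x y) by ring, Real.exp_add _ (_ - _)]
      ring))
    (by
      have hs : Real.sqrt (v * |t| + v * |t'|) ≤ Real.sqrt (v * |t|) + Real.sqrt (v * |t'|) := by
        refine Real.sqrt_le_iff.2 ⟨by positivity, ?_⟩
        nlinarith [Real.sq_sqrt p1, Real.sq_sqrt p2, mul_nonneg (Real.sqrt_nonneg (v * |t|))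
          (Real.sqrt_nonneg (v * |t'|))]
      nlinarith [fwA_sqrt hv hbβ t, fwA_sqrt hv hbβ t', mul_le_mul_of_nonneg_left hs hb])
  refine h.trans_eq ?_
  rw [sub_eq_add_neg, Real.exp_add, Real.exp_add, Real.exp_add, neg_mul]
  ring

theorem Frame.ql_filt (F : Frame cv cr K0 μ d c Nn) (hK : IsSelfAdjoint K) (hL : LR c d Nn K v)
    (hv : 1 ≤ v) (hb : 0 ≤ b) (hbβ : b * Real.sqrt v ≤ β) (hw : Mom w β J) (hA : EL c d A x κ)
    (hN : Commute Nn A) : QL c d (filt w K A) x b ((4 + v) * Real.exp (b ^ 2) * J * κ) := by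
  have hκ : 0 ≤ κ := (norm_nonneg _).trans hA.1
  have hβ : 0 ≤ β := le_trans (by positivity) hbβ
  have hJ : 0 ≤ J := (integral_nonneg fun _ => norm_nonneg _).trans (hw.norm_le hβ)
  have he : 1 ≤ Real.exp (b ^ 2) := Real.one_le_exp (by positivity)
  refine ⟨?_, fun y => ?_⟩
  · rw [filt_eq_filt2]
    refine (norm_filt2_le hw.1 hK hK A).trans
      ((mul_le_mul (hw.norm_le hβ) hA.1 (norm_nonneg _) hJ).trans ?_)
    rw [mul_assoc _ J]
    exact le_mul_of_one_le_left (by positivity) (by nlinarith)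
  · have e : ∀ t : ℝ, ‖w t‖ * ((4 + v) * κ * Real.exp (b ^ 2) * Real.exp (β * Real.sqrt |t|) *
        Real.exp (-b * Real.sqrt (d x y))) = (4 + v) * κ * Real.exp (b ^ 2) *
        Real.exp (-b * Real.sqrt (d x y)) * (‖w t‖ * Real.exp (β * Real.sqrt |t|)) := fun t => by ring
    refine (loc_filt_le hw.1 hK (fun t => F.loc_tau hK hL hv hb hbβ hA hN t y) ?_).trans ?_
    · simp only [e]
      exact hw.exp.1.const_mul _
    · simp only [e]
      rw [integral_const_mul]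
      exact (mul_le_mul_of_nonneg_left hw.exp.2 (by positivity)).trans_eq (by ring)

theorem h92_int {w : ℝ → ℂ} {g : ℝ → ℝ} {C J : ℝ} (hC : 0 ≤ C)
    (h : Integrable (fun t : ℝ => ‖w t‖ * g t) ∧ ∫ t : ℝ, ‖w t‖ * g t ≤ J) :
    Integrable (fun t : ℝ => ‖w t‖ * (C * g t)) ∧ ∫ t : ℝ, ‖w t‖ * (C * g t) ≤ C * J := by
  simp only [mul_left_comm _ C, integral_const_mul]
  exact ⟨h.1.const_mul C, mul_le_mul_of_nonneg_left h.2 hC⟩

theorem h92_clm (B : 𝔄) : ∃ L : 𝔄 →L[ℂ] 𝔄, ∀ Y, L Y = B * Y - Y * B :=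
  ⟨ContinuousLinearMap.mul ℂ 𝔄 B - (ContinuousLinearMap.mul ℂ 𝔄).flip B, fun _ => rfl⟩

theorem h92_tau_comm (hK : IsSelfAdjoint K) (V Y : 𝔄) (t : ℝ) :
    ‖tau K t V * Y - Y * tau K t V‖ = ‖V * tau K (-t) Y - tau K (-t) Y * V‖ := by
  have e : tau K t (tau K (-t) Y) = Y := by rw [← tau_add, add_neg_cancel, tau_zero]
  have e2 : ∀ P Q : 𝔄, tau K t (P - Q) = tau K t P - tau K t Q := fun P Q => by
    simp only [tau, mul_sub, sub_mul]
  rw [← norm_tau hK t (V * _ - _), e2, tau_mul, tau_mul, e]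

/-- changing the dynamics by a small potential -/
theorem Frame.filt_sub (F : Frame cv cr K0 μ d c Nn) (hK : IsSelfAdjoint K) (hL : LR c d Nn K v)
    (hv : 1 ≤ v) (hb : 0 < b) (hbβ : b * Real.sqrt v ≤ β) (hw : Mom w β J) (hφ : Measurable φ)
    (hη : ∀ x, |φ x| ≤ η) {s : ℝ} (hs : |s| ≤ 1) (hA : EL c d A x κ) (hN : Commute Nn A) :
    ‖filt w (K + s • pot μ c φ) A - filt w K A‖ ≤
      η * ((4 + v) * Real.exp (b ^ 2) * cv b * J * κ) := by
  have hη0 : 0 ≤ η := (abs_nonneg _).trans (hη x)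
  have hκ : 0 ≤ κ := (norm_nonneg _).trans hA.1
  have hβ : 0 ≤ β := (mul_nonneg hb.le (Real.sqrt_nonneg _)).trans hbβ
  have hcv := F.cv_nonneg hb x
  have hv4 : 0 ≤ 4 + v := by linarith
  have hV := F.pot_sa hφ hη
  have hH : IsSelfAdjoint (K + s • pot μ c φ) := hK.add ((IsSelfAdjoint.all s).smul hV)
  obtain ⟨C, hC⟩ : ∃ C, C = η * ((4 + v) * κ * Real.exp (b ^ 2) * cv b) := ⟨_, rfl⟩
  have hC0 : 0 ≤ C := by rw [hC]; positivity
  have key : ∀ u : ℝ, ‖pot μ c φ * tau K u A - tau K u A * pot μ c φ‖ ≤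
      C * Real.exp (β * Real.sqrt |u|) := fun u => by
    refine (F.comm_pot hφ hη _).trans ?_
    refine (mul_le_mul_of_nonneg_left (F.int_loc_le hb (by positivity)
      (F.loc_tau hK hL hv hb.le hbβ hA hN u)) hη0).trans_eq ?_
    rw [hC]; ring
  have hi := h92_int hC0 hw.abs_exp
  refine (norm_filt_sub_le hw.1 hH hK A (fun t => ?_) hi.1).trans (hi.2.trans_eq ?_)
  · refine (norm_tau_sub hH hK A t).trans ?_
    have h1 := intervalIntegral.norm_integral_le_of_norm_le_const (a := 0) (b := t)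
      (C := C * Real.exp (β * Real.sqrt |t|))
      (f := fun u => ‖(K + s • pot μ c φ - K) * tau K u A - tau K u A * (K + s • pot μ c φ - K)‖)
      fun u hu => by
        rw [norm_norm, add_sub_cancel_left, smul_mul_assoc, mul_smul_comm, ← smul_sub, norm_smul,
          Real.norm_eq_abs]
        have h2 : |u| ≤ |t| := by
          simpa using Set.abs_sub_left_of_mem_uIcc (Set.uIoc_subset_uIcc hu)
        refine (mul_le_of_le_one_left (norm_nonneg _) hs).trans ((key u).trans ?_)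
        gcongr
    rw [Real.norm_eq_abs, sub_zero] at h1
    exact h1.trans_eq (by ring)
  · rw [hC]; ring

/-- the generator of the flow almost commutes with a filtered local operator -/
theorem Frame.gen_comm (F : Frame cv cr K0 μ d c Nn) (hK : IsSelfAdjoint K)
    (hK' : IsSelfAdjoint K') (hL : LR c d Nn K v) (hL' : LR c d Nn K' v) (hN' : Commute Nn K')
    (hv : 1 ≤ v) (hb : 0 < b) (hbβ : b * Real.sqrt v ≤ β) (hw : Mom w β J) (hW : Mom W β J)
    (hφ : Measurable φ) (hη : ∀ x, |φ x| ≤ η) (hA : EL c d A x κ) (hN : Commute Nn A) :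
    ‖filt W K (pot μ c φ) * filt w K' A - filt w K' A * filt W K (pot μ c φ)‖ ≤
      η * ((4 + v ^ 2) * Real.exp (b ^ 2) * cv b * J ^ 2 * κ) := by
  have hη0 : 0 ≤ η := (abs_nonneg _).trans (hη x)
  have hκ : 0 ≤ κ := (norm_nonneg _).trans hA.1
  have hcv := F.cv_nonneg hb x
  have hJ : 0 ≤ J := (integral_nonneg fun t => by positivity).trans hw.exp.2
  obtain ⟨C, hC⟩ : ∃ C, C = η * ((4 + v ^ 2) * κ * Real.exp (b ^ 2) * cv b) := ⟨_, rfl⟩
  have hC0 : 0 ≤ C := by rw [hC]; positivity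
  have key : ∀ t u : ℝ, ‖tau K t (pot μ c φ) * tau K' u A - tau K' u A * tau K t (pot μ c φ)‖ ≤
      C * Real.exp (β * Real.sqrt |t|) * Real.exp (β * Real.sqrt |u|) := fun t u => by
    rw [h92_tau_comm hK]
    refine (F.comm_pot hφ hη _).trans ?_
    refine (mul_le_mul_of_nonneg_left (F.int_loc_le hb (by positivity)
      (F.loc_tau2 hK hK' hL hL' hN' hv hb.le hbβ hA hN (-t) u)) hη0).trans_eq ?_
    rw [hC, abs_neg]; ring
  have key2 : ∀ t : ℝ, ‖tau K t (pot μ c φ) * filt w K' A - filt w K' A * tau K t (pot μ c φ)‖ ≤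
      C * J * Real.exp (β * Real.sqrt |t|) := fun t => by
    obtain ⟨L, hL⟩ := h92_clm (tau K t (pot μ c φ))
    have hi := h92_int (C := C * Real.exp (β * Real.sqrt |t|)) (by positivity) hw.exp
    rw [← hL]
    refine (norm_clm_filt_le L hw.1 hK' A (fun u => ?_) hi.1).trans (hi.2.trans_eq (by ring))
    rw [hL]
    exact key t u
  obtain ⟨L, hL⟩ := h92_clm (filt w K' A)
  have hi := h92_int (C := C * J) (by positivity) hW.exp
  rw [norm_sub_rev, ← hL]
  refine (norm_clm_filt_le L hW.1 hK _ (fun t => ?_) hi.1).trans (hi.2.trans_eq ?_)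
  · rw [hL, norm_sub_rev]
    exact key2 t
  · rw [hC]; ring

end Crest.Agent.R340.Fw
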