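import Crest.Agent.R340.FwFilt
import Crest.Agent.R340.FiltFlow

/-! # FLOW: local generators and the Lieb-Robinson bound for the flow -/

set_option autoImplicit false

namespace Crest.Agent.R340.Fw

open MeasureTheory Crest.Agent.R340.Filt

variable {𝔄 : Type} [CStarAlgebra 𝔄] {X : Type}

/-- two-point locality of an extensive generator -/
def Gen (c : X → 𝔄) (d : X → X → ℝ) (D : 𝔄) (a κ : ℝ) : Prop :=
  ∀ (y : X) (e : 𝔄), (e = c y ∨ e = star (c y)) → ‖D * e - e * D‖ ≤ κ ∧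
    ∀ z, gloc c (D * e - e * D) z ≤ κ * Real.exp (-a * Real.sqrt (d y z))

variable [MeasurableSpace X] {cv cr : ℝ → ℝ} {K0 : ℝ}
  {μ : Measure X} {d : X → X → ℝ} {c : X → 𝔄} {Nn A K : 𝔄} {x : X} {φ : X → ℝ}
  {η v a b β J κ : ℝ} {W : ℝ → ℂ}

theorem fgA_anti (F : Frame cv cr K0 μ d c Nn) {y z : X} {e e' : 𝔄}
    (he : e = c y ∨ e = star (c y)) (he' : e' = c z ∨ e' = star (c z)) :
    ∃ ζ : ℂ, e * e' + e' * e = ζ • (1 : 𝔄) := by
  rcases he with rfl | rfl <;> rcases he' with rfl | rfl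
  · exact ⟨0, by rw [F.car0, zero_smul]⟩
  · exact F.car1 y z
  · obtain ⟨ζ, h⟩ := F.car1 z y
    exact ⟨ζ, by rw [add_comm, h]⟩
  · refine ⟨0, ?_⟩
    rw [← star_mul, ← star_mul, ← star_add, F.car0, star_zero, zero_smul]

theorem fgA_norm (F : Frame cv cr K0 μ d c Nn) {y : X} {e : 𝔄}
    (he : e = c y ∨ e = star (c y)) : ‖e‖ ≤ 1 := by
  rcases he with rfl | rfl
  · exact F.norm_c y
  · rw [norm_star]; exact F.norm_c y

omit [MeasurableSpace X] in
theorem fgA_loc (D : 𝔄) {y : X} {e : 𝔄} (he : e = c y ∨ e = star (c y)) :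
    ‖D * e - e * D‖ ≤ loc c D y := by
  unfold loc
  rcases he with rfl | rfl
  · exact le_add_of_nonneg_right (norm_nonneg _)
  · exact le_add_of_nonneg_left (norm_nonneg _)

theorem fgA_two (Y : 𝔄) {e : 𝔄} (he : ‖e‖ ≤ 1) : ‖Y * e + e * Y‖ ≤ 2 * ‖Y‖ := by
  have h1 : ‖Y * e‖ ≤ ‖Y‖ := (norm_mul_le _ _).trans (mul_le_of_le_one_right (norm_nonneg _) he)
  have h2 : ‖e * Y‖ ≤ ‖Y‖ := (norm_mul_le _ _).trans (mul_le_of_le_one_left (norm_nonneg _) he)
  have h3 := norm_add_le (Y * e) (e * Y)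
  linarith

theorem fgA_one (F : Frame cv cr K0 μ d c Nn) (D : 𝔄) {y z : X} {e e' : 𝔄}
    (he : e = c y ∨ e = star (c y)) (he' : e' = c z ∨ e' = star (c z)) :
    ‖(D * e - e * D) * e' + e' * (D * e - e * D)‖ ≤ 2 * min (loc c D y) (loc c D z) := by
  rw [mul_min_of_nonneg _ _ (by norm_num : (0 : ℝ) ≤ 2)]
  refine le_min ?_ ?_
  · have h1 := fgA_two (D * e - e * D) (fgA_norm F he')
    have h2 := fgA_loc D he
    linarith
  · obtain ⟨ζ, h⟩ := fgA_anti F he he'
    have h0 : (D * e - e * D) * e' + e' * (D * e - e * D) =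
        -((D * e' - e' * D) * e + e * (D * e' - e' * D)) +
          (D * (e * e' + e' * e) - (e * e' + e' * e) * D) := by noncomm_ring
    rw [h0, h, mul_smul_comm, smul_mul_assoc, mul_one, one_mul, sub_self, add_zero, norm_neg]
    have h1 := fgA_two (D * e' - e' * D) (fgA_norm F he)
    have h2 := fgA_loc D he'
    linarith

/-- Jacobi: `{[D, e], e'} = -{[D, e'], e}` when `{e, e'}` is a scalar; so the anticommutator is
bounded by both `2 loc D y` and `2 loc D z`. -/
theorem Frame.gloc_comm (F : Frame cv cr K0 μ d c Nn) (D : 𝔄) {y : X} {e : 𝔄}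
    (he : e = c y ∨ e = star (c y)) (z : X) :
    gloc c (D * e - e * D) z ≤ 4 * min (loc c D y) (loc c D z) := by
  have h1 := fgA_one F D he (Or.inl rfl : c z = c z ∨ c z = star (c z))
  have h2 := fgA_one F D he (Or.inr rfl : star (c z) = c z ∨ star (c z) = star (c z))
  unfold gloc
  linarith

theorem fgA_int {D : X → 𝔄} (hD : Integrable D μ) (L : 𝔄 →L[ℂ] 𝔄) {g : X → ℝ}
    (hg : ∀ u, ‖L (D u)‖ ≤ g u) (ig : Integrable g μ) : ‖L (∫ u, D u ∂μ)‖ ≤ ∫ u, g u ∂μ := by
  rw [← L.integral_comp_comm hD]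
  exact norm_integral_le_of_norm_le ig (Filter.Eventually.of_forall hg)

theorem fgA_min {p q s t : ℝ} (hκ : 0 ≤ κ) (hp : p ≤ κ * Real.exp (-b * s))
    (hq : q ≤ κ * Real.exp (-b * t)) :
    min p q ≤ κ * (Real.exp (-(b / 2) * s) * Real.exp (-(b / 2) * t)) := by
  rw [← Real.exp_add]
  rcases le_total (-b * s) (-b * t) with h | h
  · refine (min_le_left _ _).trans (hp.trans ?_)
    gcongr
    linarith
  · refine (min_le_right _ _).trans (hq.trans ?_)
    gcongr
    linarith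

theorem Frame.gen_integral (F : Frame cv cr K0 μ d c Nn) {D : X → 𝔄} (hD : Integrable D μ)
    (hb : 0 < b) (hq : ∀ u, QL c d (D u) u b κ) :
    Gen c d (∫ u, D u ∂μ) (b / 4) (4 * κ * cv (b / 4)) := by
  intro y e he
  have hκ : 0 ≤ κ := (norm_nonneg _).trans (hq y).1
  have hb4 : 0 < b / 4 := by linarith
  have hcv := F.cv_nonneg hb4 y
  have hv := F.vol _ hb4 y
  have hi := F.int_exp hb4.le y
  let Cm : 𝔄 →L[ℂ] 𝔄 := (ContinuousLinearMap.mul ℂ 𝔄).flip e - ContinuousLinearMap.mul ℂ 𝔄 e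
  refine ⟨?_, fun z => ?_⟩
  · have h1 := fgA_int hD Cm (g := fun u => κ * Real.exp (-(b / 4) * Real.sqrt (d y u)))
      (fun u => by
        refine (fgA_loc (D u) he).trans (((hq u).2 y).trans ?_)
        rw [F.d_symm u y]
        have := Real.sqrt_nonneg (d y u)
        gcongr
        nlinarith) (hi.const_mul κ)
    rw [integral_const_mul] at h1
    have h2 := mul_le_mul_of_nonneg_left hv hκ
    have h3 := mul_nonneg hκ hcv
    change ‖(∫ u, D u ∂μ) * e - e * ∫ u, D u ∂μ‖ ≤ _ at h1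
    linarith
  · have key : ∀ e' : 𝔄, (e' = c z ∨ e' = star (c z)) →
        ‖((∫ u, D u ∂μ) * e - e * ∫ u, D u ∂μ) * e' + e' * ((∫ u, D u ∂μ) * e - e * ∫ u, D u ∂μ)‖ ≤
          2 * κ * cv (b / 4) * Real.exp (-(b / 4) * Real.sqrt (d y z)) := by
      intro e' he'
      let An : 𝔄 →L[ℂ] 𝔄 := (ContinuousLinearMap.mul ℂ 𝔄).flip e' + ContinuousLinearMap.mul ℂ 𝔄 e'
      have h1 := fgA_int hD (An.comp Cm) (g := fun u => 2 * κ *
          Real.exp (-(b / 4) * Real.sqrt (d y z)) * Real.exp (-(b / 4) * Real.sqrt (d y u)))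
        (fun u => by
          refine (fgA_one F (D u) he he').trans ?_
          have h2 := fgA_min hκ ((hq u).2 y) ((hq u).2 z)
          have h3 := F.exp_tri (a := b / 2) hb4.le z y u
          rw [F.d_symm u y, F.d_symm u z] at h2
          rw [F.d_symm z y, show b / 2 - b / 4 = b / 4 by ring] at h3
          have h4 : Real.exp (-(b / 2) * Real.sqrt (d z u)) ≤
              Real.exp (-(b / 4) * Real.sqrt (d z u)) := by
            have := Real.sqrt_nonneg (d z u)
            gcongr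
            linarith
          have h5 := mul_le_mul_of_nonneg_left h4
            (Real.exp_pos (-(b / 2) * Real.sqrt (d y u))).le
          have h6 := mul_le_mul_of_nonneg_left (h5.trans h3) hκ
          nlinarith) (hi.const_mul _)
      rw [integral_const_mul] at h1
      have h2 := mul_le_mul_of_nonneg_left hv (mul_nonneg (mul_nonneg zero_le_two hκ)
        (Real.exp_pos (-(b / 4) * Real.sqrt (d y z))).le)
      change ‖((∫ u, D u ∂μ) * e - e * ∫ u, D u ∂μ) * e' +
        e' * ((∫ u, D u ∂μ) * e - e * ∫ u, D u ∂μ)‖ ≤ _ at h1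
      linarith
    have h1 := key _ (Or.inl rfl)
    have h2 := key _ (Or.inr rfl)
    unfold gloc
    linarith

theorem Frame.gen_filt (F : Frame cv cr K0 μ d c Nn) (hK : IsSelfAdjoint K) (hL : LR c d Nn K v)
    (hv : 1 ≤ v) (hb : 0 < b) (hbβ : b * Real.sqrt v ≤ β) (hW : Mom W β J) (hφ : Measurable φ)
    (hη : ∀ x, |φ x| ≤ η) : Gen c d (filt W K (pot μ c φ)) (b / 4)
      (4 * (η * ((4 + v) * Real.exp (b ^ 2) * J * K0)) * cv (b / 4)) := by
  obtain ⟨L, hL'⟩ := exists_filt2_clm hW.1 hK hK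
  have hi := F.int_dens hφ hη
  have h1 : filt W K (pot μ c φ) = ∫ u, L ((φ u : ℂ) • (star (c u) * c u)) ∂μ := by
    rw [L.integral_comp_comm hi, hL']
    rfl
  rw [h1]
  refine F.gen_integral (L.integrable_comp hi) hb fun u => ?_
  have h2 := F.ql_filt hK hL hv hb.le hbβ hW (F.ov u) (F.numN u)
  have h3 : ‖(φ u : ℂ)‖ ≤ η := by rw [Complex.norm_real]; exact hη u
  have h0 : 0 ≤ η := (norm_nonneg _).trans h3
  rw [map_smul, hL', ← filt_eq_filt2]
  refine ⟨?_, fun y => ?_⟩
  · rw [norm_smul]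
    exact mul_le_mul h3 h2.1 (norm_nonneg _) h0
  · rw [loc_smul, mul_assoc η]
    exact mul_le_mul h3 (h2.2 y) (loc_nonneg _ _ _) h0

omit [MeasurableSpace X] in
theorem genB_conj {u : 𝔄} (hu : u ∈ unitary 𝔄) (α Y : 𝔄) :
    ‖α * (star u * Y * u) - star u * Y * u * α‖ =
      ‖u * α * star u * Y - Y * (u * α * star u)‖ := by
  have h1 := Unitary.star_mul_self_of_mem hu
  rw [← flowB_norm hu hu (u * α * star u * Y - Y * (u * α * star u))]
  congr 1
  calc α * (star u * Y * u) - star u * Y * u * α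
      = (star u * u) * α * (star u * Y * u) - star u * Y * u * α * (star u * u) := by
        rw [h1, one_mul, mul_one]
    _ = _ := by noncomm_ring

omit [MeasurableSpace X] in
theorem genB_star {u N : 𝔄} (hu : u ∈ unitary 𝔄) (h : Commute N u) : Commute N (star u) := by
  have h1 := Unitary.star_mul_self_of_mem hu
  have h2 := Unitary.mul_star_self_of_mem hu
  calc N * star u = star u * (u * N) * star u := by rw [← mul_assoc, h1, one_mul]
    _ = star u * N * (u * star u) := by rw [← h.eq]; noncomm_ring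
    _ = star u * N := by rw [h2, mul_one]

theorem Frame.genB_bound (F : Frame cv cr K0 μ d c Nn) (ha : 0 < a) (ha1 : a ≤ 1)
    (hcr : 0 ≤ cr a) (hκ : 0 ≤ κ) {T Y : 𝔄} {y : X} {M : ℝ} (hM0 : 0 ≤ M) (hT : Commute Nn T)
    (hY : ‖Y‖ ≤ κ) (hY' : ∀ z, gloc c Y z ≤ κ * Real.exp (-a * Real.sqrt (d y z)))
    (hM : ∀ u, loc c T u ≤ M * Real.exp (-(a / 4) * Real.sqrt (d x u))) :
    ‖T * Y - Y * T‖ ≤ cr a * κ * cv (a / 4) * M * Real.exp (-(a / 4) * Real.sqrt (d x y)) := by
  have h4 : 0 < a / 4 := by positivity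
  refine (F.recon a ha ha1 y κ Y T hT hY hY').trans ?_
  have h1 : ∫ u, Real.exp (-(a / 2) * Real.sqrt (d y u)) * loc c T u ∂μ ≤
      ∫ u, M * Real.exp (-(a / 4) * Real.sqrt (d x y)) *
        Real.exp (-(a / 4) * Real.sqrt (d y u)) ∂μ := by
    refine integral_mono (F.int_exp_loc (by positivity) y T) ((F.int_exp h4.le y).const_mul _)
      fun u => ?_
    have h2 := F.exp_tri (a := a / 2) h4.le x y u
    rw [show a / 2 - a / 4 = a / 4 by ring] at h2
    calc Real.exp (-(a / 2) * Real.sqrt (d y u)) * loc c T u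
        ≤ Real.exp (-(a / 2) * Real.sqrt (d y u)) *
          (M * Real.exp (-(a / 4) * Real.sqrt (d x u))) :=
          mul_le_mul_of_nonneg_left (hM u) (Real.exp_pos _).le
      _ = M * (Real.exp (-(a / 2) * Real.sqrt (d y u)) *
          Real.exp (-(a / 4) * Real.sqrt (d x u))) := by ring
      _ ≤ _ := by rw [mul_assoc]; exact mul_le_mul_of_nonneg_left h2 hM0
  rw [integral_const_mul] at h1
  have h3 := mul_le_mul_of_nonneg_left (F.vol _ h4 y)
    (mul_nonneg hM0 (Real.exp_pos (-(a / 4) * Real.sqrt (d x y))).le)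
  calc _ ≤ cr a * κ * (M * Real.exp (-(a / 4) * Real.sqrt (d x y)) * cv (a / 4)) :=
        mul_le_mul_of_nonneg_left (h1.trans h3) (mul_nonneg hcr hκ)
    _ = _ := by ring

/-- one step of the contraction argument -/
theorem Frame.flow_step (F : Frame cv cr K0 μ d c Nn) {D U : ℝ → 𝔄} (hD : Continuous D)
    (hs : ∀ r, IsSelfAdjoint (D r)) (hN : ∀ r, Commute Nn (D r)) (hU : IsFlow D U) (ha : 0 < a)
    (ha1 : a ≤ 1) (hcr : 0 ≤ cr a) (hκ : 0 ≤ κ) (hG : ∀ r ∈ Set.Icc (0 : ℝ) 1, Gen c d (D r) a κ)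
    (hA : Commute Nn A) {s K₁ M : ℝ} (hs1 : s ∈ Set.Icc (0 : ℝ) 1) (hM0 : 0 ≤ M)
    (h1 : ∀ y, loc c A y ≤ K₁ * Real.exp (-(a / 4) * Real.sqrt (d x y)))
    (hM : ∀ r ∈ Set.Icc (0 : ℝ) s, ∀ y, loc c (U r * (star (U s) * A * U s) * star (U r)) y ≤
      M * Real.exp (-(a / 4) * Real.sqrt (d x y))) :
    ∀ r ∈ Set.Icc (0 : ℝ) s, ∀ y, loc c (U r * (star (U s) * A * U s) * star (U r)) y ≤
      (K₁ + 2 * (cr a * κ * cv (a / 4)) * M) * Real.exp (-(a / 4) * Real.sqrt (d x y)) := by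
  intro r hr y
  have hu := hU.unitary hD hs
  have hNU := hU.commute hD hN
  set α := star (U s) * A * U s with hα
  set B := cr a * κ * cv (a / 4) * M * Real.exp (-(a / 4) * Real.sqrt (d x y)) with hB
  have hB0 : 0 ≤ B := by
    have := F.cv_nonneg (a := a / 4) (by positivity) x
    positivity
  have hNT : ∀ t, Commute Nn (U t * α * star (U t)) := fun t =>
    ((hNU t).mul_right (((genB_star (hu s) (hNU s)).mul_right hA).mul_right (hNU s))).mul_right
      (genB_star (hu t) (hNU t))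
  have hTs : U s * α * star (U s) = A := by
    have h3 := Unitary.mul_star_self_of_mem (hu s)
    calc U s * α * star (U s) = (U s * star (U s)) * A * (U s * star (U s)) := by
          rw [hα]; noncomm_ring
      _ = A := by rw [h3, one_mul, mul_one]
  have key : ∀ e, (e = c y ∨ e = star (c y)) →
      ‖U r * α * star (U r) * e - e * (U r * α * star (U r))‖ ≤ ‖A * e - e * A‖ + B := by
    intro e he
    have hd : ∀ t, HasDerivAt (fun t => α * (star (U t) * e * U t) - star (U t) * e * U t * α)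
        (α * (star (U t) * (0 - Complex.I • (D t * e - e * D t)) * U t) -
          star (U t) * (0 - Complex.I • (D t * e - e * D t)) * U t * α) t := fun t =>
      ((hU.flowB_conj hs (hasDerivAt_const t e)).const_mul α).sub
        ((hU.flowB_conj hs (hasDerivAt_const t e)).mul_const α)
    have h2 := norm_image_sub_le_of_norm_deriv_le_segment' (a := r) (b := s) (C := B)
      (fun t _ => (hd t).hasDerivWithinAt) (fun t ht => by
        have ht' : t ∈ Set.Icc (0 : ℝ) s := ⟨hr.1.trans ht.1, ht.2.le⟩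
        have hg := hG t ⟨ht'.1, ht'.2.trans hs1.2⟩ y e he
        rw [genB_conj (hu t), zero_sub, mul_neg, neg_mul, mul_smul_comm, smul_mul_assoc,
          neg_sub_neg, ← smul_sub, norm_smul, Complex.norm_I, one_mul, norm_sub_rev]
        exact F.genB_bound ha ha1 hcr hκ hM0 (hNT t) hg.1 hg.2 (hM t ht')) s
      (Set.right_mem_Icc.2 hr.2)
    have h3 := norm_sub_norm_le (α * (star (U r) * e * U r) - star (U r) * e * U r * α)
      (α * (star (U s) * e * U s) - star (U s) * e * U s * α)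
    rw [norm_sub_rev _ (α * (star (U s) * e * U s) - star (U s) * e * U s * α),
      genB_conj (hu r), genB_conj (hu s), hTs] at h3
    have h4 : B * (s - r) ≤ B := mul_le_of_le_one_right hB0 (by linarith [hr.1, hs1.2])
    linarith
  have k1 := key _ (Or.inl rfl)
  have k2 := key _ (Or.inr rfl)
  have k3 := h1 y
  unfold loc at k3 ⊢
  rw [add_mul, show 2 * (cr a * κ * cv (a / 4)) * M * Real.exp (-(a / 4) * Real.sqrt (d x y)) =
    2 * B by rw [hB]; ring]
  linarith

/-- Lieb-Robinson bound for a flow with a small local generator -/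
theorem Frame.flow_ql (F : Frame cv cr K0 μ d c Nn) {D U : ℝ → 𝔄} (hD : Continuous D)
    (hs : ∀ r, IsSelfAdjoint (D r)) (hN : ∀ r, Commute Nn (D r)) (hU : IsFlow D U) (ha : 0 < a)
    (ha1 : a ≤ 1) (hcr : 0 ≤ cr a) (hκ : 0 ≤ κ) (hG : ∀ r ∈ Set.Icc (0 : ℝ) 1, Gen c d (D r) a κ)
    (hsm : 4 * (cr a * κ * cv (a / 4)) ≤ 1) (hA : Commute Nn A) {K₁ : ℝ}
    (h1 : QL c d A x (a / 4) K₁) {s : ℝ} (hs1 : s ∈ Set.Icc (0 : ℝ) 1) :
    QL c d (star (U s) * A * U s) x (a / 4) (2 * K₁) := by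
  have hu := hU.unitary hD hs
  have hK : 0 ≤ K₁ := (norm_nonneg A).trans h1.1
  have hn : ‖star (U s) * A * U s‖ = ‖A‖ := flowB_norm (hu s) (hu s) A
  refine ⟨hn.trans_le (h1.1.trans (by linarith)), fun y => ?_⟩
  obtain ⟨R, hR⟩ := F.d_bdd
  set M0 : ℝ := 4 * ‖A‖ * Real.exp (a / 4 * Real.sqrt R) with hM0
  have M0n : 0 ≤ M0 := by positivity
  have hq : 0 ≤ cr a * κ * cv (a / 4) :=
    mul_nonneg (mul_nonneg hcr hκ) (F.cv_nonneg (by linarith) x)
  have key : ∀ k : ℕ, ∀ r ∈ Set.Icc (0 : ℝ) s, ∀ y,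
      loc c (U r * (star (U s) * A * U s) * star (U r)) y ≤
        (2 * K₁ + M0 * (1 / 2) ^ k) * Real.exp (-(a / 4) * Real.sqrt (d x y)) := by
    intro k
    induction k with
    | zero =>
      intro r _ y
      have e : ‖U r * (star (U s) * A * U s) * star (U r)‖ = ‖A‖ := by
        have := flowB_norm (Unitary.star_mem (hu r)) (Unitary.star_mem (hu r))
          (star (U s) * A * U s)
        rwa [star_star, hn] at this
      have h2 := loc_le F.norm_c (U r * (star (U s) * A * U s) * star (U r)) y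
      rw [e] at h2
      have h3 : 1 ≤ Real.exp (a / 4 * Real.sqrt R) * Real.exp (-(a / 4) * Real.sqrt (d x y)) := by
        rw [← Real.exp_add]
        refine Real.one_le_exp ?_
        have := Real.sqrt_le_sqrt (hR x y)
        nlinarith
      have h4 := mul_le_mul_of_nonneg_left h3 (show 0 ≤ 4 * ‖A‖ by positivity)
      have h5 := mul_nonneg hK (Real.exp_pos (-(a / 4) * Real.sqrt (d x y))).le
      rw [pow_zero, mul_one, hM0]
      nlinarith
    | succ k ih =>
      intro r hr y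
      have h0 : 0 ≤ 2 * K₁ + M0 * (1 / 2) ^ k := by positivity
      refine (F.flow_step hD hs hN hU ha ha1 hcr hκ hG hA hs1 h0 h1.2 ih r hr y).trans
        (mul_le_mul_of_nonneg_right ?_ (Real.exp_pos _).le)
      have h2 : 2 * (cr a * κ * cv (a / 4)) ≤ 1 / 2 := by linarith
      have h3 := mul_le_mul_of_nonneg_right h2 h0
      rw [pow_succ]
      linarith
  have ht : Filter.Tendsto (fun k : ℕ => (2 * K₁ + M0 * (1 / 2) ^ k) *
      Real.exp (-(a / 4) * Real.sqrt (d x y))) Filter.atTop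
      (nhds ((2 * K₁ + M0 * 0) * Real.exp (-(a / 4) * Real.sqrt (d x y)))) :=
    (((tendsto_pow_atTop_nhds_zero_of_lt_one (by norm_num) (by norm_num)).const_mul M0).const_add
      _).mul_const _
  rw [mul_zero, add_zero] at ht
  refine ge_of_tendsto' ht fun k => ?_
  have := key k 0 ⟨le_rfl, hs1.1⟩ y
  rwa [hU.zero, star_one, one_mul, mul_one] at this

end Crest.Agent.R340.Fw
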