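import Crest.Agent.R340.FwDec

/-! # FLOW: stability of the gap from the relative bound -/

set_option autoImplicit false

namespace Crest.Agent.R340.Fw

open MeasureTheory Matrix Crest.Agent.R340.Filt
open scoped Matrix.Norms.L2Operator MatrixOrder ComplexOrder

theorem fm_small (f g : ℝ → ℝ) (hf : Continuous f) (hg : Continuous g) (f0 : f 0 < 1)
    (g0 : g 0 < 1 / 2) : ∃ η : ℝ, 0 < η ∧ η ≤ 1 ∧ f η ≤ 1 ∧ g η ≤ 1 / 2 := by
  have h1 : ∀ᶠ η in nhds (0 : ℝ), f η < 1 := hf.continuousAt.eventually (gt_mem_nhds f0)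
  have h2 : ∀ᶠ η in nhds (0 : ℝ), g η < 1 / 2 := hg.continuousAt.eventually (gt_mem_nhds g0)
  have h3 : ∀ᶠ η in nhds (0 : ℝ), η < 1 := gt_mem_nhds one_pos
  have h4 : ∀ᶠ η in nhdsWithin (0 : ℝ) (Set.Ioi 0), (f η < 1 ∧ g η < 1 / 2 ∧ η < 1) ∧ 0 < η :=
    (((h1.and (h2.and h3)).filter_mono nhdsWithin_le_nhds).and self_mem_nhdsWithin)
  obtain ⟨η, ⟨a1, a2, a3⟩, a4⟩ := h4.exists
  exact ⟨η, a4, a3.le, a1.le, a2.le⟩

theorem flow_main (cv cr : ℝ → ℝ) (K0 v g : ℝ) (hg : 0 < g) (hv : 1 ≤ v)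
    (hcr : ∀ a, 0 ≤ cr a) : ∃ a : ℝ, 0 < a ∧ a ≤ 1 ∧ ∀ R : ℝ, ∃ η : ℝ, 0 < η ∧ η ≤ 1 ∧
    ∀ {n : Type} [Fintype n] [DecidableEq n] {X : Type} [MeasurableSpace X] (μ : Measure X)
      (d : X → X → ℝ) (c h : X → Matrix n n ℂ) (Nn Pi H : Matrix n n ℂ) (ψ : n → ℂ) (φ : X → ℝ),
      Frame cv cr K0 μ d c Nn → Ham K0 μ d c Nn h H → IsStarProjection Pi →
      (∀ A, Commute Nn A → Commute Pi A) → GS Pi H ψ 0 g → (∀ x, h x *ᵥ ψ = 0) →
      Rel μ d c Nn Pi H ψ a R → Measurable φ → (∀ x, |φ x| ≤ η) →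
      (∀ r ∈ Set.Icc (0 : ℝ) 1, LR c d Nn (H + r • pot μ c φ) v) →
      ∃ ψ' E, GS Pi (H + pot μ c φ) ψ' E (g / 2) := by
  obtain ⟨w, W, β, J, hβ, hJ, hf, hw, hW⟩ := exists_mom (γ := g / 8) (by positivity)
  have hsv : 0 < Real.sqrt v := Real.sqrt_pos.2 (by linarith)
  set b : ℝ := min 1 (β / Real.sqrt v) with hbdef
  have hb : 0 < b := lt_min one_pos (div_pos hβ hsv)
  have hb1 : b ≤ 1 := min_le_left _ _
  have hbβ : b * Real.sqrt v ≤ β := by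
    have : b ≤ β / Real.sqrt v := min_le_right _ _
    rwa [le_div_iff₀ hsv] at this
  refine ⟨b / 4 / 4 / 2, by positivity, by linarith, fun R => ?_⟩
  set C3 : ℝ := (4 + v ^ 2) * Real.exp (b ^ 2) * cv b * J ^ 2 * (2 * K0) +
    (4 + v) * Real.exp (b ^ 2) * cv b * J * K0 + J * K0 with hC3
  set C4 : ℝ := 5 * ((4 + v) * Real.exp (b ^ 2) * J * K0) with hC4
  obtain ⟨η, hη0, hη1, hs1, hs2⟩ := fm_small
    (fun η => 4 * (cr (b / 4) * (4 * (η * ((4 + v) * Real.exp (b ^ 2) * J * K0)) * cv (b / 4)) *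
      cv (b / 4 / 4)))
    (fun η => R * (2 * (η * C3 + 2 * Real.sqrt (η * C3 * C4))))
    (by fun_prop) (by fun_prop) (by simp) (by simp)
  refine ⟨η, hη0, hη1, ?_⟩
  intro n _ _ X _ μ d c h Nn Pi H ψ φ F hH hPi hPN h0 hx hR hφ hη hL
  haveI := F.fin
  have hHs := hH.sa'
  have hVs := F.pot_sa hφ hη
  have cH := hPN _ hH.num'
  have cV := hPN _ (F.pot_num hφ hη)
  obtain ⟨hDc, hDs, hDn⟩ := F.gen_props hH hf hφ hη
  obtain ⟨U, hU⟩ := exists_flow hDc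
  have hH0 : H *ᵥ ψ = 0 := by simpa using h0.eig
  refine endgame hf (γ' := g / 4) (by linarith) (by linarith) hHs hVs hPi cH cV
    (h0.mono (by linarith)) hU ?_
  rintro s hs ⟨E, hG⟩
  have hs' : |s| ≤ 1 := abs_le.2 ⟨by linarith [hs.1], hs.2⟩
  have hu := hU.unitary hDc hDs s
  have hNu := hU.commute hDc hDn s
  obtain ⟨hint, heq⟩ := F.wx_int hH hf hφ hη (U s) s
  obtain ⟨e, he, hb'⟩ := hR.eig (ε := η * C3 + 2 * Real.sqrt (η * C3 * C4)) h0.norm hint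
    (fun x => (F.wx_sa hH hf hφ hη hη1 hs' hu hNu x).1)
    (fun x => (F.wx_sa hH hf hφ hη hη1 hs' hu hNu x).2)
    (fun x => QL.interp F.norm_c (by have := F.K0_nonneg x; positivity)
      (F.wx_norm hH hf hw hW hv hb hbβ hφ hη hη1 hL hU hs x)
      (F.wx_loc hH hf hw hW hv hb hb1 hbβ hφ hη hη1 (hcr _) hs1 hL hU hs x))
    (fun x => wx_eig hf (by linarith) hHs hVs hPi cH cV hu hG hH0 (hx x)
      (F.el_dens hH hη hη1 hs' x).2.1 (hPN _ (F.el_dens hH hη hη1 hs' x).2.2))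
  have hrel := h0.rel (ε := R * (2 * (η * C3 + 2 * Real.sqrt (η * C3 * C4)))) (by linarith) he
    (fun φ' h1 _ => hb' φ' h1)
  rw [heq, add_sub_cancel] at hrel
  exact ⟨e, hrel.mono (by nlinarith)⟩

end Crest.Agent.R340.Fw
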