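import Crest.Agent.R340.G0Chk

/-! Row 340: bit masks and finite sets. -/

set_option autoImplicit false

namespace Crest.Agent.R340.G0

open Finset Crest.Agent.R340

lemma bit_eq (m i : ℕ) : bit m i = m.testBit i := by
  have h : Nat.land (Nat.shiftRight m i) 1 = (m >>> i) % 2 := Nat.and_one_is_mod _
  rw [bit, h, Nat.testBit, Nat.one_and_eq_mod_two]
  rcases Nat.mod_two_eq_zero_or_one (m >>> i) with e | e <;> rw [e] <;> rfl

lemma setOf_subset (n t : ℕ) : setOf n t ⊆ range n := Finset.filter_subset _ _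

lemma h13_mem {n t i : ℕ} : i ∈ setOf n t ↔ i < n ∧ t.testBit i = true := by
  rw [setOf, mem_filter, mem_range, bit_eq]

lemma h13_high {n t i : ℕ} (ht : t < 2 ^ n) (hi : n ≤ i) : t.testBit i = false :=
  Nat.testBit_lt_two_pow (ht.trans_le (Nat.pow_le_pow_right two_pos hi))

lemma h13_mem' {n t i : ℕ} (ht : t < 2 ^ n) : i ∈ setOf n t ↔ t.testBit i = true := by
  rw [h13_mem]
  refine and_iff_right_of_imp fun h => not_le.mp fun hi => ?_
  rw [h13_high ht hi] at h
  exact Bool.false_ne_true h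

lemma h13_add_eq_or (a : ℕ) : ∀ b : ℕ, (∀ i, a.testBit i = true → b.testBit i = false) →
    a + b = a ||| b := by
  induction a using Nat.strong_induction_on with
  | _ a ih =>
  intro b h
  rcases Nat.eq_zero_or_pos a with rfl | ha
  · simp
  have h1 := ih (a / 2) (by omega) (b / 2) fun i hi => by
    rw [Nat.testBit_div_two] at hi ⊢
    exact h _ hi
  rw [← Nat.or_div_two] at h1
  have h2 := h 0
  have h3 := Nat.or_mod_two_eq_one (a := a) (b := b)
  simp only [Nat.testBit_zero, decide_eq_true_eq, decide_eq_false_iff_not] at h2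
  omega

lemma setOf_inj {n s t : ℕ} (hs : s < 2 ^ n) (ht : t < 2 ^ n) (h : setOf n s = setOf n t) :
    s = t := by
  refine Nat.eq_of_testBit_eq fun i => Bool.eq_iff_iff.mpr ?_
  rw [← h13_mem' hs, ← h13_mem' ht, h]

/-- Sums over subsets of the orbitals are sums over masks. -/
lemma sum_powerset_eq (n : ℕ) (f : Finset ℕ → ℝ) :
    ∑ T ∈ (range n).powerset, f T = ∑ t ∈ range (2 ^ n), f (setOf n t) := by
  have hinj : Set.InjOn (setOf n) (range (2 ^ n)) := fun s hs t ht h =>
    setOf_inj (mem_range.mp hs) (mem_range.mp ht) h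
  rw [← sum_image hinj]
  congr 1
  refine (eq_of_subset_of_card_le (fun T hT => ?_) ?_).symm
  · obtain ⟨t, -, rfl⟩ := mem_image.mp hT
    exact mem_powerset.mpr (setOf_subset n t)
  · rw [card_image_of_injOn hinj, card_powerset, card_range, card_range]

lemma setOf_add {n u k : ℕ} (hu : u < 2 ^ n) (hk : k < n) (h : bit u k = false) :
    u + 2 ^ k < 2 ^ n ∧ setOf n (u + 2 ^ k) = insert k (setOf n u) := by
  rw [bit_eq] at h
  have e : u + 2 ^ k = u ||| 2 ^ k := h13_add_eq_or u _ fun i hi => by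
    rw [Nat.testBit_two_pow, decide_eq_false_iff_not]
    rintro rfl
    rw [h] at hi
    exact Bool.false_ne_true hi
  rw [e]
  refine ⟨Nat.or_lt_two_pow hu (Nat.pow_lt_pow_right one_lt_two hk), ?_⟩
  ext i
  simp only [mem_insert, h13_mem, Nat.testBit_or, Nat.testBit_two_pow, Bool.or_eq_true,
    decide_eq_true_eq]
  constructor
  · rintro ⟨h1, h2 | rfl⟩
    · exact Or.inr ⟨h1, h2⟩
    · exact Or.inl rfl
  · rintro (rfl | ⟨h1, h2⟩)
    · exact ⟨hk, Or.inr rfl⟩
    · exact ⟨h1, Or.inl h2⟩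

lemma pcOdd_spec (n t : ℕ) :
    (-1 : ℝ) ^ (setOf n t).card = if pcOdd n t = true then -1 else 1 := by
  have e : (setOf n t).card = (bitsOf n t).length := by
    rw [bitsOf, ← List.toFinset_card_of_nodup ((List.nodup_range (n := n)).filter _)]
    congr 1
    ext i
    simp [setOf]
  simp only [e, pcOdd, beq_iff_eq]
  split_ifs with h
  · exact (Nat.odd_iff.mpr h).neg_one_pow
  · exact (Nat.even_iff.mpr (by omega)).neg_one_pow

lemma setOf_mod {n k : ℕ} (u : ℕ) (hk : k ≤ n) :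
    setOf n (u % 2 ^ k) = (setOf n u).filter (· < k) := by
  ext i
  simp only [mem_filter, h13_mem, Nat.testBit_mod_two_pow, Bool.and_eq_true, decide_eq_true_eq]
  tauto

lemma land_eq_iff {n t s : ℕ} (ht : t < 2 ^ n) :
    Nat.land t s = t ↔ setOf n t ⊆ setOf n s := by
  constructor
  · intro h i hi
    rw [h13_mem] at hi ⊢
    have h2 : (t &&& s).testBit i = true := by rw [show t &&& s = t from h]; exact hi.2
    rw [Nat.testBit_and, Bool.and_eq_true] at h2
    exact ⟨hi.1, h2.2⟩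
  · intro h
    refine Nat.eq_of_testBit_eq (x := t &&& s) fun i => ?_
    rw [Nat.testBit_and]
    cases e : t.testBit i
    · rfl
    · exact (h13_mem.mp (h ((h13_mem' ht).mpr e))).2

lemma setOf_sub {n t s : ℕ} (ht : t < 2 ^ n) (hs : s < 2 ^ n) (h : setOf n t ⊆ setOf n s) :
    s - t < 2 ^ n ∧ setOf n (s - t) = setOf n s \ setOf n t := by
  refine ⟨(Nat.sub_le s t).trans_lt hs, ?_⟩
  have e1 : t + Nat.ldiff s t = t ||| Nat.ldiff s t := h13_add_eq_or t _ fun i hi => by
    simp [Nat.testBit_ldiff, hi]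
  have e2 : t ||| Nat.ldiff s t = s := by
    refine Nat.eq_of_testBit_eq fun i => ?_
    rw [Nat.testBit_or, Nat.testBit_ldiff]
    cases e : t.testBit i
    · simp
    · simpa using (h13_mem.mp (h ((h13_mem' ht).mpr e))).2
  rw [show s - t = Nat.ldiff s t by omega]
  ext i
  simp only [mem_sdiff, h13_mem, Nat.testBit_ldiff, Bool.and_eq_true, Bool.not_eq_true']
  cases t.testBit i <;> simp +contextual

lemma b95_toFinset (n t : ℕ) : (bitsOf n t).toFinset = setOf n t := by
  ext i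
  simp [bitsOf, setOf]

lemma b95_nodup (n t : ℕ) : (bitsOf n t).Nodup := List.nodup_range.filter _

lemma b95_mem {n t i : ℕ} : i ∈ setOf n t ↔ i < n ∧ bit t i = true := by
  simp [setOf]

lemma b95_zero (n : ℕ) : setOf n 0 = ∅ := by
  ext i
  simp [b95_mem, bit_eq]

lemma b95_pow {n : ℕ} (A : Finset ℕ) (hA : ∀ j ∈ A, j < n) :
    ∑ j ∈ A, 2 ^ j < 2 ^ n ∧ setOf n (∑ j ∈ A, 2 ^ j) = A := by
  induction A using Finset.induction_on with
  | empty => simp [b95_zero]
  | insert k A hk ih =>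
    obtain ⟨h1, h2⟩ := ih fun j hj => hA j (mem_insert_of_mem hj)
    have hkn := hA k (mem_insert_self _ _)
    have hb : bit (∑ j ∈ A, 2 ^ j) k = false := by
      by_contra hb
      exact hk (h2 ▸ b95_mem.2 ⟨hkn, by simpa using hb⟩)
    have := setOf_add h1 hkn hb
    rw [sum_insert hk, add_comm, this.2, h2]
    exact ⟨this.1, rfl⟩

lemma keySpec_eq (n t : ℕ) : keySpec n t = ∑ j ∈ setOf n t, (128 + j) := by
  rw [keySpec, ← List.sum_toFinset _ (b95_nodup n t), b95_toFinset]

lemma wtSpec_eq (n t : ℕ) :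
    (wtSpec n t : ℝ) = (∏ k ∈ range n, (k.factorial : ℝ)) *
      ∏ k ∈ setOf n t, ((k.factorial : ℝ))⁻¹ := by
  rw [wtSpec, ← List.prod_toFinset _ List.nodup_range, List.toFinset_range, setOf, prod_filter,
    ← prod_mul_distrib, Nat.cast_prod]
  refine prod_congr rfl fun k _ => ?_
  have : (k.factorial : ℝ) ≠ 0 := by positivity
  split_ifs
  · rw [mul_inv_cancel₀ this, Nat.cast_one]
  · rw [mul_one]

/-- The sign `eS` from the odd mask. -/
lemma eS_spec {n d s : ℕ} (hd : d < 2 ^ n) (hs : s < 2 ^ n) (h : setOf n d ⊆ setOf n s) :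
    Nat.land d (oddSpec n s) < 2 ^ n ∧
      eS (setOf n d) (setOf n s) = if pcOdd n (Nat.land d (oddSpec n s)) = true then -1 else 1 := by
  refine ⟨lt_of_le_of_lt Nat.and_le_left hd, ?_⟩
  have ho : oddSpec n s = ∑ j ∈ (setOf n s).filter fun j => pcOdd j s = true, 2 ^ j := by
    rw [oddSpec, ← List.sum_toFinset _ (b95_nodup n s), b95_toFinset, sum_filter]
  have h1 : setOf n (oddSpec n s) = (setOf n s).filter fun j => pcOdd j s = true := by
    rw [ho]
    exact (b95_pow _ fun j hj => (b95_mem.1 (mem_filter.1 hj).1).1).2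
  have h2 : setOf n (Nat.land d (oddSpec n s)) = (setOf n d).filter fun j => pcOdd j s = true := by
    ext i
    have e : i ∈ setOf n (Nat.land d (oddSpec n s)) ↔ i ∈ setOf n d ∧ i ∈ setOf n (oddSpec n s) := by
      simp only [b95_mem, bit_eq, Nat.land_eq, Nat.testBit_and, Bool.and_eq_true]
      tauto
    rw [e, h1, mem_filter, mem_filter]
    exact ⟨fun hh => ⟨hh.1, hh.2.2⟩, fun hh => ⟨hh.1, h hh.1, hh.2⟩⟩
  rw [← pcOdd_spec, h2, ← prod_const, prod_filter, eS]
  refine prod_congr rfl fun j hj => ?_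
  rw [← pcOdd_spec]
  congr 2
  ext i
  have := (b95_mem.1 hj).1
  simp only [mem_filter, b95_mem]
  exact ⟨fun hh => ⟨hh.2, hh.1.2⟩, fun hh => ⟨⟨hh.1.trans this, hh.2⟩, hh.1⟩⟩

lemma b95_subs {n : ℕ} (js : List ℕ) (hn : js.Nodup) (hj : ∀ j ∈ js, j < n) :
    (subs js).Nodup ∧ ∀ d, d ∈ subs js ↔ d < 2 ^ n ∧ setOf n d ⊆ js.toFinset := by
  induction js with
  | nil =>
    refine ⟨by simp [subs], fun d => ?_⟩
    simp only [subs, List.mem_singleton, List.toFinset_nil, subset_empty]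
    exact ⟨fun h => by rw [h]; exact ⟨by positivity, b95_zero n⟩,
      fun h => setOf_inj h.1 (by positivity) (h.2.trans (b95_zero n).symm)⟩
  | cons j js ih =>
    obtain ⟨hjs, hn'⟩ := List.nodup_cons.1 hn
    obtain ⟨h1, h2⟩ := ih hn' fun i hi => hj i (List.mem_cons_of_mem _ hi)
    have hjn : j < n := hj j List.mem_cons_self
    have hno : ∀ d ∈ subs js, j ∉ setOf n d := fun d hd hh =>
      hjs (List.mem_toFinset.1 (((h2 d).1 hd).2 hh))
    have hadd : ∀ d ∈ subs js, d + 2 ^ j < 2 ^ n ∧ setOf n (d + 2 ^ j) = insert j (setOf n d) :=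
      fun d hd => setOf_add ((h2 d).1 hd).1 hjn (by
        by_contra hb
        exact hno d hd (b95_mem.2 ⟨hjn, by simpa using hb⟩))
    have e : subs (j :: js) = subs js ++ (subs js).map fun d => d + 2 ^ j := rfl
    rw [e]
    refine ⟨List.nodup_append.2 ⟨h1, h1.map fun a b hab => Nat.add_right_cancel hab, ?_⟩, fun d => ?_⟩
    · intro a ha b hb hab
      obtain ⟨d, hd, rfl⟩ := List.mem_map.1 hb
      refine hno a ha ?_
      rw [hab, (hadd d hd).2]
      exact mem_insert_self _ _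
    · rw [List.mem_append, List.mem_map, List.toFinset_cons]
      constructor
      · rintro (hd | ⟨d', hd', rfl⟩)
        · exact ⟨((h2 d).1 hd).1, ((h2 d).1 hd).2.trans (subset_insert _ _)⟩
        · refine ⟨(hadd d' hd').1, ?_⟩
          rw [(hadd d' hd').2]
          exact insert_subset_insert _ ((h2 d').1 hd').2
      · rintro ⟨hd, hsub⟩
        by_cases hjd : j ∈ setOf n d
        · have hp := b95_pow (n := n) {j} (by simpa using hjn)
          rw [sum_singleton] at hp
          have hs := setOf_sub hp.1 hd (by rw [hp.2]; simpa using hjd)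
          have hle : 2 ^ j ≤ d := Nat.ge_two_pow_of_testBit (by rw [← bit_eq]; exact (b95_mem.1 hjd).2)
          refine Or.inr ⟨d - 2 ^ j, (h2 _).2 ⟨hs.1, ?_⟩, Nat.sub_add_cancel hle⟩
          rw [hs.2, hp.2, sdiff_singleton_eq_erase]
          exact subset_insert_iff.1 hsub
        · exact Or.inl ((h2 d).2 ⟨hd, (subset_insert_iff_of_notMem hjd).1 hsub⟩)

/-- `subs` lists the submasks of `s`, each once. -/
lemma subs_spec {n s : ℕ} (hs : s < 2 ^ n) :
    (subs (bitsOf n s)).Nodup ∧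
      ∀ d, d ∈ subs (bitsOf n s) ↔ d < 2 ^ n ∧ setOf n d ⊆ setOf n s := by
  rw [← b95_toFinset n s]
  exact b95_subs _ (b95_nodup n s) fun j hj => List.mem_range.1 (List.mem_filter.1 hj).1

lemma Tb.ok_spec {τ : Tb} (h : τ.ok = true) {t : ℕ} (ht : t < 2 ^ τ.n) :
    bit τ.par t = pcOdd τ.n t ∧ τ.keyOf t = keySpec τ.n t ∧
      tab τ.odd 16 t = oddSpec τ.n t ∧ tab τ.wt 128 t = wtSpec τ.n t := by
  have := List.all_eq_true.1 h t (List.mem_range.2 ht)
  simp only [Bool.and_eq_true, beq_iff_eq] at this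
  exact ⟨this.1.1.1, this.1.1.2, this.1.2, this.2⟩

lemma Tb.mem_Lk (τ : Tb) (κ d : ℕ) : d ∈ τ.Lk κ ↔ d < 2 ^ τ.n ∧ τ.keyOf d = κ := by
  simp only [Tb.Lk, List.mem_filter, List.mem_range, Nat.beq_eq]

lemma Tb.nodup_Lk (τ : Tb) (κ : ℕ) : (τ.Lk κ).Nodup := List.nodup_range.filter _

end Crest.Agent.R340.G0
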