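import Crest.Agent.R340.G0Dat

/-! Row 340: block checks (generated). -/

set_option autoImplicit false
set_option maxRecDepth 100000

namespace Crest.Agent.R340.G0

open Crest.Agent.R340

theorem blk663 : blkOK tb0 663 = true := by decide +kernel
theorem blk534 : blkOK tb0 534 = true := by decide +kernel
theorem blk1196 : blkOK tb0 1196 = true := by decide +kernel
theorem blk526 : blkOK tb0 526 = true := by decide +kernel
theorem blk1056 : blkOK tb0 1056 = true := by decide +kernel
theorem blk1055 : blkOK tb0 1055 = true := by decide +kernel
theorem blk942 : blkOK tb0 942 = true := by decide +kernel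
theorem blk652 : blkOK tb0 652 = true := by decide +kernel
theorem blk389 : blkOK tb0 389 = true := by decide +kernel
theorem blk133 : blkOK tb0 133 = true := by decide +kernel

theorem blks10 : ∀ κ ∈ [663, 534, 1196, 526, 1056, 1055, 942, 652, 389, 133], blkOK tb0 κ = true := by
  simp only [List.forall_mem_cons, List.not_mem_nil, false_imp_iff, implies_true, and_true]
  exact ⟨blk663, blk534, blk1196, blk526, blk1056, blk1055, blk942, blk652, blk389, blk133⟩

end Crest.Agent.R340.G0
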