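import Crest.Agent.R340.G0Dat

/-! Row 340: group checks (generated). -/

set_option autoImplicit false
set_option maxRecDepth 100000

namespace Crest.Agent.R340.G0

open Crest.Agent.R340

theorem grp664 : grpOK tb0 ks0 664 = true := by decide +kernel
theorem grp532 : grpOK tb0 ks0 532 = true := by decide +kernel
theorem grp529 : grpOK tb0 ks0 529 = true := by decide +kernel
theorem grp528 : grpOK tb0 ks0 528 = true := by decide +kernel
theorem grp526 : grpOK tb0 ks0 526 = true := by decide +kernel
theorem grp400 : grpOK tb0 ks0 400 = true := by decide +kernel
theorem grp525 : grpOK tb0 ks0 525 = true := by decide +kernel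
theorem grp524 : grpOK tb0 ks0 524 = true := by decide +kernel
theorem grp266 : grpOK tb0 ks0 266 = true := by decide +kernel
theorem grp264 : grpOK tb0 ks0 264 = true := by decide +kernel
theorem grp653 : grpOK tb0 ks0 653 = true := by decide +kernel
theorem grp258 : grpOK tb0 ks0 258 = true := by decide +kernel
theorem grp651 : grpOK tb0 ks0 651 = true := by decide +kernel

theorem grps0 : ∀ κ ∈ [664, 532, 529, 528, 526, 400, 525, 524, 266, 264, 653, 258, 651], grpOK tb0 ks0 κ = true := by
  simp only [List.forall_mem_cons, List.not_mem_nil, false_imp_iff, implies_true, and_true]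
  exact ⟨grp664, grp532, grp529, grp528, grp526, grp400, grp525, grp524, grp266, grp264, grp653, grp258, grp651⟩

end Crest.Agent.R340.G0
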