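import Crest.Agent.R340.G0Defs

/-! Row 340: the kernel checker for `LocalBk` (definitions). Sets of orbitals are bit masks. -/

set_option autoImplicit false

namespace Crest.Agent.R340.G0

open Finset Crest.Agent.R340

def bit (m i : ℕ) : Bool := Nat.beq (Nat.land (Nat.shiftRight m i) 1) 1

/-- Entry `i` of a table packed with `w` bits per entry. -/
def tab (T w i : ℕ) : ℕ := Nat.mod (Nat.shiftRight T (Nat.mul w i)) (Nat.pow 2 w)

/-- The set of orbitals of a mask. -/
def setOf (n t : ℕ) : Finset ℕ := (range n).filter fun i => bit t i = true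

def bitsOf (n t : ℕ) : List ℕ := (List.range n).filter (bit t)

def pcOdd (n t : ℕ) : Bool := (bitsOf n t).length % 2 == 1

/-- `128 * card + sum`. -/
def keySpec (n t : ℕ) : ℕ := ((bitsOf n t).map fun j => 128 + j).sum

def oddSpec (n s : ℕ) : ℕ := ((bitsOf n s).map fun j => if pcOdd j s then 2 ^ j else 0).sum

def wtSpec (n t : ℕ) : ℕ := ((List.range n).map fun k => if bit t k then 1 else k.factorial).prod

/-- A binary trie of numbers. -/
inductive Tr
  | leaf : ℕ → Tr
  | node : Tr → Tr → Tr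

def Tr.get : Tr → ℕ → ℕ
  | .leaf a, _ => a
  | .node l r, d => match bit d 0 with
    | false => l.get (Nat.shiftRight d 1)
    | true => r.get (Nat.shiftRight d 1)

/-- The tables. -/
structure Tb where
  n : ℕ
  par : ℕ
  key : ℕ
  odd : ℕ
  wt : ℕ
  idx : ℕ
  km : ℕ
  w : ℕ
  off : ℤ
  wtr : Tr
  wsr : Tr

def Tb.keyOf (τ : Tb) (t : ℕ) : ℕ := tab τ.key 16 t

def Tb.ok (τ : Tb) : Bool :=
  (List.range (2 ^ τ.n)).all fun t =>
    (bit τ.par t == pcOdd τ.n t) && (τ.keyOf t == keySpec τ.n t) &&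
      (tab τ.odd 16 t == oddSpec τ.n t) && (tab τ.wt 128 t == wtSpec τ.n t)

def Tb.ent (τ : Tb) (row d' : ℕ) : ℤ := Int.sub (Int.ofNat (tab row τ.w (tab τ.idx 8 d'))) τ.off

/-- The raw table. -/
def Tb.Wt (τ : Tb) (d d' : ℕ) : ℤ := τ.ent (τ.wtr.get d) d'

/-- The symmetrised table. -/
def Tb.Ws (τ : Tb) (d d' : ℕ) : ℤ := τ.ent (τ.wsr.get d) d'

/-- All masks with a given key. -/
def Tb.Lk (τ : Tb) (κ : ℕ) : List ℕ := (List.range (2 ^ τ.n)).filter fun t => Nat.beq (τ.keyOf t) κ

/-! ### Words to Slater tables -/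

/-- Sign and mask of `c_{k₁} ⋯ c_{k_r}`. -/
def smL (par : ℕ) : List ℕ → ℤ × ℕ
  | [] => (1, 0)
  | k :: L => match smL par L with
    | (σ, u) => match bit u k with
      | true => (0, u)
      | false => (match bit par (Nat.mod u (Nat.pow 2 k)) with
          | true => Int.neg σ
          | false => σ, Nat.add u (Nat.pow 2 k))

def expW (par : ℕ) (u : ℤ × Wd) : List (ℤ × ℕ) :=
  (List.range (u.2.1 + 1)).map fun i => match smL par (u.2.2 ++ [u.2.1 + 1 - i, i]) with
    | (σ, d) => (u.1 * (chF u.2.1 i : ℤ) * σ, d)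

def expCb (par : ℕ) (a : Cb) : List (ℤ × ℕ) :=
  (a.flatMap (expW par)).filter fun p => !(p.1 == 0)

def coefAt : List (ℤ × ℕ) → ℕ → ℤ
  | [], _ => 0
  | p :: e, d => match Nat.beq p.2 d with
    | true => Int.add p.1 (coefAt e d)
    | false => coefAt e d

def memN (x : ℕ) : List ℕ → Bool
  | [] => false
  | y :: L => match Nat.beq x y with
    | true => true
    | false => memN x L

def axpy (c : ℤ) : List ℤ → List ℤ → List ℤ
  | a :: x, b :: y => Int.add (Int.mul c a) b :: axpy c x y
  | _, _ => []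

/-- `Σ_i c_i v_i + z`. -/
def lc (z : List ℤ) : List ℤ → List (List ℤ) → List ℤ
  | c :: cs, v :: vs => match c == 0 with
    | true => lc z cs vs
    | false => axpy c v (lc z cs vs)
  | _, _ => z

/-- Add the Slater matrix of a block to `R`. -/
def addBk (par : ℕ) (L : List ℕ) (k : Bk) (R : List (List ℤ)) : List (List ℤ) :=
  let eA := k.A.map (expCb par)
  let Bd := (k.B.map (expCb par)).map fun e => L.map (coefAt e)
  let Z := k.Y.map fun row => lc (L.map fun _ => 0) row Bd
  List.zipWith (fun d r => lc r (eA.map fun e => coefAt e d) Z) L R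

def suppOK (par : ℕ) (L : List ℕ) (k : Bk) : Bool :=
  (k.A.all fun a => (expCb par a).all fun p => memN p.2 L) &&
    (k.B.all fun a => (expCb par a).all fun p => memN p.2 L)

/-- The tag of a block: the key of the first word on the right. -/
def tag (k : Bk) : ℕ := match k.B with
  | (u :: _) :: _ => 128 * (u.2.2.length + 2) + (u.2.1 + 1 + u.2.2.sum)
  | _ => 0

def grpOK (τ : Tb) (ks : List Bk) (κ : ℕ) : Bool :=
  let L := τ.Lk κ
  let bs := ks.filter fun k => Nat.beq (tag k) κ
  bs.all (suppOK τ.par L) &&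
    (bs.foldr (addBk τ.par L) (L.map fun _ => L.map fun _ => 0) ==
      L.map fun d => L.map fun d' => τ.Wt d d') &&
    L.all fun d => L.all fun d' => τ.Ws d d' == τ.Wt d d' + τ.Wt d' d

def tagsOK (τ : Tb) (ks : List Bk) : Bool := ks.all fun k => bit τ.km (tag k)

/-! ### Slater tables to blocks -/

def subs : List ℕ → List ℕ
  | [] => [0]
  | j :: js => subs js ++ (subs js).map fun d => Nat.add d (Nat.pow 2 j)

def sgnI (b : Bool) (x : ℤ) : ℤ := match b with
  | true => Int.neg x
  | false => x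

/-- Add the contribution of the spectator mask `t` to a row. -/
def addRow (τ : Tb) (t row : ℕ) (c : ℤ) : List (ℕ × ℕ) → List ℤ → List ℤ
  | p :: ps, a :: acc => (match Nat.beq (Nat.land t p.1) t with
      | true => Int.add (Int.mul c (sgnI (bit τ.par (Nat.land (Nat.sub p.1 t) p.2))
          (τ.ent row (Nat.sub p.1 t)))) a
      | false => a) :: addRow τ t row c ps acc
  | _, _ => []

/-- The row of `s` against the masks `ps` (pairs mask, odd mask). -/
def rowX (τ : Tb) (s o : ℕ) (ps : List (ℕ × ℕ)) : List ℤ :=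
  ((subs (bitsOf τ.n s)).filter fun d => bit τ.km (τ.keyOf d)).foldr
    (fun d acc => addRow τ (Nat.sub s d) (τ.wsr.get d)
      (sgnI (bit τ.par (Nat.land d o)) (Int.ofNat (tab τ.wt 128 (Nat.sub s d)))) ps acc)
    (ps.map fun _ => 0)

/-- Upper triangular rows of a block. -/
def triX (τ : Tb) : List (ℕ × ℕ) → List (List ℤ)
  | [] => []
  | p :: ps => rowX τ p.1 p.2 (p :: ps) :: triX τ ps

/-! ### Fraction-free elimination -/

def elimRow (a bi : ℤ) : List ℤ → List ℤ → List ℤ
  | bj :: b, x :: r => Int.sub (Int.mul a x) (Int.mul bi bj) :: elimRow a bi b r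
  | _, _ => []

def elim (a : ℤ) : List ℤ → List (List ℤ) → List (List ℤ)
  | bi :: bs, r :: rs => elimRow a bi (bi :: bs) r :: elim a bs rs
  | _, _ => []

def shapeOK : List (List ℤ) → Bool
  | [] => true
  | r :: rs => Nat.beq r.length (rs.length + 1) && shapeOK rs

def psdB : ℕ → ℤ → List (List ℤ) → Bool
  | _, _, [] => true
  | 0, _, _ :: _ => false
  | _ + 1, _, [] :: _ => false
  | f + 1, p, (a :: b) :: rs => match a == 0 with
    | true => b.all (fun x => x == 0) && psdB f p rs
    | false => decide (0 < a) &&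
        ((elim a b rs).all (fun r => r.all fun x => Int.mul (Int.ediv x p) p == x) &&
          psdB f a ((elim a b rs).map fun r => r.map fun x => Int.ediv x p))

/-- The quadratic form of upper triangular rows. -/
noncomputable def Qf : List (List ℤ) → List ℝ → ℝ
  | (a :: b) :: rs, x :: xs =>
      (a : ℝ) * x * x + 2 * x * (List.zipWith (fun (c : ℤ) (y : ℝ) => (c : ℝ) * y) b xs).sum +
        Qf rs xs
  | _, _ => 0

def blkOK (τ : Tb) (κ : ℕ) : Bool :=
  let M := triX τ ((τ.Lk κ).map fun s => (s, tab τ.odd 16 s))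
  shapeOK M && psdB 4096 1 M

/-! ### Specification -/

noncomputable def eS (D S : Finset ℕ) : ℝ := ∏ d ∈ D, (-1 : ℝ) ^ (S.filter (· < d)).card

noncomputable def fT (φ : Finset ℕ → ℝ) (T D : Finset ℕ) : ℝ :=
  if Disjoint D T then eS D (T ∪ D) * φ (T ∪ D) else 0

end Crest.Agent.R340.G0
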