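import Crest.Agent.R340.FgDefs

/-! Row 340: definitions for the `T4`-free certificate (words, telescopes). -/

set_option autoImplicit false

namespace Crest.Agent.R340

open Matrix Finset

/-- A word `(m, [k₁,…,k_r])` stands for `ĉ_{k₁} ⋯ ĉ_{k_r} B̂_m`. -/
abbrev Wd := ℕ × List ℕ

/-- An integer combination of words. -/
abbrev Cb := List (ℤ × Wd)

/-- `ĉ_{k₁} ⋯ ĉ_{k_r}`. -/
noncomputable def chs (Q : ℕ) : List ℕ → FM (Q + 1)
  | [] => 1
  | k :: ks => ch Q k * chs Q ks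

/-- The operator of a word. -/
noncomputable def EW (Q : ℕ) (w : Wd) : FM (Q + 1) := chs Q w.2 * Bh Q w.1

/-- Correlation array of words. -/
noncomputable def GW (Q : ℕ) (ω : FM (Q + 1) →ₗ[ℝ] ℝ) (w w' : Wd) : ℝ :=
  ω ((EW Q w)ᵀ * EW Q w')

/-- `c_{k₁} ⋯ c_{k_r}` on functions of finite sets of orbitals. -/
noncomputable def annL : List ℕ → (Finset ℕ → ℝ) → Finset ℕ → ℝ
  | [], φ => φ
  | k :: ks, φ => annS k (annL ks φ)

/-- A word acting on functions of finite sets of orbitals. -/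
noncomputable def EWS (w : Wd) (φ : Finset ℕ → ℝ) : Finset ℕ → ℝ := annL w.2 (BS w.1 φ)

/-- `Σ_{i,j} Y_{ij} g(A_i, B_j)`. -/
noncomputable def bil {α : Type} (A B : List α) (Y : List (List ℤ)) (g : α → α → ℝ) : ℝ :=
  ((A.zip Y).map fun p => ((B.zip p.2).map fun q => (q.2 : ℝ) * g p.1 q.1).sum).sum

/-- Bilinear extension of an array of words to combinations. -/
noncomputable def cbG (G : Wd → Wd → ℝ) (a b : Cb) : ℝ :=
  (a.map fun u => (b.map fun v => (u.1 : ℝ) * (v.1 : ℝ) * G u.2 v.2).sum).sum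

/-- A bilinear block. -/
structure Bk where
  A : List Cb
  B : List Cb
  Y : List (List ℤ)

noncomputable def bkVal (G : Wd → Wd → ℝ) (k : Bk) : ℝ := bil k.A k.B k.Y (cbG G)

noncomputable def bksVal (G : Wd → Wd → ℝ) (ks : List Bk) : ℝ := (ks.map (bkVal G)).sum

/-- Telescope data. -/
structure Tl where
  A : List Wd
  B : List Wd
  Y : List (List ℤ)

def upL : List ℕ → List (List ℕ)
  | [] => []
  | k :: ks => ((k + 1) :: ks) :: (upL ks).map (k :: ·)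

def lowL : List ℕ → List (ℕ × List ℕ)
  | [] => []
  | k :: ks => (k, (k - 1) :: ks) :: (lowL ks).map fun p => (p.1, k :: p.2)

/-- Minus the raised word. -/
def upW (w : Wd) : Cb := (-1, (w.1 + 1, w.2)) :: (upL w.2).map fun ks => (-1, (w.1, ks))

/-- The lowered word (planar coefficients). -/
def lowW (w : Wd) : Cb :=
  (((2 * w.1 : ℕ) : ℤ), (w.1 - 1, w.2)) :: (lowL w.2).map fun p => ((p.1 : ℤ), (w.1, p.2))

def oneW (w : Wd) : Cb := [(1, w)]

/-- The two bilinear blocks of a telescope `[J₊, Y]`. -/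
def teleLo (t : Tl) : Bk := ⟨t.A.map lowW, t.B.map oneW, t.Y⟩

def teleUp (t : Tl) : Bk := ⟨t.A.map oneW, t.B.map upW, t.Y⟩

def teleBks (tl : List Tl) : List Bk := tl.map teleLo ++ tl.map teleUp

/-- Two-body blocks. -/
def bk2 (c2 : List (ℕ × ℤ)) : List Bk :=
  c2.map fun e => ⟨[oneW (e.1, [])], [oneW (e.1, [])], [[e.2]]⟩

/-- Three-body blocks. -/
def bk3 (c3 : List (ℕ × ℕ × ℕ × ℕ × ℤ)) : List Bk :=
  c3.map fun e => ⟨[oneW (e.1, [e.2.1])], [oneW (e.2.2.1, [e.2.2.2.1])], [[e.2.2.2.2]]⟩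

/-- Rational coefficient lists with common denominator `den`. -/
def q2 (den : ℕ) (c2 : List (ℕ × ℤ)) : List (ℕ × ℚ) := c2.map fun e => (e.1, (e.2 : ℚ) / den)

def q3 (den : ℕ) (c3 : List (ℕ × ℕ × ℕ × ℕ × ℤ)) : CL :=
  c3.map fun e => (e.1, e.2.1, e.2.2.1, e.2.2.2.1, (e.2.2.2.2 : ℚ) / den)

/-- Positivity of the planar local operator on the Fock space of the orbitals `0, …, J`. -/
def LocalBk (J : ℕ) (ks : List Bk) : Prop :=
  ∀ φ : Finset ℕ → ℝ,
    0 ≤ ∑ T ∈ (range (J + 1)).powerset, (∏ k ∈ T, ((k.factorial : ℝ))⁻¹) *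
      bksVal (fun w w' => EWS w φ T * EWS w' φ T) ks

def wdOK (J : ℕ) (w : Wd) : Bool := decide (w.1 < J) && w.2.all fun k => decide (k ≤ J)

def cbOK (J : ℕ) (a : Cb) : Bool := a.all fun u => wdOK J u.2

/-- All words of the blocks live on the orbitals `0, …, J`. -/
def bksOK (J : ℕ) (ks : List Bk) : Bool :=
  ks.all fun k => k.A.all (cbOK J) && k.B.all (cbOK J)

/-- Three-body energy, truncated at `m ≤ 40` (planar coefficients). -/
def E30 : CL :=
  (List.range 41).flatMap fun m =>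
    [(m, 0, 0, m, ((m : ℚ) - 1) / ((m.factorial : ℚ) * 2 ^ m)),
     (m, 1, 0, m + 1, -1 / ((m.factorial : ℚ) * 2 ^ m))]

/-- The planar statement without the four-body energy. -/
def PlanarBound0 (c2 : List (ℕ × ℚ)) (c3 : CL) (cost : ℝ) : Prop :=
  ∀ Γ3 : ℕ → ℕ → ℕ → ℕ → ℝ,
    OscRel (fun m => 2 * (m : ℝ)) (fun k => (k : ℝ)) Γ3 →
    (∀ k, Γ3 0 k 0 k ≤ (k.factorial : ℝ)) →
    0 ≤ (c2.map fun e => (e.2 : ℝ) * ((e.1.factorial : ℝ) * 2 ^ e.1)).sum + lin c3 Γ3 →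
    -cost ≤ lin E30 Γ3

/-- `T4 = Σ_p B_p^T H B_p`. -/
noncomputable def T4f (Q : ℕ) : FM (Q + 1) :=
  ∑ p : Fin (2 * Q - 1), (Bop Q p)ᵀ * Hf Q * Bop Q p

end Crest.Agent.R340
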