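import Crest.Agent.R340.G0Defs
import Crest.Agent.R340.FgEnergy

/-! Row 340: the `T4`-free energy per pair orbital. -/

set_option autoImplicit false

namespace Crest.Agent.R340

open Matrix Finset Filter Topology

variable {Q : ℕ} {ω : FM (Q + 1) →ₗ[ℝ] ℝ}

lemma T4f_transpose (Q : ℕ) : (T4f Q)ᵀ = T4f Q := by
  unfold T4f
  rw [transpose_sum]
  refine Finset.sum_congr rfl fun p _ => ?_
  rw [transpose_mul, transpose_mul, transpose_transpose, Hf_transpose, Matrix.mul_assoc]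

lemma T4f_eq (hQ : 1 ≤ Q) :
    T4f Q = ∑ p ∈ range (2 * Q - 1), (nuQ Q p)⁻¹ • ((Bh Q p)ᵀ * (Hf Q * Bh Q p)) := by
  unfold T4f
  rw [← Fin.sum_univ_eq_sum_range (fun p => (nuQ Q p)⁻¹ • ((Bh Q p)ᵀ * (Hf Q * Bh Q p)))]
  refine Finset.sum_congr rfl fun p _ => ?_
  have h := nuQ_pos hQ p.2
  rw [Bh_eq_Bop hQ p, transpose_smul, mul_smul_comm, smul_mul_smul_comm, Real.mul_self_sqrt h.le,
    smul_smul, inv_mul_cancel₀ h.ne', one_smul, mul_assoc]

lemma T4f_Fh (hQ : 1 ≤ Q) : T4f Q * Fh Q = Fh Q * T4f Q := by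
  set Y : ℕ → FM (Q + 1) := fun p =>
    ((nuQ Q p)⁻¹ * muQ Q p) • ((Bh Q (p - 1))ᵀ * (Hf Q * Bh Q p)) with hY
  have key : ∀ p ∈ range (2 * Q - 1), ((nuQ Q p)⁻¹ • ((Bh Q p)ᵀ * (Hf Q * Bh Q p))) * Fh Q =
      Fh Q * ((nuQ Q p)⁻¹ • ((Bh Q p)ᵀ * (Hf Q * Bh Q p))) + (Y (p + 1) - Y p) := by
    intro p hp
    rw [Finset.mem_range] at hp
    have h1 : (Bh Q p)ᵀ * Fh Q = Fh Q * (Bh Q p)ᵀ - muQ Q p • (Bh Q (p - 1))ᵀ := by
      have h := congrArg transpose (Bh_FhT hQ p)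
      rw [transpose_mul, transpose_add, transpose_mul, transpose_transpose, transpose_smul] at h
      rw [h]; abel
    have h2 : Y (p + 1) = (nuQ Q p)⁻¹ • ((Bh Q p)ᵀ * (Hf Q * Bh Q (p + 1))) := by
      simp only [hY, Nat.add_sub_cancel]
      by_cases hp' : p + 1 < 2 * Q - 1
      · have h3 := nuQ_pos hQ hp'
        have h4 := nuQ_succ hQ p
        have h5 : muQ Q (p + 1) ≠ 0 := fun e => by rw [e, zero_mul] at h4; exact h3.ne' h4
        rw [h4, mul_inv, mul_comm (muQ Q (p + 1))⁻¹, mul_assoc, inv_mul_cancel₀ h5, mul_one]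
      · rw [Bh_eq_zero (Q := Q) (m := p + 1) (by omega)]; simp
    rw [h2, smul_mul_assoc, mul_smul_comm, mul_assoc, mul_assoc, Bh_Fh hQ p, mul_add, mul_add,
      ← mul_assoc (Hf Q), Hf_Fh hQ, mul_assoc (Fh Q), ← mul_assoc (Bh Q p)ᵀ (Fh Q), h1]
    simp only [hY, sub_mul, smul_mul_assoc, mul_assoc, smul_add, smul_sub, smul_smul]
    abel
  rw [T4f_eq hQ, Finset.sum_mul, Finset.mul_sum, Finset.sum_congr rfl key, Finset.sum_add_distrib,
    Finset.sum_range_sub]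
  have e1 : Y (2 * Q - 1) = 0 := by
    simp only [hY]
    rw [Bh_eq_zero (Q := Q) (m := 2 * Q - 1) le_rfl]; simp
  have e0 : Y 0 = 0 := by simp [hY, muQ]
  rw [e1, e0, sub_zero, add_zero]

lemma schur_mid (hQ : 1 ≤ Q) (h : InvState Q ω) (p : ℕ) :
    ω ((Bh Q p)ᵀ * (Hf Q * Bh Q p)) = nuQ Q p * ω ((Bh Q 0)ᵀ * (Hf Q * Bh Q 0)) := by
  induction p with
  | zero => rw [nuQ_zero, one_mul]
  | succ p ih =>
    have h1 := h.invF ((Bh Q (p + 1))ᵀ * (Hf Q * Bh Q p))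
    have h2 : Fh Q * (Bh Q (p + 1))ᵀ = (Bh Q (p + 1))ᵀ * Fh Q + muQ Q (p + 1) • (Bh Q p)ᵀ := by
      have := congrArg Matrix.transpose (Bh_FhT hQ (p + 1))
      simpa only [transpose_mul, transpose_transpose, transpose_add, transpose_smul,
        Nat.add_sub_cancel] using this
    have h3 : (Bh Q (p + 1))ᵀ * (Hf Q * Bh Q p) * Fh Q =
        (Bh Q (p + 1))ᵀ * (Hf Q * (Fh Q * Bh Q p)) + (Bh Q (p + 1))ᵀ * (Hf Q * Bh Q (p + 1)) := by
      rw [mul_assoc, mul_assoc, Bh_Fh hQ, mul_add, mul_add]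
    have h4 : Fh Q * ((Bh Q (p + 1))ᵀ * (Hf Q * Bh Q p)) =
        (Bh Q (p + 1))ᵀ * (Hf Q * (Fh Q * Bh Q p)) +
          muQ Q (p + 1) • ((Bh Q p)ᵀ * (Hf Q * Bh Q p)) := by
      rw [← mul_assoc, h2, add_mul, smul_mul_assoc, mul_assoc, ← mul_assoc (Fh Q), ← Hf_Fh hQ,
        mul_assoc]
    rw [h3, h4, map_add, map_add, map_smul, smul_eq_mul, ih] at h1
    rw [nuQ_succ hQ, mul_assoc]
    exact add_left_cancel h1

lemma omega_T4 (hQ : 1 ≤ Q) (h : InvState Q ω) :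
    ω (T4f Q) = (2 * (Q : ℝ) - 1) *
      ∑ m ∈ range (2 * Q - 1), (nuQ Q m)⁻¹ * G4 Q ω 0 m 0 m := by
  rw [T4f_eq hQ, map_sum,
    Finset.sum_congr rfl (g := fun _ => ω ((Bh Q 0)ᵀ * (Hf Q * Bh Q 0))) fun p hp => by
      rw [map_smul, schur_mid hQ h p, smul_eq_mul,
        inv_mul_cancel_left₀ (nuQ_pos hQ (Finset.mem_range.1 hp)).ne'],
    Finset.sum_const, Finset.card_range, nsmul_eq_mul, Nat.cast_sub (by omega), Hf_eq hQ,
    Finset.sum_mul, Finset.mul_sum, map_sum]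
  congr 1
  · push_cast
    ring
  · refine Finset.sum_congr rfl fun m _ => ?_
    rw [smul_mul_assoc, mul_smul_comm, map_smul, smul_eq_mul, G4, transpose_mul, mul_assoc,
      mul_assoc]

lemma tail_geom0 (k : ℕ) :
    ∑ m ∈ (range (41 + k)).filter (41 ≤ ·), 3 * (m : ℝ) * (71 / 100) ^ m ≤
      12 * 41 * (71 / 100) ^ 41 - 12 * ((41 + k : ℕ) : ℝ) * (71 / 100) ^ (41 + k) := by
  induction k with
  | zero =>
    rw [Finset.filter_false_of_mem (fun m hm => by have := mem_range.1 hm; omega)]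
    simp
  | succ k ih =>
    rw [← add_assoc, range_add_one, filter_insert, if_pos (by omega), sum_insert (by simp),
      pow_succ _ (41 + k)]
    have h : (0 : ℝ) ≤ (71 / 100) ^ (41 + k) := by positivity
    have hk : (0 : ℝ) ≤ k := Nat.cast_nonneg _
    push_cast at ih ⊢
    nlinarith [mul_nonneg h hk]

lemma tail_bound0 (hQ : 50 ≤ Q) :
    ∑ m ∈ (range (2 * Q - 1)).filter (41 ≤ ·),
      (nuQ Q m)⁻¹ * (((m : ℝ) - 1) * (Real.sqrt (nuQ Q m) * Real.sqrt (sQ Q m)) +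
        Real.sqrt (nuQ Q m) * Real.sqrt (sQ Q (m + 1))) ≤ 1 / 1000 := by
  refine (sum_le_sum (g := fun m : ℕ => 3 * (m : ℝ) * (71 / 100) ^ m) fun m hm => ?_).trans ?_
  · rw [mem_filter, mem_range] at hm
    exact tail_term (by omega) (by omega) hm.1
  · refine (sum_le_sum_of_subset_of_nonneg
      (filter_subset_filter _ (range_subset_range.2 (Nat.le_add_left _ 41)))
      fun m _ _ => by positivity).trans ((tail_geom0 _).trans ?_)
    have : (0 : ℝ) ≤ 12 * ((41 + (2 * Q - 1) : ℕ) : ℝ) * (71 / 100) ^ (41 + (2 * Q - 1)) := by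
      positivity
    have h2 : (12 : ℝ) * 41 * (71 / 100) ^ 41 ≤ 1 / 1000 := by norm_num
    linarith

lemma energy_lb0 (hQ : 50 ≤ Q) (h : InvState Q ω) :
    (2 * (Q : ℝ) - 1) * (999 / 1000 * G2 Q ω +
      ∑ m ∈ range 41, (nuQ Q m)⁻¹ * (((m : ℝ) - 1) * G3 Q ω m 0 0 m - G3 Q ω m 1 0 (m + 1))) ≤
      ω (Hf Q * Hf Q) - ω (T4f Q) := by
  have hQ1 : 1 ≤ Q := by omega
  have hg := G2_nonneg h
  have e : (range (2 * Q - 1)).filter (fun m => ¬ 41 ≤ m) = range 41 := by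
    ext m
    simp only [Finset.mem_filter, Finset.mem_range]
    omega
  have h3 := Finset.sum_filter_add_sum_filter_not (range (2 * Q - 1)) (41 ≤ ·)
    fun m => (nuQ Q m)⁻¹ * (((m : ℝ) - 1) * G3 Q ω m 0 0 m - G3 Q ω m 1 0 (m + 1))
  rw [e] at h3
  have h5 := mul_le_mul_of_nonneg_right (tail_bound0 hQ) hg
  rw [Finset.sum_mul] at h5
  have h6 : -∑ m ∈ (range (2 * Q - 1)).filter (41 ≤ ·),
      (nuQ Q m)⁻¹ * (((m : ℝ) - 1) * G3 Q ω m 0 0 m - G3 Q ω m 1 0 (m + 1)) ≤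
      1 / 1000 * G2 Q ω := by
    rw [← Finset.sum_neg_distrib]
    refine le_trans (Finset.sum_le_sum fun m hm => ?_) h5
    have hm' : (41 : ℝ) ≤ m := by exact_mod_cast (Finset.mem_filter.1 hm).2
    have a1 := (abs_le.1 (G3_abs_le hQ1 h m 0 0 m)).1
    have a2 := (abs_le.1 (G3_abs_le hQ1 h m 1 0 (m + 1))).2
    rw [sQ_zero, nuQ_zero, Real.sqrt_one, one_mul, mul_one] at a1
    rw [sQ_one hQ1, nuQ_zero, Real.sqrt_one, one_mul, mul_one] at a2
    have a3 := mul_le_mul_of_nonneg_left a1 (show (0 : ℝ) ≤ m - 1 by linarith)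
    rw [← mul_neg, mul_assoc]
    exact mul_le_mul_of_nonneg_left (by linarith) (inv_nonneg.2 (nuQ_nonneg Q m))
  have hq : (50 : ℝ) ≤ Q := by exact_mod_cast hQ
  rw [omega_HH hQ1 h, omega_T4 hQ1 h, energy_eq hQ1, ← mul_sub]
  exact mul_le_mul_of_nonneg_left (by linarith) (by linarith)

end Crest.Agent.R340
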