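import Crest.Agent.R340.G0Limit
import Crest.Agent.R340.FgPlanar
import Crest.Agent.R340.Main

/-! Row 340: a `T4`-free certificate gives `FockGap0`. -/

set_option autoImplicit false

namespace Crest.Agent.R340

open Matrix Finset Filter Topology

theorem planar0_of_checks (c2 a : List (ℕ × ℚ)) (c3 : CL) (D3 : ℕ)
    (ha : a.all (fun e => decide (0 ≤ e.2)) = true)
    (h3 : oscOK 2 1 D3 (E30 ++ negCL c3 ++ tailCL a) = true) :
    PlanarBound0 c2 c3 (certCost c2 a : ℝ) := by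
  intro Γ3 r3 hk hpos
  have k3 := lin_nonneg_of_oscOK 2 1 D3 (by norm_num) _ h3 Γ3 (by simpa using r3)
  simp only [List.all_eq_true, decide_eq_true_eq] at ha
  have k5 := pl_lin_tail a ha Γ3 hk
  rw [pl_lin_append, pl_lin_append, pl_lin_neg] at k3
  rw [certCost, Rat.cast_add, pl_cast]
  linarith

theorem fockGap0_of_cert {J den : ℕ} (hden : 0 < den) {c2 : List (ℕ × ℤ)}
    {c3 : List (ℕ × ℕ × ℕ × ℕ × ℤ)} {tl : List Tl} {cost γ : ℝ}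
    (hi : bksOK J (bk2 c2 ++ bk3 c3 ++ teleBks tl) = true)
    (hl : LocalBk J (bk2 c2 ++ bk3 c3 ++ teleBks tl))
    (hp : PlanarBound0 (q2 den c2) (q3 den c3) cost) (hγ : γ < 999 / 1000 - cost) :
    ∃ Q₀ : ℕ, ∀ Q : ℕ, Q₀ ≤ Q → FockGap0 Q γ := by
  obtain ⟨Q₀, hQ₀⟩ := limit_bound0 (cert_q0 hden hi hl) hp hγ
  refine ⟨max Q₀ 50, fun Q hQ Φ => ?_⟩
  have hQ50 : 50 ≤ Q := le_trans (le_max_right _ _) hQ
  have hQ1 : 1 ≤ Q := le_trans (by norm_num) hQ50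
  have hQ0 : Q₀ ≤ Q := le_trans (le_max_left _ _) hQ
  have key := psd_of_invState Q (Hf Q * Hf Q - T4f Q - γ • Hf Q)
    (by rw [transpose_sub, transpose_sub, transpose_mul, transpose_smul, Hf_transpose,
      T4f_transpose])
    (by
      rw [Matrix.sub_mul, Matrix.mul_sub, Matrix.sub_mul, Matrix.mul_sub, Matrix.smul_mul,
        Matrix.mul_smul, T4f_Fh hQ1, Hf_Fh hQ1, Matrix.mul_assoc, Hf_Fh hQ1, ← Matrix.mul_assoc,
        Hf_Fh hQ1, Matrix.mul_assoc])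
    (fun ω hω => by
      rw [map_sub, map_sub, map_smul, omega_H hQ1 hω, smul_eq_mul]
      have h1 := hQ₀ Q hQ0 ω hω
      have h2 : (1 : ℝ) ≤ Q := by exact_mod_cast hQ1
      have h3 := energy_lb0 hQ50 hω
      have h4 := mul_le_mul_of_nonneg_left h1 (show (0 : ℝ) ≤ 2 * (Q : ℝ) - 1 by linarith)
      linarith)
    Φ
  rw [Matrix.sub_mulVec, Matrix.sub_mulVec, dotProduct_sub, dotProduct_sub, Matrix.smul_mulVec,
    dotProduct_smul, smul_eq_mul, ← Matrix.mulVec_mulVec] at key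
  have h3 : Φ ⬝ᵥ (Hf Q *ᵥ (Hf Q *ᵥ Φ)) = (Hf Q *ᵥ Φ) ⬝ᵥ (Hf Q *ᵥ Φ) := by
    rw [← dot_annT, Hf_transpose]
  have h4 : Φ ⬝ᵥ (T4f Q *ᵥ Φ) = ∑ p, (Bop Q p *ᵥ Φ) ⬝ᵥ (Hf Q *ᵥ (Bop Q p *ᵥ Φ)) := by
    simp only [T4f, Matrix.sum_mulVec, dotProduct_sum, ← mulVec_mulVec, dot_annT]
  linarith

end Crest.Agent.R340
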