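import Crest.Agent.R340.G0Bits
import Crest.Agent.R340.FgOsc

/-! Row 340: from words to Slater tables. -/

set_option autoImplicit false

namespace Crest.Agent.R340.G0

open Finset Crest.Agent.R340

lemma h92_fT (φ : Finset ℕ → ℝ) (T : Finset ℕ) {D : Finset ℕ} {k : ℕ} (hk : k ∉ D) :
    (if k ∈ T then 0 else (-1 : ℝ) ^ (T.filter (· < k)).card * fT φ (insert k T) D) =
      (-1 : ℝ) ^ (D.filter (· < k)).card * fT φ T (insert k D) := by
  unfold fT
  by_cases hT : k ∈ T
  · rw [if_pos hT, if_neg, mul_zero]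
    exact fun h => disjoint_left.1 h (mem_insert_self k D) hT
  rw [if_neg hT]
  by_cases hd : Disjoint D T
  · rw [if_pos (disjoint_insert_right.2 ⟨hk, hd⟩), if_pos (disjoint_insert_left.2 ⟨hT, hd⟩),
      insert_union, union_insert]
    have e : ((insert k (T ∪ D)).filter (· < k)).card =
        (T.filter (· < k)).card + (D.filter (· < k)).card := by
      rw [filter_insert, if_neg (lt_irrefl k), filter_union, card_union_of_disjoint]
      exact disjoint_filter_filter hd.symm
    unfold eS
    rw [prod_insert hk, e, pow_add]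
    have h2 : (-1 : ℝ) ^ (D.filter (· < k)).card * (-1 : ℝ) ^ (D.filter (· < k)).card = 1 := by
      rw [← mul_pow]; simp
    linear_combination (-((-1 : ℝ) ^ (T.filter (· < k)).card *
      (∏ d ∈ D, (-1 : ℝ) ^ ((insert k (T ∪ D)).filter (· < d)).card) * φ (insert k (T ∪ D)))) * h2
  · rw [if_neg fun h => hd (disjoint_insert_right.1 h).2,
      if_neg fun h => hd (disjoint_insert_left.1 h).2, mul_zero, mul_zero]

lemma annL_eq {τ : Tb} (h : τ.ok = true) (L : List ℕ) (hL : ∀ k ∈ L, k < τ.n)
    (φ : Finset ℕ → ℝ) (T : Finset ℕ) :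
    (smL τ.par L).2 < 2 ^ τ.n ∧
      annL L φ T = ((smL τ.par L).1 : ℝ) * fT φ T (setOf τ.n (smL τ.par L).2) := by
  induction L generalizing T with
  | nil =>
    have e : setOf τ.n 0 = ∅ := by
      ext i; simp [setOf, bit_eq]
    refine ⟨Nat.two_pow_pos _, ?_⟩
    simp [smL, annL, e, fT, eS]
  | cons k L ih =>
    have hk : k < τ.n := hL k List.mem_cons_self
    have ih' := ih fun j hj => hL j (List.mem_cons_of_mem _ hj)
    have hu := (ih' T).1
    have h1 := (ih' (insert k T)).2
    rcases hs : smL τ.par L with ⟨σ, u⟩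
    rw [hs] at hu h1
    simp only at hu h1
    cases hb : bit u k with
    | true =>
      have e : smL τ.par (k :: L) = (0, u) := by simp only [smL, hs, hb]
      rw [e]
      refine ⟨hu, ?_⟩
      have h2 : fT φ (insert k T) (setOf τ.n u) = 0 := by
        unfold fT
        refine if_neg fun hd => disjoint_left.1 hd ?_ (mem_insert_self k T)
        exact mem_filter.2 ⟨mem_range.2 hk, hb⟩
      simp [annL, annS, h1, h2]
    | false =>
      obtain ⟨a1, a2⟩ := setOf_add hu hk hb
      have hkD : k ∉ setOf τ.n u := fun hm => by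
        have := (mem_filter.1 hm).2
        rw [hb] at this
        exact Bool.false_ne_true this
      have hm : u % 2 ^ k < 2 ^ τ.n := (Nat.mod_le _ _).trans_lt hu
      have b1 := (Tb.ok_spec h hm).1
      have b2 := pcOdd_spec τ.n (u % 2 ^ k)
      rw [setOf_mod u hk.le, ← b1] at b2
      have e : ((smL τ.par (k :: L)).1 : ℝ) =
            (-1 : ℝ) ^ ((setOf τ.n u).filter (· < k)).card * σ ∧
          (smL τ.par (k :: L)).2 = u + 2 ^ k := by
        rw [b2]
        simp only [smL, hs, hb]
        refine ⟨?_, rfl⟩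
        show ((match bit τ.par (u % 2 ^ k) with
          | true => Int.neg σ
          | false => σ : ℤ) : ℝ) = _
        cases bit τ.par (u % 2 ^ k) with
        | true =>
          show ((-σ : ℤ) : ℝ) = _
          simp
        | false => simp
      rw [e.1, e.2, a2]
      refine ⟨a1, ?_⟩
      have h3 := h92_fT φ T hkD
      show annS k (annL L φ) T = _
      unfold annS
      rw [h1]
      split_ifs at h3 ⊢
      · linear_combination (σ : ℝ) * h3
      · linear_combination (σ : ℝ) * h3

lemma h92_lin (ks : List ℕ) (s : Finset ℕ) (c : ℕ → ℝ) (g : ℕ → Finset ℕ → ℝ) (T : Finset ℕ) :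
    annL ks (fun S => ∑ i ∈ s, c i * g i S) T = ∑ i ∈ s, c i * annL ks (g i) T := by
  induction ks generalizing T with
  | nil => rfl
  | cons k ks ih =>
    show annS k _ T = ∑ i ∈ s, c i * annS k _ T
    unfold annS
    split_ifs
    · simp
    · rw [ih, mul_sum]
      exact sum_congr rfl fun i _ => by ring

lemma h92_app (ks l : List ℕ) (φ : Finset ℕ → ℝ) : annL (ks ++ l) φ = annL ks (annL l φ) := by
  induction ks with
  | nil => rfl
  | cons k ks ih => exact congrArg (annS k) ih

lemma h92_range (n : ℕ) (f : ℕ → ℝ) : ((List.range n).map f).sum = ∑ i ∈ range n, f i := by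
  induction n with
  | zero => rfl
  | succ n ih => rw [List.range_succ, List.map_append, List.sum_append, ih, sum_range_succ]; simp

lemma h92_expW {τ : Tb} (h : τ.ok = true) {J : ℕ} (hn : τ.n = J + 1) (u : ℤ × Wd)
    (hu : wdOK J u.2 = true) (φ : Finset ℕ → ℝ) (T : Finset ℕ) :
    (u.1 : ℝ) * EWS u.2 φ T =
      ((expW τ.par u).map fun p => (p.1 : ℝ) * fT φ T (setOf τ.n p.2)).sum := by
  obtain ⟨c, m, ks⟩ := u
  simp only [wdOK, Bool.and_eq_true, decide_eq_true_eq, List.all_eq_true] at hu
  unfold expW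
  rw [List.map_map, h92_range]
  have e : EWS (m, ks) φ T = ∑ i ∈ range (m + 1), (m.choose i : ℝ) *
      annL ks (annS (m + 1 - i) (annS i φ)) T := h92_lin ks _ _ _ T
  rw [e, mul_sum]
  refine sum_congr rfl fun i hi => ?_
  have hi' : i < m + 1 := mem_range.1 hi
  have h1 := (annL_eq h (ks ++ [m + 1 - i, i]) (fun k hk => by
    rcases List.mem_append.1 hk with hk | hk
    · have := hu.2 k hk; omega
    · simp only [List.mem_cons, List.not_mem_nil, or_false] at hk
      have := hu.1
      omega) φ T).2
  rw [h92_app] at h1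
  have h2 : annL [m + 1 - i, i] φ = annS (m + 1 - i) (annS i φ) := rfl
  rw [← h2, h1]
  simp only [Function.comp, chF_eq]
  push_cast
  ring

lemma h92_filter (e : List (ℤ × ℕ)) (f : ℕ → ℝ) :
    ((e.filter fun p => !(p.1 == 0)).map fun p => (p.1 : ℝ) * f p.2).sum =
      (e.map fun p => (p.1 : ℝ) * f p.2).sum := by
  induction e with
  | nil => rfl
  | cons p e ih =>
    by_cases hp : p.1 = 0
    · simp [hp, ih] at ih ⊢
    · simp [hp] at ih ⊢
      exact ih

lemma cb_eq {τ : Tb} (h : τ.ok = true) {J : ℕ} (hn : τ.n = J + 1) (a : Cb)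
    (ha : cbOK J a = true) (φ : Finset ℕ → ℝ) (T : Finset ℕ) :
    (a.map fun u => (u.1 : ℝ) * EWS u.2 φ T).sum =
      ((expCb τ.par a).map fun p => (p.1 : ℝ) * fT φ T (setOf τ.n p.2)).sum := by
  unfold expCb
  rw [h92_filter _ fun d => fT φ T (setOf τ.n d)]
  induction a with
  | nil => rfl
  | cons u a ih =>
    simp only [cbOK, List.all_cons, Bool.and_eq_true] at ha
    rw [List.map_cons, List.sum_cons, List.flatMap_cons, List.map_append, List.sum_append,
      ih ha.2, h92_expW h hn u ha.1]

/-- a list as a functional -/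
noncomputable def h92dt (f : ℕ → ℝ) (L : List ℕ) (v : List ℤ) : ℝ :=
  (List.zipWith (fun d (c : ℤ) => (c : ℝ) * f d) L v).sum

lemma h92dt_map (f : ℕ → ℝ) (L : List ℕ) (g : ℕ → ℤ) :
    h92dt f L (L.map g) = (L.map fun d => (g d : ℝ) * f d).sum := by
  unfold h92dt
  rw [List.zipWith_map_right, List.zipWith_self]

lemma h92_axpy (f : ℕ → ℝ) (c : ℤ) (L : List ℕ) (x y : List ℤ) (hx : x.length = L.length)
    (hy : y.length = L.length) : (axpy c x y).length = L.length ∧
      h92dt f L (axpy c x y) = c * h92dt f L x + h92dt f L y := by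
  induction L generalizing x y with
  | nil =>
    obtain rfl := List.length_eq_zero_iff.1 hx
    simp [axpy, h92dt]
  | cons d L ih =>
    obtain _ | ⟨a, x⟩ := x
    · simp at hx
    obtain _ | ⟨b, y⟩ := y
    · simp at hy
    obtain ⟨h1, h2⟩ := ih x y (by simpa using hx) (by simpa using hy)
    refine ⟨by simp [axpy, h1], ?_⟩
    unfold h92dt at h2 ⊢
    have e : axpy c (a :: x) (b :: y) = (c * a + b) :: axpy c x y := rfl
    rw [e]
    simp only [List.zipWith_cons_cons, List.sum_cons, h2]
    push_cast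
    ring

lemma h92_lc (f : ℕ → ℝ) (L : List ℕ) (z : List ℤ) (hz : z.length = L.length) (cs : List ℤ)
    (vs : List (List ℤ)) (hv : ∀ v ∈ vs, v.length = L.length) :
    (lc z cs vs).length = L.length ∧ h92dt f L (lc z cs vs) =
      h92dt f L z + (List.zipWith (fun (c : ℤ) v => (c : ℝ) * h92dt f L v) cs vs).sum := by
  induction cs generalizing vs with
  | nil => simp [lc, hz]
  | cons c cs ih =>
    obtain _ | ⟨v, vs⟩ := vs
    · simp [lc, hz]
    obtain ⟨h1, h2⟩ := ih vs fun v hv' => hv v (List.mem_cons_of_mem _ hv')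
    by_cases hc : c = 0
    · subst hc
      have e : lc z (0 :: cs) (v :: vs) = lc z cs vs := rfl
      rw [e]
      exact ⟨h1, by simp [h2]⟩
    · have e : lc z (c :: cs) (v :: vs) = axpy c v (lc z cs vs) := by
        have : (c == 0) = false := by simpa using hc
        simp only [lc, this]
      obtain ⟨h3, h4⟩ := h92_axpy f c L v _ (hv v List.mem_cons_self) h1
      rw [e]
      refine ⟨h3, ?_⟩
      rw [h4, h2, List.zipWith_cons_cons, List.sum_cons]
      ring

lemma h92_memN (x : ℕ) (L : List ℕ) (h : memN x L = true) : x ∈ L := by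
  induction L with
  | nil => simp [memN] at h
  | cons y L ih =>
    cases hb : Nat.beq x y with
    | true => rw [Nat.eq_of_beq_eq_true hb]; exact List.mem_cons_self
    | false =>
      simp only [memN, hb] at h
      exact List.mem_cons_of_mem _ (ih h)

lemma h92_coef (f : ℕ → ℝ) {L : List ℕ} (hL : L.Nodup) (e : List (ℤ × ℕ))
    (he : ∀ p ∈ e, p.2 ∈ L) :
    (L.map fun d => (coefAt e d : ℝ) * f d).sum = (e.map fun p => (p.1 : ℝ) * f p.2).sum := by
  rw [← List.sum_toFinset _ hL]
  induction e with
  | nil => simp [coefAt]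
  | cons p e ih =>
    have h1 : ∀ d, (coefAt (p :: e) d : ℝ) * f d =
        (if p.2 = d then (p.1 : ℝ) * f d else 0) + (coefAt e d : ℝ) * f d := fun d => by
      cases hb : Nat.beq p.2 d with
      | true =>
        have e1 : coefAt (p :: e) d = p.1 + coefAt e d := by simp only [coefAt, hb]; rfl
        rw [e1, if_pos (Nat.eq_of_beq_eq_true hb)]
        push_cast
        ring
      | false =>
        have e1 : coefAt (p :: e) d = coefAt e d := by simp only [coefAt, hb]
        rw [e1, if_neg (Nat.ne_of_beq_eq_false hb), zero_add]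
    simp only [h1]
    rw [sum_add_distrib, sum_ite_eq, if_pos (List.mem_toFinset.2 (he p List.mem_cons_self)),
      ih fun q hq => he q (List.mem_cons_of_mem _ hq), List.map_cons, List.sum_cons]

/-- a list of rows as a quadratic form -/
noncomputable def h92mv (f : ℕ → ℝ) (L : List ℕ) (R : List (List ℤ)) : ℝ :=
  (List.zipWith (fun d r => f d * h92dt f L r) L R).sum

lemma h92_zip_add {α β : Type} (F : α → β → ℝ) (G : α → ℝ) (L : List α) (R : List β)
    (h : R.length = L.length) : (List.zipWith (fun d r => F d r + G d) L R).sum =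
      (List.zipWith F L R).sum + (L.map G).sum := by
  induction L generalizing R with
  | nil => simp
  | cons d L ih =>
    obtain _ | ⟨r, R⟩ := R
    · simp at h
    simp only [List.zipWith_cons_cons, List.sum_cons, List.map_cons, ih R (by simpa using h)]
    ring

lemma h92_zip_zip {α β γ δ : Type} (F : α → γ → δ) (G : α → β → γ) (L : List α) (R : List β) :
    List.zipWith F L (List.zipWith G L R) = List.zipWith (fun d r => F d (G d r)) L R := by
  induction L generalizing R with
  | nil => simp
  | cons d L ih =>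
    obtain _ | ⟨r, R⟩ := R
    · simp
    simp only [List.zipWith_cons_cons, ih]

lemma h92_zip_congr {α β : Type} {F G : α → β → ℝ} (L : List α) (R : List β)
    (h : ∀ d ∈ L, ∀ r ∈ R, F d r = G d r) : (List.zipWith F L R).sum = (List.zipWith G L R).sum := by
  induction L generalizing R with
  | nil => simp
  | cons d L ih =>
    obtain _ | ⟨r, R⟩ := R
    · simp
    simp only [List.zipWith_cons_cons, List.sum_cons]
    rw [h d List.mem_cons_self r List.mem_cons_self,
      ih R fun a ha b hb => h a (List.mem_cons_of_mem _ ha) b (List.mem_cons_of_mem _ hb)]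

lemma h92_swap {α β : Type} (f : ℕ → ℝ) (L : List ℕ) (c : α → ℕ → ℝ) (g : β → ℝ) (A : List α)
    (Y : List β) : (L.map fun d => f d * (List.zipWith (fun a y => c a d * g y) A Y).sum).sum =
      (List.zipWith (fun a y => (L.map fun d => c a d * f d).sum * g y) A Y).sum := by
  induction A generalizing Y with
  | nil => simp
  | cons a A ih =>
    obtain _ | ⟨y, Y⟩ := Y
    · simp
    simp only [List.zipWith_cons_cons, List.sum_cons, mul_add]
    rw [List.sum_map_add, ih, ← List.sum_map_mul_right]
    congr 2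
    exact List.map_congr_left fun d _ => by ring

lemma h92_zip_mul {α β : Type} (x : ℝ) (F : α → β → ℝ) (A : List α) (Y : List β) :
    x * (List.zipWith F A Y).sum = (List.zipWith (fun a y => x * F a y) A Y).sum := by
  induction A generalizing Y with
  | nil => simp
  | cons a A ih =>
    obtain _ | ⟨y, Y⟩ := Y
    · simp
    simp only [List.zipWith_cons_cons, List.sum_cons, mul_add, ih]

lemma h92_addBk (f : ℕ → ℝ) (par : ℕ) (L : List ℕ) (k : Bk) (val : Cb → ℝ) (g : Cb → Cb → ℝ)
    (hg : ∀ a b, g a b = val a * val b)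
    (hA : ∀ a ∈ k.A, (L.map fun d => (coefAt (expCb par a) d : ℝ) * f d).sum = val a)
    (hB : ∀ a ∈ k.B, (L.map fun d => (coefAt (expCb par a) d : ℝ) * f d).sum = val a)
    (R : List (List ℤ)) (h1 : R.length = L.length) (h2 : ∀ r ∈ R, r.length = L.length) :
    (addBk par L k R).length = L.length ∧ (∀ r ∈ addBk par L k R, r.length = L.length) ∧
      h92mv f L (addBk par L k R) = bil k.A k.B k.Y g + h92mv f L R := by
  obtain ⟨Bd, hBd⟩ : ∃ Bd, Bd = (k.B.map (expCb par)).map fun e => L.map (coefAt e) := ⟨_, rfl⟩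
  have lBd : ∀ v ∈ Bd, v.length = L.length := fun v hv => by
    rw [hBd] at hv
    obtain ⟨e, -, rfl⟩ := List.mem_map.1 hv
    exact List.length_map _
  have hrow := fun row => h92_lc f L (L.map fun _ => 0) (List.length_map _) row Bd lBd
  obtain ⟨Z, hZ⟩ : ∃ Z, Z = k.Y.map fun row => lc (L.map fun _ => 0) row Bd := ⟨_, rfl⟩
  have lZ : ∀ v ∈ Z, v.length = L.length := fun v hv => by
    rw [hZ] at hv
    obtain ⟨e, -, rfl⟩ := List.mem_map.1 hv
    exact (hrow e).1
  have e : addBk par L k R = List.zipWith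
      (fun d r => lc r ((k.A.map (expCb par)).map fun e => coefAt e d) Z) L R := by
    rw [hZ, hBd]; rfl
  rw [e]
  refine ⟨by simp [h1], fun r hr => ?_, ?_⟩
  · rw [← List.map_uncurry_zip_eq_zipWith] at hr
    obtain ⟨q, hq, rfl⟩ := List.mem_map.1 hr
    exact (h92_lc f L q.2 (h2 _ (List.of_mem_zip hq).2) _ Z lZ).1
  unfold h92mv
  rw [h92_zip_zip, h92_zip_congr
    (G := fun d r => f d * h92dt f L r + f d * (List.zipWith
      (fun a y => (coefAt (expCb par a) d : ℝ) * h92dt f L (lc (L.map fun _ => 0) y Bd))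
        k.A k.Y).sum) L R fun d _ r hr => by
      rw [(h92_lc f L r (h2 r hr) _ Z lZ).2, mul_add, hZ, List.map_map, List.zipWith_map]
      rfl, h92_zip_add _ _ _ _ h1, add_comm,
    h92_swap f L (fun a d => (coefAt (expCb par a) d : ℝ))]
  congr 1
  unfold bil
  rw [List.map_zip_eq_zipWith]
  refine h92_zip_congr _ _ fun a ha y _ => ?_
  rw [hA a ha, (hrow y).2, h92dt_map, hBd, List.map_map, List.zipWith_map_right,
    List.zipWith_comm]
  simp only [Int.cast_zero, zero_mul, List.sum_map_zero, zero_add, Function.curry]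
  rw [List.map_zip_eq_zipWith, h92_zip_mul]
  refine h92_zip_congr _ _ fun b hb c _ => ?_
  simp only [Function.comp, Function.curry]
  rw [h92dt_map, hB b hb, hg]
  ring

/-- The value of one group of blocks. -/
theorem grp_sound {τ : Tb} (h : τ.ok = true) {J : ℕ} (hn : τ.n = J + 1) {ks : List Bk}
    (hi : bksOK J ks = true) {κ : ℕ} (hg : grpOK τ ks κ = true)
    (φ : Finset ℕ → ℝ) (T : Finset ℕ) :
    2 * bksVal (fun w w' => EWS w φ T * EWS w' φ T) (ks.filter fun k => Nat.beq (tag k) κ) =
      ((τ.Lk κ).map fun d => ((τ.Lk κ).map fun d' =>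
        (τ.Ws d d' : ℝ) * fT φ T (setOf τ.n d) * fT φ T (setOf τ.n d')).sum).sum := by
  have hL := τ.nodup_Lk κ
  simp only [grpOK, Bool.and_eq_true, List.all_eq_true, beq_iff_eq] at hg
  obtain ⟨⟨g1, g2⟩, g3⟩ := hg
  have hi' : ∀ k ∈ ks.filter fun k => Nat.beq (tag k) κ,
      (k.A.all (cbOK J) && k.B.all (cbOK J)) = true := fun k hk =>
    List.all_eq_true.1 hi k (List.mem_of_mem_filter hk)
  generalize (ks.filter fun k => Nat.beq (tag k) κ) = bs at g1 g2 hi'
  generalize τ.Lk κ = L at *
  obtain ⟨f, hf⟩ : ∃ f : ℕ → ℝ, f = fun d => fT φ T (setOf τ.n d) := ⟨_, rfl⟩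
  have key : (bs.foldr (addBk τ.par L) (L.map fun _ => L.map fun _ => 0)).length = L.length ∧
      (∀ r ∈ bs.foldr (addBk τ.par L) (L.map fun _ => L.map fun _ => 0), r.length = L.length) ∧
      h92mv f L (bs.foldr (addBk τ.par L) (L.map fun _ => L.map fun _ => 0)) =
        bksVal (fun w w' => EWS w φ T * EWS w' φ T) bs := by
    clear g2
    induction bs with
    | nil =>
      refine ⟨by simp, fun r hr => ?_, ?_⟩
      · obtain ⟨e, -, rfl⟩ := List.mem_map.1 hr
        exact List.length_map _
      · unfold h92mv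
        rw [List.foldr_nil, List.zipWith_map_right, List.zipWith_self, h92dt_map]
        simp [bksVal]
    | cons k bs ih =>
      obtain ⟨i1, i2, i3⟩ := ih (fun k hk => hi' k (List.mem_cons_of_mem _ hk))
        fun k hk => g1 k (List.mem_cons_of_mem _ hk)
      have s1 := g1 k List.mem_cons_self
      have s2 := hi' k List.mem_cons_self
      simp only [suppOK, Bool.and_eq_true, List.all_eq_true] at s1 s2
      have hv : ∀ a : Cb, cbOK J a = true → (∀ p ∈ expCb τ.par a, memN p.2 L = true) →
          (L.map fun d => (coefAt (expCb τ.par a) d : ℝ) * f d).sum =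
            (a.map fun u => (u.1 : ℝ) * EWS u.2 φ T).sum := fun a ha hm => by
        rw [h92_coef f hL _ fun p hp => h92_memN _ _ (hm p hp), cb_eq h hn a ha, hf]
      obtain ⟨j1, j2, j3⟩ := h92_addBk f τ.par L k
        (fun a => (a.map fun u => (u.1 : ℝ) * EWS u.2 φ T).sum)
        (cbG fun w w' => EWS w φ T * EWS w' φ T) (fun a b => by
          unfold cbG
          rw [← List.sum_map_mul_right]
          refine congrArg List.sum (List.map_congr_left fun u _ => ?_)
          rw [← List.sum_map_mul_left]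
          exact congrArg List.sum (List.map_congr_left fun v _ => by ring))
        (fun a ha => hv a (s2.1 a ha) (s1.1 a ha)) (fun a ha => hv a (s2.2 a ha) (s1.2 a ha))
        _ i1 i2
      refine ⟨j1, j2, ?_⟩
      rw [List.foldr_cons, j3, i3]
      rfl
  rw [← key.2.2, g2]
  unfold h92mv
  rw [List.zipWith_map_right, List.zipWith_self]
  simp only [h92dt_map, ← List.sum_toFinset _ hL]
  have e : ∀ d, fT φ T (setOf τ.n d) = f d := fun d => by rw [hf]
  simp only [e]
  rw [sum_congr rfl fun d hd => sum_congr rfl fun d' hd' => by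
    rw [g3 d (List.mem_toFinset.1 hd) d' (List.mem_toFinset.1 hd'), Int.cast_add, add_mul, add_mul]]
  simp only [sum_add_distrib, mul_sum]
  rw [sum_comm (f := fun d d' => (τ.Wt d' d : ℝ) * f d * f d'), ← sum_add_distrib]
  refine sum_congr rfl fun d _ => ?_
  rw [← sum_add_distrib]
  exact sum_congr rfl fun d' _ => by ring

lemma Ws_symm {τ : Tb} {ks : List Bk} {κ : ℕ} (hg : grpOK τ ks κ = true) :
    ∀ d ∈ τ.Lk κ, ∀ d' ∈ τ.Lk κ, τ.Ws d d' = τ.Ws d' d := by
  simp only [grpOK, Bool.and_eq_true, List.all_eq_true, beq_iff_eq] at hg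
  intro d hd d' hd'
  rw [hg.2 d hd d' hd', hg.2 d' hd' d hd, add_comm]

end Crest.Agent.R340.G0
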