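import Crest.Agent.R340.G0Transfer
import Crest.Agent.R340.G0Energy
import Crest.Agent.R340.FgLimit

/-! Row 340: the limit of large flux for the `T4`-free certificate. -/

set_option autoImplicit false

namespace Crest.Agent.R340

open Matrix Finset Filter Topology

lemma g0l_append (G : Wd → Wd → ℝ) (a b : List Bk) :
    bksVal G (a ++ b) = bksVal G a + bksVal G b := by
  simp [bksVal]

lemma g0l_bk2 {Q : ℕ} {ω : FM (Q + 1) →ₗ[ℝ] ℝ} (hQ : 1 ≤ Q) (h : InvState Q ω) {den : ℕ}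
    (hden : 0 < den) (c2 : List (ℕ × ℤ)) :
    bksVal (GW Q ω) (bk2 c2) =
      den * (((q2 den c2).map fun e => (e.2 : ℝ) * nuQ Q e.1).sum * G2 Q ω) := by
  have hd : (den : ℝ) ≠ 0 := by positivity
  induction c2 with
  | nil => simp [bksVal, bk2, q2]
  | cons e c ih =>
    have e1 : bksVal (GW Q ω) (bk2 (e :: c)) =
        (e.2 : ℝ) * (nuQ Q e.1 * G2 Q ω) + bksVal (GW Q ω) (bk2 c) := by
      rw [← G2_diag hQ h]
      simp [bksVal, bk2, bkVal, bil, cbG, oneW, GW, EW, chs]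
    rw [e1, ih]
    simp only [q2, List.map_cons, List.sum_cons]
    push_cast
    field_simp

lemma g0l_bk3 {Q : ℕ} (ω : FM (Q + 1) →ₗ[ℝ] ℝ) {den : ℕ}
    (hden : 0 < den) (c3 : List (ℕ × ℕ × ℕ × ℕ × ℤ)) :
    bksVal (GW Q ω) (bk3 c3) = den * lin (q3 den c3) (G3 Q ω) := by
  have hd : (den : ℝ) ≠ 0 := by positivity
  induction c3 with
  | nil => simp [bksVal, bk3, q3, lin]
  | cons e c ih =>
    have e1 : bksVal (GW Q ω) (bk3 (e :: c)) =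
        (e.2.2.2.2 : ℝ) * G3 Q ω e.1 e.2.1 e.2.2.1 e.2.2.2.1 + bksVal (GW Q ω) (bk3 c) := by
      simp [bksVal, bk3, bkVal, bil, cbG, oneW, GW, EW, chs, G3]
    rw [e1, ih]
    simp only [q3, List.map_cons, fgl_lin_cons]
    push_cast
    field_simp

/-- The certificate inequality at finite flux. -/
theorem cert_q0 {J den : ℕ} (hden : 0 < den) {c2 : List (ℕ × ℤ)} {c3 : List (ℕ × ℕ × ℕ × ℕ × ℤ)}
    {tl : List Tl} (hi : bksOK J (bk2 c2 ++ bk3 c3 ++ teleBks tl) = true)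
    (hl : LocalBk J (bk2 c2 ++ bk3 c3 ++ teleBks tl)) :
    ∃ ε : ℕ → ℝ, Tendsto ε atTop (𝓝 0) ∧
      ∀ (Q : ℕ) (ω : FM (Q + 1) →ₗ[ℝ] ℝ), J ≤ Q → 1 ≤ Q → InvState Q ω →
        0 ≤ ((q2 den c2).map fun e => (e.2 : ℝ) * nuQ Q e.1).sum * G2 Q ω +
          lin (q3 den c3) (G3 Q ω) + ε Q * G2 Q ω := by
  obtain ⟨ε1, hε1, h1⟩ := cert_omega0 hi hl
  obtain ⟨ε2, hε2, h2⟩ := tele_small tl
  have hd : (0 : ℝ) < den := by positivity
  refine ⟨fun Q => (ε1 Q + ε2 Q) / den, ?_, fun Q ω hJ hQ hω => ?_⟩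
  · simpa using (hε1.add hε2).div_const (den : ℝ)
  · have k1 := h1 Q ω hJ hQ hω
    have k2 := (abs_le.1 (h2 Q ω hQ hω)).2
    rw [g0l_append, g0l_append, g0l_bk2 hQ hω hden, g0l_bk3 ω hden] at k1
    refine (mul_nonneg_iff_of_pos_left hd).1 ?_
    have e : den * ((ε1 Q + ε2 Q) / den * G2 Q ω) = ε1 Q * G2 Q ω + ε2 Q * G2 Q ω := by
      field_simp
    rw [mul_add, mul_add, e]
    linarith

/-- the normalised correlation array of a state that violates the bound -/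
structure G0lBad (c2 : List (ℕ × ℚ)) (c3 : CL) (γ : ℝ) (C : ℕ → ℕ → ℝ) (ε : ℕ → ℝ) (Q : ℕ)
    (x3 : ℕ → ℕ → ℕ → ℕ → ℝ) : Prop where
  r3 : OscRel (muQ Q) (phQ Q) x3
  b3 : ∀ m k m' k', |x3 m k m' k'| ≤ C m k * C m' k'
  d3 : ∀ k, x3 0 k 0 k ≤ (k.factorial : ℝ)
  cert : 0 ≤ (c2.map fun e => (e.2 : ℝ) * nuQ Q e.1).sum + lin c3 x3 + ε Q
  en : 999 / 1000 +
    ∑ m ∈ range 41, (nuQ Q m)⁻¹ * (((m : ℝ) - 1) * x3 m 0 0 m - x3 m 1 0 (m + 1)) ≤ γ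

lemma g0l_core {c2 : List (ℕ × ℚ)} {c3 : CL} {cost γ : ℝ} {C : ℕ → ℕ → ℝ} {ε : ℕ → ℝ}
    (hε : Tendsto ε atTop (𝓝 0)) (hp : PlanarBound0 c2 c3 cost)
    (h : ∃ᶠ Q in atTop, ∃ x3, G0lBad c2 c3 γ C ε Q x3) : 999 / 1000 - cost ≤ γ := by
  have hne := frequently_iff_neBot.1 h
  obtain ⟨U, hU⟩ := Ultrafilter.exists_le
    (atTop ⊓ 𝓟 {Q | ∃ x3, G0lBad c2 c3 γ C ε Q x3})
  have hU1 : (U : Filter ℕ) ≤ atTop := hU.trans inf_le_left
  have hU2 : ∀ᶠ Q in (U : Filter ℕ), ∃ x3, G0lBad c2 c3 γ C ε Q x3 :=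
    le_principal_iff.1 (hU.trans inf_le_right)
  obtain ⟨x3, h4⟩ := hU2.choice
  choose Γ3 t3 using fun m k m' k' =>
    fgl_lim U (x := fun Q => x3 Q m k m' k') (h4.mono fun Q hQ => hQ.b3 m k m' k')
  have tm := fun m => (tendsto_muQ m).mono_left hU1
  have tp := fun m => (tendsto_phQ m).mono_left hU1
  have tn : ∀ m, Tendsto (fun Q => (nuQ Q m)⁻¹) U (𝓝 ((m.factorial : ℝ) * 2 ^ m)⁻¹) := fun m =>
    ((tendsto_nuQ m).mono_left hU1).inv₀ (by positivity)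
  have k1 := hp Γ3 (fgl_rel_lim tm tp t3 (h4.mono fun Q hQ => hQ.r3))
    (fun k => le_of_tendsto (t3 0 k 0 k) (h4.mono fun Q hQ => hQ.d3 k))
    (by
      have k := ge_of_tendsto ((((fgl_c2_tendsto c2).mono_left hU1).add
        (fgl_lin_tendsto c3 t3)).add (hε.mono_left hU1))
        (h4.mono fun Q hQ => hQ.cert)
      rwa [add_zero] at k)
  have k2 := le_of_tendsto ((tendsto_const_nhds (x := (999 / 1000 : ℝ))).add
    (tendsto_finsetSum (range 41) fun m _ => (tn m).mul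
      (((t3 m 0 0 m).const_mul ((m : ℝ) - 1)).sub (t3 m 1 0 (m + 1)))))
    (h4.mono fun Q hQ => hQ.en)
  rw [E30, fgl_E3] at k1
  linarith

theorem limit_bound0 {J : ℕ} {c2 : List (ℕ × ℚ)} {c3 : CL} {cost γ : ℝ}
    (hc : ∃ ε : ℕ → ℝ, Tendsto ε atTop (𝓝 0) ∧
      ∀ (Q : ℕ) (ω : FM (Q + 1) →ₗ[ℝ] ℝ), J ≤ Q → 1 ≤ Q → InvState Q ω →
        0 ≤ (c2.map fun e => (e.2 : ℝ) * nuQ Q e.1).sum * G2 Q ω +
          lin c3 (G3 Q ω) + ε Q * G2 Q ω)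
    (hp : PlanarBound0 c2 c3 cost) (hγ : γ < 999 / 1000 - cost) :
    ∃ Q₀ : ℕ, ∀ Q : ℕ, Q₀ ≤ Q → ∀ ω : FM (Q + 1) →ₗ[ℝ] ℝ, InvState Q ω →
      γ * G2 Q ω ≤ 999 / 1000 * G2 Q ω +
        ∑ m ∈ range 41,
          (nuQ Q m)⁻¹ * (((m : ℝ) - 1) * G3 Q ω m 0 0 m - G3 Q ω m 1 0 (m + 1)) := by
  obtain ⟨ε, hε, hc⟩ := hc
  obtain ⟨C, -, hC⟩ := G34_bound
  by_contra hcon
  refine absurd (g0l_core (C := C) hε hp ?_) (not_le.2 hγ)
  rw [frequently_atTop]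
  intro N
  simp only [not_exists, not_forall, not_le] at hcon
  obtain ⟨Q, hQ, ω, hω, hen⟩ := hcon (max N (max J 1))
  have hN : N ≤ Q := (le_max_left _ _).trans hQ
  have hJ : J ≤ Q := (le_max_left _ _).trans ((le_max_right _ _).trans hQ)
  have h1 : 1 ≤ Q := (le_max_right _ _).trans ((le_max_right _ _).trans hQ)
  have hb := hC Q ω h1 hω
  have hg : 0 < G2 Q ω := by
    refine (G2_nonneg hω).lt_of_ne fun h0 => ?_
    have z3 : ∀ m k m' k', G3 Q ω m k m' k' = 0 := fun m k m' k' => by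
      have := (hb m k m' k').1
      rw [← h0, mul_zero] at this
      exact abs_nonpos_iff.1 this
    simp [z3, ← h0] at hen
  have hi0 : 0 ≤ (G2 Q ω)⁻¹ := (inv_pos.2 hg).le
  have hbd : ∀ {u v : ℝ}, |u| ≤ v * G2 Q ω → |(G2 Q ω)⁻¹ * u| ≤ v := fun {u v} h => by
    rw [abs_mul, abs_of_nonneg hi0, inv_mul_le_iff₀ hg, mul_comm]
    exact h
  refine ⟨Q, hN, fun m k m' k' => (G2 Q ω)⁻¹ * G3 Q ω m k m' k',
    fgl_rel_mul (G3_rel h1 hω) hi0, fun m k m' k' => hbd (hb m k m' k').1, fun k => ?_, ?_, ?_⟩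
  · have k1 := G3_diag_le h1 hω 0 k
    rw [nuQ_zero, mul_one] at k1
    rw [inv_mul_le_iff₀ hg, mul_comm]
    exact k1.trans (mul_le_mul_of_nonneg_right (sQ_le h1 k) hg.le)
  · have k1 := mul_nonneg hi0 (hc Q ω hJ h1 hω)
    rw [fgl_lin_mul]
    refine k1.trans (le_of_eq ?_)
    field_simp
  · have k1 := mul_le_mul_of_nonneg_left hen.le hi0
    rw [mul_add, mul_sum, mul_comm γ, mul_comm (999 / 1000 : ℝ),
      inv_mul_cancel_left₀ hg.ne', inv_mul_cancel_left₀ hg.ne'] at k1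
    refine le_trans (le_of_eq ?_) k1
    congr 1
    exact sum_congr rfl fun m _ => by ring

end Crest.Agent.R340
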