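import Crest.Agent.R340.G0Defs
import Crest.Agent.R340.FgRel

/-! Row 340: telescopes have (almost) zero expectation in invariant states. -/

set_option autoImplicit false

namespace Crest.Agent.R340

open Matrix Finset Filter Topology

lemma t62_bd (ks : List ℕ) : FgBhBd fun Q => chs Q ks := by
  induction ks with
  | nil => exact ⟨1, zero_le_one, fun Q _ Φ => by simp [chs]⟩
  | cons k ks ih => exact (FgBhBd.ch k).mul ih

lemma t62_F {Q : ℕ} (hQ : 1 ≤ Q) (ks : List ℕ) :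
    chs Q ks * Fh Q = Fh Q * chs Q ks + ((upL ks).map (chs Q)).sum := by
  induction ks with
  | nil => simp [chs, upL]
  | cons k ks ih =>
    have e : (((upL ks).map (k :: ·)).map (chs Q)).sum = ch Q k * ((upL ks).map (chs Q)).sum := by
      rw [List.map_map, ← List.sum_map_mul_left]
      rfl
    simp only [upL, List.map_cons, List.sum_cons, e, chs]
    rw [mul_assoc, ih, mul_add, ← mul_assoc, ch_Fh hQ, add_mul, mul_assoc, add_assoc]

lemma t62_FT {Q : ℕ} (hQ : 1 ≤ Q) (ks : List ℕ) :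
    chs Q ks * (Fh Q)ᵀ = (Fh Q)ᵀ * chs Q ks +
      ((lowL ks).map fun p => phQ Q p.1 • chs Q p.2).sum := by
  induction ks with
  | nil => simp [chs, lowL]
  | cons k ks ih =>
    have e : (((lowL ks).map fun p => (p.1, k :: p.2)).map fun p => phQ Q p.1 • chs Q p.2).sum =
        ch Q k * ((lowL ks).map fun p => phQ Q p.1 • chs Q p.2).sum := by
      rw [List.map_map, ← List.sum_map_mul_left]
      congr 1
      refine List.map_congr_left fun p _ => ?_
      simp only [Function.comp, chs, mul_smul_comm]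
    simp only [lowL, List.map_cons, List.sum_cons, e, chs]
    rw [mul_assoc, ih, mul_add, ← mul_assoc, ch_FhT hQ, add_mul, mul_assoc, add_assoc,
      smul_mul_assoc]

lemma t62_low {Q : ℕ} (ω : FM (Q + 1) →ₗ[ℝ] ℝ) (B Z : FM (Q + 1)) (l : List (ℕ × List ℕ)) :
    ω (((l.map fun p => phQ Q p.1 • chs Q p.2).sum * B)ᵀ * Z) =
      (l.map fun p => phQ Q p.1 * ω ((chs Q p.2 * B)ᵀ * Z)).sum := by
  induction l with
  | nil => simp
  | cons p l ih =>
    simp only [List.map_cons, List.sum_cons]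
    rw [add_mul, transpose_add, add_mul, map_add, ih, smul_mul_assoc, transpose_smul,
      smul_mul_assoc, map_smul, smul_eq_mul]

lemma t62_up {Q : ℕ} (ω : FM (Q + 1) →ₗ[ℝ] ℝ) (B Z : FM (Q + 1)) (l : List (List ℕ)) :
    ω (Z * ((l.map (chs Q)).sum * B)) = (l.map fun ks => ω (Z * (chs Q ks * B))).sum := by
  induction l with
  | nil => simp
  | cons p l ih =>
    simp only [List.map_cons, List.sum_cons]
    rw [add_mul, mul_add, map_add, ih]

/-- Bounds that do not depend on `Q`. -/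
lemma GW_bound : ∃ C : Wd → ℝ, (∀ w, 0 ≤ C w) ∧
    ∀ (Q : ℕ) (ω : FM (Q + 1) →ₗ[ℝ] ℝ), 1 ≤ Q → InvState Q ω → ∀ w w',
      |GW Q ω w w'| ≤ C w * C w' * G2 Q ω := by
  choose D hD0 hD using t62_bd
  refine ⟨fun w => Real.sqrt (D w.2 * ((w.1.factorial : ℝ) * 2 ^ w.1)),
    fun w => Real.sqrt_nonneg _, fun Q ω hQ h w w' => ?_⟩
  have h0 : ∀ w : Wd, 0 ≤ D w.2 * ((w.1.factorial : ℝ) * 2 ^ w.1) := fun w =>
    mul_nonneg (hD0 _) (by positivity)
  have h3 : ∀ w : Wd, ω ((EW Q w)ᵀ * EW Q w) ≤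
      D w.2 * ((w.1.factorial : ℝ) * 2 ^ w.1) * G2 Q ω := fun w => by
    have := h.mul_le (chs Q w.2) (Bh Q w.1) (D w.2) (hD w.2 Q hQ)
    rw [G2_diag hQ h, ← mul_assoc (D w.2)] at this
    exact this.trans (mul_le_mul_of_nonneg_right
      (mul_le_mul_of_nonneg_left (nuQ_le hQ w.1) (hD0 _)) (G2_nonneg h))
  exact fgRel_abs h (h0 w) (h0 w') (h3 w) (h3 w')

/-- The exact relation at finite flux. -/
lemma GW_rel {Q : ℕ} {ω : FM (Q + 1) →ₗ[ℝ] ℝ} (hQ : 1 ≤ Q) (h : InvState Q ω) (a b : Wd) :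
    muQ Q a.1 * GW Q ω (a.1 - 1, a.2) b +
        ((lowL a.2).map fun p => phQ Q p.1 * GW Q ω (a.1, p.2) b).sum =
      GW Q ω a (b.1 + 1, b.2) + ((upL b.2).map fun ks => GW Q ω a (b.1, ks)).sum := by
  have hb : EW Q b * Fh Q = Fh Q * EW Q b + chs Q b.2 * Bh Q (b.1 + 1) +
      ((upL b.2).map (chs Q)).sum * Bh Q b.1 := by
    unfold EW
    rw [mul_assoc, Bh_Fh hQ, mul_add, ← mul_assoc, t62_F hQ, add_mul, mul_assoc]
    abel
  have ha : EW Q a * (Fh Q)ᵀ = (Fh Q)ᵀ * EW Q a + muQ Q a.1 • (chs Q a.2 * Bh Q (a.1 - 1)) +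
      ((lowL a.2).map fun p => phQ Q p.1 • chs Q p.2).sum * Bh Q a.1 := by
    unfold EW
    rw [mul_assoc, Bh_FhT hQ, mul_add, ← mul_assoc, t62_FT hQ, add_mul, mul_assoc, mul_smul_comm]
    abel
  have ha' := congrArg Matrix.transpose ha
  rw [transpose_mul, transpose_transpose, transpose_add, transpose_add, transpose_mul,
    transpose_transpose, transpose_smul] at ha'
  have h1 := h.invF ((EW Q a)ᵀ * EW Q b)
  rw [mul_assoc, hb, ← mul_assoc (Fh Q), ha', mul_add, mul_add, add_mul, add_mul, mul_assoc,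
    smul_mul_assoc, map_add, map_add, map_add, map_add, map_smul, smul_eq_mul, t62_low,
    t62_up] at h1
  simp only [GW, EW] at h1 ⊢
  linarith

/-- functionals that are `o(1) G2` uniformly in the invariant state -/
def Sm62 (f : (Q : ℕ) → (FM (Q + 1) →ₗ[ℝ] ℝ) → ℝ) : Prop :=
  ∃ ε : ℕ → ℝ, Tendsto ε atTop (𝓝 0) ∧
    ∀ (Q : ℕ) (ω : FM (Q + 1) →ₗ[ℝ] ℝ), 1 ≤ Q → InvState Q ω → |f Q ω| ≤ ε Q * G2 Q ω

lemma Sm62.congr {f g : (Q : ℕ) → (FM (Q + 1) →ₗ[ℝ] ℝ) → ℝ} (hf : Sm62 f)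
    (h : ∀ Q ω, 1 ≤ Q → InvState Q ω → g Q ω = f Q ω) : Sm62 g := by
  obtain ⟨ε, h0, h1⟩ := hf
  exact ⟨ε, h0, fun Q ω hQ hω => h Q ω hQ hω ▸ h1 Q ω hQ hω⟩

lemma Sm62.add {f g : (Q : ℕ) → (FM (Q + 1) →ₗ[ℝ] ℝ) → ℝ} (hf : Sm62 f) (hg : Sm62 g) :
    Sm62 fun Q ω => f Q ω + g Q ω := by
  obtain ⟨ε, h0, h1⟩ := hf
  obtain ⟨ε', h0', h1'⟩ := hg
  refine ⟨fun Q => ε Q + ε' Q, by simpa using h0.add h0', fun Q ω hQ hω => ?_⟩
  rw [add_mul]
  exact (abs_add_le _ _).trans (add_le_add (h1 Q ω hQ hω) (h1' Q ω hQ hω))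

lemma Sm62.const_mul {f : (Q : ℕ) → (FM (Q + 1) →ₗ[ℝ] ℝ) → ℝ} (hf : Sm62 f) (c : ℝ) :
    Sm62 fun Q ω => c * f Q ω := by
  obtain ⟨ε, h0, h1⟩ := hf
  refine ⟨fun Q => |c| * ε Q, by simpa using h0.const_mul |c|, fun Q ω hQ hω => ?_⟩
  rw [abs_mul, mul_assoc]
  exact mul_le_mul_of_nonneg_left (h1 Q ω hQ hω) (abs_nonneg c)

lemma Sm62.sum {α : Type} (l : List α) {f : α → (Q : ℕ) → (FM (Q + 1) →ₗ[ℝ] ℝ) → ℝ}
    (hf : ∀ a, Sm62 (f a)) : Sm62 fun Q ω => (l.map fun a => f a Q ω).sum := by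
  induction l with
  | nil => exact ⟨fun _ => 0, tendsto_const_nhds, fun Q ω _ _ => by simp⟩
  | cons a l ih => exact ((hf a).add ih).congr fun Q ω _ _ => by simp

lemma Sm62.coef {c : ℕ → ℝ} {c0 : ℝ} (hc : Tendsto c atTop (𝓝 c0)) (w w' : Wd) :
    Sm62 fun Q ω => (c0 - c Q) * GW Q ω w w' := by
  obtain ⟨C, -, hC⟩ := GW_bound
  refine ⟨fun Q => |c0 - c Q| * (C w * C w'), ?_, fun Q ω hQ hω => ?_⟩
  · have := ((hc.const_sub c0).abs).mul_const (C w * C w')
    simpa using this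
  · rw [abs_mul, mul_assoc]
    exact mul_le_mul_of_nonneg_left (hC Q ω hQ hω w w') (abs_nonneg _)

lemma t62_sub {α : Type} (l : List α) (f g : α → ℝ) :
    (l.map fun a => f a - g a).sum = (l.map f).sum - (l.map g).sum := by
  induction l with
  | nil => simp
  | cons a l ih =>
    simp only [List.map_cons, List.sum_cons, ih]
    ring

lemma t62_neg {α : Type} (l : List α) (f : α → ℝ) :
    (l.map fun a => -f a).sum = -(l.map f).sum := by
  induction l with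
  | nil => simp
  | cons a l ih =>
    simp only [List.map_cons, List.sum_cons, ih]
    ring

lemma t62_pair (a b : Wd) :
    Sm62 fun Q ω => cbG (GW Q ω) (lowW a) (oneW b) + cbG (GW Q ω) (oneW a) (upW b) := by
  refine ((Sm62.coef (tendsto_muQ a.1) (a.1 - 1, a.2) b).add
    (Sm62.sum (lowL a.2) fun p => Sm62.coef (tendsto_phQ p.1) (a.1, p.2) b)).congr
    fun Q ω hQ hω => ?_
  have h := GW_rel hQ hω a b
  have e1 : cbG (GW Q ω) (lowW a) (oneW b) = 2 * (a.1 : ℝ) * GW Q ω (a.1 - 1, a.2) b +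
      ((lowL a.2).map fun p => (p.1 : ℝ) * GW Q ω (a.1, p.2) b).sum := by
    simp [cbG, lowW, oneW, Function.comp_def]
  have e2 : cbG (GW Q ω) (oneW a) (upW b) = -GW Q ω a (b.1 + 1, b.2) -
      ((upL b.2).map fun ks => GW Q ω a (b.1, ks)).sum := by
    simp [cbG, upW, oneW, Function.comp_def, t62_neg, sub_eq_add_neg]
  simp only [sub_mul, t62_sub]
  rw [e1, e2]
  linarith

lemma t62_bil {α β : Type} (A B : List α) (Y : List (List ℤ)) (u v : α → β) (g : β → β → ℝ) :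
    bil (A.map u) (B.map v) Y g = bil A B Y fun a b => g (u a) (v b) := by
  simp only [bil, List.zip_map_left, List.map_map, Function.comp_def, Prod.map_fst, Prod.map_snd,
    id]

lemma t62_bil_add {α : Type} (A B : List α) (Y : List (List ℤ)) (g g' : α → α → ℝ) :
    bil A B Y g + bil A B Y g' = bil A B Y fun a b => g a b + g' a b := by
  simp only [bil, mul_add, List.sum_map_add]

theorem tele_small (tl : List Tl) : ∃ ε : ℕ → ℝ, Tendsto ε atTop (𝓝 0) ∧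
    ∀ (Q : ℕ) (ω : FM (Q + 1) →ₗ[ℝ] ℝ), 1 ≤ Q → InvState Q ω →
      |bksVal (GW Q ω) (teleBks tl)| ≤ ε Q * G2 Q ω := by
  have h : Sm62 fun Q ω => (tl.map fun t => bil t.A t.B t.Y fun a b =>
      cbG (GW Q ω) (lowW a) (oneW b) + cbG (GW Q ω) (oneW a) (upW b)).sum :=
    Sm62.sum tl fun t => Sm62.sum (t.A.zip t.Y) fun p => Sm62.sum (t.B.zip p.2) fun q =>
      (t62_pair p.1 q.1).const_mul (q.2 : ℝ)
  refine h.congr fun Q ω _ _ => ?_
  simp only [bksVal, teleBks, List.map_append, List.sum_append, List.map_map, Function.comp_def,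
    bkVal, teleLo, teleUp, t62_bil, ← t62_bil_add, List.sum_map_add]

end Crest.Agent.R340
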