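import Crest.Agent.R340.G0Grp
import Crest.Agent.R340.G0Tele
import Crest.Agent.R340.FgTransfer
import Crest.Agent.R340.FgCertQ

/-! Row 340: transfer of the local inequality to finite flux. -/

set_option autoImplicit false

namespace Crest.Agent.R340

open Matrix Finset Filter Topology

/-- The flattened list of coefficients of a list of blocks. -/
noncomputable def bkFlat (ks : List Bk) : List (ℝ × Wd × Wd) :=
  ks.flatMap fun k => (k.A.zip k.Y).flatMap fun p => (k.B.zip p.2).flatMap fun q =>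
    p.1.flatMap fun u => q.1.map fun v => ((q.2 : ℝ) * (u.1 : ℝ) * (v.1 : ℝ), u.2, v.2)

lemma sum_map_flatMap' {α β : Type} (l : List α) (f : α → List β) (g : β → ℝ) :
    ((l.flatMap f).map g).sum = (l.map fun a => ((f a).map g).sum).sum := by
  induction l with
  | nil => simp
  | cons a l ih => simp only [List.flatMap_cons, List.map_append, List.sum_append, ih,
      List.map_cons, List.sum_cons]

lemma bksVal_flat (G : Wd → Wd → ℝ) (ks : List Bk) :
    bksVal G ks = ((bkFlat ks).map fun e => e.1 * G e.2.1 e.2.2).sum := by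
  unfold bksVal bkFlat bkVal bil cbG
  rw [sum_map_flatMap']
  congr 1
  refine List.map_congr_left fun k _ => ?_
  rw [sum_map_flatMap']
  congr 1
  refine List.map_congr_left fun p _ => ?_
  rw [sum_map_flatMap']
  congr 1
  refine List.map_congr_left fun q _ => ?_
  rw [sum_map_flatMap', ← List.sum_map_mul_left]
  congr 1
  refine List.map_congr_left fun u _ => ?_
  rw [List.map_map, ← List.sum_map_mul_left]
  congr 1
  refine List.map_congr_left fun v _ => ?_
  simp only [Function.comp]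
  ring

lemma bkFlat_ok {J : ℕ} {ks : List Bk} (hi : bksOK J ks = true) {e : ℝ × Wd × Wd}
    (he : e ∈ bkFlat ks) : wdOK J e.2.1 = true ∧ wdOK J e.2.2 = true := by
  unfold bkFlat at he
  simp only [List.mem_flatMap, List.mem_map] at he
  obtain ⟨k, hk, p, hp, q, hq, u, hu, v, hv, rfl⟩ := he
  unfold bksOK at hi
  rw [List.all_eq_true] at hi
  have h1 := hi k hk
  rw [Bool.and_eq_true, List.all_eq_true, List.all_eq_true] at h1
  have ha := h1.1 p.1 (List.of_mem_zip hp).1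
  have hb := h1.2 q.1 (List.of_mem_zip hq).1
  unfold cbOK at ha hb
  rw [List.all_eq_true] at ha hb
  exact ⟨ha u hu, hb v hv⟩

lemma TrL.chs {Q J : ℕ} {R : Finset (Fin (Q + 1))} {Ψ : Finset (Fin (Q + 1)) → ℝ}
    {ψ : Finset ℕ → ℝ} (h : TrL J R Ψ ψ) (hJ : J ≤ Q) (l : List ℕ) (hl : ∀ k ∈ l, k ≤ J) :
    TrL J R (chs Q l *ᵥ Ψ) (annL l ψ) := by
  induction l with
  | nil => simpa only [R340.chs, annL, one_mulVec] using h
  | cons k l ih =>
    have h1 := (ih fun j hj => hl j (List.mem_cons_of_mem _ hj)).ch hJ (hl k List.mem_cons_self)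
    simpa only [R340.chs, annL, ← mulVec_mulVec] using h1

lemma TrL.EW {Q J : ℕ} {R : Finset (Fin (Q + 1))} {Ψ : Finset (Fin (Q + 1)) → ℝ}
    {ψ : Finset ℕ → ℝ} (h : TrL J R Ψ ψ) (hJ : J ≤ Q) {w : Wd} (hw : wdOK J w = true) :
    TrL J R (EW Q w *ᵥ Ψ) (EWS w ψ) := by
  unfold wdOK at hw
  rw [Bool.and_eq_true, List.all_eq_true, decide_eq_true_eq] at hw
  have h1 := (h.Bh hJ hw.1).chs hJ w.2 fun k hk => of_decide_eq_true (hw.2 k hk)
  simpa only [R340.EW, EWS, ← mulVec_mulVec] using h1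

theorem transfer0 {J Q : ℕ} (hJ : J ≤ Q) (hQ : 1 ≤ Q) {ks : List Bk}
    (hi : bksOK J ks = true) (h : LocalBk J ks) (Φ : Finset (Fin (Q + 1)) → ℝ) :
    0 ≤ ∑ T, Dl Q J T * bksVal (fun w w' => (EW Q w *ᵥ Φ) T * (EW Q w' *ᵥ Φ) T) ks := by
  refine tr_sum_nonneg hJ _ fun R => ?_
  set φ : Finset ℕ → ℝ := fun S => trW Q S * Φ (trEmb J R S) with hφ
  have hL : TrL J R Φ φ := fun S _ => rfl
  refine (h φ).trans_eq (Finset.sum_congr rfl fun S hS => ?_)
  have hS' : S ⊆ range (J + 1) := mem_powerset.1 hS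
  have e : bksVal (fun w w' => EWS w φ S * EWS w' φ S) ks = (trW Q S * trW Q S) *
      bksVal (fun w w' => (EW Q w *ᵥ Φ) (trEmb J R S) * (EW Q w' *ᵥ Φ) (trEmb J R S)) ks := by
    rw [bksVal_flat, bksVal_flat, ← List.sum_map_mul_left]
    congr 1
    refine List.map_congr_left fun e he => ?_
    obtain ⟨a1, a2⟩ := bkFlat_ok hi he
    rw [(hL.EW hJ a1) S hS', (hL.EW hJ a2) S hS']
    ring
  rw [e, tr_Dl hJ R hS']
  ring

theorem cert_omega0 {J : ℕ} {ks : List Bk} (hi : bksOK J ks = true) (h : LocalBk J ks) :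
    ∃ ε : ℕ → ℝ, Tendsto ε atTop (𝓝 0) ∧
      ∀ (Q : ℕ) (ω : FM (Q + 1) →ₗ[ℝ] ℝ), J ≤ Q → 1 ≤ Q → InvState Q ω →
        0 ≤ bksVal (GW Q ω) ks + ε Q * G2 Q ω := by
  obtain ⟨δ, hδ, hD⟩ := Dl_tendsto J
  obtain ⟨C, -, hC⟩ := GW_bound
  set K := ((bkFlat ks).map fun e => |e.1| * (C e.2.1 * C e.2.1 + C e.2.2 * C e.2.2)).sum with hK
  refine ⟨fun Q => K * (δ Q / 2), ?_, fun Q ω hJ hQ hω => ?_⟩
  · simpa using (hδ.div_const 2).const_mul K
  have h1 := cq_le hω (bkFlat ks) (fun e => e.1) (fun e => EW Q e.2.1) (fun e => EW Q e.2.2)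
    (Dl Q J) (g := G2 Q ω) (hD Q hJ hQ) (fun e => C e.2.1 * C e.2.1 + C e.2.2 * C e.2.2) fun e => by
      have a := (le_abs_self _).trans (hC Q ω hQ hω e.2.1 e.2.1)
      have b := (le_abs_self _).trans (hC Q ω hQ hω e.2.2 e.2.2)
      unfold GW at a b
      linarith
  have hpos := hω.pos (cqY (bkFlat ks) (fun e => e.1) (fun e => EW Q e.2.1)
    (fun e => EW Q e.2.2) (Dl Q J)) fun Φ => by
    have ht := transfer0 hJ hQ hi h Φ
    rw [cq_dot]
    simpa only [bksVal_flat] using ht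
  rw [← hK] at h1
  rw [bksVal_flat]
  simp only [GW]
  linarith

end Crest.Agent.R340
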