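import Crest.Agent.R340.CFock

/-! # Row 340, module GEO: coherent states, rotations, second quantisation (definitions) -/

set_option autoImplicit false

namespace Crest.Agent.R340

open Matrix MeasureTheory Crest.MathPhysics.Laughlin
open scoped ComplexConjugate

variable {n : ℕ}

/-- `c(f) = Σ conj (f j) c_j` (antilinear in `f`) -/
noncomputable def cC (f : Fin n → ℂ) : Fk n := ∑ j, conj (f j) • annC j

/-- the vacuum -/
def vac (n : ℕ) : Finset (Fin n) → ℂ := Pi.single ∅ 1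

/-- second quantisation `Γ(A)`: column `T` is `∏_{j ∈ T} c^*(A e_j) Ω` -/
noncomputable def Gam (A : Matrix (Fin n) (Fin n) ℂ) : Fk n :=
  Matrix.of fun S T => (((T.sort (· ≤ ·)).map fun j => star (cC fun i => A i j)).prod) S ∅

/-- unit spinors -/
def IsUnitSp (u : ℂ × ℂ) : Prop := ‖u.1‖ ^ 2 + ‖u.2‖ ^ 2 = 1

/-- coherent vector of a spinor: the polynomial `(conj u.1 z₀ + conj u.2 z₁)^q` -/
noncomputable def kv (q : ℕ) (u : ℂ × ℂ) (j : Fin (q + 1)) : ℂ :=
  (Real.sqrt (q.choose j) : ℂ) * conj (u.1 ^ (q - j) * u.2 ^ (j : ℕ))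

/-- the matrix `[[u.1, -conj u.2], [u.2, conj u.1]]` acting on `v` -/
def act (u v : ℂ × ℂ) : ℂ × ℂ := (u.1 * v.1 - conj u.2 * v.2, u.2 * v.1 + conj u.1 * v.2)

/-- the inverse rotation -/
def spInv (u : ℂ × ℂ) : ℂ × ℂ := (conj u.1, -u.2)

open Polynomial in
/-- the spin `q/2` representation of the rotation `act u` in the orbital basis -/
noncomputable def rho (q : ℕ) (u : ℂ × ℂ) : Matrix (Fin (q + 1)) (Fin (q + 1)) ℂ :=
  Matrix.of fun j k => ((Real.sqrt (q.choose k) / Real.sqrt (q.choose j) : ℝ) : ℂ) *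
    ((C (conj u.1) + C (conj u.2) * X) ^ (q - k) * (C (-u.2) + C u.1 * X) ^ (k : ℕ)).coeff j

/-- a measurable unit spinor over the point `x` -/
noncomputable def spin (x : S2) : ℂ × ℂ :=
  if (x : EuclideanSpace ℝ (Fin 3)) 2 = -1 then (0, 1)
  else ((Real.sqrt ((1 + (x : EuclideanSpace ℝ (Fin 3)) 2) / 2) : ℂ),
    ((x : EuclideanSpace ℝ (Fin 3)) 0 + (x : EuclideanSpace ℝ (Fin 3)) 1 * Complex.I) /
      (2 * (Real.sqrt ((1 + (x : EuclideanSpace ℝ (Fin 3)) 2) / 2) : ℂ)))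

/-- the unit coherent state at `x` -/
noncomputable def coh (q : ℕ) (x : S2) : Fin (q + 1) → ℂ := kv q (spin x)

/-- the `k`-th orbital centred at `x` (`orb q x 0 = coh q x`) -/
noncomputable def orb (q : ℕ) (x : S2) (k : Fin (q + 1)) : Fin (q + 1) → ℂ :=
  fun j => rho q (spin x) j k

/-- `t = |x - y|² / 4 ∈ [0, 1]` -/
noncomputable def tS (x y : S2) : ℝ :=
  ‖(x : EuclideanSpace ℝ (Fin 3)) - (y : EuclideanSpace ℝ (Fin 3))‖ ^ 2 / 4

/-- magnetic (chordal) distance, `dq² = q t` -/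
noncomputable def dq (q : ℕ) (x y : S2) : ℝ :=
  Real.sqrt q * ‖(x : EuclideanSpace ℝ (Fin 3)) - (y : EuclideanSpace ℝ (Fin 3))‖ / 2

/-- surface measure -/
noncomputable def sigS : Measure S2 := (volume : Measure (EuclideanSpace ℝ (Fin 3))).toSphere

/-- surface measure of total mass `q + 1` -/
noncomputable def muq (q : ℕ) : Measure S2 :=
  ENNReal.ofReal (((q : ℝ) + 1) / (4 * Real.pi)) • sigS

/-- coherent annihilator -/
noncomputable def ca (q : ℕ) (x : S2) : Fk (q + 1) := cC (coh q x)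

/-- the Fock space rotation moving the north pole to `x` -/
noncomputable def rotF (q : ℕ) (x : S2) : Fk (q + 1) := Gam (rho q (spin x))

/-- `B_p` with a natural number index -/
noncomputable def Bn (q p : ℕ) : Fk (q + 1) := if h : p < 2 * q - 1 then BC q ⟨p, h⟩ else 0

/-- pair annihilator of a pair orbital `w` (spin `q - 1`) -/
noncomputable def bC (q : ℕ) (w : Fin (2 * q - 2 + 1) → ℂ) : Fk (q + 1) :=
  ∑ p, conj (w p) • Bn q p

/-- `B_p` centred at `x` -/
noncomputable def Bx (q : ℕ) (x : S2) (p : Fin (2 * q - 2 + 1)) : Fk (q + 1) :=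
  bC q (orb (2 * q - 2) x p)

/-- the coherent pair annihilator `B(x) = c(e_1^x) c(e_0^x)` -/
noncomputable def By (q : ℕ) (x : S2) : Fk (q + 1) := bC q (coh (2 * q - 2) x)

/-- energy density: `H = ∫ hx dμ_q` -/
noncomputable def hx (q : ℕ) (x : S2) : Fk (q + 1) :=
  ((2 * (q : ℝ) - 1) / ((q : ℝ) + 1)) • (star (By q x) * By q x)

end Crest.Agent.R340
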