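import Crest.Agent.R340.LcRep

/-! # Row 340, module LOC: CAR, the profile `ell` -/

set_option autoImplicit false

namespace Crest.Agent.R340.Loc

open Matrix MeasureTheory Finset
open scoped Matrix.Norms.L2Operator MatrixOrder ComplexOrder

variable {n : ℕ} {A B : Fk n}

/-! ### part A: fields -/

theorem cA_add (v w : Fin n → ℂ) : cA (v + w) = cA v + cA w := by
  simp only [cA, Pi.add_apply, star_add, add_smul, Finset.sum_add_distrib]
theorem cA_smul (z : ℂ) (v : Fin n → ℂ) : cA (z • v) = star z • cA v := by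
  simp only [cA, Pi.smul_apply, smul_eq_mul, star_mul', Finset.smul_sum, mul_smul]
theorem cA_zero : cA (0 : Fin n → ℂ) = 0 := by
  simp only [cA, Pi.zero_apply, star_zero, zero_smul, Finset.sum_const_zero]
theorem cA_sub (v w : Fin n → ℂ) : cA (v - w) = cA v - cA w := by
  simp only [cA, Pi.sub_apply, star_sub, sub_smul, Finset.sum_sub_distrib]
theorem cA_sum {ι : Type} (s : Finset ι) (v : ι → Fin n → ℂ) :
    cA (∑ i ∈ s, v i) = ∑ i ∈ s, cA (v i) := by
  simp only [cA, Finset.sum_apply, star_sum, Finset.sum_smul]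
  exact Finset.sum_comm
theorem cA_single (j : Fin n) : cA (Pi.single j 1) = annC j := by
  rw [cA, Finset.sum_eq_single j]
  · simp
  · intro i _ hi
    simp [Pi.single_eq_of_ne hi]
  · simp
theorem cA_anticomm (v w : Fin n → ℂ) : cA v * cA w = -(cA w * cA v) := by
  simp only [cA, Finset.sum_mul, Finset.mul_sum, smul_mul_smul_comm, ← Finset.sum_neg_distrib]
  rw [Finset.sum_comm]
  refine Finset.sum_congr rfl fun i _ => Finset.sum_congr rfl fun j _ => ?_
  rw [annC_anticomm, smul_neg, mul_comm]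
theorem cA_mul_self (v : Fin n → ℂ) : cA v * cA v = 0 := by
  have h := cA_anticomm v v
  have h2 : (2 : ℂ) • (cA v * cA v) = 0 := by
    rw [two_smul]; exact eq_neg_iff_add_eq_zero.1 h
  exact (smul_eq_zero.1 h2).resolve_left two_ne_zero
theorem cA_car (v w : Fin n → ℂ) :
    cA v * star (cA w) + star (cA w) * cA v = (star v ⬝ᵥ w) • (1 : Fk n) := by
  have h : cA v * star (cA w) + star (cA w) * cA v =
      ∑ i, ∑ j, (star (v i) * w j) • (annC i * star (annC j) + star (annC j) * annC i) := by
    simp only [cA, star_sum, star_smul, star_star, Finset.sum_mul, Finset.mul_sum,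
      smul_mul_smul_comm, smul_add, Finset.sum_add_distrib]
    congr 1
    · exact Finset.sum_comm
    · refine Finset.sum_congr rfl fun i _ => Finset.sum_congr rfl fun j _ => ?_
      rw [mul_comm]
  rw [h, dotProduct, Finset.sum_smul]
  refine Finset.sum_congr rfl fun i _ => ?_
  rw [Finset.sum_eq_single i]
  · rw [annC_car, if_pos rfl, Pi.star_apply]
  · intro j _ hj
    rw [annC_car, if_neg (Ne.symm hj), smul_zero]
  · simp
theorem x71_dot (v : Fin n → ℂ) : star v ⬝ᵥ v = ((nv v ^ 2 : ℝ) : ℂ) := by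
  rw [nv, EuclideanSpace.norm_sq_eq, dotProduct]
  push_cast
  refine Finset.sum_congr rfl fun i _ => ?_
  rw [Pi.star_apply, Complex.star_def, Complex.conj_mul']
/-- `(c^* c)² = ‖v‖² c^* c` -/
theorem norm_cA_le (v : Fin n → ℂ) : ‖cA v‖ ≤ nv v := by
  have h0 : 0 ≤ nv v := norm_nonneg _
  have h1 : cA v * star (cA v) = ((nv v ^ 2 : ℝ) : ℂ) • (1 : Fk n) - star (cA v) * cA v := by
    rw [← x71_dot, ← cA_car, add_sub_cancel_right]
  have h2 : star (star (cA v) * cA v) * (star (cA v) * cA v) =
      ((nv v ^ 2 : ℝ) : ℂ) • (star (cA v) * cA v) := by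
    rw [star_mul, star_star, mul_assoc, ← mul_assoc (cA v), h1, sub_mul, mul_assoc, cA_mul_self,
      mul_zero, sub_zero, smul_mul_assoc, one_mul, mul_smul_comm]
  have h3 := congrArg norm h2
  rw [CStarRing.norm_star_mul_self, norm_smul, CStarRing.norm_star_mul_self, Complex.norm_real,
    Real.norm_of_nonneg (sq_nonneg _)] at h3
  by_contra hlt
  have hlt' : nv v < ‖cA v‖ := not_le.1 hlt
  have hp : 0 < ‖cA v‖ * ‖cA v‖ := mul_pos (h0.trans_lt hlt') (h0.trans_lt hlt')
  have h4 : ‖cA v‖ * ‖cA v‖ = nv v ^ 2 := mul_right_cancel₀ hp.ne' h3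
  nlinarith
@[fun_prop] theorem continuous_cA : Continuous (cA : (Fin n → ℂ) → Fk n) := by
  unfold cA
  exact continuous_finsetSum _ fun j _ =>
    (continuous_star.comp (continuous_apply j)).smul continuous_const
theorem numC_mul_cA (v : Fin n → ℂ) : numC n * cA v = cA v * numC n - cA v := by
  simp only [cA, Finset.mul_sum, Finset.sum_mul, mul_smul_comm, smul_mul_assoc, numC_mul_annC,
    smul_sub, Finset.sum_sub_distrib]
theorem par_mul_par : par n * par n = 1 := by
  rw [par, Matrix.diagonal_mul_diagonal, ← Matrix.diagonal_one]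
  congr 1
  funext S
  rw [← mul_pow]; simp
theorem star_par : star (par n) = par n := by
  rw [par, Matrix.star_eq_conjTranspose, Matrix.diagonal_conjTranspose]
  congr 1
  funext S
  simp
theorem par_unitary : par n ∈ unitary (Fk n) := by
  rw [Unitary.mem_iff, star_par]
  exact ⟨par_mul_par, par_mul_par⟩
theorem norm_mul_par (A : Fk n) : ‖A * par n‖ = ‖A‖ :=
  CStarRing.norm_mul_mem_unitary A par_unitary
theorem norm_par_mul (A : Fk n) : ‖par n * A‖ = ‖A‖ :=
  CStarRing.norm_mem_unitary_mul A par_unitary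
theorem x71_par_annC (j : Fin n) : par n * annC j = -(annC j * par n) := by
  ext S T
  simp only [par, Matrix.diagonal_mul, Matrix.mul_diagonal, annC, cx, Crest.Agent.R340.ann,
    Matrix.map_apply, Matrix.of_apply, Matrix.neg_apply]
  by_cases h : j ∉ S ∧ T = insert j S
  · obtain ⟨h1, rfl⟩ := h
    simp [Finset.card_insert_of_notMem h1, h1]
    ring
  · simp [h]
theorem par_mul_cA (v : Fin n → ℂ) : par n * cA v = -(cA v * par n) := by
  simp only [cA, Finset.mul_sum, Finset.sum_mul, mul_smul_comm, smul_mul_assoc, x71_par_annC,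
    smul_neg, Finset.sum_neg_distrib]
theorem par_mul_star_cA (v : Fin n → ℂ) : par n * star (cA v) = -(star (cA v) * par n) := by
  have h := congrArg star (par_mul_cA v)
  rw [star_neg, star_mul, star_mul, star_par] at h
  rw [h, neg_neg]
theorem dA_add (v w : Fin n → ℂ) : dA (v + w) = dA v + dA w := by
  rw [dA, cA_add, add_mul, dA, dA]
theorem dA_smul (z : ℂ) (v : Fin n → ℂ) : dA (z • v) = star z • dA v := by
  rw [dA, cA_smul, smul_mul_assoc, dA]
theorem dA_sum {ι : Type} (s : Finset ι) (v : ι → Fin n → ℂ) :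
    dA (∑ i ∈ s, v i) = ∑ i ∈ s, dA (v i) := by
  simp only [dA, cA_sum, Finset.sum_mul]
theorem a2_dA_mul (v : Fin n → ℂ) (X : Fk n) : dA v * (par n * X) = cA v * X := by
  rw [dA, mul_assoc, ← mul_assoc (par n), par_mul_par, one_mul]
theorem a2_star_dA (v : Fin n → ℂ) : star (dA v) = par n * star (cA v) := by
  rw [dA, star_mul, star_par]
theorem a2_dA_dA (v w : Fin n → ℂ) : dA v * dA w = -(cA v * cA w) := by
  have : dA w = -(par n * cA w) := by rw [par_mul_cA, neg_neg, dA]
  rw [this, mul_neg, a2_dA_mul]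
theorem dA_anticomm (v w : Fin n → ℂ) : dA v * dA w = -(dA w * dA v) := by
  rw [a2_dA_dA, a2_dA_dA, cA_anticomm]
theorem dA_car (v w : Fin n → ℂ) :
    dA v * star (dA w) + star (dA w) * dA v = (star v ⬝ᵥ w) • (1 : Fk n) := by
  have h1 : dA v = -(par n * cA v) := by rw [par_mul_cA, neg_neg, dA]
  have h2 : star (dA w) * dA v = star (cA w) * cA v := by
    rw [a2_star_dA, par_mul_star_cA, h1, neg_mul_neg, mul_assoc, ← mul_assoc (par n), par_mul_par,
      one_mul]
  rw [h2, a2_star_dA, a2_dA_mul, cA_car]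
theorem norm_dA_le (v : Fin n → ℂ) : ‖dA v‖ ≤ nv v := by
  rw [dA, norm_mul_par]
  exact norm_cA_le v
@[fun_prop] theorem continuous_dA : Continuous (dA : (Fin n → ℂ) → Fk n) :=
  continuous_cA.mul continuous_const
theorem cm_cA_dA (v w : Fin n → ℂ) : cm (cA v) (dA w) = 0 := by
  rw [cm, dA, mul_assoc (cA w), par_mul_cA, mul_neg, ← mul_assoc, ← mul_assoc, cA_anticomm v w,
    neg_mul, sub_self]
theorem cm_cA_star_dA (v w : Fin n → ℂ) :
    cm (cA v) (star (dA w)) = -((star v ⬝ᵥ w) • par n) := by
  have h := congrArg (· * par n) (cA_car v w)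
  simp only [add_mul, smul_mul_assoc, one_mul] at h
  rw [cm, a2_star_dA, par_mul_star_cA, ← h, mul_neg, neg_mul, mul_assoc (star (cA w)), par_mul_cA,
    mul_neg, neg_neg, ← mul_assoc, ← mul_assoc]
  abel
theorem numC_mul_dA (v : Fin n → ℂ) : numC n * dA v = dA v * numC n - dA v := by
  have h : numC n * par n = par n * numC n := by
    simp only [numC, par, Matrix.diagonal_mul_diagonal, mul_comm]
  rw [dA, ← mul_assoc, numC_mul_cA, sub_mul, mul_assoc, h, mul_assoc]
theorem dG_vecMulVec (v w : Fin n → ℂ) : dG (vecMulVec v (star w)) = star (cA v) * cA w := by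
  simp only [dG, cA, star_sum, star_smul, star_star, Finset.sum_mul_sum, vecMulVec_apply,
    smul_mul_smul_comm, Pi.star_apply]
theorem a2_cm_annC (v : Fin n → ℂ) (i j : Fin n) :
    cA v * (star (annC i) * annC j) - star (annC i) * annC j * cA v = star (v i) • annC j := by
  have h1 := cA_car v (Pi.single i 1)
  have h2 := cA_anticomm (Pi.single j 1) v
  rw [cA_single] at h1 h2
  rw [dotProduct_single_one, Pi.star_apply] at h1
  rw [mul_assoc, h2, mul_neg, sub_neg_eq_add, ← mul_assoc, ← mul_assoc, ← add_mul, h1,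
    smul_mul_assoc, one_mul]
theorem cm_cA_dG (v : Fin n → ℂ) (T : Matrix (Fin n) (Fin n) ℂ) :
    cm (cA v) (dG T) = cA (star T *ᵥ v) := by
  have h : cm (cA v) (dG T) = ∑ i, ∑ j, T i j • (star (v i) • annC j) := by
    simp only [cm, dG, Finset.mul_sum, Finset.sum_mul, ← Finset.sum_sub_distrib, mul_smul_comm,
      smul_mul_assoc, ← smul_sub, a2_cm_annC]
  rw [h, Finset.sum_comm, cA]
  refine Finset.sum_congr rfl fun j _ => ?_
  simp only [smul_smul, ← Finset.sum_smul, mulVec, dotProduct, star_sum, star_mul', star_apply,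
    star_star]
theorem a2_num (j : Fin n) :
    annC j * star (annC j) = Matrix.diagonal fun S => if j ∈ S then 0 else 1 := by
  have h : (ann j)ᵀ * ann j = Matrix.diagonal fun S => if j ∈ S then (1 : ℝ) else 0 :=
    mat_ext_mulVec fun Φ => funext fun S => by
      rw [annT_ann_mulVec, mulVec_diagonal]
      split_ifs <;> simp
  have h2 : star (annC j) * annC j = Matrix.diagonal fun S => if j ∈ S then (1 : ℂ) else 0 := by
    rw [annC, ← cx_transpose, ← cx_mul, h]
    ext S T
    by_cases e : S = T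
    · subst e
      by_cases k : j ∈ S <;> simp [cx, k]
    · simp [cx, e]
  have h3 := annC_car j j
  rw [if_pos rfl, h2] at h3
  rw [eq_sub_of_add_eq h3, ← Matrix.diagonal_one, Matrix.diagonal_sub]
  congr 1
  funext S
  split_ifs <;> simp
theorem a2_single (j : Fin n) {S : Finset (Fin n)} (h : j ∉ S) :
    Matrix.single (∅ : Finset (Fin n)) (insert j S) (1 : ℂ) =
      (sgn j S : ℂ) • (Matrix.single ∅ S 1 * annC j) := by
  have hs : (sgn j S : ℂ) * sgn j S = 1 := by exact_mod_cast sgn_mul_self j S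
  ext a b
  by_cases ha : a = ∅
  · subst ha
    rw [Matrix.smul_apply, Matrix.single_mul_apply_same, one_mul]
    by_cases hb : b = insert j S
    · subst hb
      simp [annC, cx, ann, h, hs]
    · simp [annC, cx, ann, hb, Ne.symm hb]
  · rw [Matrix.smul_apply, Matrix.single_mul_apply_of_ne _ _ _ _ _ ha]
    simp [Ne.symm ha]
/-- the matrix units are products of `c`, `c^*` -/
theorem adjoin_annC : StarAlgebra.adjoin ℂ (Set.range (annC (n := n))) = ⊤ := by
  obtain ⟨M, hM⟩ : ∃ M, M = StarAlgebra.adjoin ℂ (Set.range (annC (n := n))) := ⟨_, rfl⟩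
  have h0 : ∀ j, annC j ∈ M := fun j => hM ▸ StarAlgebra.subset_adjoin ℂ _ ⟨j, rfl⟩
  have h1 : ∀ U : Finset (Fin n),
      (Matrix.diagonal fun S => if Disjoint S U then 1 else 0 : Fk n) ∈ M := by
    intro U
    induction U using Finset.induction_on with
    | empty => simp
    | insert j U _ ih =>
      have := mul_mem (mul_mem (h0 j) (star_mem (h0 j))) ih
      rw [a2_num, Matrix.diagonal_mul_diagonal] at this
      have e : (fun S : Finset (Fin n) => if Disjoint S (insert j U) then (1 : ℂ) else 0) =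
          fun S => (if j ∈ S then 0 else 1) * if Disjoint S U then 1 else 0 := by
        funext S
        by_cases a : j ∈ S <;> simp [a]
      rw [e]
      exact this
  have h2 : ∀ T : Finset (Fin n), Matrix.single ∅ T (1 : ℂ) ∈ M := by
    intro T
    induction T using Finset.induction_on with
    | empty =>
      convert h1 Finset.univ using 1
      ext a b
      by_cases e : a = b
      · subst e
        by_cases k : a = ∅
        · simp [k]
        · simp [k, Ne.symm k, ← Finset.top_eq_univ]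
      · rw [Matrix.diagonal_apply_ne _ e, Matrix.single_apply, if_neg]
        rintro ⟨rfl, rfl⟩
        exact e rfl
    | insert j S hj ih =>
      rw [a2_single j hj]
      exact M.smul_mem (M.mul_mem ih (h0 j)) _
  rw [← hM, eq_top_iff]
  intro X _
  rw [Matrix.matrix_eq_sum_single X]
  refine sum_mem fun S _ => sum_mem fun T _ => ?_
  have := M.smul_mem (mul_mem (star_mem (h2 S)) (h2 T)) (X S T)
  rwa [Matrix.star_eq_conjTranspose, Matrix.conjTranspose_single, Matrix.single_mul_single_same,
    star_one, one_mul, Matrix.smul_single, smul_eq_mul, mul_one] at this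

/-! ### part B: parity and the profile -/

theorem Ev.add (hA : Ev A) (hB : Ev B) : Ev (A + B) := by
  exact Commute.add_right hA hB
theorem Ev.sub (hA : Ev A) (hB : Ev B) : Ev (A - B) := by
  exact Commute.sub_right hA hB
theorem Ev.mul (hA : Ev A) (hB : Ev B) : Ev (A * B) := by
  exact Commute.mul_right hA hB
theorem Ev.smul (hA : Ev A) (z : ℂ) : Ev (z • A) := by
  exact Commute.smul_right hA z
theorem Ev.star (hA : Ev A) : Ev (star A) := by
  have h := Commute.star_star hA
  rwa [star_par] at h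
theorem Ev.cm (hA : Ev A) (hB : Ev B) : Ev (cm A B) := by
  exact (hA.mul hB).sub (hB.mul hA)
theorem ev_one : Ev (1 : Fk n) := by
  exact Commute.one_right _
theorem ev_of_numC (h : Commute (numC n) A) : Ev A := by
  ext S T
  have := congrFun (congrFun h.eq S) T
  simp only [numC, par, Matrix.diagonal_mul, Matrix.mul_diagonal] at this ⊢
  by_cases hA : A S T = 0
  · simp [hA]
  · have e : (S.card : ℂ) = T.card := mul_right_cancel₀ hA (this.trans (mul_comm _ _))
    have e' : S.card = T.card := by exact_mod_cast e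
    rw [e', mul_comm]
theorem ev_cA_cA (v w : Fin n → ℂ) : Ev (cA v * cA w) := by
  rw [Ev, Commute, SemiconjBy, ← mul_assoc, par_mul_cA, neg_mul, mul_assoc, par_mul_cA, mul_neg,
    neg_neg, mul_assoc]
theorem ev_star_cA_cA (v w : Fin n → ℂ) : Ev (star (cA v) * cA w) := by
  rw [Ev, Commute, SemiconjBy, ← mul_assoc, par_mul_star_cA, neg_mul, mul_assoc, par_mul_cA,
    mul_neg, neg_neg, mul_assoc]
theorem cb1_right {ι : Type} [MeasurableSpace ι] {ν : Measure ι} {D : ι → Fk n}
    (hD : Integrable D ν) (B : Fk n) : cm B (∫ i, D i ∂ν) = ∫ i, cm B (D i) ∂ν :=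
  ((ContinuousLinearMap.mul ℂ _ B - (ContinuousLinearMap.mul ℂ _).flip B).integral_comp_comm
    hD).symm
theorem commute_integral {ι : Type} [MeasurableSpace ι] {ν : Measure ι} {D : ι → Fk n}
    (hD : Integrable D ν) (h : ∀ i, Commute B (D i)) : Commute B (∫ i, D i ∂ν) := by
  have h1 := cb1_right hD B
  have h2 : ∀ i, cm B (D i) = 0 := fun i => sub_eq_zero.2 (h i).eq
  simp only [h2, integral_zero] at h1
  exact sub_eq_zero.1 h1
theorem cm_integral_left {ι : Type} [MeasurableSpace ι] {ν : Measure ι} {D : ι → Fk n}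
    (hD : Integrable D ν) (B : Fk n) : cm (∫ i, D i ∂ν) B = ∫ i, cm (D i) B ∂ν := by
  exact (((ContinuousLinearMap.mul ℂ _).flip B - ContinuousLinearMap.mul ℂ _ B).integral_comp_comm
    hD).symm
theorem cm_integral_right {ι : Type} [MeasurableSpace ι] {ν : Measure ι} {D : ι → Fk n}
    (hD : Integrable D ν) (B : Fk n) : cm B (∫ i, D i ∂ν) = ∫ i, cm B (D i) ∂ν := by
  exact cb1_right hD B
theorem norm_cm_le (A B : Fk n) : ‖cm A B‖ ≤ 2 * ‖A‖ * ‖B‖ := by
  have h1 := norm_mul_le A B
  have h2 := norm_mul_le B A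
  have h3 := norm_sub_le (A * B) (B * A)
  unfold cm
  linarith
theorem norm_cm_symm (A B : Fk n) : ‖cm A B‖ = ‖cm B A‖ := by
  exact norm_sub_rev _ _
theorem norm_cm_star (A B : Fk n) : ‖cm (star A) B‖ = ‖cm A (star B)‖ := by
  rw [cm, cm, ← norm_star, star_sub, star_mul, star_mul, star_star, norm_sub_rev]
theorem ell_nonneg (A : Fk n) (v : Fin n → ℂ) : 0 ≤ ell A v := by
  exact add_nonneg (norm_nonneg _) (norm_nonneg _)
theorem ell_le (A : Fk n) (v : Fin n → ℂ) : ell A v ≤ 4 * ‖A‖ * nv v := by
  have h1 := norm_cm_le A (dA v)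
  have h2 := norm_cm_le A (star (dA v))
  have h3 := mul_le_mul_of_nonneg_left (norm_dA_le v) (norm_nonneg A)
  rw [norm_star] at h2
  unfold ell
  linarith
theorem ell_add (A B : Fk n) (v : Fin n → ℂ) : ell (A + B) v ≤ ell A v + ell B v := by
  have h : ∀ X : Fk n, ‖cm (A + B) X‖ ≤ ‖cm A X‖ + ‖cm B X‖ := fun X => by
    have e : cm (A + B) X = cm A X + cm B X := by
      unfold cm
      noncomm_ring
    rw [e]
    exact norm_add_le _ _
  unfold ell
  linarith [h (dA v), h (star (dA v))]
theorem ell_sub (A B : Fk n) (v : Fin n → ℂ) : ell (A - B) v ≤ ell A v + ell B v := by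
  have h : ∀ X : Fk n, ‖cm (A - B) X‖ ≤ ‖cm A X‖ + ‖cm B X‖ := fun X => by
    have e : cm (A - B) X = cm A X - cm B X := by
      unfold cm
      noncomm_ring
    rw [e]
    exact norm_sub_le _ _
  unfold ell
  linarith [h (dA v), h (star (dA v))]
theorem ell_smul (z : ℂ) (A : Fk n) (v : Fin n → ℂ) : ell (z • A) v = ‖z‖ * ell A v := by
  have h : ∀ X : Fk n, ‖cm (z • A) X‖ = ‖z‖ * ‖cm A X‖ := fun X => by
    rw [cm, cm, smul_mul_assoc, mul_smul_comm, ← smul_sub, norm_smul]
  rw [ell, ell, h, h, mul_add]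
theorem ell_sum {ι : Type} (s : Finset ι) (A : ι → Fk n) (v : Fin n → ℂ) :
    ell (∑ i ∈ s, A i) v ≤ ∑ i ∈ s, ell (A i) v := by
  classical
  induction s using Finset.induction_on with
  | empty => simp [ell, cm]
  | insert i s hi ih =>
    rw [Finset.sum_insert hi, Finset.sum_insert hi]
    exact (ell_add _ _ v).trans (add_le_add le_rfl ih)
theorem ell_mul (A B : Fk n) (v : Fin n → ℂ) :
    ell (A * B) v ≤ ‖A‖ * ell B v + ell A v * ‖B‖ := by
  have h : ∀ X : Fk n, ‖cm (A * B) X‖ ≤ ‖A‖ * ‖cm B X‖ + ‖cm A X‖ * ‖B‖ := fun X => by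
    have e : cm (A * B) X = A * cm B X + cm A X * B := by
      unfold cm
      noncomm_ring
    rw [e]
    exact (norm_add_le _ _).trans (add_le_add (norm_mul_le _ _) (norm_mul_le _ _))
  unfold ell
  linarith [h (dA v), h (star (dA v))]

theorem ell_star (A : Fk n) (v : Fin n → ℂ) : ell (star A) v = ell A v := by
  rw [ell, ell, norm_cm_star, norm_cm_star, star_star, add_comm]

theorem ell_one (v : Fin n → ℂ) : ell (1 : Fk n) v = 0 := by
  simp [ell, cm]

theorem ell_cA (w v : Fin n → ℂ) : ell (cA w) v = ‖star w ⬝ᵥ v‖ := by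
  rw [ell, cm_cA_dA, cm_cA_star_dA, norm_zero, zero_add, norm_neg, norm_smul,
    CStarRing.norm_of_mem_unitary par_unitary, mul_one]

theorem h19_cm_par_conj {d : Fk n} (hd : par n * d = -(d * par n)) (A : Fk n) :
    ‖cm (par n * A * par n) d‖ = ‖cm A d‖ := by
  have hd' : d * par n = -(par n * d) := by rw [hd, neg_neg]
  have h : cm (par n * A * par n) d = -(par n * cm A d * par n) := by
    have e1 : par n * A * par n * d = -(par n * A * d * par n) := by
      rw [mul_assoc _ (par n) d, hd, mul_neg, ← mul_assoc]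
    have e2 : d * (par n * A * par n) = -(par n * d * A * par n) := by
      rw [← mul_assoc, ← mul_assoc, hd', neg_mul, neg_mul]
    rw [cm, cm, e1, e2]
    noncomm_ring
  rw [h, norm_neg, norm_mul_par, norm_par_mul]

theorem h19_par_dA (v : Fin n → ℂ) : par n * dA v = -(dA v * par n) := by
  rw [dA, ← mul_assoc, par_mul_cA, neg_mul]

theorem h19_par_star_dA (v : Fin n → ℂ) : par n * star (dA v) = -(star (dA v) * par n) := by
  have h := congrArg star (h19_par_dA v)
  rw [star_neg, star_mul, star_mul, star_par] at h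
  rw [h, neg_neg]

theorem ell_par_conj (A : Fk n) (v : Fin n → ℂ) : ell (par n * A * par n) v = ell A v := by
  rw [ell, ell, h19_cm_par_conj (h19_par_dA v), h19_cm_par_conj (h19_par_star_dA v)]

theorem h19_cm_add (A B C : Fk n) : cm A (B + C) = cm A B + cm A C := by
  simp only [cm, mul_add, add_mul]
  abel

theorem h19_cm_smul (A B : Fk n) (z : ℂ) : cm A (z • B) = z • cm A B := by
  simp only [cm, mul_smul_comm, smul_mul_assoc, smul_sub]

theorem ell_add_right (A : Fk n) (v w : Fin n → ℂ) : ell A (v + w) ≤ ell A v + ell A w := by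
  rw [ell, ell, ell, dA_add, star_add, h19_cm_add, h19_cm_add]
  linarith [norm_add_le (cm A (dA v)) (cm A (dA w)),
    norm_add_le (cm A (star (dA v))) (cm A (star (dA w)))]

theorem ell_smul_right (A : Fk n) (z : ℂ) (v : Fin n → ℂ) : ell A (z • v) = ‖z‖ * ell A v := by
  rw [ell, ell, dA_smul, star_smul, star_star, h19_cm_smul, h19_cm_smul, norm_smul, norm_smul,
    norm_star, mul_add]

theorem ell_sum_right {ι : Type} (A : Fk n) (s : Finset ι) (v : ι → Fin n → ℂ) :
    ell A (∑ i ∈ s, v i) ≤ ∑ i ∈ s, ell A (v i) := by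
  classical
  induction s using Finset.induction_on with
  | empty =>
    have h := ell_smul_right A 0 0
    rw [zero_smul, norm_zero, zero_mul] at h
    rw [Finset.sum_empty, Finset.sum_empty, h]
  | insert i s hi ih =>
    rw [Finset.sum_insert hi, Finset.sum_insert hi]
    exact (ell_add_right _ _ _).trans (add_le_add le_rfl ih)

theorem ell_of_ev (hA : Ev A) (v : Fin n → ℂ) :
    ell A v = ‖cm A (cA v)‖ + ‖cm A (star (cA v))‖ := by
  have h : par n * A = A * par n := hA
  have e1 : cm A (dA v) = cm A (cA v) * par n := by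
    rw [cm, cm, dA, sub_mul, mul_assoc (cA v), h, ← mul_assoc, ← mul_assoc]
  have e2 : cm A (star (dA v)) = par n * cm A (star (cA v)) := by
    rw [cm, cm, dA, star_mul, star_par, mul_sub, ← mul_assoc, ← h, mul_assoc, mul_assoc]
  rw [ell, e1, e2, norm_mul_par, norm_par_mul]

theorem ell_of_odd (hA : par n * A = -(A * par n)) (v : Fin n → ℂ) :
    ell A v = ‖A * cA v + cA v * A‖ + ‖A * star (cA v) + star (cA v) * A‖ := by
  have hA' : A * par n = -(par n * A) := by rw [hA, neg_neg]
  have e1 : cm A (dA v) = (A * cA v + cA v * A) * par n := by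
    rw [cm, dA, mul_assoc (cA v), hA]
    noncomm_ring
  have e2 : cm A (star (dA v)) = -(par n * (A * star (cA v) + star (cA v) * A)) := by
    rw [cm, dA, star_mul, star_par, ← mul_assoc, hA']
    noncomm_ring
  rw [ell, e1, e2, norm_neg, norm_mul_par, norm_par_mul]

@[fun_prop] theorem continuous_ell {X : Type} [TopologicalSpace X] {f : X → Fk n}
    {g : X → Fin n → ℂ} (hf : Continuous f) (hg : Continuous g) :
    Continuous fun x => ell (f x) (g x) := by
  have hd : Continuous fun x => dA (g x) := continuous_dA.comp hg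
  exact ((hf.mul hd).sub (hd.mul hf)).norm.add ((hf.mul hd.star).sub (hd.star.mul hf)).norm

theorem ell_integral {ι : Type} [MeasurableSpace ι] {ν : Measure ι} {D : ι → Fk n}
    (hD : Integrable D ν) (v : Fin n → ℂ) :
    Integrable (fun i => ell (D i) v) ν ∧ ell (∫ i, D i ∂ν) v ≤ ∫ i, ell (D i) v ∂ν := by
  have hi : ∀ B : Fk n, Integrable (fun i => ‖cm (D i) B‖) ν := fun B =>
    ((hD.mul_const B).sub (hD.const_mul B)).norm
  refine ⟨(hi _).add (hi _), ?_⟩
  unfold ell
  rw [integral_add (hi _) (hi _), cm_integral_left hD, cm_integral_left hD]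
  exact add_le_add (norm_integral_le_integral_norm _) (norm_integral_le_integral_norm _)

/-- `dA` as a real continuous linear map -/
noncomputable def h19_dL (n : ℕ) : (Fin n → ℂ) →L[ℝ] Fk n where
  toFun := dA
  map_add' := dA_add
  map_smul' r v := by
    rw [RingHom.id_apply, ← Complex.coe_smul, dA_smul, Complex.star_def, Complex.conj_ofReal,
      Complex.coe_smul]
  cont := continuous_dA

theorem ell_integral_right {ι : Type} [MeasurableSpace ι] {ν : Measure ι} {v : ι → Fin n → ℂ}
    (hv : Integrable v ν) (A : Fk n) : ell A (∫ i, v i ∂ν) ≤ ∫ i, ell A (v i) ∂ν := by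
  have i1 : Integrable (fun i => dA (v i)) ν := (h19_dL n).integrable_comp hv
  have e1 : dA (∫ i, v i ∂ν) = ∫ i, dA (v i) ∂ν := ((h19_dL n).integral_comp_comm hv).symm
  have i2 : Integrable (fun i => star (dA (v i))) ν :=
    ((starL' ℝ : Fk n ≃L[ℝ] Fk n) : Fk n →L[ℝ] Fk n).integrable_comp i1
  have e2 : star (dA (∫ i, v i ∂ν)) = ∫ i, star (dA (v i)) ∂ν := by
    rw [e1]
    exact (((starL' ℝ : Fk n ≃L[ℝ] Fk n) : Fk n →L[ℝ] Fk n).integral_comp_comm i1).symm
  have hi : ∀ {D : ι → Fk n}, Integrable D ν → Integrable (fun i => ‖cm A (D i)‖) ν := fun hD =>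
    ((hD.const_mul A).sub (hD.mul_const A)).norm
  unfold ell
  rw [integral_add (hi i1) (hi i2), e2, e1, cm_integral_right i1, cm_integral_right i2]
  exact add_le_add (norm_integral_le_integral_norm _) (norm_integral_le_integral_norm _)

end Crest.Agent.R340.Loc
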