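import Crest.Agent.R340.LcDefs

/-! # Row 340, module LOC: distance, representation, orbitals -/

set_option autoImplicit false

namespace Crest.Agent.R340.Loc

open Matrix MeasureTheory Finset
open scoped Matrix.Norms.L2Operator MatrixOrder ComplexOrder

variable {Q m n : ℕ}

/-! ### part A: distance and norms -/

theorem dst_nonneg (Q : ℕ) (g h : SU) : 0 ≤ dst Q g h := by
  unfold dst; positivity
theorem dst_self (Q : ℕ) (g : SU) : dst Q g g = 0 := by
  simp [dst]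
theorem dst_symm (Q : ℕ) (g h : SU) : dst Q g h = dst Q h g := by
  unfold dst
  rw [show h⁻¹ * g = (g⁻¹ * h)⁻¹ by group, SU.inv_b, norm_neg]
/-- `(g h).b = g.b h.a + conj g.a h.b` -/
theorem dst_tri (Q : ℕ) (g h k : SU) : dst Q g k ≤ dst Q g h + dst Q h k := by
  unfold dst
  rw [show g⁻¹ * k = (g⁻¹ * h) * (h⁻¹ * k) by group, SU.mul_b (g⁻¹ * h), ← mul_add]
  refine mul_le_mul_of_nonneg_left ((norm_add_le _ _).trans ?_) (Real.sqrt_nonneg _)
  rw [norm_mul, norm_mul, norm_star]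
  exact add_le_add (mul_le_of_le_one_right (norm_nonneg _) (SU.norm_a_le _))
    (mul_le_of_le_one_left (norm_nonneg _) (SU.norm_a_le _))
theorem dst_mul_left (Q : ℕ) (k g h : SU) : dst Q (k * g) (k * h) = dst Q g h := by
  unfold dst
  rw [show (k * g)⁻¹ * (k * h) = g⁻¹ * h by group]
theorem dst_one (Q : ℕ) (g : SU) : dst Q 1 g = Real.sqrt Q * ‖g.b‖ := by
  simp [dst]
theorem dst_le (Q : ℕ) (g h : SU) : dst Q g h ≤ Real.sqrt Q := by
  exact mul_le_of_le_one_right (Real.sqrt_nonneg _) (SU.norm_b_le _)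
@[fun_prop] theorem continuous_dst (Q : ℕ) {X : Type} [TopologicalSpace X] {f g : X → SU}
    (hf : Continuous f) (hg : Continuous g) : Continuous fun x => dst Q (f x) (g x) := by
  unfold dst
  exact continuous_const.mul (SU.continuous_b.comp (hf.inv.mul hg)).norm
theorem dst_rpow_tri {α : ℝ} (h0 : 0 < α) (h1 : α ≤ 1) (Q : ℕ) (g h k : SU) :
    dst Q g k ^ α ≤ dst Q g h ^ α + dst Q h k ^ α := by
  exact (Real.rpow_le_rpow (dst_nonneg _ _ _) (dst_tri Q g h k) h0.le).trans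
    (Real.rpow_add_le_add_rpow (dst_nonneg _ _ _) (dst_nonneg _ _ _) h0.le h1)

theorem nv_nonneg (v : Fin n → ℂ) : 0 ≤ nv v := by
  exact norm_nonneg _
theorem nv_sq (v : Fin n → ℂ) : ((nv v ^ 2 : ℝ) : ℂ) = star v ⬝ᵥ v := by
  unfold nv
  rw [dotProduct_comm, ← EuclideanSpace.inner_toLp_toLp, inner_self_eq_norm_sq_to_K]
  simp
theorem nv_zero : nv (0 : Fin n → ℂ) = 0 := by
  simp [nv]
theorem nv_add (v w : Fin n → ℂ) : nv (v + w) ≤ nv v + nv w := by
  unfold nv
  rw [WithLp.toLp_add]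
  exact norm_add_le _ _
theorem nv_smul (z : ℂ) (v : Fin n → ℂ) : nv (z • v) = ‖z‖ * nv v := by
  unfold nv
  rw [WithLp.toLp_smul, norm_smul]
theorem nv_sum {ι : Type} (s : Finset ι) (v : ι → Fin n → ℂ) :
    nv (∑ i ∈ s, v i) ≤ ∑ i ∈ s, nv (v i) := by
  classical
  induction s using Finset.induction_on with
  | empty => simp [nv]
  | insert i s hi ih =>
    rw [Finset.sum_insert hi, Finset.sum_insert hi]
    exact (nv_add _ _).trans (by linarith)
theorem norm_dot_le (v w : Fin n → ℂ) : ‖star v ⬝ᵥ w‖ ≤ nv v * nv w := by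
  unfold nv
  rw [dotProduct_comm, ← EuclideanSpace.inner_toLp_toLp]
  exact norm_inner_le_norm _ _
@[fun_prop] theorem continuous_nv : Continuous (nv : (Fin n → ℂ) → ℝ) := by
  unfold nv
  fun_prop

/-! ### part B: the representation -/

theorem b1_sqrt_mul (k : ℕ) : ((Real.sqrt k : ℝ) : ℂ) * (Real.sqrt k : ℝ) = k := by
  rw [← Complex.ofReal_mul, Real.mul_self_sqrt (Nat.cast_nonneg _)]; simp
theorem b1_sqrt_ne (m : ℕ) (j : Fin (m + 1)) : ((Real.sqrt (m.choose j) : ℝ) : ℂ) ≠ 0 := by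
  have : 0 < m.choose j := Nat.choose_pos (Nat.lt_succ_iff.1 j.2)
  exact_mod_cast (Real.sqrt_pos.2 (by exact_mod_cast this)).ne'
theorem b1_sym_dot (m : ℕ) (z₀ z₁ w₀ w₁ : ℂ) :
    sym m z₀ z₁ ⬝ᵥ sym m w₀ w₁ = (z₀ * w₀ + z₁ * w₁) ^ m := by
  rw [add_comm (z₀ * w₀), add_pow, ← Fin.sum_univ_eq_sum_range
    (fun j => (z₁ * w₁) ^ j * (z₀ * w₀) ^ (m - j) * (m.choose j : ℂ)) (m + 1), dotProduct]
  refine Finset.sum_congr rfl fun j _ => ?_
  rw [← b1_sqrt_mul, sym, sym, mul_pow, mul_pow]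
  ring
theorem b1_diag {p i : ℕ} (F : ℕ → ℕ → ℂ) (h1 : ∀ l k, p < l → F l k = 0)
    (h2 : ∀ l k, i < k → F l k = 0) :
    ∑ j ∈ range (p + i + 1), ∑ l ∈ range (j + 1), F l (j - l) =
      ∑ l ∈ range (p + 1), ∑ k ∈ range (i + 1), F l k := by
  rw [Finset.sum_range_diag_flip]
  symm
  refine (Finset.sum_congr rfl fun l hl => ?_).trans (Finset.sum_subset
    (Finset.range_subset_range.2 (by omega)) fun l _ hl =>
      Finset.sum_eq_zero fun k _ => h1 l k (by simpa using hl))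
  refine Finset.sum_subset (Finset.range_subset_range.2 ?_) fun k _ hk => h2 l k (by simpa using hk)
  have := Finset.mem_range.1 hl
  omega
theorem sym_dot (m : ℕ) (z₀ z₁ w₀ w₁ : ℂ) :
    star (sym m z₀ z₁) ⬝ᵥ sym m w₀ w₁ = (star z₀ * w₀ + star z₁ * w₁) ^ m := by
  rw [← b1_sym_dot]
  congr 1
  funext j
  simp [sym]
/-- bilinear version -/
theorem sym_dot' (m : ℕ) (z₀ z₁ w₀ w₁ : ℂ) :
    sym m z₀ z₁ ⬝ᵥ sym m w₀ w₁ = (z₀ * w₀ + z₁ * w₁) ^ m := b1_sym_dot m z₀ z₁ w₀ w₁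
/-- two binomial expansions -/
theorem rep_mulVec_sym (m : ℕ) (g : SU) (z₀ z₁ : ℂ) : rep m g *ᵥ sym m z₀ z₁ =
    sym m (g.a * z₀ - star g.b * z₁) (g.b * z₀ + star g.a * z₁) := by
  funext ⟨i, hi⟩
  obtain ⟨p, rfl⟩ : ∃ p, m = p + i := ⟨m - i, by omega⟩
  set F : ℕ → ℕ → ℂ := fun l k => ((p.choose l : ℂ) * (g.a ^ (p - l) * (-star g.b) ^ l)) *
    ((i.choose k : ℂ) * (g.b ^ (i - k) * star g.a ^ k)) * (z₀ ^ (p + i - (l + k)) * z₁ ^ (l + k))
    with hF
  have e1 : (rep (p + i) g *ᵥ sym (p + i) z₀ z₁) ⟨i, hi⟩ = (Real.sqrt ((p + i).choose i) : ℂ) *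
      ∑ j ∈ range (p + i + 1), ∑ l ∈ range (j + 1), F l (j - l) := by
    rw [← Fin.sum_univ_eq_sum_range (fun j => ∑ l ∈ range (j + 1), F l (j - l)), Finset.mul_sum,
      Matrix.mulVec, dotProduct]
    refine Finset.sum_congr rfl fun j _ => ?_
    have hj := b1_sqrt_ne (p + i) j
    simp only [rep, sym, Matrix.of_apply, Nat.add_sub_cancel, Finset.mul_sum, Finset.sum_mul,
      Complex.ofReal_div]
    refine Finset.sum_congr rfl fun l hl => ?_
    have hl' : l + (j - l) = j := by have := Finset.mem_range.1 hl; omega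
    simp only [hF, hl']
    field_simp
  rw [e1, b1_diag F (fun l k h => by simp [hF, Nat.choose_eq_zero_of_lt h])
    (fun l k h => by simp [hF, Nat.choose_eq_zero_of_lt h]), sym]
  simp only [Nat.add_sub_cancel]
  congr 1
  rw [show g.a * z₀ - star g.b * z₁ = -star g.b * z₁ + g.a * z₀ by ring, add_comm (g.b * z₀),
    add_pow, add_pow, Finset.sum_mul_sum]
  refine Finset.sum_congr rfl fun l hl => Finset.sum_congr rfl fun k hk => ?_
  have h1 := Finset.mem_range.1 hl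
  have h2 := Finset.mem_range.1 hk
  simp only [hF]
  rw [show p + i - (l + k) = (p - l) + (i - k) by omega, pow_add, pow_add, mul_pow, mul_pow,
    mul_pow, mul_pow]
  ring
/-- a polynomial vanishing on `ℂ` is zero -/
theorem sym_ext {v w : Fin (m + 1) → ℂ} (h : ∀ t, v ⬝ᵥ sym m 1 t = w ⬝ᵥ sym m 1 t) : v = w := by
  have h0 : (∑ j : Fin (m + 1), Polynomial.monomial (j : ℕ)
      ((v j - w j) * (Real.sqrt (m.choose j) : ℝ)) : Polynomial ℂ) = 0 := by
    refine Polynomial.funext fun t => ?_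
    have := sub_eq_zero.2 (h t)
    rw [← sub_dotProduct, dotProduct] at this
    rw [Polynomial.eval_zero, ← this, Polynomial.eval_finsetSum]
    refine Finset.sum_congr rfl fun j _ => ?_
    simp [sym, mul_assoc]
  funext j
  have := congrArg (fun P => Polynomial.coeff P j) h0
  simp only [Polynomial.finsetSum_coeff, Polynomial.coeff_monomial, Fin.val_inj,
    Finset.sum_ite_eq', Finset.mem_univ, if_true, Polynomial.coeff_zero] at this
  exact sub_eq_zero.1 ((mul_eq_zero.1 this).resolve_right (b1_sqrt_ne m j))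
theorem sym_ext_mat {ι : Type} {M N : Matrix ι (Fin (m + 1)) ℂ}
    (h : ∀ t, M *ᵥ sym m 1 t = N *ᵥ sym m 1 t) : M = N := by
  funext i
  exact sym_ext fun t => congrFun (h t) i
theorem rep_one (m : ℕ) : rep m 1 = 1 := by
  refine sym_ext_mat fun t => ?_
  rw [rep_mulVec_sym, one_mulVec]
  simp
theorem rep_mul (m : ℕ) (g h : SU) : rep m (g * h) = rep m g * rep m h := by
  refine sym_ext_mat fun t => ?_
  rw [← mulVec_mulVec, rep_mulVec_sym, rep_mulVec_sym, rep_mulVec_sym]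
  congr 1 <;> simp only [SU.mul_a, SU.mul_b, star_sub, star_add, star_mul', star_star] <;> ring
theorem repB2_star (m : ℕ) (t : ℂ) : star (sym m 1 t) = sym m 1 (star t) := by
  funext j
  simp [sym]
theorem rep_inv (m : ℕ) (g : SU) : rep m g⁻¹ = star (rep m g) := by
  refine sym_ext_mat fun t => sym_ext fun s => ?_
  rw [dotProduct_comm, dotProduct_comm _ (sym m 1 s), ← star_star s, ← repB2_star m (star s),
    star_eq_conjTranspose (rep m g), dotProduct_mulVec _ (rep m g)ᴴ, ← star_mulVec,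
    rep_mulVec_sym, rep_mulVec_sym, sym_dot, sym_dot]
  congr 1
  simp only [SU.inv_a, SU.inv_b, star_sub, star_add, star_mul', star_star, star_neg, star_one]
  ring
theorem star_rep_mul (m : ℕ) (g : SU) : star (rep m g) * rep m g = 1 := by
  rw [← rep_inv, ← rep_mul, inv_mul_cancel, rep_one]
theorem rep_mul_star (m : ℕ) (g : SU) : rep m g * star (rep m g) = 1 := by
  rw [← rep_inv, ← rep_mul, mul_inv_cancel, rep_one]
theorem rep_dot (m : ℕ) (g : SU) (v w : Fin (m + 1) → ℂ) :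
    star (rep m g *ᵥ v) ⬝ᵥ (rep m g *ᵥ w) = star v ⬝ᵥ w := by
  rw [star_mulVec, ← dotProduct_mulVec, mulVec_mulVec, ← star_eq_conjTranspose, star_rep_mul,
    one_mulVec]
theorem nv_rep (m : ℕ) (g : SU) (v : Fin (m + 1) → ℂ) : nv (rep m g *ᵥ v) = nv v := by
  have h := (nv_sq _).trans ((rep_dot m g v v).trans (nv_sq v).symm)
  exact (sq_eq_sq₀ (nv_nonneg _) (nv_nonneg _)).1 (Complex.ofReal_injective h)
@[fun_prop] theorem continuous_rep (m : ℕ) : Continuous (rep m) := by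
  refine continuous_pi fun i => continuous_pi fun j => ?_
  simp only [rep, Matrix.of_apply]
  fun_prop
theorem rep_ko (m : ℕ) (g u : SU) : rep m g *ᵥ ko m u = ko m (g * u) :=
  rep_mulVec_sym m g u.a u.b
@[fun_prop] theorem continuous_ko (m : ℕ) : Continuous (ko m) := by
  refine continuous_pi fun i => ?_
  simp only [ko, sym]
  fun_prop
theorem repB2_zero {f : ℂ → ℂ} (hf : Differentiable ℂ f) (h : ∀ x : ℝ, f x = 0) (z : ℂ) :
    f z = 0 := by
  have h1 : Filter.Tendsto (fun x : ℝ => (x : ℂ)) (nhdsWithin 0 {0}ᶜ) (nhdsWithin 0 {0}ᶜ) :=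
    tendsto_nhdsWithin_iff.2 ⟨(Complex.continuous_ofReal.tendsto' 0 0 rfl).mono_left
      nhdsWithin_le_nhds, eventually_nhdsWithin_of_forall fun x hx => Complex.ofReal_ne_zero.2 hx⟩
  exact (hf.differentiableOn.analyticOnNhd isOpen_univ).eqOn_zero_of_preconnected_of_frequently_eq_zero
    isPreconnected_univ (Set.mem_univ 0) (h1.frequently (Filter.Frequently.of_forall h))
    (Set.mem_univ z)
/-- a sesquilinear form that vanishes on all coherent states is zero (scale `(1, t)` to a unit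
spinor; a polynomial in `t`, `conj t` vanishing on `ℂ` is zero) -/
theorem ko_form_ext {M : Matrix (Fin (m + 1)) (Fin (m + 1)) ℂ}
    (h : ∀ g, star (ko m g) ⬝ᵥ (M *ᵥ ko m g) = 0) : M = 0 := by
  have h1 : ∀ t : ℂ, sym m 1 (star t) ⬝ᵥ (M *ᵥ sym m 1 t) = 0 := fun t => by
    have hr : (0 : ℝ) < 1 + ‖t‖ ^ 2 := by positivity
    set r : ℝ := (Real.sqrt (1 + ‖t‖ ^ 2))⁻¹ with hr'
    have hr0 : (r : ℂ) ≠ 0 := Complex.ofReal_ne_zero.2 (by positivity)
    have hr2 : ((r : ℂ) * r) * (1 + t * star t) = 1 := by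
      rw [Complex.star_def, Complex.mul_conj, Complex.normSq_eq_norm_sq]
      have : r * r * (1 + ‖t‖ ^ 2) = 1 := by
        rw [hr', ← mul_inv, Real.mul_self_sqrt hr.le, inv_mul_cancel₀ hr.ne']
      exact_mod_cast this
    have h2 := h ⟨((r : ℂ), r * t), by
      simp only [star_mul', Complex.star_def, Complex.conj_ofReal] at hr2 ⊢
      linear_combination hr2⟩
    have h3 : sym m (r : ℂ) (r * t) = (r : ℂ) ^ m • sym m 1 t := by
      funext j
      have : (r : ℂ) ^ m = r ^ (m - j) * r ^ (j : ℕ) := by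
        rw [← pow_add, Nat.sub_add_cancel (Nat.lt_succ_iff.1 j.2)]
      simp only [sym, Pi.smul_apply, smul_eq_mul, this]
      ring
    change star (sym m (r : ℂ) (r * t)) ⬝ᵥ (M *ᵥ sym m (r : ℂ) (r * t)) = 0 at h2
    rw [h3, star_smul, mulVec_smul, smul_dotProduct, dotProduct_smul, repB2_star, smul_eq_zero,
      smul_eq_zero] at h2
    rcases h2 with h2 | h2 | h2
    · exact absurd (star_eq_zero.1 h2) (pow_ne_zero _ hr0)
    · exact absurd h2 (pow_ne_zero _ hr0)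
    · exact h2
  have h2 : ∀ (y : ℝ) (x : ℂ),
      sym m 1 (x - y * Complex.I) ⬝ᵥ (M *ᵥ sym m 1 (x + y * Complex.I)) = 0 := fun y =>
    repB2_zero (by unfold dotProduct mulVec dotProduct sym; fun_prop) fun x => by
      simpa [sub_eq_add_neg] using h1 (x + y * Complex.I)
  have h3 : ∀ x y : ℂ,
      sym m 1 (x - y * Complex.I) ⬝ᵥ (M *ᵥ sym m 1 (x + y * Complex.I)) = 0 := fun x =>
    repB2_zero (by unfold dotProduct mulVec dotProduct sym; fun_prop) fun y => h2 y x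
  refine sym_ext_mat fun t => sym_ext fun s => ?_
  have h4 := h3 ((s + t) / 2) ((s - t) / 2 * Complex.I)
  rw [show (s + t) / 2 - (s - t) / 2 * Complex.I * Complex.I = s by
      linear_combination (-(s - t) / 2) * Complex.I_mul_I,
    show (s + t) / 2 + (s - t) / 2 * Complex.I * Complex.I = t by
      linear_combination ((s - t) / 2) * Complex.I_mul_I] at h4
  rw [dotProduct_comm, h4, zero_mulVec, zero_dotProduct]

/-! ### part C: orbitals -/

theorem orb_eq (g : SU) (j : Fin (Q + 1)) : orb Q g j = rep Q g *ᵥ Pi.single j 1 := by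
  funext i
  simp only [orb, dif_pos j.2, mulVec_single_one, Fin.eta, col_apply]
theorem orb_one (j : Fin (Q + 1)) : orb Q 1 j = Pi.single j 1 := by
  rw [orb_eq, rep_one, one_mulVec]
theorem orb_of_lt (g : SU) {j : ℕ} (h : Q < j) : orb Q g j = 0 := by
  funext i
  simp only [orb, dif_neg (show ¬ j < Q + 1 by omega), Pi.zero_apply]
theorem orb_zero (Q : ℕ) (g : SU) : orb Q g 0 = ko Q g := by
  have h1 : ko Q 1 = Pi.single 0 1 := by
    funext j
    by_cases hj : j = 0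
    · subst hj
      simp [ko, sym]
    · have : (j : ℕ) ≠ 0 := fun h => hj (Fin.ext h)
      simp [ko, sym, hj, this]
  have h2 := orb_eq g (0 : Fin (Q + 1))
  rw [← h1, rep_ko, mul_one] at h2
  exact h2
theorem orb_mul (Q : ℕ) (g h : SU) (j : ℕ) : orb Q (g * h) j = rep Q g *ᵥ orb Q h j := by
  by_cases hj : j < Q + 1
  · have h1 := orb_eq (g * h) ⟨j, hj⟩
    have h2 := orb_eq h ⟨j, hj⟩
    simp only at h1 h2
    rw [h1, h2, rep_mul, mulVec_mulVec]
  · rw [orb_of_lt _ (by omega), orb_of_lt _ (by omega), mulVec_zero]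
theorem orb_dot (Q : ℕ) (g : SU) (i j : ℕ) :
    star (orb Q g i) ⬝ᵥ orb Q g j = if i = j ∧ i ≤ Q then 1 else 0 := by
  by_cases hi : i < Q + 1
  · by_cases hj : j < Q + 1
    · have h1 := orb_eq g ⟨i, hi⟩
      have h2 := orb_eq g ⟨j, hj⟩
      simp only at h1 h2
      rw [h1, h2, rep_dot, dotProduct_single, mul_one, Pi.star_apply, Pi.single_apply]
      by_cases hij : i = j
      · subst hij
        simp [Nat.lt_succ_iff.1 hi]
      · have : ¬ j = i := fun h => hij h.symm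
        simp [hij, this]
    · rw [orb_of_lt g (show Q < j by omega), dotProduct_zero, if_neg (by omega)]
  · rw [orb_of_lt g (show Q < i by omega), star_zero, zero_dotProduct, if_neg (by omega)]
@[fun_prop] theorem continuous_orb (Q j : ℕ) : Continuous fun g => orb Q g j := by
  refine continuous_pi fun i => ?_
  unfold orb
  split_ifs with h
  · exact (continuous_rep Q).matrix_elem i ⟨j, h⟩
  · exact continuous_const
theorem nv_ko (Q : ℕ) (g : SU) : nv (ko Q g) = 1 := by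
  have h := nv_sq (ko Q g)
  rw [← orb_zero, orb_dot, if_pos ⟨rfl, Nat.zero_le _⟩, orb_zero] at h
  have h' : nv (ko Q g) ^ 2 = 1 := by exact_mod_cast h
  exact (pow_eq_one_iff_of_nonneg (nv_nonneg _) two_ne_zero).1 h'
theorem nv_orb_le (Q : ℕ) (g : SU) (j : ℕ) : nv (orb Q g j) ≤ 1 := by
  have h := nv_sq (orb Q g j)
  rw [orb_dot] at h
  have h' : nv (orb Q g j) ^ 2 ≤ 1 := by
    split_ifs at h
    · exact le_of_eq (by exact_mod_cast h)
    · have : nv (orb Q g j) ^ 2 = 0 := by exact_mod_cast h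
      linarith
  exact (pow_le_one_iff_of_nonneg (nv_nonneg _) two_ne_zero).1 h'
theorem pj_top (g : SU) (h : Q < m) (v : Fin (Q + 1) → ℂ) : pj Q g m v = v := by
  unfold pj
  rw [← sum_subset (range_subset_range.2 (show Q + 1 ≤ m from h))
    (fun j _ hj => by rw [orb_of_lt g (show Q < j by simpa using hj), smul_zero]),
    ← Fin.sum_univ_eq_sum_range (fun j => (star (orb Q g j) ⬝ᵥ v) • orb Q g j) (Q + 1)]
  conv_rhs => rw [← one_mulVec v, ← rep_mul_star Q g, ← mulVec_mulVec]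
  funext i
  simp only [Finset.sum_apply, Pi.smul_apply, smul_eq_mul, orb, Fin.is_lt, dif_pos, Fin.eta, mulVec,
    dotProduct, Pi.star_apply, star_apply]
  exact sum_congr rfl fun j _ => mul_comm _ _
theorem sub_pj (g : SU) (m : ℕ) (v : Fin (Q + 1) → ℂ) :
    v - pj Q g m v = ∑ j ∈ Ico m (Q + 1), (star (orb Q g j) ⬝ᵥ v) • orb Q g j := by
  rcases le_or_gt m (Q + 1) with h | h
  · rw [sub_eq_iff_eq_add']
    conv_lhs => rw [← pj_top g (Nat.lt_succ_self Q) v]
    exact (sum_range_add_sum_Ico _ h).symm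
  · rw [pj_top g (by omega), sub_self, Ico_eq_empty (by omega), sum_empty]
theorem nv_pj_le (g : SU) (m : ℕ) (v : Fin (Q + 1) → ℂ) : nv (pj Q g m v) ≤ nv v := by
  have h0 : star (pj Q g m v) ⬝ᵥ (v - pj Q g m v) = 0 := by
    rw [sub_pj, dotProduct_sum]
    refine sum_eq_zero fun j hj => ?_
    rw [dotProduct_smul, pj, star_sum, sum_dotProduct, sum_eq_zero, smul_zero]
    intro i hi
    have h1 := mem_range.1 hi
    have h2 := (mem_Ico.1 hj).1
    rw [star_smul, smul_dotProduct, orb_dot, if_neg (by omega), smul_zero]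
  rw [dotProduct_sub, sub_eq_zero, ← nv_sq] at h0
  have h1 := norm_dot_le (pj Q g m v) v
  rw [h0, Complex.norm_real, Real.norm_of_nonneg (sq_nonneg _), sq] at h1
  rcases (nv_nonneg (pj Q g m v)).eq_or_lt with h | h
  · rw [← h]; exact nv_nonneg v
  · exact le_of_mul_le_mul_left h1 h
theorem h40_chern {Q j : ℕ} (hj : j ≤ Q) {s t : ℝ} (h0 : 0 ≤ s) (h1 : s ≤ 1) (ht : 0 ≤ t) :
    (Q.choose j : ℝ) * ((1 - s) ^ (Q - j) * s ^ j) * t ^ j ≤ Real.exp (Q * (s * (t - 1))) := by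
  have h2 : 0 ≤ 1 - s := by linarith
  calc (Q.choose j : ℝ) * ((1 - s) ^ (Q - j) * s ^ j) * t ^ j
      = (s * t) ^ j * (1 - s) ^ (Q - j) * (Q.choose j : ℝ) := by rw [mul_pow]; ring
    _ ≤ (s * t + (1 - s)) ^ Q := by
      rw [add_pow]
      exact single_le_sum (f := fun m => (s * t) ^ m * (1 - s) ^ (Q - m) * (Q.choose m : ℝ))
        (fun m _ => by positivity) (mem_range.2 (by omega))
    _ ≤ Real.exp (s * (t - 1)) ^ Q := by
      refine pow_le_pow_left₀ (by positivity) ?_ _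
      have := Real.add_one_le_exp (s * (t - 1))
      linarith
    _ = _ := by rw [Real.exp_nat_mul]

theorem h40_chern2 {Q j : ℕ} (hj : j ≤ Q) {s d : ℝ} (h0 : 0 ≤ s) (h1 : s ≤ 1) (hd : 0 ≤ d)
    (hds : d ^ 2 = Q * s) :
    (Q.choose j : ℝ) * ((1 - s) ^ (Q - j) * s ^ j) ≤ Real.exp (-(d - Real.sqrt j) ^ 2) := by
  rcases Nat.eq_zero_or_pos j with rfl | hj0
  · have := h40_chern (Nat.zero_le Q) h0 h1 (le_refl (0 : ℝ))
    simp only [pow_zero, mul_one] at this ⊢
    refine this.trans (le_of_eq ?_)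
    congr 1
    simp only [Nat.cast_zero, Real.sqrt_zero, sub_zero, hds]; ring
  rcases hd.eq_or_lt with hd0 | hd0
  · have hQ : (0 : ℝ) < Q := by exact_mod_cast lt_of_lt_of_le hj0 hj
    have hs : s = 0 := by
      have : (Q : ℝ) * s = 0 := by rw [← hds, ← hd0]; simp
      exact (mul_eq_zero.1 this).resolve_left hQ.ne'
    rw [hs, zero_pow hj0.ne']
    simp [Real.exp_nonneg]
  have hjp : (0 : ℝ) < j := by exact_mod_cast hj0
  obtain ⟨r, hr, hrj⟩ : ∃ r : ℝ, 0 < r ∧ Real.sqrt j = r := ⟨_, Real.sqrt_pos.2 hjp, rfl⟩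
  have hr2 : r ^ 2 = j := by rw [← hrj]; exact Real.sq_sqrt hjp.le
  rw [hrj]
  have h3 := h40_chern hj h0 h1 (t := r / d) (by positivity)
  have h4 : (d / r) ^ j ≤ Real.exp (j * (d / r - 1)) := by
    rw [Real.exp_nat_mul]
    refine pow_le_pow_left₀ (by positivity) ?_ _
    have := Real.add_one_le_exp (d / r - 1)
    linarith
  have h5 : (r / d) ^ j * (d / r) ^ j = 1 := by
    rw [← mul_pow, show r / d * (d / r) = 1 by field_simp, one_pow]
  calc (Q.choose j : ℝ) * ((1 - s) ^ (Q - j) * s ^ j)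
      = (Q.choose j : ℝ) * ((1 - s) ^ (Q - j) * s ^ j) * (r / d) ^ j * (d / r) ^ j := by
        rw [mul_assoc _ ((r / d) ^ j), h5, mul_one]
    _ ≤ Real.exp (Q * (s * (r / d - 1))) * Real.exp (j * (d / r - 1)) :=
        mul_le_mul h3 h4 (by positivity) (Real.exp_nonneg _)
    _ = _ := by
        rw [← Real.exp_add, ← mul_assoc, ← hds, ← hr2]
        congr 1
        field_simp
        ring

theorem h40_orb_dot_ko (Q : ℕ) (g u : SU) (j : Fin (Q + 1)) :
    star (orb Q g j) ⬝ᵥ ko Q u = ko Q (g⁻¹ * u) j := by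
  have h : ko Q u = rep Q g *ᵥ ko Q (g⁻¹ * u) := by rw [rep_ko, mul_inv_cancel_left]
  rw [orb_eq, h, rep_dot, ← Pi.single_star, star_one, single_dotProduct, one_mul]

/-- Chernoff: with `s = ‖b‖²`, `d² = Q s`, `C(Q,j) s^j (1-s)^(Q-j) ≤ t^(-j) (1 - s + s t)^Q ≤
exp (-j log t + d² (t - 1))`; take `t = √j / d` and `log (1/t) ≤ 1/t - 1` -/
theorem norm_ko_le (Q : ℕ) (g : SU) (j : Fin (Q + 1)) :
    ‖ko Q g j‖ ≤ Real.exp (-(dst Q 1 g - Real.sqrt j) ^ 2 / 2) := by
  have hs := g.norm_sq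
  have h := h40_chern2 (Q := Q) (j := j) (by omega) (s := ‖g.b‖ ^ 2) (d := dst Q 1 g) (by positivity)
    (by nlinarith [sq_nonneg ‖g.a‖]) (dst_nonneg _ _ _)
    (by rw [dst_one, mul_pow, Real.sq_sqrt (Nat.cast_nonneg _)])
  refine (pow_le_pow_iff_left₀ (norm_nonneg _) (Real.exp_nonneg _) two_ne_zero).1 ?_
  rw [← Real.exp_nat_mul, show ((2 : ℕ) : ℝ) * (-(dst Q 1 g - Real.sqrt j) ^ 2 / 2) =
    -(dst Q 1 g - Real.sqrt j) ^ 2 by push_cast; ring]
  refine le_trans (le_of_eq ?_) h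
  rw [show 1 - ‖g.b‖ ^ 2 = ‖g.a‖ ^ 2 by linarith]
  simp only [ko, sym, norm_mul, norm_pow, Complex.norm_real, Real.norm_eq_abs, mul_pow, sq_abs]
  rw [Real.sq_sqrt (Nat.cast_nonneg _), ← pow_mul, ← pow_mul, ← pow_mul, ← pow_mul, mul_comm 2,
    mul_comm 2]
theorem norm_orb_dot_ko (Q : ℕ) (g u : SU) (j : ℕ) :
    ‖star (orb Q g j) ⬝ᵥ ko Q u‖ ≤ Real.exp (-(dst Q g u - Real.sqrt j) ^ 2 / 2) := by
  by_cases h : Q < j
  · rw [orb_of_lt g h]; simp [Real.exp_nonneg]
  · have h1 := h40_orb_dot_ko Q g u ⟨j, by omega⟩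
    have h2 := norm_ko_le Q (g⁻¹ * u) ⟨j, by omega⟩
    have h3 : dst Q 1 (g⁻¹ * u) = dst Q g u := by simp [dst]
    simp only at h1 h2
    rw [h1, ← h3]; exact h2
theorem norm_ko_dot_orb (Q : ℕ) (g u : SU) (j : ℕ) :
    ‖star (ko Q u) ⬝ᵥ orb Q g j‖ ≤ Real.exp (-(dst Q g u - Real.sqrt j) ^ 2 / 2) := by
  rw [← norm_star, ← star_dotProduct]
  exact norm_orb_dot_ko Q g u j
theorem norm_ko_dot_ko (Q : ℕ) (g u : SU) :
    ‖star (ko Q g) ⬝ᵥ ko Q u‖ ≤ Real.exp (-dst Q g u ^ 2 / 2) := by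
  have := norm_orb_dot_ko Q g u 0
  rw [orb_zero] at this
  simpa using this
theorem nv_pj_ko (Q : ℕ) (g u : SU) (m : ℕ) : nv (pj Q g m (ko Q u)) ≤
    ∑ j ∈ range m, Real.exp (-(dst Q g u - Real.sqrt j) ^ 2 / 2) := by
  refine (nv_sum _ _).trans (sum_le_sum fun j _ => ?_)
  rw [nv_smul]
  exact (mul_le_of_le_one_right (norm_nonneg _) (nv_orb_le Q g j)).trans (norm_orb_dot_ko Q g u j)

end Crest.Agent.R340.Loc
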