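import Crest.Agent.R340.GeoPair
import Crest.Agent.R340.LcRep
import Crest.Agent.R340.LcCar

/-! # Bridge between the sphere picture (`Geo*`, `Fw*`) and the `SU(2)` picture (`Lc*`, `Pin*`) -/

set_option autoImplicit false

namespace Crest.Agent.R340

open Matrix MeasureTheory Set Crest.MathPhysics.Laughlin
open scoped ComplexConjugate Matrix.Norms.L2Operator MatrixOrder ComplexOrder

variable {Q : ℕ}

/-- the spinor of a group element in the convention of `kv`, `rho` -/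
def spg (g : Loc.SU) : ℂ × ℂ := (star g.a, star g.b)

theorem spg_unit (g : Loc.SU) : IsUnitSp (spg g) := by
  simpa [IsUnitSp, spg] using g.norm_sq

/-- a measurable section of `hopf` -/
noncomputable def toSU (x : S2) : Loc.SU := ⟨(star (spin x).1, star (spin x).2), by
  have h := spin_unit x
  simp only [Complex.star_def, Complex.conj_conj, Complex.conj_mul', IsUnitSp] at h ⊢
  exact_mod_cast h⟩

theorem spg_toSU (x : S2) : spg (toSU x) = spin x := by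
  simp [spg, toSU, Loc.SU.a, Loc.SU.b]

theorem measurable_toSU : Measurable toSU := by
  have : (inferInstance : MeasurableSpace Loc.SU) =
      (Subtype.instMeasurableSpace : MeasurableSpace {p : ℂ × ℂ // _}) :=
    (BorelSpace.measurable_eq (α := {p : ℂ × ℂ // p.1 * star p.1 + p.2 * star p.2 = 1})).symm
  refine Measurable.mono ?_ le_rfl this.le
  exact Measurable.subtype_mk ((continuous_star.measurable.comp measurable_spin.fst).prodMk
    (continuous_star.measurable.comp measurable_spin.snd))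

theorem cA_eq_cC {n : ℕ} (v : Fin n → ℂ) : Loc.cA v = cC v := rfl

theorem locGam_eq {n : ℕ} (U : Matrix (Fin n) (Fin n) ℂ) : Loc.Gam U = Gam U := rfl

theorem sym_eq_kv (m : ℕ) (z₀ z₁ : ℂ) : Loc.sym m z₀ z₁ = kv m (star z₀, star z₁) := by
  funext j
  simp [Loc.sym, kv]

theorem ko_eq_kv (Q : ℕ) (g : Loc.SU) : Loc.ko Q g = kv Q (spg g) := sym_eq_kv _ _ _

theorem ko_toSU (Q : ℕ) (x : S2) : Loc.ko Q (toSU x) = coh Q x := by
  rw [ko_eq_kv, spg_toSU, coh]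

theorem rep_eq_rho (m : ℕ) (g : Loc.SU) : Loc.rep m g = rho m (spg g) := by
  refine mat_ext_kv fun w => ?_
  have e : kv m (1, w) = Loc.sym m 1 (star w) := by rw [sym_eq_kv]; simp
  rw [rho_mulVec_kv]
  conv_lhs => rw [e, Loc.rep_mulVec_sym, sym_eq_kv]
  simp [act, spg]

theorem orb_toSU (Q : ℕ) (x : S2) (j : Fin (Q + 1)) : Loc.orb Q (toSU x) j = orb Q x j := by
  funext i
  simp only [Loc.orb, j.2, dite_true, rep_eq_rho, spg_toSU, orb]

theorem rot_eq (Q : ℕ) (g : Loc.SU) : Loc.rot Q g = Gam (rho Q (spg g)) := by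
  rw [Loc.rot, rep_eq_rho, locGam_eq]

theorem rot_toSU (Q : ℕ) (x : S2) : Loc.rot Q (toSU x) = rotF Q x := by
  rw [rot_eq, spg_toSU, rotF]

theorem Bg_eq_bC (hQ : 1 ≤ Q) (g : Loc.SU) : Loc.Bg Q g = bC Q (Loc.ko (2 * Q - 2) g) := by
  rw [ko_eq_kv, bC_kv hQ (spg_unit g), Loc.Bg, cA_eq_cC, cA_eq_cC, ← rep_eq_rho]
  have h1 : ((1 : Fin (Q + 1)) : ℕ) = 1 := by
    rw [Fin.val_one']; exact Nat.mod_eq_of_lt (by omega)
  congr 2
  funext i
  simp only [Loc.orb, show 1 < Q + 1 by omega, dite_true]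
  congr 1
  exact Fin.ext h1.symm

theorem Bg_toSU (hQ : 1 ≤ Q) (x : S2) : Loc.Bg Q (toSU x) = By Q x := by
  rw [Bg_eq_bC hQ, ko_toSU, By]

theorem ng_toSU (Q : ℕ) (x : S2) : Loc.ng Q (toSU x) = star (ca Q x) * ca Q x := by
  rw [Loc.ng, ko_toSU]; rfl

theorem hopf_of_phase {g : Loc.SU} {x : S2} {θ : ℂ} (hθ : ‖θ‖ = 1) (h : spg g = θ • spin x) :
    Loc.hopf g = x := by
  have ha : g.a = conj (θ * (spin x).1) := by
    have := congrArg (fun u => conj u.1) h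
    simpa [spg] using this
  have hb : g.b = conj (θ * (spin x).2) := by
    have := congrArg (fun u => conj u.2) h
    simpa [spg] using this
  have hθ' : conj θ * θ = 1 := by rw [Complex.conj_mul', hθ]; simp
  have e : g.a * star g.b =
      ((x : EuclideanSpace ℝ (Fin 3)) 0 + (x : EuclideanSpace ℝ (Fin 3)) 1 * Complex.I) / 2 := by
    rw [← spin_cross, ha, hb]
    simp only [map_mul, Complex.star_def, Complex.conj_conj]
    linear_combination (conj (spin x).1 * (spin x).2) * hθ'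
  have n1 : ‖g.a‖ ^ 2 = (1 + (x : EuclideanSpace ℝ (Fin 3)) 2) / 2 := by
    rw [ha, Complex.norm_conj, norm_mul, hθ, one_mul, spin_sq0]
  have n2 : ‖g.b‖ ^ 2 = (1 - (x : EuclideanSpace ℝ (Fin 3)) 2) / 2 := by
    rw [hb, Complex.norm_conj, norm_mul, hθ, one_mul, spin_sq1]
  refine Subtype.ext ?_
  ext i
  fin_cases i
  · simp only [Loc.hopf, e]; simp; ring
  · simp only [Loc.hopf, e]; simp; ring
  · simp only [Loc.hopf, n1, n2]; simp; ring

theorem hopf_toSU (x : S2) : Loc.hopf (toSU x) = x :=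
  hopf_of_phase (θ := 1) norm_one (by rw [spg_toSU, one_smul])

theorem exists_phase (g : Loc.SU) : ∃ θ : ℂ, ‖θ‖ = 1 ∧ spg g = θ • spin (Loc.hopf g) := by
  obtain ⟨x, θ, hθ, h⟩ := exists_spin (spg_unit g)
  exact ⟨θ, hθ, by rw [hopf_of_phase hθ h, h]⟩

theorem ko_eq_phase (Q : ℕ) (g : Loc.SU) :
    ∃ θ : ℂ, ‖θ‖ = 1 ∧ Loc.ko Q g = θ • coh Q (Loc.hopf g) := by
  obtain ⟨θ, hθ, h⟩ := exists_phase g
  exact ⟨conj θ ^ Q, by simp [hθ], by rw [ko_eq_kv, h, kv_smul, coh]⟩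

theorem dst_eq_dq (Q : ℕ) (g h : Loc.SU) : Loc.dst Q g h = dq Q (Loc.hopf g) (Loc.hopf h) := by
  obtain ⟨θ, hθ, e1⟩ := exists_phase g
  obtain ⟨η, hη, e2⟩ := exists_phase h
  have h1 : ‖(g⁻¹ * h).b‖ ^ 2 = tS (Loc.hopf h) (Loc.hopf g) := by
    rw [← spin_wedge_sq, ← Complex.norm_conj]
    have a1 : conj g.a = θ * (spin (Loc.hopf g)).1 := congrArg Prod.fst e1
    have a2 : conj g.b = θ * (spin (Loc.hopf g)).2 := congrArg Prod.snd e1
    have b1 : conj h.a = η * (spin (Loc.hopf h)).1 := congrArg Prod.fst e2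
    have b2 : conj h.b = η * (spin (Loc.hopf h)).2 := congrArg Prod.snd e2
    have e : conj (g⁻¹ * h).b = θ * η * (-(spin (Loc.hopf g)).2 * (spin (Loc.hopf h)).1 +
        (spin (Loc.hopf g)).1 * (spin (Loc.hopf h)).2) := by
      simp only [Loc.SU.mul_b, Loc.SU.inv_a, Loc.SU.inv_b, star_star, map_add, map_mul, map_neg,
        a1, a2, b1, b2]
      ring
    rw [e, norm_mul, norm_mul, hθ, hη, one_mul, one_mul]
  refine (sq_eq_sq₀ (Loc.dst_nonneg _ _ _) (dq_nonneg _ _ _)).1 ?_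
  rw [dq_sq, Loc.dst, mul_pow, Real.sq_sqrt (Nat.cast_nonneg Q), h1, tS_symm]

theorem dst_toSU (Q : ℕ) (x : S2) (g : Loc.SU) :
    Loc.dst Q (toSU x) g = dq Q x (Loc.hopf g) := by rw [dst_eq_dq, hopf_toSU]

theorem ell_ko {A : Fk (Q + 1)} (hA : Loc.Ev A) (g : Loc.SU) :
    Loc.ell A (Loc.ko Q g) = Fw.loc (ca Q) A (Loc.hopf g) := by
  obtain ⟨θ, hθ, h⟩ := ko_eq_phase Q g
  rw [h, Loc.ell_smul_right, hθ, one_mul, Loc.ell_of_ev hA]
  rfl

theorem ell_coh {A : Fk (Q + 1)} (hA : Loc.Ev A) (x : S2) :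
    Loc.ell A (coh Q x) = Fw.loc (ca Q) A x := by
  rw [← ko_toSU, ell_ko hA, hopf_toSU]

theorem isLoc_iff_QL {A : Fk (Q + 1)} (hA : Loc.Ev A) (g : Loc.SU) (a K : ℝ) :
    Loc.IsLoc Q (1 / 2) a K g A ↔ Fw.QL (ca Q) (dq Q) A (Loc.hopf g) a K := by
  refine and_congr_right fun _ => ⟨fun h y => ?_, fun h u => ?_⟩
  · have := h (toSU y)
    rwa [ell_ko hA, dst_eq_dq, hopf_toSU, ← Real.sqrt_eq_rpow, ← neg_mul] at this
  · rw [ell_ko hA, dst_eq_dq, ← Real.sqrt_eq_rpow, ← neg_mul]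
    exact h _

theorem isLoc_toSU {A : Fk (Q + 1)} (hA : Loc.Ev A) (x : S2) (a K : ℝ) :
    Loc.IsLoc Q (1 / 2) a K (toSU x) A ↔ Fw.QL (ca Q) (dq Q) A x a K := by
  rw [isLoc_iff_QL hA, hopf_toSU]

theorem sites_muq (hQ : 1 ≤ Q) : Loc.Sites Q 2 (muq Q) toSU := by
  refine ⟨inferInstance, measurable_toSU, fun u r hr => ?_⟩
  have h := muq_ball hQ (Loc.hopf u) r
  simp only [dst_toSU, dq_symm Q _ (Loc.hopf u)]
  refine (ENNReal.toReal_le_of_le_ofReal (by positivity) h).trans ?_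
  nlinarith

/-- a family as in `Fw.Rel` is an interaction of the `Loc` framework -/
theorem inter_of_QL (hQ : 1 ≤ Q) {M : S2 → Fk (Q + 1)} (hM : Integrable M (muq Q))
    (hN : ∀ x, Commute (numC (Q + 1)) (M x)) {a ε : ℝ}
    (h : ∀ x, Fw.QL (ca Q) (dq Q) (M x) x a ε) : Loc.Inter Q (1 / 2) a ε 2 (muq Q) toSU M :=
  ⟨sites_muq hQ, hM.1, fun x => Loc.ev_of_numC (hN x),
    fun x => (isLoc_toSU (Loc.ev_of_numC (hN x)) x a ε).2 (h x)⟩

end Crest.Agent.R340
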