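import Crest.Agent.R340.PinDefs
import Crest.Agent.R340.AlCnt
import Crest.Agent.R340.AlWave
import Crest.Agent.R340.AlTMain
import Crest.Agent.R340.AlOnto
import Crest.Agent.R340.GeoPair
import Crest.Agent.R340.Unique

/-! # Row 340 interface: ALG (algebra of pinned zero modes). Owner helper44 -/

set_option autoImplicit false

namespace Crest.Agent.R340.Pin

open Matrix MeasureTheory Crest.MathPhysics.Laughlin
open scoped Matrix.Norms.L2Operator MatrixOrder ComplexOrder ComplexConjugate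

variable {Q N : ℕ} {D D' : Multiset S2} {u v : FV Q}

/-! ### part A -/

theorem PD_proj (Q : ℕ) (D : Multiset S2) : IsStarProjection (PD Q D) := projOf_proj _

theorem PD_mulVec_iff : PD Q D *ᵥ v = v ↔ v ∈ ZD Q D := projOf_mulVec_iff _ _

theorem PD_mulVec_mem (D : Multiset S2) (v : FV Q) : PD Q D *ᵥ v ∈ ZD Q D := by
  rw [← PD_mulVec_iff, mulVec_mulVec, (PD_proj Q D).isIdempotentElem.eq]

theorem AdmS.toAdmT {R : ℝ} {S : Multiset S2} (h : AdmS Q R S) : AdmT Q R S := by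
  classical
  refine ⟨h.1, fun a => ?_⟩
  have := Multiset.nodup_iff_count_le_one.1 h.2 a
  convert this.trans (by norm_num : 1 ≤ 3)

theorem AdmT.mono {R R' : ℝ} {T T' : Multiset S2} (h : AdmT Q R T) (hR : R' ≤ R) (hT : T' ≤ T) :
    AdmT Q R' T' := by
  refine ⟨fun a ha b hb hab => hR.trans
    (h.1 a (Multiset.mem_of_le hT ha) b (Multiset.mem_of_le hT hb) hab), fun a => ?_⟩
  exact le_trans (@Multiset.count_le_of_le _ (_) a _ _ hT) (h.2 a)

theorem AdmS.mono {R R' : ℝ} {T T' : Multiset S2} (h : AdmS Q R T) (hR : R' ≤ R) (hT : T' ≤ T) :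
    AdmS Q R' T' := by
  exact ⟨fun a ha b hb hab => hR.trans
    (h.1 a (Multiset.mem_of_le hT ha) b (Multiset.mem_of_le hT hb) hab),
    Multiset.nodup_of_le hT h.2⟩

theorem spin_ster (w : ℂ) :
    spin (ster w) = (((Real.sqrt (1 + ‖w‖ ^ 2))⁻¹ : ℝ) : ℂ) • ((1, w) : ℂ × ℂ) := by
  have h : (0 : ℝ) < 1 + ‖w‖ ^ 2 := by positivity
  have e0 : (ster w : EuclideanSpace ℝ (Fin 3)) 0 = 2 * w.re / (1 + ‖w‖ ^ 2) := rfl
  have e1 : (ster w : EuclideanSpace ℝ (Fin 3)) 1 = 2 * w.im / (1 + ‖w‖ ^ 2) := rfl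
  have e2 : (ster w : EuclideanSpace ℝ (Fin 3)) 2 = (1 - ‖w‖ ^ 2) / (1 + ‖w‖ ^ 2) := rfl
  have hne : (1 - ‖w‖ ^ 2) / (1 + ‖w‖ ^ 2) ≠ -1 := by
    intro hc
    rw [div_eq_iff h.ne'] at hc
    linarith
  have e3 : (1 + (1 - ‖w‖ ^ 2) / (1 + ‖w‖ ^ 2)) / 2 = (1 + ‖w‖ ^ 2)⁻¹ := by
    field_simp
    ring
  unfold spin
  rw [e0, e1, e2, if_neg hne, e3, Real.sqrt_inv]
  have hs : Real.sqrt (1 + ‖w‖ ^ 2) ^ 2 = 1 + ‖w‖ ^ 2 := Real.sq_sqrt h.le
  have hp : 0 < Real.sqrt (1 + ‖w‖ ^ 2) := Real.sqrt_pos.2 h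
  generalize Real.sqrt (1 + ‖w‖ ^ 2) = s at hs hp
  rw [← hs]
  have hs0 : (s : ℂ) ≠ 0 := Complex.ofReal_ne_zero.2 hp.ne'
  refine Prod.ext (by simp) ?_
  simp only [Prod.smul_snd, smul_eq_mul]
  conv_rhs => rw [← Complex.re_add_im w]
  push_cast
  field_simp

theorem ifA1_evalO (Q : ℕ) (ψ : Fin (Q + 1) → ℂ) (y : ℂ × ℂ) : evalO Q ψ y =
    ∑ j : Fin (Q + 1), (Real.sqrt (Q.choose j) : ℂ) * ψ j * (y.1 ^ (Q - j) * y.2 ^ (j : ℕ)) := by
  unfold evalO dotProduct kv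
  refine Finset.sum_congr rfl fun j _ => ?_
  simp only [Pi.star_apply, star_mul', RCLike.star_def, Complex.conj_ofReal, Complex.conj_conj]
  ring

theorem ifA1_Dv_zero (Q : ℕ) (ψ : Fin (Q + 1) → ℂ) : Dv Q 0 ψ := by
  refine ⟨fun j => if h : j < Q + 1 then (Real.sqrt (Q.choose j) : ℂ) * ψ ⟨j, h⟩ else 0,
    fun y => ?_⟩
  rw [ifA1_evalO]
  simp only [piD, Multiset.map_zero, Multiset.prod_zero, one_mul, Multiset.card_zero,
    Nat.sub_zero]
  rw [Finset.sum_range]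
  refine Finset.sum_congr rfl fun j _ => ?_
  rw [dif_pos j.2]

theorem ifA1_Dv_cons {a : S2} {ψ : Fin (Q + 1) → ℂ} (h : Dv Q (a ::ₘ D) ψ) : Dv Q D ψ := by
  obtain ⟨b, hb⟩ := h
  rw [Multiset.card_cons] at hb
  by_cases hQ : Q < D.card + 1
  · refine ⟨fun _ => 0, fun y => ?_⟩
    rw [hb y, show Q + 1 - (D.card + 1) = 0 by omega]
    simp
  obtain ⟨m, hm⟩ : ∃ m, Q = D.card + 1 + m := ⟨Q - (D.card + 1), by omega⟩
  refine ⟨fun j => (spin a).1 * (if j = 0 then 0 else b (j - 1)) -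
    (spin a).2 * (if j ≤ m then b j else 0), fun y => ?_⟩
  rw [hb y, show Q + 1 - (D.card + 1) = m + 1 by omega, show Q - (D.card + 1) = m by omega,
    show Q + 1 - D.card = m + 1 + 1 by omega, show Q - D.card = m + 1 by omega]
  have e1 : ∑ j ∈ Finset.range (m + 1 + 1), (if j = 0 then 0 else b (j - 1)) *
      (y.1 ^ (m + 1 - j) * y.2 ^ j) =
      y.2 * ∑ j ∈ Finset.range (m + 1), b j * (y.1 ^ (m - j) * y.2 ^ j) := by
    rw [Finset.sum_range_succ', Finset.mul_sum, if_pos rfl, zero_mul, add_zero]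
    refine Finset.sum_congr rfl fun j _ => ?_
    rw [if_neg (Nat.succ_ne_zero j), Nat.add_sub_cancel, Nat.add_sub_add_right]
    ring
  have e2 : ∑ j ∈ Finset.range (m + 1 + 1), (if j ≤ m then b j else 0) *
      (y.1 ^ (m + 1 - j) * y.2 ^ j) =
      y.1 * ∑ j ∈ Finset.range (m + 1), b j * (y.1 ^ (m - j) * y.2 ^ j) := by
    rw [Finset.sum_range_succ, Finset.mul_sum, if_neg (by omega), zero_mul, add_zero]
    refine Finset.sum_congr rfl fun j hj => ?_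
    have hj' : j ≤ m := Nat.lt_succ_iff.1 (Finset.mem_range.1 hj)
    rw [if_pos hj', show m + 1 - j = m - j + 1 by omega]
    ring
  simp only [sub_mul, mul_assoc, Finset.sum_sub_distrib, ← Finset.mul_sum]
  rw [e1, e2]
  simp only [piD, Multiset.map_cons, Multiset.prod_cons, wedge]
  ring

theorem ifA1_Dv_anti (h : D ≤ D') {ψ : Fin (Q + 1) → ℂ} (hψ : Dv Q D' ψ) : Dv Q D ψ := by
  obtain ⟨E, rfl⟩ := Multiset.le_iff_exists_add.1 h
  clear h
  induction E using Multiset.induction_on with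
  | empty => simpa using hψ
  | cons a E ih =>
    rw [Multiset.add_cons] at hψ
    exact ih (ifA1_Dv_cons hψ)

theorem mem_ZD_zero : v ∈ ZD Q 0 ↔ HC Q *ᵥ v = 0 := by
  refine ⟨fun h => h.1, fun h => ⟨h, fun f hf => ?_⟩⟩
  have h0 : f = 0 := dotProduct_star_self_eq_zero.1 (hf f (ifA1_Dv_zero Q f))
  rw [h0]
  simp [cC]

theorem ZD_anti (h : D ≤ D') : ZD Q D' ≤ ZD Q D := by
  exact fun v hv => ⟨hv.1, fun f hf => hv.2 f fun ψ hψ => hf ψ (ifA1_Dv_anti h hψ)⟩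

theorem PD_mul_of_le (h : D ≤ D') : PD Q D * PD Q D' = PD Q D' ∧ PD Q D' * PD Q D = PD Q D' := by
  have h1 : PD Q D * PD Q D' = PD Q D' := by
    refine Matrix.toLin'.injective (LinearMap.ext fun v => ?_)
    rw [Matrix.toLin'_apply, Matrix.toLin'_apply, ← mulVec_mulVec]
    exact PD_mulVec_iff.2 (ZD_anti h (PD_mulVec_mem D' v))
  refine ⟨h1, ?_⟩
  have h2 := congrArg star h1
  rwa [star_mul, (PD_proj Q D).isSelfAdjoint.star_eq, (PD_proj Q D').isSelfAdjoint.star_eq] at h2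

theorem cC_mem_ZD (f : Fin (Q + 1) → ℂ) (h : v ∈ ZD Q D) : cC f *ᵥ v ∈ ZD Q D := by
  refine ⟨?_, fun g hg => ?_⟩
  · rcases Nat.eq_zero_or_pos Q with rfl | hQ
    · have : HC 0 = 0 := by rw [HC_eq]; exact Finset.sum_eq_zero fun p _ => absurd p.2 (by omega)
      rw [this, zero_mulVec]
    · exact cC_zero_mode hQ h.1 f
  · rw [mulVec_mulVec, eq_neg_of_add_eq_zero_left (cC_anticomm g f), neg_mulVec, ← mulVec_mulVec,
      h.2 g hg, mulVec_zero, neg_zero]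

theorem secP_mem_ZD (N : ℕ) (h : v ∈ ZD Q D) : secP (Q + 1) N *ᵥ v ∈ ZD Q D := by
  refine ⟨?_, fun g hg => ?_⟩
  · rw [mulVec_mulVec, ← (commute_secP (commute_numC_HC Q) N).eq, ← mulVec_mulVec, h.1, mulVec_zero]
  · rcases N with _ | N
    · have : secP (Q + 1) 0 *ᵥ v = v ∅ • vac (Q + 1) := by
        funext S
        rw [secP, mulVec_diagonal]
        by_cases hS : S = ∅
        · subst hS; simp [vac]
        · simp [vac, hS]
      rw [this, mulVec_smul, cC_vac, smul_zero]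
    · rw [mulVec_mulVec, ← secP_mul_cC, ← mulVec_mulVec, h.2 g hg, mulVec_zero]

theorem PD_nc (Q : ℕ) (D : Multiset S2) : NC (PD Q D) := by
  have h1 : ∀ v ∈ ZD Q D, numC (Q + 1) *ᵥ v ∈ ZD Q D := fun v h => by
    refine ⟨?_, fun g hg => ?_⟩
    · rw [mulVec_mulVec, ← (commute_numC_HC Q).eq, ← mulVec_mulVec, h.1, mulVec_zero]
    · rw [mulVec_mulVec, ← sub_add_cancel (cC g * numC (Q + 1)) (cC g), ← numC_mul_cC, add_mulVec,
        ← mulVec_mulVec, h.2 g hg, mulVec_zero, add_zero]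
  have h2 : PD Q D * (numC (Q + 1) * PD Q D) = numC (Q + 1) * PD Q D := by
    refine Matrix.ext_iff_mulVec.2 fun v => ?_
    rw [← mulVec_mulVec, ← mulVec_mulVec]
    exact PD_mulVec_iff.2 (h1 _ (PD_mulVec_mem D v))
  have h3 := congrArg star h2
  rw [star_mul, star_mul, (PD_proj Q D).isSelfAdjoint.star_eq, (numC_sa _).star_eq, mul_assoc,
    h2] at h3
  exact h3

/-! ### part B: units -/

theorem mem_ZD_add (h : Disjoint D D') : v ∈ ZD Q (D + D') ↔ v ∈ ZD Q D ∧ v ∈ ZD Q D' := by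
  exact mem_ZD_add' h

theorem fo_zero (Q : ℕ) (a w : S2) : fo Q a 0 w = coh Q w := by
  have hU : rho Q (spin a) * star (rho Q (spin a)) = 1 :=
    Unitary.mul_star_self_of_mem (rho_unitary Q (spin_unit a))
  have h1 : coh Q w = rho Q (spin a) *ᵥ (star (rho Q (spin a)) *ᵥ coh Q w) := by
    rw [mulVec_mulVec, hU, one_mulVec]
  rw [h1]
  funext j
  simp only [fo, Nat.zero_le, if_true, Finset.sum_apply, Pi.smul_apply, smul_eq_mul, pow_zero,
    div_one, Nat.sub_zero]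
  rw [mulVec, dotProduct]
  refine Finset.sum_congr rfl fun k _ => ?_
  have h2 := kv_dot_rho Q (spin w) (spin a) k
  have e : wedge (spin a) (spin w) = -(spin a).2 * (spin w).1 + (spin a).1 * (spin w).2 := by
    rw [wedge]; ring
  rw [e, ← h2, mul_comm]
  congr 1
  simp only [mulVec, dotProduct, map_sum, map_mul, Pi.star_apply, Matrix.star_apply,
    Complex.star_def, Complex.conj_conj, coh]
  exact Finset.sum_congr rfl fun i _ => mul_comm _ _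

theorem mem_ZD_replicate (a : S2) (m : ℕ) : v ∈ ZD Q (Multiset.replicate m a) ↔
    HC Q *ᵥ v = 0 ∧ ∀ k : Fin (Q + 1), (k : ℕ) < m → cC (orb Q a k) *ᵥ v = 0 := by
  exact mem_ZD_replicate' a m

theorem mem_ZD_unit (hQ : 1 ≤ Q) (a w : S2) (m : ℕ) :
    v ∈ ZD Q (w ::ₘ Multiset.replicate m a) ↔
      v ∈ ZD Q (Multiset.replicate m a) ∧ cC (fo Q a m w) *ᵥ v = 0 := by
  exact mem_ZD_unit' hQ a w m

theorem mem_ZD_cons_of_not_mem {w : S2} (h : w ∉ D) :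
    v ∈ ZD Q (w ::ₘ D) ↔ v ∈ ZD Q D ∧ ca Q w *ᵥ v = 0 := by
  exact mem_ZD_cons_of_not_mem' h

open Classical in
theorem mem_ZD_cons_near (hQ : 1 ≤ Q) {w b : S2} (h : w ∈ D → w = b) :
    v ∈ ZD Q (w ::ₘ D) ↔ v ∈ ZD Q D ∧ cC (fo Q b (D.count b) w) *ᵥ v = 0 := by
  exact mem_ZD_cons_near' hQ h

/-! ### part C: counting -/

theorem InZ.eq_zero (h : InZ Q D N v) (hN : 1 ≤ N) (hn : nfree Q D N < 0) : v = 0 :=
  ac_eq_zero hN D h hn

theorem InZ.unique (hu : InZ Q D N u) (hv : InZ Q D N v) (hn : nfree Q D N = 0) (h0 : u ≠ 0) :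
    ∃ c : ℂ, v = c • u :=
  ac_unique hu hv hn h0

theorem InZ.fill (h : InZ Q D (N + 1) v) (y : S2) :
    InZ Q (D + Multiset.replicate 3 y) N (ca Q y *ᵥ v) :=
  ac_fill (fun _ a _ h1 h2 => (mem_ZD_replicate a 3).2 ⟨h1, h2⟩) y D h

theorem fill_onto {w : ℂ} {T : Multiset S2} (hw : ster w ∉ T) (hT : T.card ≤ Q) {η : FV Q}
    (h : InZ Q (T + Multiset.replicate 3 (ster w)) N η) :
    ∃ u, InZ Q T (N + 1) u ∧ ca Q (ster w) *ᵥ u = η := by
  refine fill_onto' ?_ (spin_ster w) hw hT h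
  have : (0 : ℝ) < Real.sqrt (1 + ‖w‖ ^ 2) := Real.sqrt_pos.2 (by positivity)
  exact_mod_cast (inv_pos.2 this).ne'

/-! ### part D: the holomorphic evaluation map
`ch (1, w) = π_T(1, w) Γ(m_T) U(w)³ T_w` on the pinned zero modes, `T_w` a polynomial of degree
`n' = nfree`, onto the zero modes with `N - 1` particles at flux `Q - |T| - 3` for every `w ∈ ℙ¹`. -/

theorem exists_T (hN : 1 ≤ N) (T : Multiset S2) (n' : ℕ) (hn : T.card + 3 * (N - 1) + n' = Q) :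
    ∃ (m : ℕ) (Tc : ℕ → Matrix (Fin m) (Finset (Fin (Q + 1))) ℂ)
      (L : ℂ → Matrix (Finset (Fin (Q + 1))) (Fin m) ℂ),
      (∀ k, Tc k * (PD Q T * secP (Q + 1) N) = Tc k) ∧
      (∀ w : ℂ, IsUnit ((∑ k ∈ Finset.range (n' + 1), w ^ k • Tc k) *
        (∑ k ∈ Finset.range (n' + 1), w ^ k • Tc k)ᴴ)) ∧
      IsUnit (Tc n' * (Tc n')ᴴ) ∧
      (∀ (w : ℂ) (v : FV Q), InZ Q T N v →
        ((∑ k ∈ Finset.range (n' + 1), w ^ k • Tc k) *ᵥ v = 0 ↔ v ∈ ZD Q (ster w ::ₘ T))) ∧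
      (∀ w : ℂ, ch Q (1, w) * (PD Q T * secP (Q + 1) N) =
        L w * ∑ k ∈ Finset.range (n' + 1), w ^ k • Tc k) ∧
      ∀ (w : ℂ) (Λ : Matrix (Fin (Q + 1)) (Fin (Q + 1)) ℂ), IsDiv Q w Λ → piD T (1, w) ≠ 0 →
        ∀ i j, HasDerivAt (fun z => L z i j)
          (((T.map fun a => (spin a).1 / wedge (spin a) (1, w)).sum • L w -
            (3 : ℂ) • (dG Λ * L w)) i j) w := by
  obtain ⟨N, rfl⟩ : ∃ M, N = M + 1 := ⟨N - 1, by omega⟩
  have hc : secP (Q + 1) (N + 1) * PD Q T = PD Q T * secP (Q + 1) (N + 1) :=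
    (commute_secP (PD_nc Q T) (N + 1)).eq
  refine exists_T' T (by simpa using hn) (fun v => ⟨?_, ?_⟩) (fun v hv => ?_) fun w =>
    ⟨_, ?_, spin_ster w⟩
  · rw [mulVec_mulVec, ← mul_assoc, hc, mul_assoc, (secP_proj _ _).isIdempotentElem.eq]
  · rw [← mulVec_mulVec]; exact PD_mulVec_mem _ _
  · rw [← mulVec_mulVec, hv.1, PD_mulVec_iff.2 hv.2]
  · have : (0 : ℝ) < Real.sqrt (1 + ‖w‖ ^ 2) := Real.sqrt_pos.2 (by positivity)
    exact_mod_cast (inv_pos.2 this).ne'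

end Crest.Agent.R340.Pin
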