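import Crest.Agent.R340.IfCnt
import Crest.Agent.R340.F2Fin
import Crest.Agent.R340.F2Rot24

/-! # Row 340 interface: F2 (frame lower bound, ideas 1135, 1167, 1173). Owner helper49 -/

set_option autoImplicit false

namespace Crest.Agent.R340.Pin

open Matrix MeasureTheory Crest.MathPhysics.Laughlin
open scoped Matrix.Norms.L2Operator MatrixOrder ComplexOrder ComplexConjugate

/-- the sites depend on `T` (a rotated chart whose point at infinity is not a pin) -/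
theorem f2_main : ∃ (G c R₀ : ℝ) (Q₀ : ℕ), 0 < c ∧ ∀ Q, Q₀ ≤ Q →
    ∀ T : Multiset S2, AdmS Q R₀ T →
      ∃ (ι : Type) (_ : MeasurableSpace ι) (ν : Measure ι) (x : ι → S2), Sites Q G ν x ∧
        (∀ᵐ i ∂ν, x i ∉ T) ∧
        (∀ v : FV Q, AEStronglyMeasurable (fun i => PD Q (x i ::ₘ T) *ᵥ v) ν) ∧
        ∀ (N : ℕ) (v : FV Q), 1 ≤ N → InZ Q T N v →
          c * nfree Q T N * nq v ≤ ∫ i, nq (PD Q (x i ::ₘ T) *ᵥ v) ∂ν := by
  obtain ⟨c, R₀, Q₀, hc, -, H⟩ := F2.f2_chart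
  exact R24.f2_of_chart ⟨c, R₀, Q₀, hc, fun Q hQ E hE => (H Q hQ E hE).2⟩

end Crest.Agent.R340.Pin
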