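import Crest.Agent.R340.PinDefs
import Crest.Agent.R340.GeoInt

/-! # Row 340, PT: geometry of moving a pin -/

set_option autoImplicit false

namespace Crest.Agent.R340.Pin

open MeasureTheory Crest.MathPhysics.Laughlin

theorem h87_step {V : Type*} [NormedAddCommGroup V] [InnerProductSpace ℝ V] {p e : V}
    (hp : ‖p‖ = 1) (he : ‖e‖ = 1) (hd : ‖p - e‖ ≤ 1 / 2) {s : ℝ} (hs0 : 0 < s) (hs1 : s ≤ 1 / 2) :
    ∃ p' : V, ‖p'‖ = 1 ∧ ‖p - p'‖ ≤ 3 / 2 * (s * ‖p - e‖) ∧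
      ‖p' - e‖ ≤ ‖p - e‖ - s * ‖p - e‖ / 2 := by
  set d := ‖p - e‖ with hd'
  have hd0 : 0 ≤ d := norm_nonneg _
  set z := p - s • (p - e) with hz
  have h1 : d ^ 2 = 2 - 2 * inner ℝ p e := by
    rw [hd', norm_sub_sq_real, hp, he]; ring
  have h2 : ‖z‖ ^ 2 = 1 - s * (1 - s) * d ^ 2 := by
    rw [hz, norm_sub_sq_real, norm_smul, Real.norm_of_nonneg hs0.le, mul_pow, ← hd',
      real_inner_smul_right, inner_sub_right, real_inner_self_eq_norm_sq, hp, h1]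
    ring
  have hn0 : 0 ≤ ‖z‖ := norm_nonneg _
  have hsd : 0 ≤ s * d := mul_nonneg hs0.le hd0
  have h3 : s * (1 - s) * d ^ 2 ≤ s * d / 2 := by nlinarith [mul_nonneg hsd hd0, mul_nonneg hsd hsd]
  have h4 : 0 ≤ s * (1 - s) * d ^ 2 := mul_nonneg (mul_nonneg hs0.le (by linarith)) (sq_nonneg _)
  have hn1 : ‖z‖ ≤ 1 := by nlinarith
  have hnp : 0 < ‖z‖ := by
    rcases hn0.eq_or_lt with h | h
    · rw [← h] at h2; nlinarith
    · exact h
  have h5 : ‖‖z‖⁻¹ • z - z‖ ≤ s * d / 2 := by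
    have : ‖z‖⁻¹ • z - z = (‖z‖⁻¹ - 1) • z := by rw [sub_smul, one_smul]
    have h6 : 0 ≤ ‖z‖⁻¹ - 1 := sub_nonneg.2 (one_le_inv₀ hnp |>.2 hn1)
    rw [this, norm_smul, Real.norm_of_nonneg h6, sub_mul, inv_mul_cancel₀ hnp.ne', one_mul]
    nlinarith
  refine ⟨‖z‖⁻¹ • z, ?_, ?_, ?_⟩
  · rw [norm_smul, norm_inv, norm_norm, inv_mul_cancel₀ hnp.ne']
  · have e1 : ‖p - z‖ = s * d := by
      rw [hz, sub_sub_cancel, norm_smul, Real.norm_of_nonneg hs0.le]
    have := norm_sub_le_norm_sub_add_norm_sub p z (‖z‖⁻¹ • z)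
    rw [norm_sub_rev z] at this
    linarith
  · have e1 : ‖z - e‖ = (1 - s) * d := by
      have : z - e = (1 - s) • (p - e) := by rw [hz, sub_smul, one_smul]; abel
      rw [this, norm_smul, Real.norm_of_nonneg (by linarith)]
    have := norm_sub_le_norm_sub_add_norm_sub (‖z‖⁻¹ • z) z e
    linarith

/-- One step from `p` towards `e`.  Hint: if `dq p e ≤ δ` take `p' = e`.  Otherwise let
`d = ‖p - e‖ ≤ 1/2`, `s = δ / (2 dq p e) ∈ (0, 1/2)`, `z = p + s (e - p)`,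
`‖z‖² = 1 - s (1 - s) d²`, `p' = z / ‖z‖`, `‖p' - z‖ = 1 - ‖z‖ ≤ 1 - ‖z‖² ≤ s d²≤ s d / 2`, so
`‖p - p'‖ ≤ 2 s d`, `‖p' - e‖ ≤ (1 - s) d + s d / 2`. -/
theorem geo_step {Q : ℕ} (hQ : 1 ≤ Q) {δ : ℝ} (hδ : 0 < δ) (p e : S2)
    (h : dq Q p e ≤ Real.sqrt Q / 4) :
    ∃ p' : S2, dq Q p p' ≤ δ ∧ dq Q p' e ≤ max 0 (dq Q p e - δ / 4) := by
  by_cases h0 : dq Q p e ≤ δ
  · exact ⟨e, h0, by simp [dq]⟩
  have hc : 0 < Real.sqrt Q := Real.sqrt_pos.2 (by exact_mod_cast hQ)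
  have h1 : δ < dq Q p e := not_le.1 h0
  have h2 : 0 < dq Q p e := hδ.trans h1
  have hd : ‖(p : EuclideanSpace ℝ (Fin 3)) - e‖ ≤ 1 / 2 := by
    unfold dq at h
    refine le_of_mul_le_mul_left ?_ hc
    linarith
  obtain ⟨y, hy, a1, a2⟩ := h87_step (p := (p : EuclideanSpace ℝ (Fin 3))) (e := e) (by simp)
    (by simp) hd (s := δ / (2 * dq Q p e)) (by positivity)
    (by rw [div_le_iff₀ (by positivity)]; linarith)
  have e1 : Real.sqrt Q * (δ / (2 * dq Q p e) * ‖(p : EuclideanSpace ℝ (Fin 3)) - e‖) = δ := by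
    have : Real.sqrt Q * ‖(p : EuclideanSpace ℝ (Fin 3)) - e‖ = 2 * dq Q p e := by
      unfold dq; ring
    calc _ = δ / (2 * dq Q p e) * (Real.sqrt Q * ‖(p : EuclideanSpace ℝ (Fin 3)) - e‖) := by ring
      _ = δ := by rw [this]; field_simp
  have b1 := mul_le_mul_of_nonneg_left a1 hc.le
  have b2 := mul_le_mul_of_nonneg_left a2 hc.le
  refine ⟨⟨y, by simpa using hy⟩, ?_, le_max_of_le_right ?_⟩
  · change Real.sqrt Q * ‖(p : EuclideanSpace ℝ (Fin 3)) - y‖ / 2 ≤ δ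
    linarith
  · change Real.sqrt Q * ‖y - e‖ / 2 ≤
      Real.sqrt Q * ‖(p : EuclideanSpace ℝ (Fin 3)) - e‖ / 2 - δ / 4
    linarith

theorem eq_of_dq_le {Q : ℕ} (hQ : 1 ≤ Q) {p e : S2} (h : dq Q p e ≤ 0) : p = e := by
  have hc : 0 < Real.sqrt Q := Real.sqrt_pos.2 (by exact_mod_cast hQ)
  unfold dq at h
  have h1 : ‖(p : EuclideanSpace ℝ (Fin 3)) - e‖ ≤ 0 := by
    refine le_of_mul_le_mul_left ?_ hc
    linarith
  exact Subtype.ext (sub_eq_zero.1 (norm_le_zero_iff.1 h1))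

/-- the points at distance at least `R` from the pins -/
def Fr (Q : ℕ) (R : ℝ) (T : Multiset S2) : Set S2 := {e | ∀ b ∈ T, R ≤ dq Q b e}

theorem measurableSet_Fr (Q : ℕ) (R : ℝ) (T : Multiset S2) : MeasurableSet (Fr Q R T) := by
  have h : Fr Q R T = ⋂ b ∈ T.toList, {e | R ≤ dq Q b e} := by
    ext e
    simp [Fr]
  rw [h]
  exact MeasurableSet.biInter (List.finite_toSet T.toList).countable fun b _ =>
    measurableSet_le measurable_const
      ((continuous_dq Q).comp (Continuous.prodMk_right b)).measurable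

theorem Fr_zero (Q : ℕ) (R : ℝ) : Fr Q R 0 = Set.univ := by
  ext e
  simp [Fr]

theorem Fr_cons (Q : ℕ) (R : ℝ) (e : S2) (T : Multiset S2) :
    Fr Q R (e ::ₘ T) = Fr Q R T ∩ {y | R ≤ dq Q e y} := by
  ext y
  simp only [Fr, Multiset.mem_cons, forall_eq_or_imp, Set.mem_inter_iff, Set.mem_ofPred_eq]
  exact and_comm

theorem AdmS.cons_Fr {Q : ℕ} {R : ℝ} {T : Multiset S2} {e : S2} (h : AdmS Q R T) (hR : 0 < R)
    (he : e ∈ Fr Q R T) : AdmS Q R (e ::ₘ T) := by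
  refine ⟨fun a ha b hb hab => ?_, Multiset.nodup_cons.2 ⟨fun hT => ?_, h.2⟩⟩
  · rcases Multiset.mem_cons.1 ha with rfl | ha' <;> rcases Multiset.mem_cons.1 hb with rfl | hb'
    · exact absurd rfl hab
    · rw [dq_symm]; exact he b hb'
    · exact he a ha'
    · exact h.1 a ha' b hb' hab
  · have h1 := he e hT
    rw [dq_self] at h1
    exact absurd h1 (not_le.2 hR)

/-- Free points.  Hint: otherwise the ball of radius `√Q / 4` (`muq_ball_ge`, mass `≥ Q / 16`) is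
covered by the balls of radius `R` around the pins (`muq_ball`, mass `≤ 2 R²` each;
`measure_biUnion_finset_le` over `T.toFinset`, `Multiset.toFinset_card_le`). -/
theorem exists_free {Q : ℕ} (hQ : 1 ≤ Q) {R : ℝ} {T : Multiset S2}
    (h : 32 * R ^ 2 * T.card < Q) (w : S2) : ∃ e ∈ Fr Q R T, dq Q w e ≤ Real.sqrt Q / 4 := by
  classical
  by_contra hcon
  push Not at hcon
  have hQ0 : (0 : ℝ) ≤ Q := Nat.cast_nonneg Q
  have hsq : (Real.sqrt Q / 4) ^ 2 = Q / 16 := by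
    rw [div_pow, Real.sq_sqrt hQ0]; norm_num
  have h1 := muq_ball_ge hQ w (r := Real.sqrt Q / 4) (by positivity) (by rw [hsq]; linarith)
  have hsub : {y | dq Q w y ≤ Real.sqrt Q / 4} ⊆ ⋃ b ∈ T.toFinset, {y | dq Q b y ≤ R} := by
    intro y hy
    have h2 : y ∉ Fr Q R T := fun hF => absurd hy (not_le.2 (hcon y hF))
    simp only [Fr, Set.mem_ofPred_eq, not_forall, not_le] at h2
    obtain ⟨b, hb, hb'⟩ := h2
    exact Set.mem_biUnion (Multiset.mem_toFinset.2 hb) hb'.le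
  have h3 : muq Q (⋃ b ∈ T.toFinset, {y | dq Q b y ≤ R}) ≤
      ENNReal.ofReal (T.toFinset.card * (2 * R ^ 2)) := by
    refine (measure_biUnion_finset_le _ _).trans ?_
    refine (Finset.sum_le_card_nsmul _ _ _ fun b _ => muq_ball hQ b R).trans (le_of_eq ?_)
    rw [nsmul_eq_mul, ENNReal.ofReal_mul (Nat.cast_nonneg _), ENNReal.ofReal_natCast]
  have h4 := (ENNReal.ofReal_le_ofReal_iff (by positivity)).1
    (h1.trans ((measure_mono hsub).trans h3))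
  have h5 : (T.toFinset.card : ℝ) ≤ T.card := by exact_mod_cast Multiset.toFinset_card_le T
  rw [hsq] at h4
  nlinarith [mul_le_mul_of_nonneg_right h5 (sq_nonneg R)]

/-- the cost of a path is summable (`Real.summable_exp..`: `wt β b (j δ) ≤ C / (1 + j)²`; use
`x ^ k / k! ≤ exp x`, `Real.pow_div_factorial_le_exp`, with `k β ≥ 2`) -/
theorem sum_wt_le {β b δ : ℝ} (hβ : 0 < β) (hb : 0 < b) (hδ : 0 < δ) :
    ∃ S : ℝ, 0 ≤ S ∧ ∀ k : ℕ, ∑ j ∈ Finset.range k, wt β b (j * δ) ≤ S := by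
  obtain ⟨k, hk⟩ := exists_nat_gt (1 / β)
  have hk1 : 1 < β * k := by rwa [div_lt_iff₀' hβ] at hk
  have hs : Summable fun j : ℕ => wt β b (j * δ) := by
    refine Summable.of_norm_bounded_eventually_nat
      (((Real.summable_nat_rpow_inv.mpr hk1)).mul_left (k.factorial / (b * δ ^ β) ^ k)) ?_
    filter_upwards [Filter.eventually_gt_atTop 0] with j hj
    have hj0 : (0 : ℝ) < j := Nat.cast_pos.mpr hj
    have hy : 0 < b * ((j : ℝ) * δ) ^ β := by positivity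
    have h1 := Real.pow_div_factorial_le_exp _ hy.le k
    have e : (b * ((j : ℝ) * δ) ^ β) ^ k = (b * δ ^ β) ^ k * (j : ℝ) ^ (β * k) := by
      rw [Real.mul_rpow hj0.le hδ.le, Real.rpow_mul_natCast hj0.le]
      ring
    rw [wt, Real.norm_of_nonneg (Real.exp_pos _).le, Real.exp_neg]
    refine (inv_anti₀ (by positivity) h1).trans (le_of_eq ?_)
    rw [e]
    field_simp
  exact ⟨_, tsum_nonneg fun j => (Real.exp_pos _).le,
    fun k => hs.sum_le_tsum _ fun j _ => (Real.exp_pos _).le⟩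

theorem wt_pos (β b r : ℝ) : 0 < wt β b r := Real.exp_pos _

theorem wt_anti {β b r r' : ℝ} (hβ : 0 ≤ β) (hb : 0 ≤ b) (h0 : 0 ≤ r) (h : r ≤ r') :
    wt β b r' ≤ wt β b r := by
  exact Real.exp_le_exp.mpr (neg_le_neg (mul_le_mul_of_nonneg_left (Real.rpow_le_rpow h0 h hβ) hb))

theorem wt_split (β b r : ℝ) : wt β b r = wt β (b / 2) r * wt β (b / 2) r := by
  unfold wt
  rw [← Real.exp_add]
  congr 1
  ring

end Crest.Agent.R340.Pin
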