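import Crest.Agent.R340.PtMer
import Crest.Agent.R340.PtGeo

/-! # Row 340, PT: chains of small moves avoiding a point -/

set_option autoImplicit false

namespace Crest.Agent.R340.Pin

open Crest.MathPhysics.Laughlin

theorem ch31_wt_sum {β b δ : ℝ} (hβ : 0 < β) (hb : 0 < b) (hδ : 0 < δ) :
    ∃ S : ℝ, 0 ≤ S ∧ ∀ n : ℕ, ∑ k ∈ Finset.range n, wt β b (k * δ) ≤ S := by
  obtain ⟨m, hm⟩ := exists_nat_gt (1 / β)
  have hm' : 1 < β * m := by rwa [div_lt_iff₀ hβ, mul_comm] at hm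
  have hs : Summable fun k : ℕ => wt β b (k * δ) := by
    refine Summable.of_norm_bounded_eventually_nat
      ((Real.summable_nat_rpow_inv.2 hm').mul_left ((m.factorial : ℝ) / (b * δ ^ β) ^ m)) ?_
    filter_upwards [Filter.eventually_ge_atTop 1] with k hk
    have hk' : (0 : ℝ) < k := by exact_mod_cast hk
    have hy : 0 < b * ((k : ℝ) * δ) ^ β := by positivity
    have h1 := Real.pow_div_factorial_le_exp _ hy.le m
    have e : (b * ((k : ℝ) * δ) ^ β) ^ m = (b * δ ^ β) ^ m * (k : ℝ) ^ (β * m) := by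
      rw [Real.mul_rpow hk'.le hδ.le, Real.rpow_mul hk'.le, Real.rpow_natCast, ← mul_pow]
      congr 1; ring
    have hf : (0 : ℝ) < m.factorial := by exact_mod_cast m.factorial_pos
    rw [Real.norm_eq_abs, abs_of_pos (wt_pos _ _ _), wt, Real.exp_neg, ← div_eq_mul_inv, div_div,
      ← e, ← inv_div]
    exact inv_anti₀ (by positivity) h1
  exact ⟨∑' k : ℕ, wt β b (k * δ), tsum_nonneg fun k => (wt_pos _ _ _).le,
    fun n => hs.sum_le_tsum _ fun k _ => (wt_pos _ _ _).le⟩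

theorem ch31_dq_nonneg (Q : ℕ) (x y : S2) : 0 ≤ dq Q x y := by
  unfold dq; positivity

theorem ch31_leg {β b δ K S : ℝ} (hβ : 0 < β) (hb : 0 < b) (hδ : 0 < δ) (hK : 0 ≤ K)
    (hS : ∀ n : ℕ, ∑ k ∈ Finset.range n, wt β (b / 2) (k * (δ / 2)) ≤ S) {Q : ℕ} {x : S2}
    {P : S2 → ℝ → Prop} (hm : ∀ w l l', l ≤ l' → P w l → P w l')
    (hs : ∀ w w' l ε, dq Q w w' ≤ δ → wt β b (dq Q x w) ≤ ε → wt β b (dq Q x w') ≤ ε →
      P w' l → P w (l + K * ε)) {c y : S2} {γ : ℝ → S2} {s₀ L : ℝ} (h0 : 0 ≤ s₀) (hL : s₀ ≤ L)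
    (hc : γ s₀ = c) (hy : γ L = y) (hlip : ∀ s t, dq Q (γ s) (γ t) ≤ |s - t|)
    (hd : ∀ s, s₀ ≤ s → s ≤ L → dq Q x c ≤ dq Q x (γ s) ∧ s / 2 ≤ dq Q x (γ s)) (l : ℝ) :
    (P c l → P y (l + K * S * wt β (b / 2) (dq Q x c))) ∧
      (P y l → P c (l + K * S * wt β (b / 2) (dq Q x c))) := by
  set A := wt β (b / 2) (dq Q x c) with hA
  have hA0 : 0 < A := wt_pos _ _ _
  set t : ℕ → ℝ := fun k => wt β (b / 2) (k * (δ / 2)) with ht
  set p : ℕ → S2 := fun k => γ (min (s₀ + k * δ) L) with hp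
  have hw : ∀ (k : ℕ) (s : ℝ), s₀ ≤ s → s ≤ L → k * δ ≤ s → wt β b (dq Q x (γ s)) ≤ A * t k := by
    intro k s h1 h2 h3
    rw [wt_split]
    exact mul_le_mul (wt_anti hβ.le (by positivity) (ch31_dq_nonneg _ _ _) (hd s h1 h2).1)
      (wt_anti hβ.le (by positivity) (by positivity) (by linarith [(hd s h1 h2).2]))
      (wt_pos _ _ _).le hA0.le
  have step : ∀ (k : ℕ) (l : ℝ), (P (p k) l → P (p (k + 1)) (l + K * (A * t k))) ∧
      (P (p (k + 1)) l → P (p k) (l + K * (A * t k))) := by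
    intro k l
    have hk : (0 : ℝ) ≤ k * δ := by positivity
    have e : ((k + 1 : ℕ) : ℝ) * δ = k * δ + δ := by push_cast; ring
    rcases le_total (s₀ + k * δ) L with h | h
    · have w1 : wt β b (dq Q x (p k)) ≤ A * t k :=
        hw k _ (le_min (by linarith) hL) (min_le_right _ _) (le_min (by linarith) (by linarith))
      have w2 : wt β b (dq Q x (p (k + 1))) ≤ A * t k :=
        hw k _ (le_min (by linarith) hL) (min_le_right _ _) (le_min (by linarith) (by linarith))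
      have a1 : |min (s₀ + k * δ) L - min (s₀ + ((k + 1 : ℕ) : ℝ) * δ) L| ≤ δ := by
        rw [min_eq_left h, e, abs_le]
        rcases le_total (s₀ + (k * δ + δ)) L with h' | h'
        · rw [min_eq_left h']; constructor <;> linarith
        · rw [min_eq_right h']; constructor <;> linarith
      exact ⟨hs _ _ _ _ ((hlip _ _).trans (by rwa [abs_sub_comm])) w2 w1,
        hs _ _ _ _ ((hlip _ _).trans a1) w1 w2⟩
    · have e1 : p (k + 1) = p k := by
        simp only [hp]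
        rw [min_eq_right h, min_eq_right (by linarith)]
      have : 0 ≤ K * (A * t k) := mul_nonneg hK (mul_nonneg hA0.le (wt_pos _ _ _).le)
      rw [e1]
      exact ⟨hm _ _ _ (by linarith), hm _ _ _ (by linarith)⟩
  have ind : ∀ (n : ℕ) (l : ℝ), (P (p 0) l → P (p n) (l + K * A * ∑ k ∈ Finset.range n, t k)) ∧
      (P (p n) l → P (p 0) (l + K * A * ∑ k ∈ Finset.range n, t k)) := by
    intro n
    induction n with
    | zero => intro l; simp
    | succ n ih =>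
      intro l
      rw [Finset.sum_range_succ]
      constructor
      · intro h
        refine hm _ _ _ (le_of_eq ?_) ((step n _).1 ((ih l).1 h))
        ring
      · intro h
        refine hm _ _ _ (le_of_eq ?_) ((ih _).2 ((step n l).2 h))
        ring
  obtain ⟨n, hn⟩ := exists_nat_ge (L / δ)
  rw [div_le_iff₀ hδ] at hn
  have p0 : p 0 = c := by simp [hp, min_eq_left hL, hc]
  have pn : p n = y := by
    simp only [hp]
    rw [min_eq_right (by linarith), hy]
  have hle : l + K * A * ∑ k ∈ Finset.range n, t k ≤ l + K * S * A := by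
    have := mul_le_mul_of_nonneg_left (hS n) (mul_nonneg hK hA0.le)
    simp only [ht]
    linarith
  have := ind n l
  rw [p0, pn] at this
  exact ⟨fun h => hm _ _ _ hle (this.1 h), fun h => hm _ _ _ hle (this.2 h)⟩

/-- Small moves of cost `K ε` give arbitrary moves (via the antipode of `x`, `exists_meridian`:
steps `γ (min (s₀ + k δ) L)`, cost `K wt(b/2)(dq x w) wt(b/2)(k δ / 2)`). -/
theorem chain {β b δ K : ℝ} (hβ : 0 < β) (hb : 0 < b) (hδ : 0 < δ) (hK : 0 ≤ K) :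
    ∃ K' : ℝ, 0 ≤ K' ∧ ∀ Q : ℕ, 1 ≤ Q → ∀ (x : S2) (P : S2 → ℝ → Prop),
      (∀ w l l', l ≤ l' → P w l → P w l') →
      (∀ w w' l ε, dq Q w w' ≤ δ → wt β b (dq Q x w) ≤ ε → wt β b (dq Q x w') ≤ ε →
        P w' l → P w (l + K * ε)) →
      ∀ w w' l, P w' l → P w (l + K' * (wt β (b / 2) (dq Q x w) + wt β (b / 2) (dq Q x w'))) := by
  obtain ⟨S, hS0, hS⟩ := ch31_wt_sum hβ (half_pos hb) (half_pos hδ)
  refine ⟨K * S, mul_nonneg hK hS0, fun Q hQ x P hm hs w w' l h => ?_⟩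
  obtain ⟨y, hy⟩ := exists_meridian hQ x
  obtain ⟨γ, s₀, L, a1, a2, a3, a4, a5, a6⟩ := hy w
  obtain ⟨γ', s₀', L', b1, b2, b3, b4, b5, b6⟩ := hy w'
  have h1 := (ch31_leg hβ hb hδ hK hS hm hs b1 b2 b3 b4 b5 b6 l).1 h
  have h2 := (ch31_leg hβ hb hδ hK hS hm hs a1 a2 a3 a4 a5 a6 _).2 h1
  refine hm _ _ _ (le_of_eq ?_) h2
  ring

end Crest.Agent.R340.Pin
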