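import Crest.Agent.R340.PtSpan

/-! # Row 340, PT: FILL (a triple pin is a particle) and existence under small moves -/

set_option autoImplicit false

namespace Crest.Agent.R340.Pin

open Matrix MeasureTheory Crest.MathPhysics.Laughlin
open scoped Matrix.Norms.L2Operator MatrixOrder ComplexOrder ComplexConjugate

/-- there is a nonzero pinned zero mode -/
def ExZ (Q : ℕ) (D : Multiset S2) (N : ℕ) : Prop := ∃ u : FV Q, u ≠ 0 ∧ InZ Q D N u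

theorem h4_sec {Q N : ℕ} (D : Multiset S2) {u : FV Q} (hu : secP (Q + 1) N *ᵥ u = u) :
    InZ Q D N (PD Q D *ᵥ u) :=
  ⟨by rw [mulVec_mulVec, (commute_secP (PD_nc Q D) N).eq, ← mulVec_mulVec, hu], PD_mulVec_mem D u⟩

/-- `P_w u ≠ 0` for `0 ≠ u = P_{w'} u`, as `‖P_w P_{w'} - P_{w'}‖ < 1` (`kd_lip`) -/
theorem exz_move : ∃ (R₀ δ : ℝ) (Q₀ : ℕ), 0 < δ ∧ ∀ Q, Q₀ ≤ Q →
    ∀ (T : Multiset S2) (w w' : S2) (N : ℕ), AdmT Q R₀ T → dq Q w w' ≤ δ →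
      ExZ Q (w' ::ₘ T) N → ExZ Q (w ::ₘ T) N := by
  obtain ⟨R₀, C, Q₀, hC, h⟩ := kd_lip
  refine ⟨R₀, min 1 (1 / (2 * C)), Q₀, lt_min one_pos (by positivity), ?_⟩
  rintro Q hQ T w w' N hT hd ⟨u, hu0, hu⟩
  rw [dq_symm] at hd
  have d2 : dq Q w' w * (2 * C) ≤ 1 :=
    (le_div_iff₀ (by positivity)).1 (hd.trans (min_le_right _ _))
  have hE := h Q hQ T w' w hT (hd.trans (min_le_left _ _))
  refine ⟨_, fun h0 => hu0 ?_, h4_sec (w ::ₘ T) hu.1⟩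
  have n2 : ‖PD Q (w' ::ₘ T) - PD Q (w ::ₘ T) * PD Q (w' ::ₘ T)‖ < 1 := by
    rw [norm_sub_rev]
    linarith
  have hP : PD Q (w' ::ₘ T) *ᵥ u = u := PD_mulVec_iff.2 hu.2
  have e1 : (Units.oneSub _ n2).val *ᵥ u = 0 := by
    rw [Units.val_oneSub, sub_mulVec, sub_mulVec, one_mulVec, ← mulVec_mulVec, hP, h0]
    simp
  have e2 := congrArg ((Units.oneSub _ n2).inv *ᵥ ·) e1
  simpa only [mulVec_mulVec, (Units.oneSub _ n2).inv_val, one_mulVec, mulVec_zero] using e2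

/-- `g ‖u‖² ≤ ‖c(y) u‖²` when no hole is free (`kd_add` with `S = 0`, `InZ.eq_zero`) -/
theorem fill_lower : ∃ (R₀ g : ℝ) (Q₀ : ℕ), 0 < g ∧ ∀ Q, Q₀ ≤ Q →
    ∀ (T : Multiset S2) (y : S2) (N : ℕ) (u : FV Q), AdmS Q R₀ (y ::ₘ T) →
      nfree Q T (N + 1) = 0 → InZ Q T (N + 1) u → g * nq u ≤ nq (ca Q y *ᵥ u) := by
  obtain ⟨r₀, R₀, g, Q₀, h1, h2, hg, h⟩ := kd_add
  refine ⟨R₀, g, Q₀, hg, fun Q hQ T y N u hS hn hu => ?_⟩
  have hle := (h Q hQ T 0 y (hS.toAdmT.mono le_rfl (Multiset.le_cons_self T y))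
    (hS.mono le_rfl (Multiset.cons_le_cons y (Multiset.zero_le T)))).1 fun b hb => by
      have hne : b ≠ y := fun e => (Multiset.nodup_cons.1 hS.2).1 (e ▸ hb)
      have := hS.1 b (Multiset.mem_cons_of_mem hb) y (Multiset.mem_cons_self y T) hne
      linarith
  rw [add_zero] at hle
  have hP : PD Q T *ᵥ u = u := PD_mulVec_iff.2 hu.2
  have h0 : PD Q (y ::ₘ T) *ᵥ u = 0 := (h4_sec (y ::ₘ T) hu.1).eq_zero (by omega) (by
    unfold nfree at hn ⊢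
    rw [Multiset.card_cons]
    push_cast at hn ⊢
    linarith)
  have h3 := (Matrix.le_iff.1 hle).dotProduct_mulVec_nonneg u
  have e1 : star u ⬝ᵥ (PD Q T * nx Q y * PD Q T) *ᵥ u = star (ca Q y *ᵥ u) ⬝ᵥ (ca Q y *ᵥ u) := by
    have hs : (PD Q T)ᴴ = PD Q T := (PD_proj Q T).isSelfAdjoint.star_eq
    rw [← mulVec_mulVec, hP, ← mulVec_mulVec, dotProduct_mulVec, ← hs, ← star_mulVec, hP, nx,
      ← mulVec_mulVec, dotProduct_mulVec, star_eq_conjTranspose, ← star_mulVec]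
  rw [sub_mulVec, dotProduct_sub, e1, smul_mulVec, sub_mulVec, hP, h0, sub_zero,
    dotProduct_smul] at h3
  have h4 := (Complex.nonneg_iff.1 h3).1
  rw [Complex.sub_re, Complex.smul_re, smul_eq_mul] at h4
  exact sub_nonneg.1 h4

/-- The filtered observable: it commutes with `PD T`, agrees with `A` on `ZD T`, and almost
commutes with `c(y)` (`kd_parent` with `S = 0`, `filt_ann`, `filt_QL`). -/
theorem fill_bar {α a : ℝ} (h0 : 0 < α) (h1 : α ≤ 1 / 2) (ha : 0 < a) :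
    ∃ (R₀ b K : ℝ) (Q₀ : ℕ), 0 < b ∧ 0 ≤ K ∧ ∀ Q, Q₀ ≤ Q →
      ∀ (T : Multiset S2) (x : S2) (A : Fk (Q + 1)), AdmT Q R₀ T → QL Q α a 1 x A →
        ∃ B : Fk (Q + 1), Commute (PD Q T) B ∧ B * PD Q T = PD Q T * A * PD Q T ∧
          ∀ y, ‖B * ca Q y - ca Q y * B‖ ≤ K * wt (α / 2) b (dq Q x y) := by
  obtain ⟨R₀, g, aK, C, G, Q₀, hg, haK, hK⟩ := kd_parent
  obtain ⟨Cw, cw, -, hcw, hw⟩ := Filt.exists_filt
  obtain ⟨w, W, hf, -, -, hd, -⟩ := hw g hg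
  have hm : 0 < min a aK := lt_min ha haK
  obtain ⟨b, K', hb, hK', hF⟩ := filt_QL (α := α) (a := min a aK) (C := Real.exp aK * C) (G := G)
    (Cw := g * Cw) (cw := cw * Real.sqrt g) h0 (by linarith) hm
    (mul_pos hcw (Real.sqrt_pos.2 hg))
  refine ⟨R₀, b, K' * (Real.exp a * 1), max Q₀ 1, hb, by positivity, fun Q hQ T x A hT hA => ?_⟩
  obtain ⟨K, hL, hP⟩ := hK Q ((le_max_left _ _).trans hQ) T 0 hT
    ⟨fun a ha => absurd ha (Multiset.notMem_zero a), Multiset.nodup_zero⟩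
  rw [add_zero] at hP
  have h2 := Kd.filt_ann hf le_rfl (hP.toGap (projOf_proj _)) hP.kill A
  have h3 := (hF Q ((le_max_right _ _).trans hQ) K
    (hL.weaken h0 h1 hm.le (min_le_right _ _) le_rfl le_rfl) w hf.int_w hd _ x A).1
    (hA.weaken h0 le_rfl hm.le (min_le_left _ _))
  exact ⟨Filt.filt w K A, h2.1, h2.2, fun y =>
    (le_add_of_nonneg_right (norm_nonneg _)).trans (h3.2 y)⟩

/-- FILL.  `u` spans `Z_T(N+1)`, `η = c(y) u` spans `Z_{T + 3y}(N)`, `B u = μ u`, `μ ≤ lam`,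
`⟨η, A η⟩ = ⟨η, B c u⟩ = μ ‖η‖² + ⟨η, [B, c] u⟩`. -/
theorem fill {α a : ℝ} (h0 : 0 < α) (h1 : α ≤ 1 / 2) (ha : 0 < a) :
    ∃ (R₀ b K : ℝ) (Q₀ : ℕ), 0 < b ∧ 0 ≤ K ∧ ∀ Q, Q₀ ≤ Q →
      ∀ (T : Multiset S2) (y x : S2) (N : ℕ) (A : Fk (Q + 1)) (lam : ℝ),
        AdmS Q R₀ (y ::ₘ T) → nfree Q T (N + 1) = 0 → NL Q α a 1 x A →
        Bnd Q T (N + 1) A lam → ExZ Q T (N + 1) →
          Bnd Q (T + Multiset.replicate 3 y) N A (lam + K * wt (α / 2) b (dq Q x y)) ∧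
            ExZ Q (T + Multiset.replicate 3 y) N := by
  obtain ⟨R₁, g, Q₁, hg, hl⟩ := fill_lower
  obtain ⟨R₂, b, K, Q₂, hb, hK, hbar⟩ := fill_bar h0 h1 ha
  refine ⟨max R₁ R₂, b, K * ((1 + g⁻¹) / 2), max Q₁ Q₂, hb, by positivity, ?_⟩
  rintro Q hQ T y x N A lam hS hn hA hB ⟨u, hu0, hu⟩
  obtain ⟨B, -, eB, nB⟩ := hbar Q ((le_max_right _ _).trans hQ) T x A
    (hS.mono (le_max_right _ _) (Multiset.le_cons_self _ _)).toAdmT hA.2
  have hlow := hl Q ((le_max_left _ _).trans hQ) T y N u (hS.mono (le_max_left _ _) le_rfl) hn hu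
  have hη := hu.fill y
  have hup := fl_nq_pos hu0
  have hη0 : ca Q y *ᵥ u ≠ 0 := fun h => by
    rw [h] at hlow
    have : nq (0 : FV Q) = 0 := by simp [nq]
    rw [this] at hlow
    exact absurd hlow (not_le.2 (mul_pos hg hup))
  have hn' : nfree Q (T + Multiset.replicate 3 y) N = 0 := by
    unfold nfree at hn ⊢
    rw [Multiset.card_add, Multiset.card_replicate]
    push_cast at hn ⊢
    linarith
  refine ⟨Bnd.of_span hη hη0 hn' ?_, _, hη0, hη⟩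
  have hP := PD_proj Q T
  have pu : PD Q T *ᵥ u = u := PD_mulVec_iff.2 hu.2
  have pη : PD Q T *ᵥ (ca Q y *ᵥ u) = ca Q y *ᵥ u :=
    PD_mulVec_iff.2 (ZD_anti (Multiset.le_add_right _ _) hη.2)
  have hBv : ∀ v, PD Q T *ᵥ v = v → B *ᵥ v = PD Q T *ᵥ (A *ᵥ v) := fun v hv => by
    have := congrArg (· *ᵥ v) eB
    simpa only [← mulVec_mulVec, hv] using this
  have hBu : InZ Q T (N + 1) (B *ᵥ u) := by
    rw [hBv u pu]
    refine ⟨?_, PD_mulVec_mem _ _⟩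
    rw [mulVec_mulVec, (commute_secP (PD_nc Q T) (N + 1)).eq, ← mulVec_mulVec, mulVec_mulVec _ _ A,
      (commute_secP hA.1 (N + 1)).eq, ← mulVec_mulVec, hu.1]
  obtain ⟨μ, hμ⟩ := hu.unique hBu hn hu0
  have hμl : μ.re ≤ lam := by
    have h2 := hB u hu
    have h3 : qf A u = μ.re * nq u := by
      unfold qf
      rw [← fl_proj hP pu, ← hBv u pu, hμ, dotProduct_smul, fl_self, smul_eq_mul,
        Complex.re_mul_ofReal]
    rw [h3] at h2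
    exact le_of_mul_le_mul_right h2 hup
  have h4 : qf A (ca Q y *ᵥ u) = μ.re * nq (ca Q y *ᵥ u) +
      (star (ca Q y *ᵥ u) ⬝ᵥ (B * ca Q y - ca Q y * B) *ᵥ u).re := by
    unfold qf
    rw [← fl_proj hP pη, ← hBv _ pη, sub_mulVec, ← mulVec_mulVec, ← mulVec_mulVec, hμ, mulVec_smul,
      dotProduct_sub, dotProduct_smul, fl_self, smul_eq_mul, Complex.sub_re, Complex.re_mul_ofReal]
    ring
  have h5 := fl_re_le (B * ca Q y - ca Q y * B) (ca Q y *ᵥ u) u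
  have h6 : nq u ≤ g⁻¹ * nq (ca Q y *ᵥ u) := by
    rw [← div_eq_inv_mul, le_div_iff₀ hg]
    linarith
  have h7 := nq_nonneg' (ca Q y *ᵥ u)
  have h8 : ‖B * ca Q y - ca Q y * B‖ * ((nq (ca Q y *ᵥ u) + nq u) / 2) ≤
      K * wt (α / 2) b (dq Q x y) * ((1 + g⁻¹) / 2 * nq (ca Q y *ᵥ u)) :=
    mul_le_mul (nB y) (by linarith) (by linarith) ((norm_nonneg _).trans (nB y))
  have h9 := mul_le_mul_of_nonneg_right hμl h7
  rw [h4]
  nlinarith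

end Crest.Agent.R340.Pin
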