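import Crest.Agent.R340.PtMove
import Crest.Agent.R340.PtChain
import Crest.Agent.R340.PtFill

/-! # Row 340, PT: fully pinned states (three pins are moved together and filled) -/

set_option autoImplicit false

namespace Crest.Agent.R340.Pin

open Matrix MeasureTheory Crest.MathPhysics.Laughlin
open scoped Matrix.Norms.L2Operator MatrixOrder ComplexOrder ComplexConjugate

theorem pt_dq_nonneg (Q : ℕ) (x y : S2) : 0 ≤ dq Q x y := by
  unfold dq; positivity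

theorem pt_wt_rate {α a a' r : ℝ} (h : a' ≤ a) (hr : 0 ≤ r) : wt α a r ≤ wt α a' r := by
  unfold wt
  exact Real.exp_le_exp.2 (neg_le_neg (mul_le_mul_of_nonneg_right h (Real.rpow_nonneg hr _)))

/-- moving one pin anywhere -/
theorem move_far {α a : ℝ} (h0 : 0 < α) (h1 : α ≤ 1 / 2) (ha : 0 < a) :
    ∃ (R₀ b K : ℝ) (Q₀ : ℕ), 0 < b ∧ 0 ≤ K ∧ ∀ Q, Q₀ ≤ Q →
      ∀ (T : Multiset S2) (w w' x : S2) (N : ℕ) (A : Fk (Q + 1)) (lam : ℝ), AdmT Q R₀ T →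
        IsSelfAdjoint A → NL Q α a 1 x A → Bnd Q (w' ::ₘ T) N A lam ∧ ExZ Q (w' ::ₘ T) N →
          Bnd Q (w ::ₘ T) N A
            (lam + K * (wt (α / 2) b (dq Q x w) + wt (α / 2) b (dq Q x w'))) ∧
            ExZ Q (w ::ₘ T) N := by
  obtain ⟨R₁, δ₁, b, K, Q₁, hδ₁, -, hb, hK, hm⟩ := move_one h0 h1 ha
  obtain ⟨R₂, δ₂, Q₂, hδ₂, he⟩ := exz_move
  obtain ⟨K', hK', hc⟩ := chain (β := α / 2) (half_pos h0) hb (lt_min hδ₁ hδ₂) hK
  refine ⟨max R₁ R₂, b / 2, K', max 1 (max Q₁ Q₂), half_pos hb, hK', ?_⟩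
  intro Q hQ T w w' x N A lam hT hA hN hB
  have hQ1 : 1 ≤ Q := (le_max_left _ _).trans hQ
  have hQ2 : Q₁ ≤ Q := ((le_max_left _ _).trans (le_max_right _ _)).trans hQ
  have hQ3 : Q₂ ≤ Q := ((le_max_right _ _).trans (le_max_right _ _)).trans hQ
  refine hc Q hQ1 x (fun p l => Bnd Q (p ::ₘ T) N A l ∧ ExZ Q (p ::ₘ T) N)
    (fun p l l' hl h => ⟨h.1.mono hl, h.2⟩) ?_ w w' lam hB
  intro p p' l ε hd e1 e2 h
  refine ⟨?_, he Q hQ3 T p p' N (hT.mono (le_max_right _ _) le_rfl) (hd.trans (min_le_right _ _)) h.2⟩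
  have := hm Q hQ2 T p p' (hT.mono (le_max_left _ _) le_rfl) (hd.trans (min_le_left _ _)) 1 x A hA hN
    N l ε e1 e2 h.1
  rwa [mul_one] at this

open Classical in
theorem admT_two {Q : ℕ} {R : ℝ} {T : Multiset S2} {b : S2} (h : AdmS Q R (b ::ₘ T)) :
    AdmT Q R (b ::ₘ b ::ₘ T) := by
  refine ⟨fun u hu v hv => h.1 u ?_ v ?_, fun u => ?_⟩
  · simpa using hu
  · simpa using hv
  · have h1 := Multiset.nodup_iff_count_le_one.1 h.2 u
    rw [Multiset.count_cons]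
    split_ifs <;> omega

/-- one local operator -/
theorem term_one {α a : ℝ} (h0 : 0 < α) (h1 : α ≤ 1 / 2) (ha : 0 < a) :
    ∃ (R₀ b K : ℝ) (Q₀ : ℕ), 0 < b ∧ 0 ≤ K ∧ ∀ Q, Q₀ ≤ Q →
      ∀ (x : S2) (A : Fk (Q + 1)) (N₀ : ℕ), IsSelfAdjoint A → NL Q α a 1 x A →
        nfree Q 0 N₀ = 0 → Bnd Q 0 N₀ A 0 → ExZ Q 0 N₀ → ∀ (k N : ℕ) (T : Multiset S2),
          N + k = N₀ → T.card = 3 * k → AdmS Q R₀ T →
            Bnd Q T N A (K * (T.map fun e => wt (α / 2) b (dq Q x e)).sum) ∧ ExZ Q T N := by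
  obtain ⟨R₁, b₁, K₁, Q₁, hb₁, hK₁, hm⟩ := move_far h0 h1 ha
  obtain ⟨R₂, b₂, K₂, Q₂, hb₂, hK₂, hf⟩ := fill h0 h1 ha
  refine ⟨max R₁ R₂, min b₁ b₂, 2 * K₁ + K₂, max Q₁ Q₂, lt_min hb₁ hb₂, by positivity, ?_⟩
  intro Q hQ x A N₀ hA hN hn hB hE k
  have hQ1 : Q₁ ≤ Q := (le_max_left _ _).trans hQ
  have hQ2 : Q₂ ≤ Q := (le_max_right _ _).trans hQ
  induction k with
  | zero =>
    intro N T hNk hT _
    have hT0 : T = 0 := Multiset.card_eq_zero.1 (by simpa using hT)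
    have hN0 : N = N₀ := by omega
    subst hT0 hN0
    simpa using ⟨hB, hE⟩
  | succ k ih =>
    intro N T hNk hT hS
    obtain ⟨b1, T1, rfl⟩ : ∃ b T1, T = b ::ₘ T1 := by
      obtain ⟨b, hb⟩ := Multiset.card_pos_iff_exists_mem.1 (show 0 < T.card by omega)
      obtain ⟨T1, h⟩ := Multiset.exists_cons_of_mem hb
      exact ⟨b, T1, h⟩
    obtain ⟨b2, T2, rfl⟩ : ∃ b T2, T1 = b ::ₘ T2 := by
      rw [Multiset.card_cons] at hT
      obtain ⟨b, hb⟩ := Multiset.card_pos_iff_exists_mem.1 (show 0 < T1.card by omega)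
      obtain ⟨T2, h⟩ := Multiset.exists_cons_of_mem hb
      exact ⟨b, T2, h⟩
    obtain ⟨b3, T3, rfl⟩ : ∃ b T3, T2 = b ::ₘ T3 := by
      rw [Multiset.card_cons, Multiset.card_cons] at hT
      obtain ⟨b, hb⟩ := Multiset.card_pos_iff_exists_mem.1 (show 0 < T2.card by omega)
      obtain ⟨T3, h⟩ := Multiset.exists_cons_of_mem hb
      exact ⟨b, T3, h⟩
    have hc3 : T3.card = 3 * k := by
      simp only [Multiset.card_cons] at hT
      omega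
    have l3 : T3 ≤ b1 ::ₘ b2 ::ₘ b3 ::ₘ T3 :=
      (Multiset.le_cons_self _ _).trans ((Multiset.le_cons_self _ _).trans (Multiset.le_cons_self _ _))
    have l1 : b1 ::ₘ T3 ≤ b1 ::ₘ b2 ::ₘ b3 ::ₘ T3 :=
      Multiset.cons_le_cons _ ((Multiset.le_cons_self _ _).trans (Multiset.le_cons_self _ _))
    have l13 : b1 ::ₘ b3 ::ₘ T3 ≤ b1 ::ₘ b2 ::ₘ b3 ::ₘ T3 :=
      Multiset.cons_le_cons _ (Multiset.le_cons_self _ _)
    obtain ⟨i1, i2⟩ := ih (N + 1) T3 (by omega) hc3 (hS.mono le_rfl l3)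
    have hn3 : nfree Q T3 (N + 1) = 0 := by
      unfold nfree at hn ⊢
      rw [hc3]
      have : (N₀ : ℝ) = N + (k + 1) := by rw [← hNk]; push_cast; ring
      rw [this] at hn
      simp only [Multiset.card_zero, Nat.cast_zero] at hn
      push_cast
      linarith
    have s1 := hf Q hQ2 T3 b1 x N A _ (hS.mono (le_max_right _ _) l1) hn3 hN i1 i2
    have e1 : T3 + Multiset.replicate 3 b1 = b1 ::ₘ b1 ::ₘ b1 ::ₘ T3 := by
      rw [add_comm]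
      simp [Multiset.replicate_succ]
    rw [e1] at s1
    have s2 := hm Q hQ1 (b1 ::ₘ b1 ::ₘ T3) b3 b1 x N A _
      (admT_two (hS.mono (le_max_left _ _) l1)) hA hN s1
    have e2 : b3 ::ₘ b1 ::ₘ b1 ::ₘ T3 = b1 ::ₘ b1 ::ₘ b3 ::ₘ T3 := by
      rw [Multiset.cons_swap b3 b1, Multiset.cons_swap b3 b1]
    rw [e2] at s2
    have s3 := hm Q hQ1 (b1 ::ₘ b3 ::ₘ T3) b2 b1 x N A _
      (hS.mono (le_max_left _ _) l13).toAdmT hA hN s2
    rw [Multiset.cons_swap b2 b1] at s3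
    refine ⟨s3.1.mono ?_, s3.2⟩
    simp only [Multiset.map_cons, Multiset.sum_cons]
    have w1 : ∀ e, wt (α / 2) b₁ (dq Q x e) ≤ wt (α / 2) (min b₁ b₂) (dq Q x e) := fun e =>
      pt_wt_rate (min_le_left _ _) (pt_dq_nonneg _ _ _)
    have w2 : wt (α / 2) b₂ (dq Q x b1) ≤ wt (α / 2) (min b₁ b₂) (dq Q x b1) :=
      pt_wt_rate (min_le_right _ _) (pt_dq_nonneg _ _ _)
    have p2 := (wt_pos (α / 2) (min b₁ b₂) (dq Q x b2)).le
    have p3 := (wt_pos (α / 2) (min b₁ b₂) (dq Q x b3)).le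
    have a1 := mul_le_mul_of_nonneg_left (w1 b1) hK₁
    have a2 := mul_le_mul_of_nonneg_left (w1 b2) hK₁
    have a3 := mul_le_mul_of_nonneg_left (w1 b3) hK₁
    have a4 := mul_le_mul_of_nonneg_left w2 hK₂
    have a5 := mul_nonneg hK₁ p2
    have a6 := mul_nonneg hK₁ p3
    have a7 := mul_nonneg hK₂ p2
    have a8 := mul_nonneg hK₂ p3
    nlinarith

theorem int_sum_wt {Q : ℕ} {G β b V : ℝ} {ι : Type} [MeasurableSpace ι] {ν : Measure ι}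
    {x : ι → S2} (h : ∀ y, Integrable (fun i => wt β b (dq Q (x i) y)) ν ∧
      ∫ i, wt β b (dq Q (x i) y) ∂ν ≤ V * G) (T : Multiset S2) :
    Integrable (fun i => (T.map fun e => wt β b (dq Q (x i) e)).sum) ν ∧
      ∫ i, (T.map fun e => wt β b (dq Q (x i) e)).sum ∂ν ≤ V * G * T.card := by
  induction T using Multiset.induction_on with
  | empty => simp
  | cons e T ih =>
    simp only [Multiset.map_cons, Multiset.sum_cons, Multiset.card_cons]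
    refine ⟨(h e).1.add ih.1, ?_⟩
    rw [integral_add (h e).1 ih.1]
    push_cast
    linarith [(h e).2, ih.2]

/-- the terminal bound -/
theorem pt_terminal {α a : ℝ} (G : ℝ) (h0 : 0 < α) (h1 : α ≤ 1 / 2) (ha : 0 < a) :
    ∃ (R₀ K : ℝ) (Q₀ : ℕ), 0 ≤ K ∧ ∀ Q, Q₀ ≤ Q → ∀ (N₀ : ℕ) (ψ : FV Q), nfree Q 0 N₀ = 0 →
      InZ Q 0 N₀ ψ → ψ ≠ 0 → ∀ (ι : Type) [MeasurableSpace ι] (ν : Measure ι) (x : ι → S2)
        (M : ι → Fk (Q + 1)), SInter Q α a 1 G ν x M → (∀ i, qf (M i) ψ = 0) →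
        ∀ (k N : ℕ) (T : Multiset S2), N + k = N₀ → T.card = 3 * k → AdmS Q R₀ T →
          Bnd Q T N (∫ i, M i ∂ν) (K * T.card) := by
  obtain ⟨R₀, b, K, Q₀, hb, hK, ht⟩ := term_one h0 h1 ha
  obtain ⟨V, hV, hv⟩ := sites_vol (half_pos h0) hb
  refine ⟨R₀, K * (V * |G|), Q₀, by positivity, ?_⟩
  intro Q hQ N₀ ψ hn hψ hψ0 ι _ ν x M hM h0' k N T hk hT hS v hz
  have h2 : ∀ i, qf (M i) v ≤ K * (T.map fun e => wt (α / 2) b (dq Q (x i) e)).sum * nq v :=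
    fun i => (ht Q hQ (x i) (M i) N₀ (hM.sa i) (hM.loc i) hn
      (Bnd.of_span hψ hψ0 hn (by rw [h0' i, zero_mul])) ⟨ψ, hψ0, hψ⟩ k N T hk hT hS).1 v hz
  obtain ⟨i1, i2⟩ := int_sum_wt (hv Q G ι ν x hM.sites) T
  obtain ⟨j1, j2⟩ := qf_integral hM.int v
  rw [j2]
  refine (integral_mono j1 ((i1.const_mul K).mul_const _) h2).trans ?_
  rw [integral_mul_const, integral_const_mul]
  refine mul_le_mul_of_nonneg_right ?_ (nq_nonneg' v)
  rw [mul_assoc]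
  refine mul_le_mul_of_nonneg_left (i2.trans ?_) hK
  exact mul_le_mul_of_nonneg_right (mul_le_mul_of_nonneg_left (le_abs_self G) hV)
    (Nat.cast_nonneg _)

end Crest.Agent.R340.Pin
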