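import Crest.Agent.R340.PtMain
import Crest.Agent.R340.PtTerm

/-! # Row 340 interface: PT (pull-through, MOVE, FILL: property (Q)). Owner helper17 -/

set_option autoImplicit false

namespace Crest.Agent.R340.Pin

open Matrix MeasureTheory Crest.MathPhysics.Laughlin
open scoped Matrix.Norms.L2Operator MatrixOrder ComplexOrder ComplexConjugate

theorem q_main {α a : ℝ} (G : ℝ) (h0 : 0 < α) (h1 : α ≤ 1 / 4) (ha : 0 < a) :
    ∃ (C : ℝ) (N₁ : ℕ), 0 < C ∧ ∀ N₀, N₁ ≤ N₀ → ∀ ψ : FV (3 * (N₀ - 1)),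
      InZ (3 * (N₀ - 1)) 0 N₀ ψ → nq ψ = 1 →
      ∀ (ι : Type) [MeasurableSpace ι] (ν : Measure ι) (x : ι → S2)
        (M : ι → Fk (3 * (N₀ - 1) + 1)), SInter (3 * (N₀ - 1)) α a 1 G ν x M →
        (∀ i, qf (M i) ψ = 0) → ∀ N ≤ N₀,
          Bnd (3 * (N₀ - 1)) 0 N (∫ i, M i ∂ν) (C * ((N₀ : ℝ) - N)) := by
  have h1' : α ≤ 1 / 2 := h1.trans (by norm_num)
  obtain ⟨R₁, K₁, Q₁, hK₁, ht⟩ := pt_terminal G h0 h1' ha
  obtain ⟨R₂, hR₂, hp⟩ := pt_main G h0 h1' ha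
  obtain ⟨K₂, Q₂, hK₂, hp⟩ := hp (max R₁ R₂) (le_max_right _ _)
  have hR : 1 ≤ max R₁ R₂ := hR₂.trans (le_max_right _ _)
  refine ⟨1 + 3 * (K₁ + K₂) + 4 * |G| * (32 * max R₁ R₂ ^ 2 * 3), max Q₁ Q₂ + 2, by positivity, ?_⟩
  intro N₀ hN₀ ψ hψ hψ1 ι _ ν x M hM h0' N hN
  obtain ⟨k, rfl⟩ := Nat.exists_eq_add_of_le hN
  have hQ1 : Q₁ ≤ 3 * (N + k - 1) := by have := le_max_left Q₁ Q₂; omega
  have hQ2 : Q₂ ≤ 3 * (N + k - 1) := by have := le_max_right Q₁ Q₂; omega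
  have hQ : ((3 * (N + k - 1) : ℕ) : ℝ) = 3 * ((N : ℝ) + k - 1) := by
    rw [Nat.cast_mul, Nat.cast_sub (by omega)]
    push_cast
    ring
  have hk : (((N + k : ℕ) : ℝ) - N) = k := by push_cast; ring
  have hk0 : (0 : ℝ) ≤ k := Nat.cast_nonneg _
  have hG : 0 ≤ |G| := abs_nonneg G
  have hR2 : 1 ≤ max R₁ R₂ ^ 2 := one_le_pow₀ hR
  rw [hk]
  by_cases hc : 1 ≤ N ∧ 32 * max R₁ R₂ ^ 2 * ((3 * k : ℕ) : ℝ) < (3 * (N + k - 1) : ℕ)
  · have hψ0 : ψ ≠ 0 := fun h => by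
      rw [h] at hψ1
      simp [nq] at hψ1
    have n0 : nfree (3 * (N + k - 1)) 0 (N + k) = 0 := by
      unfold nfree
      rw [hQ]
      simp
    have n1 : nfree (3 * (N + k - 1)) 0 N = ((3 * k : ℕ) : ℝ) := by
      unfold nfree
      rw [hQ]
      simp only [Multiset.card_zero, Nat.cast_zero]
      push_cast
      ring
    refine (hp _ hQ2 ι ν x M hM N (3 * k) (K₁ * ((3 * k : ℕ) : ℝ)) hc.1 n1 hc.2 fun T hS hT => ?_).mono ?_
    · have := ht _ hQ1 (N + k) ψ n0 hψ hψ0 ι ν x M hM h0' k N T rfl hT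
        (hS.mono (le_max_left _ _) le_rfl)
      rwa [hT] at this
    · push_cast
      have := mul_nonneg (mul_nonneg hG (zero_le_one.trans hR2)) hk0
      nlinarith
  · have hq : ((3 * (N + k - 1) : ℕ) : ℝ) ≤ 32 * max R₁ R₂ ^ 2 * 3 * k := by
      by_cases hN1 : 1 ≤ N
      · have := not_lt.1 fun h => hc ⟨hN1, h⟩
        push_cast at this ⊢
        linarith
      · have hN0 : N = 0 := by omega
        rw [hQ, hN0]
        have := mul_le_mul_of_nonneg_right hR2 hk0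
        push_cast
        linarith
    have hq1 : (1 : ℝ) ≤ ((3 * (N + k - 1) : ℕ) : ℝ) := by
      exact_mod_cast (show 1 ≤ 3 * (N + k - 1) by omega)
    have hm := hM.sites.mass
    have hn := hM.norm_le Set.univ
    rw [Measure.restrict_univ, one_mul] at hn
    have hs : (1 + Real.sqrt ((3 * (N + k - 1) : ℕ) : ℝ)) ^ 2 ≤ 4 * ((3 * (N + k - 1) : ℕ) : ℝ) := by
      have h2 := Real.sq_sqrt (zero_le_one.trans hq1)
      nlinarith [sq_nonneg (1 - Real.sqrt ((3 * (N + k - 1) : ℕ) : ℝ))]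
    have hb : ‖∫ i, M i ∂ν‖ ≤ |G| * (4 * (32 * max R₁ R₂ ^ 2 * 3 * k)) :=
      hn.trans (hm.trans (mul_le_mul (le_abs_self G) (hs.trans (by linarith)) (sq_nonneg _) hG))
    intro v _
    have h3 := (le_abs_self _).trans (Filt.abs_re_dot_le (∫ i, M i ∂ν) v)
    refine h3.trans (mul_le_mul_of_nonneg_right (hb.trans ?_) (nq_nonneg' v))
    have := mul_nonneg (add_nonneg hK₁ hK₂) hk0
    nlinarith

end Crest.Agent.R340.Pin
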