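import Crest.Agent.R340.AlShift

/-! # Row 340, module PIN: moments of the pair vectors (Stein identity) -/

set_option autoImplicit false

namespace Crest.Agent.R340.Pin

open Finset Crest.MathPhysics.Laughlin

/-- hypergeometric weights -/
def hg (q : ℕ) (x : ℕ × ℕ) : ℝ := (q.choose x.1 : ℝ) * q.choose x.2

/-- relative momentum -/
def kk (x : ℕ × ℕ) : ℝ := (x.2 : ℝ) - x.1

theorem hg_nonneg (q : ℕ) (x : ℕ × ℕ) : 0 ≤ hg q x := by unfold hg; positivity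

theorem mom_choose (q i : ℕ) : (q.choose (i + 1) : ℝ) * (i + 1) = q.choose i * ((q : ℝ) - i) := by
  rcases le_or_gt i q with h | h
  · have := Nat.choose_succ_right_eq q i
    rw [← Nat.cast_sub h]
    exact_mod_cast this
  · rw [Nat.choose_eq_zero_of_lt h, Nat.choose_eq_zero_of_lt (by omega)]
    simp

theorem mom_stein (q b : ℕ) (f : ℝ → ℝ) :
    ∑ x ∈ antidiagonal b, x.1 * ((q : ℝ) - x.2) * hg q x * f (kk x) =
      ∑ x ∈ antidiagonal b, x.2 * ((q : ℝ) - x.1) * hg q x * f (kk x - 2) := by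
  rcases b with _ | b
  · simp
  rw [Nat.sum_antidiagonal_succ, Nat.sum_antidiagonal_succ']
  simp only [Nat.cast_zero, zero_mul, zero_add]
  refine sum_congr rfl fun y _ => ?_
  have h1 := mom_choose q y.1
  have h2 := mom_choose q y.2
  simp only [hg, kk]
  push_cast
  have e : (y.2 : ℝ) + 1 - y.1 - 2 = y.2 - (y.1 + 1) := by ring
  rw [e]
  linear_combination (((q : ℝ) - y.2) * q.choose y.2 * f (y.2 - (y.1 + 1))) * h1 -
    (((q : ℝ) - y.1) * q.choose y.1 * f (y.2 - (y.1 + 1))) * h2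

theorem mom_step {q : ℕ} (hq : 1 ≤ q) (b : ℕ) (f : ℝ → ℝ) :
    ∑ x ∈ antidiagonal b, hg q x * (kk x * f (kk x)) ≤
      b * ∑ x ∈ antidiagonal b, hg q x * |f (kk x) - f (kk x - 2)| := by
  have hq0 : (0 : ℝ) < q := by exact_mod_cast hq
  have e : (q : ℝ) * ∑ x ∈ antidiagonal b, hg q x * (kk x * f (kk x)) =
      ∑ x ∈ antidiagonal b, x.2 * ((q : ℝ) - x.1) * hg q x * (f (kk x) - f (kk x - 2)) := by
    simp only [mul_sub (_ * hg q _), sum_sub_distrib]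
    rw [← mom_stein, ← sum_sub_distrib, mul_sum]
    refine sum_congr rfl fun x _ => ?_
    simp only [kk]
    ring
  refine le_of_mul_le_mul_left ?_ hq0
  rw [e, ← mul_assoc, mul_sum]
  refine sum_le_sum fun x hx => ?_
  have hx' : x.2 ≤ b := by have := mem_antidiagonal.1 hx; omega
  have hx2 : (x.2 : ℝ) ≤ b := by exact_mod_cast hx'
  rcases le_or_gt x.1 q with h | h
  · have h1 : (x.1 : ℝ) ≤ q := by exact_mod_cast h
    have h2 : (0 : ℝ) ≤ x.1 := Nat.cast_nonneg _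
    have h3 : (0 : ℝ) ≤ x.2 := Nat.cast_nonneg _
    have h4 := hg_nonneg q x
    have h5 : x.2 * ((q : ℝ) - x.1) ≤ q * b := by nlinarith
    have h6 : 0 ≤ x.2 * ((q : ℝ) - x.1) := mul_nonneg h3 (by linarith)
    calc x.2 * ((q : ℝ) - x.1) * hg q x * (f (kk x) - f (kk x - 2))
        ≤ x.2 * ((q : ℝ) - x.1) * hg q x * |f (kk x) - f (kk x - 2)| :=
          mul_le_mul_of_nonneg_left (le_abs_self _) (mul_nonneg h6 h4)
      _ = x.2 * ((q : ℝ) - x.1) * (hg q x * |f (kk x) - f (kk x - 2)|) := by ring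
      _ ≤ q * b * (hg q x * |f (kk x) - f (kk x - 2)|) :=
          mul_le_mul_of_nonneg_right h5 (mul_nonneg h4 (abs_nonneg _))
  · have : hg q x = 0 := by rw [hg, Nat.choose_eq_zero_of_lt h]; simp
    simp [this]

theorem kk_cases (x : ℕ × ℕ) : kk x = 0 ∨ 1 ≤ |kk x| := by
  have e : kk x = (((x.2 : ℤ) - x.1 : ℤ) : ℝ) := by simp [kk]
  rw [e]
  rcases eq_or_ne ((x.2 : ℤ) - x.1) 0 with h | h
  · left; rw [h]; simp
  · right
    have := Int.one_le_abs h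
    exact_mod_cast this

theorem mom_diff (a : ℕ) {k : ℝ} (hk : k = 0 ∨ 1 ≤ |k|) :
    |(k ^ (2 * a + 3) - 4 ^ (a + 1) * k) - ((k - 2) ^ (2 * a + 3) - 4 ^ (a + 1) * (k - 2))| ≤
      (2 * (2 * a + 3) * 3 ^ (2 * a + 2) + 2 * 4 ^ (a + 1)) * k ^ (2 * a + 2) := by
  rcases hk with rfl | hk
  · have : ((0 : ℝ) - 2) ^ (2 * a + 3) = -(2 * 4 ^ (a + 1)) := by
      rw [show 2 * a + 3 = 2 * (a + 1) + 1 by ring, pow_succ, pow_mul]
      norm_num [mul_comm]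
    rw [this]
    simp [mul_comm]
  · have e : (k ^ (2 * a + 3) - 4 ^ (a + 1) * k) - ((k - 2) ^ (2 * a + 3) - 4 ^ (a + 1) * (k - 2)) =
        (k ^ (2 * a + 3) - (k - 2) ^ (2 * a + 3)) - 2 * 4 ^ (a + 1) := by ring
    have h1 := abs_pow_sub_pow_le k (k - 2) (2 * a + 3)
    have h2 : max |k| |k - 2| ≤ 3 * |k| := by
      refine max_le (by linarith) ((abs_sub k 2).trans ?_)
      rw [abs_two]
      linarith
    have h3 : max |k| |k - 2| ^ (2 * a + 2) ≤ (3 * |k|) ^ (2 * a + 2) :=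
      pow_le_pow_left₀ (le_max_of_le_left (abs_nonneg _)) h2 _
    have ev : |k| ^ (2 * a + 2) = k ^ (2 * a + 2) := Even.pow_abs ⟨a + 1, by ring⟩ k
    have h4 : (1 : ℝ) ≤ k ^ (2 * a + 2) := ev ▸ one_le_pow₀ hk
    rw [mul_pow, ev] at h3
    rw [show k - (k - 2) = 2 by ring, abs_two] at h1
    push_cast at h1
    have h5 := mul_le_mul_of_nonneg_left h3 (by positivity : (0 : ℝ) ≤ 2 * (2 * a + 3))
    have h6 := mul_le_mul_of_nonneg_left h4 (by positivity : (0 : ℝ) ≤ 2 * 4 ^ (a + 1))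
    rw [e]
    refine (abs_sub _ _).trans ?_
    rw [abs_of_nonneg (by positivity : (0 : ℝ) ≤ 2 * 4 ^ (a + 1))]
    nlinarith

theorem mom_hg (a : ℕ) : ∃ C : ℝ, 0 < C ∧ ∀ q b : ℕ, 1 ≤ q → 1 ≤ b →
    ∑ x ∈ antidiagonal b, hg q x * kk x ^ (2 * a + 2) ≤
      C * (b : ℝ) ^ a * ∑ x ∈ antidiagonal b, hg q x * kk x ^ 2 := by
  induction a with
  | zero => exact ⟨1, one_pos, fun q b _ _ => by simp⟩
  | succ a ih =>
    obtain ⟨C, hC, ih⟩ := ih
    set K : ℝ := 2 * (2 * a + 3) * 3 ^ (2 * a + 2) + 2 * 4 ^ (a + 1) with hK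
    have hK0 : 0 < K := by positivity
    refine ⟨4 ^ (a + 1) + K * C, by positivity, fun q b hq hb => ?_⟩
    have h1 := mom_step hq b fun k => k ^ (2 * a + 3) - 4 ^ (a + 1) * k
    have h2 : ∑ x ∈ antidiagonal b, hg q x * |(kk x ^ (2 * a + 3) - 4 ^ (a + 1) * kk x) -
        ((kk x - 2) ^ (2 * a + 3) - 4 ^ (a + 1) * (kk x - 2))| ≤
        K * ∑ x ∈ antidiagonal b, hg q x * kk x ^ (2 * a + 2) := by
      rw [mul_sum]
      refine sum_le_sum fun x _ => ?_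
      rw [mul_left_comm]
      exact mul_le_mul_of_nonneg_left (mom_diff a (kk_cases x)) (hg_nonneg q x)
    have e : ∑ x ∈ antidiagonal b, hg q x * (kk x * (kk x ^ (2 * a + 3) - 4 ^ (a + 1) * kk x)) =
        ∑ x ∈ antidiagonal b, hg q x * kk x ^ (2 * (a + 1) + 2) -
          4 ^ (a + 1) * ∑ x ∈ antidiagonal b, hg q x * kk x ^ 2 := by
      rw [mul_sum, ← sum_sub_distrib]
      exact sum_congr rfl fun x _ => by ring
    have hM : 0 ≤ ∑ x ∈ antidiagonal b, hg q x * kk x ^ 2 :=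
      sum_nonneg fun x _ => mul_nonneg (hg_nonneg q x) (sq_nonneg _)
    have hb1 : (1 : ℝ) ≤ b := by exact_mod_cast hb
    have hb2 : (1 : ℝ) ≤ (b : ℝ) ^ (a + 1) := one_le_pow₀ hb1
    rw [e] at h1
    have h3 := mul_le_mul_of_nonneg_left (h2.trans (mul_le_mul_of_nonneg_left (ih q b hq hb) hK0.le))
      (by positivity : (0 : ℝ) ≤ b)
    have h4 := mul_le_mul_of_nonneg_left hb2 (mul_nonneg (by positivity : (0 : ℝ) ≤ 4 ^ (a + 1)) hM)
    generalize ∑ x ∈ antidiagonal b, hg q x * kk x ^ 2 = M at *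
    calc _ ≤ 4 ^ (a + 1) * M * (b : ℝ) ^ (a + 1) + b * (K * (C * (b : ℝ) ^ a * M)) := by linarith
      _ = _ := by ring

theorem pv_sq {q p : ℕ} (hq : 1 ≤ q) (hp : p < 2 * q - 1) {x : ℕ × ℕ}
    (hx : x ∈ antidiagonal (p + 1)) : pv q p x.1 x.2 ^ 2 =
      hg q x * kk x ^ 2 / ∑ x ∈ antidiagonal (p + 1), hg q x * kk x ^ 2 := by
  have e : ∑ x ∈ antidiagonal (p + 1), hg q x * kk x ^ 2 = 2 * pairNorm q (p + 1) := by
    obtain ⟨m, rfl⟩ : ∃ m, q = m + 1 := ⟨q - 1, by omega⟩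
    rw [h4_pairNorm hq hp, show 2 * (m + 1) - 2 = m + m by omega]
    have := h4_sum m p
    push_cast
    rw [← this]
    exact sum_congr rfl fun x _ => by simp only [hg, kk]; ring
  have hM : 0 ≤ ∑ x ∈ antidiagonal (p + 1), hg q x * kk x ^ 2 :=
    sum_nonneg fun x _ => mul_nonneg (hg_nonneg q x) (sq_nonneg _)
  rw [e] at hM ⊢
  rw [pv, if_pos (mem_antidiagonal.1 hx), div_pow, mul_pow, Real.sq_sqrt hM,
    Real.sq_sqrt (by positivity), hg, kk, mul_comm]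

/-- moments of the pair vectors -/
theorem mom_pv (a : ℕ) : ∃ C : ℝ, 0 < C ∧ ∀ q p : ℕ, 1 ≤ q → p < 2 * q - 1 →
    ∑ x ∈ antidiagonal (p + 1), pv q p x.1 x.2 ^ 2 * kk x ^ (2 * a) ≤ C * ((p : ℝ) + 1) ^ a := by
  obtain ⟨C, hC, h⟩ := mom_hg a
  refine ⟨C, hC, fun q p hq hp => ?_⟩
  have h1 := h q (p + 1) hq (by omega)
  push_cast at h1
  have hM : 0 ≤ ∑ x ∈ antidiagonal (p + 1), hg q x * kk x ^ 2 :=
    sum_nonneg fun x _ => mul_nonneg (hg_nonneg q x) (sq_nonneg _)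
  have e : ∑ x ∈ antidiagonal (p + 1), pv q p x.1 x.2 ^ 2 * kk x ^ (2 * a) =
      (∑ x ∈ antidiagonal (p + 1), hg q x * kk x ^ (2 * a + 2)) /
        ∑ x ∈ antidiagonal (p + 1), hg q x * kk x ^ 2 := by
    rw [sum_div]
    refine sum_congr rfl fun x hx => ?_
    rw [pv_sq hq hp hx]
    ring
  rw [e]
  exact div_le_of_le_mul₀ hM (by positivity) h1

theorem dl_G {σ k : ℝ} (hσ : 1 ≤ σ) (hk : k = 0 ∨ 1 ≤ |k|) :
    1 / (1 + k ^ 2 / σ ^ 2) ≤ σ * ((k + 1) / (σ + |k + 1|) - (k - 1) / (σ + |k - 1|)) := by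
  have hσ0 : 0 < σ := by linarith
  have key : ∀ t : ℝ, 1 ≤ t → 1 / (1 + t ^ 2 / σ ^ 2) ≤
      σ * ((t + 1) / (σ + (t + 1)) - (t - 1) / (σ + (t - 1))) := fun t ht => by
    have h1 : 0 < σ + (t - 1) := by linarith
    have h2 : 0 < σ + (t + 1) := by linarith
    have e1 : σ * ((t + 1) / (σ + (t + 1)) - (t - 1) / (σ + (t - 1))) =
        2 * σ ^ 2 / ((σ + (t + 1)) * (σ + (t - 1))) := by
      field_simp
      ring
    have e2 : 1 / (1 + t ^ 2 / σ ^ 2) = σ ^ 2 / (σ ^ 2 + t ^ 2) := by field_simp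
    rw [e1, e2, div_le_div_iff₀ (by positivity) (by positivity)]
    have : (σ + (t + 1)) * (σ + (t - 1)) ≤ 2 * (σ ^ 2 + t ^ 2) := by nlinarith [sq_nonneg (σ - t)]
    nlinarith [mul_le_mul_of_nonneg_left this (sq_nonneg σ)]
  rcases hk with rfl | hk
  · have e : σ * ((0 + 1) / (σ + |0 + 1|) - (0 - 1) / (σ + |0 - 1|)) = 2 * σ / (σ + 1) := by
      norm_num
      field_simp
      ring
    rw [e, le_div_iff₀ (by positivity)]
    norm_num
    linarith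
  · rcases le_abs.1 hk with h | h
    · rw [abs_of_nonneg (by linarith : 0 ≤ k + 1), abs_of_nonneg (by linarith : 0 ≤ k - 1)]
      exact key k h
    · rw [abs_of_nonpos (by linarith : k + 1 ≤ 0), abs_of_nonpos (by linarith : k - 1 ≤ 0)]
      have := key (-k) h
      rw [neg_sq] at this
      refine this.trans (le_of_eq ?_)
      have a1 : σ + (-k + 1) = σ + -(k - 1) := by ring
      have a2 : σ + (-k - 1) = σ + -(k + 1) := by ring
      rw [a1, a2]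
      ring

theorem dl_count (b : ℕ) {σ : ℝ} (hσ : 1 ≤ σ) :
    ∑ x ∈ antidiagonal b, 1 / (1 + kk x ^ 2 / σ ^ 2) ≤ 2 * σ := by
  have hσ0 : 0 < σ := by linarith
  set G : ℝ → ℝ := fun t => t / (σ + |t|) with hG
  have hG1 : ∀ t, |G t| ≤ 1 := fun t => by
    rw [hG]
    simp only
    rw [abs_div, abs_of_pos (by positivity : 0 < σ + |t|), div_le_one (by positivity)]
    linarith
  have h1 : ∑ x ∈ antidiagonal b, 1 / (1 + kk x ^ 2 / σ ^ 2) ≤
      ∑ i ∈ range (b + 1), σ * (G (b - 2 * (i : ℕ) + 1) - G (b - 2 * ((i + 1 : ℕ) : ℝ) + 1)) := by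
    rw [Nat.sum_antidiagonal_eq_sum_range_succ_mk]
    refine sum_le_sum fun i hi => ?_
    have hi' : i ≤ b := Nat.lt_succ_iff.1 (mem_range.1 hi)
    have e : kk (i, b - i) = b - 2 * (i : ℝ) := by
      simp only [kk, Nat.cast_sub hi']
      ring
    have := dl_G hσ (kk_cases (i, b - i))
    rw [e] at this ⊢
    refine this.trans (le_of_eq ?_)
    have a : (b : ℝ) - 2 * ((i + 1 : ℕ) : ℝ) + 1 = b - 2 * (i : ℝ) - 1 := by push_cast; ring
    rw [a]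
  rw [← mul_sum, sum_range_sub' (fun i : ℕ => G (b - 2 * (i : ℝ) + 1))] at h1
  refine h1.trans ?_
  rw [mul_comm]
  refine mul_le_mul_of_nonneg_right ?_ hσ0.le
  linarith [(abs_le.1 (hG1 (b - 2 * ((0 : ℕ) : ℝ) + 1))).2,
    (abs_le.1 (hG1 (b - 2 * ((b + 1 : ℕ) : ℝ) + 1))).1]

theorem pv_eq_zero {q p : ℕ} (h : ¬(1 ≤ q ∧ p < 2 * q - 1)) (i j : ℕ) : pv q p i j = 0 := by
  have e : pairNorm q (p + 1) = 0 := by
    rw [pairNorm]
    rcases lt_or_ge (2 * q) (p + 1) with h1 | h1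
    · rw [Nat.choose_eq_zero_of_lt h1]
      simp
    · have h2 : p + 1 = 2 * q := by omega
      rw [h2]
      simp
  rw [pv, e]
  simp

/-- moments of the pair vectors, all indices -/
theorem mom_pv' (a : ℕ) : ∃ C : ℝ, 0 < C ∧ ∀ q p : ℕ,
    ∑ x ∈ antidiagonal (p + 1), pv q p x.1 x.2 ^ 2 * kk x ^ (2 * a) ≤ C * ((p : ℝ) + 1) ^ a := by
  obtain ⟨C, hC, h⟩ := mom_pv a
  refine ⟨C, hC, fun q p => ?_⟩
  by_cases hq : 1 ≤ q ∧ p < 2 * q - 1
  · exact h q p hq.1 hq.2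
  · simp only [pv_eq_zero hq]
    simp
    positivity

theorem kk_mk {b i : ℕ} (h : i ∈ range (b + 1)) : kk (i, b - i) = b - 2 * (i : ℝ) := by
  simp only [kk, Nat.cast_sub (Nat.lt_succ_iff.1 (mem_range.1 h))]
  ring

theorem mom_range (a : ℕ) : ∃ C : ℝ, 0 ≤ C ∧ ∀ q p : ℕ, ∑ i ∈ range (p + 2),
    pv q p i (p + 1 - i) ^ 2 * ((p : ℝ) + 1 - 2 * i) ^ (2 * a) ≤ C * ((p : ℝ) + 1) ^ a := by
  obtain ⟨C, hC, h⟩ := mom_pv' a
  refine ⟨C, hC.le, fun q p => le_trans (le_of_eq ?_) (h q p)⟩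
  rw [Nat.sum_antidiagonal_eq_sum_range_succ_mk]
  refine sum_congr rfl fun i hi => ?_
  rw [kk_mk hi]
  push_cast
  rfl

theorem wsum_range (b : ℕ) (hb : 1 ≤ b) :
    ∑ i ∈ range (b + 1), 1 / (1 + ((b : ℝ) - 2 * i) ^ 2 / b) ≤ 2 * √(b : ℝ) := by
  have hb1 : (1 : ℝ) ≤ b := by exact_mod_cast hb
  have h := dl_count b (Real.one_le_sqrt.2 hb1)
  rw [Real.sq_sqrt (by linarith), Nat.sum_antidiagonal_eq_sum_range_succ_mk] at h
  refine le_trans (le_of_eq (sum_congr rfl fun i hi => ?_)) h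
  rw [kk_mk hi]

theorem l1_range : ∃ C : ℝ, 0 ≤ C ∧ ∀ (q p : ℕ) (α β : ℝ),
    (∑ i ∈ range (p + 2), |pv q p i (p + 1 - i)| *
      (α * ((p : ℝ) + 1 - 2 * i) ^ 2 + β * ((p : ℝ) + 1 - 2 * i) ^ 6)) ^ 2 ≤
      C * (√(p + 1) * (α ^ 2 * ((p : ℝ) + 1) ^ 2 + β ^ 2 * ((p : ℝ) + 1) ^ 6)) := by
  obtain ⟨C2, hC2, h2⟩ := mom_range 2
  obtain ⟨C3, hC3, h3⟩ := mom_range 3
  obtain ⟨C6, hC6, h6⟩ := mom_range 6
  obtain ⟨C7, hC7, h7⟩ := mom_range 7
  refine ⟨4 * (C2 + C3 + C6 + C7), by positivity, fun q p α β => ?_⟩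
  have hw := wsum_range (p + 1) (by omega)
  push_cast at hw
  specialize h2 q p
  specialize h3 q p
  specialize h6 q p
  specialize h7 q p
  have hs : (0 : ℝ) < p + 1 := by positivity
  generalize (p : ℝ) + 1 = s at *
  have h1 := sum_sq_le_sum_mul_sum_of_sq_le_mul (range (p + 2))
    (r := fun i => |pv q p i (p + 1 - i)| * (α * (s - 2 * i) ^ 2 + β * (s - 2 * i) ^ 6))
    (f := fun i => 1 / (1 + (s - 2 * i) ^ 2 / s))
    (g := fun i => 2 * α ^ 2 * (pv q p i (p + 1 - i) ^ 2 * (s - 2 * i) ^ (2 * 2)) +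
      2 * α ^ 2 / s * (pv q p i (p + 1 - i) ^ 2 * (s - 2 * i) ^ (2 * 3)) +
      2 * β ^ 2 * (pv q p i (p + 1 - i) ^ 2 * (s - 2 * i) ^ (2 * 6)) +
      2 * β ^ 2 / s * (pv q p i (p + 1 - i) ^ 2 * (s - 2 * i) ^ (2 * 7)))
    (fun i _ => by positivity) (fun i _ => by simp only [pow_mul]; positivity) (fun i _ => by
      rw [mul_pow, sq_abs]
      generalize pv q p i (p + 1 - i) = w
      generalize s - 2 * (i : ℝ) = k
      have e : 1 / (1 + k ^ 2 / s) * (2 * α ^ 2 * (w ^ 2 * k ^ (2 * 2)) +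
          2 * α ^ 2 / s * (w ^ 2 * k ^ (2 * 3)) + 2 * β ^ 2 * (w ^ 2 * k ^ (2 * 6)) +
          2 * β ^ 2 / s * (w ^ 2 * k ^ (2 * 7))) =
          w ^ 2 * (2 * (α * k ^ 2) ^ 2 + 2 * (β * k ^ 6) ^ 2) := by
        field_simp
        ring
      rw [e]
      exact mul_le_mul_of_nonneg_left (by nlinarith [sq_nonneg (α * k ^ 2 - β * k ^ 6)])
        (sq_nonneg _))
  refine h1.trans ?_
  have a : ∑ i ∈ range (p + 2), (2 * α ^ 2 * (pv q p i (p + 1 - i) ^ 2 * (s - 2 * i) ^ (2 * 2)) +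
      2 * α ^ 2 / s * (pv q p i (p + 1 - i) ^ 2 * (s - 2 * i) ^ (2 * 3)) +
      2 * β ^ 2 * (pv q p i (p + 1 - i) ^ 2 * (s - 2 * i) ^ (2 * 6)) +
      2 * β ^ 2 / s * (pv q p i (p + 1 - i) ^ 2 * (s - 2 * i) ^ (2 * 7))) ≤
      2 * (C2 + C3 + C6 + C7) * (α ^ 2 * s ^ 2 + β ^ 2 * s ^ 6) := by
    simp only [sum_add_distrib, ← mul_sum]
    have b2 := mul_le_mul_of_nonneg_left h2 (by positivity : 0 ≤ 2 * α ^ 2)
    have b3 := mul_le_mul_of_nonneg_left h3 (by positivity : 0 ≤ 2 * α ^ 2 / s)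
    have b6 := mul_le_mul_of_nonneg_left h6 (by positivity : 0 ≤ 2 * β ^ 2)
    have b7 := mul_le_mul_of_nonneg_left h7 (by positivity : 0 ≤ 2 * β ^ 2 / s)
    have e3 : 2 * α ^ 2 / s * (C3 * s ^ 3) = 2 * C3 * (α ^ 2 * s ^ 2) := by field_simp
    have e7 : 2 * β ^ 2 / s * (C7 * s ^ 7) = 2 * C7 * (β ^ 2 * s ^ 6) := by field_simp
    rw [e3] at b3
    rw [e7] at b7
    have hA : 0 ≤ α ^ 2 * s ^ 2 := by positivity
    have hB : 0 ≤ β ^ 2 * s ^ 6 := by positivity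
    nlinarith [mul_nonneg hC2 hB, mul_nonneg hC3 hB, mul_nonneg hC6 hA, mul_nonneg hC7 hA]
  refine (mul_le_mul hw a (sum_nonneg fun i _ => by simp only [pow_mul]; positivity)
    (by positivity)).trans (le_of_eq ?_)
  ring

end Crest.Agent.R340.Pin
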