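import Crest.Agent.R340.PnNum
import Crest.Agent.R340.PnSt

/-! # Row 340, module PIN: moments of the pair vectors -/

set_option autoImplicit false

namespace Crest.Agent.R340.Pn

open Matrix Crest.MathPhysics.Laughlin Crest.Agent.R340.Pin
open scoped Matrix.Norms.L2Operator MatrixOrder ComplexOrder ComplexConjugate

/-! ### part C -/

/-- `PnSt` -/
theorem mom (a : ℕ) : ∃ C : ℝ, 0 ≤ C ∧ ∀ q p : ℕ, ∑ i ∈ Finset.range (p + 2),
    pv q p i (p + 1 - i) ^ 2 * ((p : ℝ) + 1 - 2 * i) ^ (2 * a) ≤ C * ((p : ℝ) + 1) ^ a :=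
  mom_range a

/-- Cauchy-Schwarz with the weights `1 + X²/b`, `b = p + 1` (`wsum`), `mom` for `a = 2, 3, 6, 7` -/
theorem l1_bound : ∃ C : ℝ, 0 ≤ C ∧ ∀ (q p : ℕ) (α β : ℝ),
    (∑ i ∈ Finset.range (p + 2), |pv q p i (p + 1 - i)| *
      (α * ((p : ℝ) + 1 - 2 * i) ^ 2 + β * ((p : ℝ) + 1 - 2 * i) ^ 6)) ^ 2 ≤
      C * (Real.sqrt (p + 1) * (α ^ 2 * ((p : ℝ) + 1) ^ 2 + β ^ 2 * ((p : ℝ) + 1) ^ 6)) :=
  l1_range

/-! ### part D -/

open Finset in
theorem dl_fin {n b : ℕ} (F : ℕ → ℕ → ℝ) (h0 : ∀ i j, 0 ≤ F i j)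
    (h : ∀ i j, i + j ≠ b → F i j = 0) :
    ∑ i : Fin n, ∑ j : Fin n, F i j ≤ ∑ x ∈ antidiagonal b, F x.1 x.2 := by
  have e : ∑ i : Fin n, ∑ j : Fin n, F i j = ∑ x ∈ range n ×ˢ range n, F x.1 x.2 := by
    rw [sum_product', ← Fin.sum_univ_eq_sum_range (fun i => ∑ j ∈ range n, F i j)]
    exact sum_congr rfl fun i _ => Fin.sum_univ_eq_sum_range (fun j => F i j) n
  rw [e, ← sum_filter_of_ne (p := fun x : ℕ × ℕ => x.1 + x.2 = b)
    (fun x _ hx => by_contra fun hn => hx (h _ _ hn))]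
  exact sum_le_sum_of_subset_of_nonneg
    (fun x hx => mem_antidiagonal.2 (mem_filter.1 hx).2) fun x _ _ => h0 _ _

/-- `Bn_eq_Bdf`, `PB_smul`, `PB_sub`, `norm_PB_le`, `r_bound`; `pv q p i j = 0` unless
`i + j = p + 1` -/
theorem norm_sub_le {B : ℝ} (hB : 0 < B) (q p : ℕ) :
    ‖Bn q p - (((nuB B p)⁻¹ : ℝ) : ℂ) • Bdf q (sB B) p‖ ≤
      ∑ i ∈ Finset.range (p + 2), |pv q p i (p + 1 - i)| *
        (2 / (((p : ℝ) + 1) ^ 2 + B) * ((p : ℝ) + 1 - 2 * i) ^ 2 +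
          2 / (((p : ℝ) + 1) ^ 4 * B) * ((p : ℝ) + 1 - 2 * i) ^ 6) := by
  rw [norm_sub_rev, Bn_eq_Bdf, Bdf, Bdf, ← PB_smul, ← PB_sub]
  refine (norm_PB_le _).trans (le_trans (Finset.sum_le_sum fun i _ =>
    Finset.sum_le_sum fun j _ => ?_) (le_trans
    (dl_fin (n := q + 1) (b := p + 1) (fun i j => |pv q p i j| * |sB B i * sB B j / nuB B p - 1|)
      (fun i j => by positivity) fun i j h => by rw [pv, if_neg h, abs_zero, zero_mul]) ?_))
  · rw [← Complex.ofReal_mul, ← Complex.ofReal_sub, Complex.norm_real, Real.norm_eq_abs, ← abs_mul]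
    have e : (nuB B p)⁻¹ * (pv q p i j * (sB B i * sB B j) / √2) - pv q p i j * (1 * 1) / √2 =
        pv q p i j * (sB B i * sB B j / nuB B p - 1) / √2 := by ring
    rw [e, abs_div, abs_of_nonneg (Real.sqrt_nonneg 2)]
    exact div_le_self (abs_nonneg _) (Real.one_le_sqrt.2 one_le_two)
  · rw [Finset.Nat.sum_antidiagonal_eq_sum_range_succ_mk]
    refine Finset.sum_le_sum fun i hi => mul_le_mul_of_nonneg_left ?_ (abs_nonneg _)
    have hi' : i ≤ p + 1 := Nat.lt_succ_iff.1 (Finset.mem_range.1 hi)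
    have h := r_bound hB (p := p) (i := i) (j := p + 1 - i) (by omega)
    have e : ((p + 1 - i : ℕ) : ℝ) - i = (p : ℝ) + 1 - 2 * i := by
      rw [Nat.cast_sub hi']
      push_cast
      ring
    rwa [e] at h

/-- `norm_sub_le`, `l1_bound`, `tail` -/
theorem eps_small {ε : ℝ} (hε : 0 < ε) : ∃ B₀ : ℝ, 1 ≤ B₀ ∧ ∀ B, B₀ ≤ B → ∀ q P : ℕ,
    ∑ p ∈ Finset.range P, ‖Bn q p - (((nuB B p)⁻¹ : ℝ) : ℂ) • Bdf q (sB B) p‖ ^ 2 ≤ ε := by
  obtain ⟨C, hC, h⟩ := l1_bound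
  obtain ⟨B₀, hB₀, ht⟩ := tail (ε := ε / (4 * C + 1)) (by positivity)
  refine ⟨B₀, hB₀, fun B hB q P => ?_⟩
  have hB0 : 0 < B := by linarith
  have h1 := ht B hB P
  rw [le_div_iff₀' (by positivity), Finset.mul_sum] at h1
  refine le_trans (Finset.sum_le_sum fun p _ => ?_) h1
  refine (pow_le_pow_left₀ (norm_nonneg _) (norm_sub_le hB0 q p) 2).trans ((h q p _ _).trans ?_)
  have e : (2 / (((p : ℝ) + 1) ^ 2 + B)) ^ 2 * ((p : ℝ) + 1) ^ 2 +
      (2 / (((p : ℝ) + 1) ^ 4 * B)) ^ 2 * ((p : ℝ) + 1) ^ 6 =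
      4 * (((p : ℝ) + 1) ^ 2 / (((p : ℝ) + 1) ^ 2 + B) ^ 2 + 1 / (((p : ℝ) + 1) ^ 2 * B ^ 2)) := by
    field_simp
    ring
  rw [e]
  have h2 : 0 ≤ Real.sqrt (p + 1) *
      (((p : ℝ) + 1) ^ 2 / (((p : ℝ) + 1) ^ 2 + B) ^ 2 + 1 / (((p : ℝ) + 1) ^ 2 * B ^ 2)) := by
    positivity
  nlinarith

/-! ### part E -/

/-- `[c_j c_i, c₀^*] = δ_{i0} c_j - δ_{j0} c_i` (`annC_car`) -/
theorem PB_comm {n : ℕ} (a : Fin (n + 1) → Fin (n + 1) → ℂ) :
    PB a * star (annC 0) - star (annC 0) * PB a = ∑ j, (a 0 j - a j 0) • annC j := by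
  have key : ∀ i j : Fin (n + 1), annC j * annC i * star (annC 0) - star (annC 0) * (annC j * annC i) =
      (if i = 0 then annC j else 0) - (if j = 0 then annC i else (0 : Fk (n + 1))) := by
    intro i j
    have e1 : (if i = 0 then annC j else (0 : Fk (n + 1))) =
        annC j * (annC i * star (annC 0) + star (annC 0) * annC i) := by
      rw [annC_car]; split_ifs <;> simp
    have e2 : (if j = 0 then annC i else (0 : Fk (n + 1))) =
        (annC j * star (annC 0) + star (annC 0) * annC j) * annC i := by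
      rw [annC_car]; split_ifs <;> simp
    rw [e1, e2]
    noncomm_ring
  simp only [PB, Finset.sum_mul, Finset.mul_sum, smul_mul_assoc, mul_smul_comm,
    ← Finset.sum_sub_distrib, ← smul_sub, key]
  simp only [smul_sub, Finset.sum_sub_distrib, smul_ite, smul_zero, sub_smul]
  congr 1
  · rw [Finset.sum_comm]
    simp
  · simp

theorem pnE5_choose (m p : ℕ) : 2 ^ p * m.choose p ≤ (2 * m).choose p := by
  induction p with
  | zero => simp
  | succ p ih =>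
    refine Nat.le_of_mul_le_mul_right ?_ (Nat.succ_pos p)
    rw [mul_assoc, Nat.choose_succ_right_eq, Nat.choose_succ_right_eq]
    calc 2 ^ (p + 1) * (m.choose p * (m - p)) = 2 ^ p * m.choose p * (2 * (m - p)) := by ring
      _ ≤ (2 * m).choose p * (2 * m - p) := Nat.mul_le_mul ih (by omega)

/-- `2 pv Q p 0 (p+1) ² = (p+1) C(Q-1,p) / C(2Q-2,p) ≤ (p+1) / 2^p` (`h4_pairNorm`;
`pv = 0` if `Q < p + 1`) -/
theorem pv_edge (Q p : ℕ) : 2 * pv Q p 0 (p + 1) ^ 2 ≤ ((p : ℝ) + 1) / 2 ^ p := by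
  unfold pv
  rw [if_pos (zero_add _)]
  by_cases hQ : Q < p + 1
  · rw [Nat.choose_eq_zero_of_lt hQ]
    simp only [Nat.cast_zero, mul_zero, Real.sqrt_zero, zero_div]
    have : (0 : ℝ) ≤ ((p : ℝ) + 1) / 2 ^ p := by positivity
    simpa using this
  obtain ⟨m, rfl⟩ : ∃ m, Q = m + 1 := ⟨Q - 1, by omega⟩
  have hc : (0 : ℝ) < (2 * m).choose p := by exact_mod_cast Nat.choose_pos (by omega)
  have h1 : ((m : ℝ) + 1) * m.choose p = (m + 1).choose (p + 1) * ((p : ℝ) + 1) := by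
    exact_mod_cast Nat.add_one_mul_choose_eq m p
  have h2 : (2 : ℝ) ^ p * m.choose p ≤ (2 * m).choose p := by exact_mod_cast pnE5_choose m p
  rw [h4_pairNorm (by omega) (by omega), show 2 * (m + 1) - 2 = 2 * m by omega, div_pow, mul_pow,
    Real.sq_sqrt (by positivity), Real.sq_sqrt (by positivity), ← mul_div_assoc,
    div_le_div_iff₀ (by positivity) (by positivity)]
  simp only [Nat.choose_zero_right]
  push_cast
  have h3 : (0 : ℝ) ≤ 2 * ((p : ℝ) + 1) * (m + 1) := by positivity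
  have h4 := mul_le_mul_of_nonneg_left h2 h3
  calc _ = 2 * ((p : ℝ) + 1) * 2 ^ p * ((m + 1).choose (p + 1) * ((p : ℝ) + 1)) := by ring
    _ = 2 * ((p : ℝ) + 1) * (m + 1) * (2 ^ p * m.choose p) := by rw [← h1]; ring
    _ ≤ _ := h4.trans (le_of_eq (by ring))

theorem pnE5_comm (Q p : ℕ) :
    ‖Bn Q p * star (annC 0) - star (annC 0) * Bn Q p‖ ^ 2 ≤ ((p : ℝ) + 1) / 2 ^ p := by
  refine le_trans ?_ (pv_edge Q p)
  have h2 : Real.sqrt 2 ^ 2 = 2 := Real.sq_sqrt zero_le_two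
  have h2' : 0 < Real.sqrt 2 := Real.sqrt_pos.2 two_pos
  have hb : ‖Bn Q p * star (annC 0) - star (annC 0) * Bn Q p‖ ≤
      Real.sqrt 2 * |pv Q p 0 (p + 1)| := by
    rw [Bn_eq_Bdf, Bdf, PB_comm]
    refine (norm_sum_le _ _).trans ((Finset.sum_le_sum (g := fun j : Fin (Q + 1) =>
      if (j : ℕ) = p + 1 then Real.sqrt 2 * |pv Q p 0 (p + 1)| else 0) fun j _ => ?_).trans ?_)
    · rw [norm_smul]
      refine (mul_le_of_le_one_right (norm_nonneg _) (h4_annC j)).trans (le_of_eq ?_)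
      rw [← Complex.ofReal_sub, Complex.norm_real, Real.norm_eq_abs, Fin.val_zero]
      by_cases hj : (j : ℕ) = p + 1
      · have hneg : pv Q p (p + 1) 0 = -pv Q p 0 (p + 1) := by
          simp only [pv, zero_add, add_zero, if_true, Nat.choose_zero_right, Nat.cast_one,
            one_mul, mul_one, Nat.cast_zero, sub_zero, zero_sub]
          ring
        rw [if_pos hj, hj, hneg, ← abs_of_pos h2', ← abs_mul, abs_of_pos h2']
        congr 1
        field_simp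
        rw [h2]
        ring
      · rw [if_neg hj, pv, pv, if_neg (by omega), if_neg (by omega)]
        simp
    · rw [← Finset.sum_filter, Finset.sum_const, nsmul_eq_mul]
      refine mul_le_of_le_one_left (by positivity) ?_
      have hc : (Finset.univ.filter fun j : Fin (Q + 1) => (j : ℕ) = p + 1).card ≤ 1 :=
        Finset.card_le_one.2 fun a ha b hb =>
          Fin.ext (Eq.trans (Finset.mem_filter.1 ha).2 (Eq.symm (Finset.mem_filter.1 hb).2))
      exact_mod_cast hc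
  refine (pow_le_pow_left₀ (norm_nonneg _) hb 2).trans (le_of_eq ?_)
  rw [mul_pow, h2, sq_abs]

/-- `Bn_eq_Bdf`, `PB_comm`, `h4_annC`: only `j = p + 1` contributes, with coefficient
`√2 pv Q p 0 (p+1)`; `pv_edge` -/
theorem comm_Bn : ∃ C : ℝ, 0 ≤ C ∧ ∀ Q P : ℕ, ∑ p ∈ Finset.range P,
    ‖Bn Q (p + 2) * star (annC 0) - star (annC 0) * Bn Q (p + 2)‖ ^ 2 ≤ C := by
  refine ⟨2, zero_le_two, fun Q P => (Finset.sum_le_sum fun p _ => pnE5_comm Q (p + 2)).trans ?_⟩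
  have e : ∑ p ∈ Finset.range P, (((p + 2 : ℕ) : ℝ) + 1) / 2 ^ (p + 2) =
      2 - ((P : ℝ) + 4) / 2 ^ (P + 1) := by
    induction P with
    | zero => norm_num
    | succ P ih =>
      rw [Finset.sum_range_succ, ih]
      push_cast
      field_simp
      ring
  rw [e]
  have : (0 : ℝ) ≤ ((P : ℝ) + 4) / 2 ^ (P + 1) := by positivity
  linarith

end Crest.Agent.R340.Pn
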