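import Crest.Agent.R340.PnKX
import Crest.Agent.R340.PnMom
import Crest.Agent.R340.CBridge
import Crest.Agent.R340.Main

/-! # Row 340, module PIN: the induction on the number of pinned orbitals -/

set_option autoImplicit false

namespace Crest.Agent.R340.Pn

open Matrix Crest.MathPhysics.Laughlin Crest.Agent.R340.Pin
open scoped Matrix.Norms.L2Operator MatrixOrder ComplexOrder ComplexConjugate

theorem Bdf_mul_GD (q : ℕ) (d s : ℕ → ℝ) (p : ℕ) :
    Bdf q d p * GD (fun j : Fin (q + 1) => s j) =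
      GD (fun j : Fin (q + 1) => s j) * Bdf q (fun j => d j * s j) p :=
  Bdf_mul_Gam q d s p

/-- one more pinned orbital, one more flux quantum -/
theorem step {g τ₀ : ℝ} (M : ℝ) (hg : 0 < g) (hτ : 0 < τ₀) : ∃ g' : ℝ, 0 < g' ∧
    ∀ q : ℕ, 1 ≤ q → ∀ (m : ℕ) (f : Fin (q + 1) → ℂ) (τ : ℝ), τ₀ ≤ τ →
      ∑ k : Fin (q + 1), (((k : ℕ) : ℝ) + 1) ^ 4 * ‖f k‖ ^ 2 ≤ M →
      GK (KX (2 * q - 1) (Bn q) m f) g →
      GK (KX (2 * (q + 1) - 1) (Bn (q + 1)) (m + 1)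
        (Fin.cons 0 fun k : Fin (q + 1) => ((τ * dd k : ℝ) : ℂ) * f k)) g' := by
  obtain ⟨B₀, hB1, hB₀⟩ := eps_small (show 0 < g / 8 by positivity)
  obtain ⟨C, hC0, hC⟩ := comm_Bn
  set B : ℝ := max B₀ (8 * |M| / g) with hBdef
  have hBB : B₀ ≤ B := le_max_left _ _
  have hB : 1 ≤ B := hB1.trans hBB
  have hBpos : 0 < B := by linarith
  have hM : M / B ^ 2 ≤ g / 8 := by
    have h1 : 8 * |M| / g ≤ B := le_max_right _ _
    rw [div_le_iff₀ hg] at h1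
    rw [div_le_iff₀ (by positivity)]
    have h2 : M ≤ |M| := le_abs_self M
    have h3 : B * g ≤ B ^ 2 * g := by
      have : B ≤ B ^ 2 := by nlinarith
      exact mul_le_mul_of_nonneg_right this hg.le
    linarith
  set μ₀ : ℝ := min (1 / (3 * (1 + B))) (τ₀ / (1 + B)) with hμ₀
  have hμpos : 0 < μ₀ := lt_min (by positivity) (by positivity)
  have hμ1 : μ₀ ≤ 1 := (min_le_left _ _).trans (by
    rw [div_le_one (by positivity)]; linarith)
  set g₁ : ℝ := (g / 2 - g / 4) * μ₀ ^ 2 / Real.exp B ^ 4 with hg₁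
  have hg₁pos : 0 < g₁ := by
    have : 0 < g / 2 - g / 4 := by linarith
    positivity
  refine ⟨g₁ / (2 + 2 * C + g₁), by positivity, fun q hq m f τ hτ' hf h => ?_⟩
  have hs : ∀ j, 0 < sB B j := sB_pos hBpos.le
  have hν : ∀ p, 0 < nuB B p := nuB_pos hBpos.le
  -- perturbation
  have h1 := kx_pert (X' := fun p => (((nuB B p)⁻¹ : ℝ) : ℂ) • Bdf q (sB B) p)
    (f' := fun j : Fin (q + 1) => ((((sB B 0)⁻¹ * sB B j : ℝ)) : ℂ) * f j)
    (fun j : Fin (q + 1) => sB B j) (fun j => hs j) (nuB B) (fun p => (hν p).ne') (sB B 0)⁻¹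
    (fun p => by
      rw [Bn_eq_Bdf, Bdf_mul_GD, mul_smul_comm, smul_smul, ← Complex.ofReal_mul,
        mul_inv_cancel₀ (hν p).ne', Complex.ofReal_one, one_smul]
      simp only [one_mul])
    (fun j => rfl) (ε := g / 4) (by
      have a1 := hB₀ B hBB q (2 * q - 1)
      have a2 : ∑ j : Fin (q + 1), ‖f j - ((((sB B 0)⁻¹ * sB B j : ℝ)) : ℂ) * f j‖ ^ 2 ≤
          (∑ k : Fin (q + 1), (((k : ℕ) : ℝ) + 1) ^ 4 * ‖f k‖ ^ 2) / B ^ 2 := by
        rw [Finset.sum_div]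
        refine Finset.sum_le_sum fun j _ => ?_
        have e : f j - ((((sB B 0)⁻¹ * sB B j : ℝ)) : ℂ) * f j =
            ((1 - sB B j / sB B 0 : ℝ) : ℂ) * f j := by
          push_cast; ring
        rw [e, norm_mul, Complex.norm_real, Real.norm_eq_abs, mul_pow]
        have b := sB_ratio hBpos j
        have b2 : |1 - sB B j / sB B 0| ^ 2 ≤ ((((j : ℕ) : ℝ) + 1) ^ 2 / B) ^ 2 :=
          pow_le_pow_left₀ (abs_nonneg _) b 2
        calc |1 - sB B j / sB B 0| ^ 2 * ‖f j‖ ^ 2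
            ≤ ((((j : ℕ) : ℝ) + 1) ^ 2 / B) ^ 2 * ‖f j‖ ^ 2 :=
              mul_le_mul_of_nonneg_right b2 (by positivity)
          _ = _ := by ring
      have a3 : (∑ k : Fin (q + 1), (((k : ℕ) : ℝ) + 1) ^ 4 * ‖f k‖ ^ 2) / B ^ 2 ≤ M / B ^ 2 :=
        div_le_div_of_nonneg_right hf (by positivity)
      linarith) hg.le h
  -- bounded similarity
  have hse : ∀ j, sB B j * eB B j = dd j := fun j => by
    rw [eB, mul_div_cancel₀ _ (hs j).ne']
  have h2 := kx_sim (X' := fun p => (kap q p : ℂ) • Bdf q dd p)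
    (f' := fun k : Fin (q + 1) => ((τ * dd k : ℝ) : ℂ) * f k)
    (fun j : Fin (q + 1) => eB B j) (fun j => one_le_eB hBpos.le j) (prod_eB hBpos.le (q + 1))
    (fun p => kap q p * nuB B p) (t := τ * sB B 0) hμpos hμ1
    (fun p => (min_le_left _ _).trans (kap_nu hBpos.le hq p))
    ((min_le_right _ _).trans (by
      rw [div_eq_mul_one_div]
      exact mul_le_mul hτ' (sB_zero_ge hBpos.le) (by positivity) (hτ.le.trans hτ')))
    (fun p => by
      rw [smul_mul_assoc, Bdf_mul_GD, smul_smul, mul_smul_comm, ← Complex.ofReal_mul, mul_assoc,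
        mul_inv_cancel₀ (hν p).ne', mul_one]
      simp only [hse])
    (fun j => by
      rw [← mul_assoc, ← Complex.ofReal_mul, ← hse j]
      congr 2
      have := (hs 0).ne'
      field_simp)
    (by linarith) h1
  -- shift
  have h3 := kx_shift (Y := Bn (q + 1)) (C := C)
    (fun p => by rw [Bn_mul_shM, Matrix.mul_smul]) (fun p hp => Bn_mul_shM_lt q hp)
    (hC (q + 1) (2 * q - 1)) hg₁pos h2
  rwa [show 2 * (q + 1) - 1 = 2 * q - 1 + 2 by omega]

theorem KX_Bn {q : ℕ} (hq : 1 ≤ q) (m : ℕ) (f : Fin (q + 1) → ℂ) :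
    KX (2 * q - 1) (Bn q) m f = HC q + (nN (q + 1) m + star (cC f) * cC f) := by
  rw [KX, HC_eq_Bn hq, show 2 * q - 1 = 2 * q - 2 + 1 by omega,
    Finset.sum_range fun p => star (Bn q p) * Bn q p]

theorem nN_zero (n : ℕ) : nN n 0 = 0 := by simp [nN]

theorem nN_one (n : ℕ) : nN (n + 1) 1 = star (annC 0) * annC 0 := by
  rw [nN, Fin.sum_univ_succ]
  simp

/-- the unpinned gap -/
theorem base0 : ∃ (g : ℝ) (Q₀ : ℕ), 0 < g ∧ ∀ q, Q₀ ≤ q → GK (KX (2 * q - 1) (Bn q) 0 0) g := by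
  obtain ⟨Q₀, h⟩ := fockGap_main
  refine ⟨4616733319001 / 10 ^ 14, max Q₀ 1, by norm_num, fun q hq => ?_⟩
  rw [KX_Bn ((le_max_right _ _).trans hq), nN_zero, cC_zero, mul_zero, add_zero, add_zero]
  exact gk_of_sq (HC_nonneg q) (by norm_num) (h q ((le_max_left _ _).trans hq)).sq

theorem rot_cC {q : ℕ} {u : ℂ × ℂ} (hu : IsUnitSp u) (f : Fin (q + 1) → ℂ) :
    Gam (rho q u) * (star (cC f) * cC f) * star (Gam (rho q u)) =
      star (cC (rho q u *ᵥ f)) * cC (rho q u *ᵥ f) := by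
  have hU := Gam_unitary (rho_unitary q hu)
  rw [← Gam_conj_cC (rho_unitary q hu), star_mul, star_mul, star_star]
  have e : star (Gam (rho q u)) * Gam (rho q u) = 1 := hU.1
  calc _ = Gam (rho q u) * (star (cC f) * (star (Gam (rho q u)) * Gam (rho q u)) * cC f) *
        star (Gam (rho q u)) := by rw [e, mul_one]
    _ = _ := by simp only [mul_assoc]

theorem rot_HC {q : ℕ} {u : ℂ × ℂ} (hu : IsUnitSp u) :
    Gam (rho q u) * HC q * star (Gam (rho q u)) = HC q := by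
  have hU := Gam_unitary (rho_unitary q hu)
  rw [(commute_Gam_HC' q hu).eq, mul_assoc, hU.2, mul_one]

theorem rho_single (q : ℕ) (u : ℂ × ℂ) (k : Fin (q + 1)) :
    rho q u *ᵥ Pi.single k 1 = fun j => rho q u j k := by
  funext j
  simp

/-- one simple pin anywhere -/
theorem base1 : ∃ (g : ℝ) (Q₀ : ℕ), 0 < g ∧ ∀ q, Q₀ ≤ q → ∀ u, IsUnitSp u →
    GK (KX (2 * q - 1) (Bn q) 0 (fN q 0 u)) g := by
  obtain ⟨g, Q₀, hg, h⟩ := base0
  obtain ⟨g', hg', hs⟩ := step 0 hg one_pos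
  refine ⟨g', max Q₀ 1 + 1, hg', fun q hq u hu => ?_⟩
  obtain ⟨q, rfl⟩ : ∃ q', q = q' + 1 := ⟨q - 1, by omega⟩
  have h1 := hs q (by omega) 0 0 1 le_rfl (by simp) (h q (by omega))
  have e : (Fin.cons 0 fun k : Fin (q + 1) => ((1 * dd k : ℝ) : ℂ) * (0 : Fin (q + 1) → ℂ) k :
      Fin (q + 1 + 1) → ℂ) = 0 := by
    funext k
    refine Fin.cases ?_ (fun k => ?_) k <;> simp
  rw [e, KX_Bn (by omega), cC_zero, mul_zero, add_zero, zero_add, nN_one, ← cC_single] at h1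
  have h2 := gk_unitary (Gam_unitary (rho_unitary (q + 1) hu)) hg'.le h1
  rw [mul_add, add_mul, rot_HC hu, rot_cC hu, rho_single, rho_col_zero] at h2
  rwa [KX_Bn (by omega), nN_zero, zero_add, fN_zero]

theorem north (m : ℕ) (R : ℝ) : ∃ (g : ℝ) (Q₀ : ℕ), 0 < g ∧ ∀ q, Q₀ ≤ q → ∀ u, IsUnitSp u →
    q * ‖u.2‖ ^ 2 ≤ R → GK (KX (2 * q - 1) (Bn q) m (fN q m u)) g := by
  induction m with
  | zero =>
    obtain ⟨g, Q₀, hg, h⟩ := base1
    exact ⟨g, Q₀, hg, fun q hq u hu _ => h q hq u hu⟩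
  | succ m ih =>
    obtain ⟨g, Q₀, hg, h⟩ := ih
    obtain ⟨g', hg', hs⟩ := step (Real.exp (16 * max 1 R)) hg
      (show (0 : ℝ) < (1 / 2) ^ m by positivity)
    refine ⟨g', max Q₀ 1 + 1, hg', fun q hq u hu hR => ?_⟩
    obtain ⟨q, rfl⟩ : ∃ q', q = q' + 1 := ⟨q - 1, by omega⟩
    have hq1 : 1 ≤ q := by omega
    have hR' : q * ‖u.2‖ ^ 2 ≤ R := by
      refine le_trans (mul_le_mul_of_nonneg_right ?_ (by positivity)) hR
      push_cast; linarith
    rw [fN_succ hq1]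
    exact hs q hq1 m _ _ (tau_ge hq1 m) (fN_mom hq1 m hu hR') (h q (by omega) u hu hR')

theorem rot_nN (Q : ℕ) (a : S2) (m : ℕ) :
    Gam (rho Q (spin a)) * nN (Q + 1) m * star (Gam (rho Q (spin a))) = nA Q a m := by
  rw [nN, nA, Finset.mul_sum, Finset.sum_mul]
  refine Finset.sum_congr rfl fun k _ => ?_
  split_ifs
  · rw [← cC_single, rot_cC (spin_unit a), rho_single]
    rfl
  · simp

theorem unit_gk (m : ℕ) (r0 : ℝ) : ∃ (g : ℝ) (Q₀ : ℕ), 0 < g ∧ ∀ Q, Q₀ ≤ Q → ∀ a w : S2,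
    dq Q a w ≤ r0 → GK (HC Q + nU Q a m w) g := by
  obtain ⟨g, Q₀, hg, h⟩ := north m (r0 ^ 2)
  refine ⟨g, max Q₀ 1, hg, fun Q hQ a w hd => ?_⟩
  have h1 := h Q ((le_max_left _ _).trans hQ) _ ((spin_unit a).inv.act (spin_unit w)) (by
    rw [act_snd_sq]
    exact pow_le_pow_left₀ (dq_nonneg Q a w) hd 2)
  have h2 := gk_unitary (Gam_unitary (rho_unitary Q (spin_unit a))) hg.le h1
  rwa [KX_Bn ((le_max_right _ _).trans hQ), mul_add, add_mul, mul_add, add_mul,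
    rot_HC (spin_unit a), rot_cC (spin_unit a), rot_nN, ← fo_eq] at h2

end Crest.Agent.R340.Pn
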