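import Crest.Agent.R340.IfAlg
import Crest.Agent.R340.CBridge
import Crest.Agent.R340.Main
import Crest.Agent.R340.PnMain

/-! # Row 340 interface: PIN (gap of one unit of pins). Owner helper73 -/

set_option autoImplicit false

namespace Crest.Agent.R340.Pin

open Matrix MeasureTheory Crest.MathPhysics.Laughlin
open scoped Matrix.Norms.L2Operator MatrixOrder ComplexOrder ComplexConjugate

theorem pin_ker {Q : ℕ} (hQ : 1 ≤ Q) (a w : S2) (m : ℕ) (v : FV Q)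
    (h : (HC Q + nU Q a m w) *ᵥ v = 0) : v ∈ ZD Q (w ::ₘ Multiset.replicate m a) := by
  have h0 : qf (HC Q + nU Q a m w) v = 0 := by rw [qf, h, dotProduct_zero, Complex.zero_re]
  have hk : ∀ k : Fin (Q + 1), 0 ≤ qf (if (k : ℕ) < m then
      star (cC (orb Q a k)) * cC (orb Q a k) else 0 : Fk (Q + 1)) v := fun k => by
    apply Pn.qf_nonneg
    split_ifs
    · exact star_mul_self_nonneg _
    · exact le_rfl
  rw [nU, Pn.qf_add, Pn.qf_add, nA, Pn.qf_sum, Pn.qf_star_mul] at h0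
  have a1 := Pn.qf_nonneg (HC_nonneg Q) v
  have a2 := Finset.sum_nonneg (s := Finset.univ) fun k _ => hk k
  have a3 := Pn.nq_nonneg (cC (fo Q a m w) *ᵥ v)
  rw [mem_ZD_unit hQ, mem_ZD_replicate]
  refine ⟨⟨Pn.ker_of_qf (HC_nonneg Q) (by linarith), fun k hkm => ?_⟩,
    Pn.nq_eq_zero (by linarith)⟩
  have a4 := Finset.single_le_sum (s := Finset.univ) (fun k _ => hk k) (Finset.mem_univ k)
  simp only [if_pos hkm] at a4
  rw [Pn.qf_star_mul] at a4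
  exact Pn.nq_eq_zero (by linarith)

theorem nU_nonneg' (Q : ℕ) (a : S2) (m : ℕ) (w : S2) : 0 ≤ nU Q a m w := by
  refine add_nonneg (Finset.sum_nonneg fun k _ => ?_) (star_mul_self_nonneg _)
  split_ifs
  · exact star_mul_self_nonneg _
  · exact le_rfl

/-- the pinned Hamiltonian of one unit has a gap -/
theorem pin_gap_one (m : ℕ) (r0 : ℝ) : ∃ (γ : ℝ) (Q₀ : ℕ), 0 < γ ∧ ∀ Q, Q₀ ≤ Q → ∀ a w : S2,
    dq Q a w ≤ r0 → γ • (1 - PD Q (w ::ₘ Multiset.replicate m a)) ≤ HC Q + nU Q a m w := by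
  obtain ⟨g, Q₀, hg, h⟩ := Pn.unit_gk m r0
  refine ⟨g, max Q₀ 1, hg, fun Q hQ a w hd => ?_⟩
  exact Pn.le_of_gk (add_nonneg (HC_nonneg Q) (nU_nonneg' Q a m w)) hg.le
    (pin_ker ((le_max_right _ _).trans hQ) a w m) (h Q ((le_max_left _ _).trans hQ) a w hd)

theorem pin_gap_le (M : ℕ) (r0 : ℝ) : ∃ (γ : ℝ) (Q₀ : ℕ), 0 < γ ∧ ∀ Q, Q₀ ≤ Q →
    ∀ (a w : S2) (m : ℕ), m < M → dq Q a w ≤ r0 →
      γ • (1 - PD Q (w ::ₘ Multiset.replicate m a)) ≤ HC Q + nU Q a m w := by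
  induction M with
  | zero => exact ⟨1, 0, one_pos, fun _ _ _ _ m hm => absurd hm (Nat.not_lt_zero m)⟩
  | succ M ih =>
    obtain ⟨g, Q₀, hg, h⟩ := ih
    obtain ⟨g', Q₁, hg', h'⟩ := pin_gap_one M r0
    refine ⟨min g g', max Q₀ Q₁, lt_min hg hg', fun Q hQ a w m hm hd => ?_⟩
    have hp : (0 : Fk (Q + 1)) ≤ 1 - PD Q (w ::ₘ Multiset.replicate m a) :=
      (PD_proj Q _).one_sub.nonneg
    rcases Nat.lt_succ_iff_lt_or_eq.mp hm with hm | rfl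
    · exact (smul_le_smul_of_nonneg_right (min_le_left _ _) hp).trans
        (h Q ((le_max_left _ _).trans hQ) a w m hm hd)
    · exact (smul_le_smul_of_nonneg_right (min_le_right _ _) hp).trans
        (h' Q ((le_max_right _ _).trans hQ) a w hd)

theorem pin_gap (r0 : ℝ) : ∃ (γ : ℝ) (Q₀ : ℕ), 0 < γ ∧ ∀ Q, Q₀ ≤ Q → ∀ (a w : S2) (m : ℕ), m ≤ 3 →
    dq Q a w ≤ r0 → γ • (PD Q 0 - PD Q (w ::ₘ Multiset.replicate m a)) ≤
      PD Q 0 * nU Q a m w * PD Q 0 := by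
  obtain ⟨g, Q₀, hg, h⟩ := pin_gap_le 4 r0
  refine ⟨g, Q₀, hg, fun Q hQ a w m hm hd => ?_⟩
  have hP := PD_mul_of_le (Q := Q) (Multiset.zero_le (w ::ₘ Multiset.replicate m a))
  refine Pn.sandwich (PD_proj Q 0) ?_ hP.1 hP.2 (h Q hQ a w m (by omega) hd)
  refine gg_ext fun S => ?_
  rw [← mulVec_mulVec, zero_mulVec]
  exact mem_ZD_zero.mp (PD_mulVec_mem 0 _)

end Crest.Agent.R340.Pin
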