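import Crest.Agent.R340.KdAlg

/-! # Row 340, module KD: abstract algebra, part 2 (architect helper68) -/

set_option autoImplicit false

namespace Crest.Agent.R340.Kd

open Crest.Agent.R340.Filt

variable {𝔄 : Type} [CStarAlgebra 𝔄] [FiniteDimensional ℂ 𝔄] [PartialOrder 𝔄] [StarOrderedRing 𝔄]
  {P E F G π π' : 𝔄} {w W : ℝ → ℂ} {g γ γ' ε ε' κ : ℝ}

/-! ### part A -/

omit [FiniteDimensional ℂ 𝔄] in
theorem h83_sum_sq {ι : Type} (s : Finset ι) (x : ι → 𝔄) :
    star (∑ i ∈ s, x i) * ∑ i ∈ s, x i ≤ (s.card : ℝ) • ∑ i ∈ s, star (x i) * x i := by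
  have h := Finset.sum_le_sum fun i (_ : i ∈ s) => Finset.sum_le_sum fun j (_ : j ∈ s) =>
    cross_le (x i) (x j)
  simp only [Finset.sum_add_distrib] at h
  rw [Finset.sum_comm (f := fun i j => star (x j) * x i),
    Finset.sum_comm (f := fun _ j => star (x j) * x j)] at h
  simp only [Finset.sum_const, ← Finset.smul_sum, ← Nat.cast_smul_eq_nsmul ℝ] at h
  rw [← two_smul ℝ, ← two_smul ℝ] at h
  rw [star_sum, Finset.sum_mul_sum]
  have h2 := smul_le_smul_of_nonneg_left h (show (0 : ℝ) ≤ 2⁻¹ by norm_num)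
  rwa [inv_smul_smul₀ two_ne_zero, inv_smul_smul₀ two_ne_zero] at h2

/-- GAP OF A SECOND UNIT on the range of `E`.  `n = Σ c^* c`, `B = P n P`, `A = E n E`, `u i = c i * E`
(`E u = u`, `π u = u`).  `g B ≤ B²` (`sq_ge_of_ge` with `R = P - F`).  `B E = Σ (a i)^* u i`,
`D = B E - A = (1 - π) B E = Σ ((a i)^* π - π (a i)^*) u i`, `E D = 0`, `E B² E = A² + D^* D`,
`D^* D ≤ card ε² A` (`cross_le`, `star_mul_le_sq`).  So `(g - card ε²) A ≤ A²`; `ge_of_sq` with
`R = E - G` (`A X = 0 → c i E X = 0`). -/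
theorem pair_gap {ι : Type} (s : Finset ι) (c a : ι → 𝔄) (hP : IsStarProjection P)
    (hE : IsStarProjection E) (hF : IsStarProjection F) (hG : IsStarProjection G)
    (pE : P * E = E) (pF : P * F = F) (eG : E * G = G) (eπ : π * P = E)
    (ca : ∀ i ∈ s, Commute P (a i)) (ea : ∀ i ∈ s, a i * P = c i * P)
    (cE : ∀ i ∈ s, E * c i * E = c i * E) (cF : ∀ i ∈ s, c i * F = 0)
    (hg : g • (P - F) ≤ P * (∑ i ∈ s, star (c i) * c i) * P)
    (hε : ∀ i ∈ s, ‖π * star (a i) - star (a i) * π‖ ≤ ε) (h0 : 0 ≤ g - s.card * ε ^ 2)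
    (hk : ∀ X, E * X = X → (∀ i ∈ s, c i * X = 0) → G * X = X) :
    (g - s.card * ε ^ 2) • (E - G) ≤ E * (∑ i ∈ s, star (c i) * c i) * E := by
  have eP := hP.isIdempotentElem.eq
  have eE := hE.isIdempotentElem.eq
  have sP := hP.isSelfAdjoint.star_eq
  have sE := hE.isSelfAdjoint.star_eq
  have sF := hF.isSelfAdjoint.star_eq
  have sG := hG.isSelfAdjoint.star_eq
  have Ep : E * P = E := by simpa [sP, sE] using congrArg star pE
  have Fp : F * P = F := by simpa [sP, sF] using congrArg star pF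
  have Ge : G * E = G := by simpa [sG, sE] using congrArg star eG
  set n := ∑ i ∈ s, star (c i) * c i with hn
  have hn0 : 0 ≤ n := Finset.sum_nonneg fun i _ => star_mul_self_nonneg _
  have sn : star n = n := (IsSelfAdjoint.of_nonneg hn0).star_eq
  have hB0 : 0 ≤ P * n * P := by simpa only [sP] using star_left_conjugate_nonneg hn0 P
  have hA0 : 0 ≤ E * n * E := by simpa only [sE] using star_left_conjugate_nonneg hn0 E
  have Fn : F * n = 0 := by
    rw [hn, Finset.mul_sum]
    refine Finset.sum_eq_zero fun i hi => ?_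
    rw [← mul_assoc, ← sF, ← star_mul, cF i hi, star_zero, zero_mul]
  have h1 : g • (P * n * P) ≤ P * n * P * (P * n * P) := by
    refine sq_ge_of_ge hB0 ?_ hg
    rw [sub_mul, ← mul_assoc, ← mul_assoc, eP, ← mul_assoc, ← mul_assoc, Fp, Fn, zero_mul,
      sub_zero]
  have hA : E * n * E = ∑ i ∈ s, star (c i * E) * (c i * E) := by
    rw [hn, Finset.mul_sum, Finset.sum_mul]
    refine Finset.sum_congr rfl fun i _ => ?_
    rw [star_mul, sE]
    simp only [mul_assoc]
  have pu : ∀ i ∈ s, P * (c i * E) = c i * E := fun i hi => by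
    rw [← cE i hi, ← mul_assoc, ← mul_assoc, pE]
  have πu : ∀ i ∈ s, π * (c i * E) = c i * E := fun i hi => by
    rw [← pu i hi, ← mul_assoc, eπ, ← mul_assoc, cE i hi, pu i hi]
  have hBE : P * n * E = ∑ i ∈ s, star (a i) * (c i * E) := by
    rw [hn, Finset.mul_sum, Finset.sum_mul]
    refine Finset.sum_congr rfl fun i hi => ?_
    have e1 : P * star (c i) = star (a i) * P := by
      rw [← sP, ← star_mul, ← ea i hi, ← (ca i hi).eq, star_mul]
    rw [← mul_assoc, e1, mul_assoc, mul_assoc, pu i hi]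
  set D := P * n * E - E * n * E with hD
  have hD2 : D = ∑ i ∈ s, -(π * star (a i) - star (a i) * π) * (c i * E) := by
    have e1 : E * n * E = π * (P * n * E) := by rw [← mul_assoc, ← mul_assoc, eπ]
    rw [hD, e1, hBE, Finset.mul_sum, ← Finset.sum_sub_distrib]
    refine Finset.sum_congr rfl fun i hi => ?_
    rw [neg_sub, sub_mul, mul_assoc, πu i hi, mul_assoc]
  have hED : E * D = 0 := by
    rw [hD, mul_sub, ← mul_assoc, ← mul_assoc, Ep, ← mul_assoc, ← mul_assoc, eE, sub_self]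
  have hAD : E * n * E * D = 0 := by rw [mul_assoc, hED, mul_zero]
  have sA : star (E * n * E) = E * n * E := (IsSelfAdjoint.of_nonneg hA0).star_eq
  have hDA : star D * (E * n * E) = 0 := by
    rw [← sA, ← star_mul, hAD, star_zero]
  have h2 : g • (E * n * E) ≤ E * n * E * (E * n * E) + star D * D := by
    have k := star_left_conjugate_le_conjugate h1 E
    have e1 : star E * (g • (P * n * P)) * E = g • (E * n * E) := by
      rw [sE, mul_smul_comm, smul_mul_assoc, ← mul_assoc, ← mul_assoc, Ep, mul_assoc _ P, pE]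
    have e2 : star E * (P * n * P * (P * n * P)) * E =
        star (E * n * E + D) * (E * n * E + D) := by
      rw [hD, add_sub_cancel, star_mul, star_mul, sE, sP, sn]
      simp only [mul_assoc]
      rw [pE, ← mul_assoc E P, Ep]
    rw [e1, e2, star_add, sA, add_mul, mul_add, mul_add, hAD, hDA, add_zero, zero_add] at k
    exact k
  have h3 : star D * D ≤ (s.card * ε ^ 2) • (E * n * E) := by
    rw [hD2, hA, mul_smul]
    refine (h83_sum_sq s _).trans (smul_le_smul_of_nonneg_left ?_ (Nat.cast_nonneg _))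
    rw [Finset.smul_sum]
    exact Finset.sum_le_sum fun i hi => star_mul_le_sq _ _ (by rw [norm_neg]; exact hε i hi)
  refine ge_of_sq h0 hA0 ?_ (hG.sub_of_mul_eq_right hE eG) fun X hX => ?_
  · rw [sub_smul, sub_le_iff_le_add]
    exact h2.trans (add_le_add le_rfl h3)
  · have e1 : ∑ i ∈ s, star (c i * E * X) * (c i * E * X) = 0 := by
      have : star X * (E * n * E * X) = 0 := by rw [hX, mul_zero]
      rw [← this, hA, Finset.sum_mul, Finset.mul_sum]
      refine Finset.sum_congr rfl fun i _ => ?_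
      rw [star_mul (c i * E)]
      simp only [mul_assoc]
    rw [Finset.sum_eq_zero_iff_of_nonneg fun i _ => star_mul_self_nonneg _] at e1
    have e2 := hk (E * X) (by rw [← mul_assoc, eE]) fun i hi => by
      rw [← mul_assoc]
      exact (CStarRing.star_mul_self_eq_zero_iff _).1 (e1 i hi)
    rw [← mul_assoc, Ge] at e2
    rw [sub_mul, e2, sub_self]

/-! ### part B -/

/-- `n = (1 - F) n (1 - F) ≤ κ (1 - F)` -/
theorem le_norm_compl {n : 𝔄} (hF : IsStarProjection F) (h0 : 0 ≤ n) (hn : ‖n‖ ≤ κ)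
    (h : n * F = 0) : n ≤ κ • (1 - F) := by
  have hF' : F * n = 0 :=
    kb_flip (IsSelfAdjoint.of_nonneg h0) hF.isSelfAdjoint (IsSelfAdjoint.zero _) h
  have i1 := (CStarAlgebra.norm_le_iff_le_algebraMap _ ((norm_nonneg _).trans hn) h0).1 hn
  have i2 := star_left_conjugate_le_conjugate i1 (1 - F)
  rwa [Algebra.algebraMap_eq_smul_one, mul_smul_comm, smul_mul_assoc, mul_one,
    hF.one_sub.isSelfAdjoint.star_eq, hF.one_sub.isIdempotentElem.eq, sub_mul, one_mul, hF',
    sub_zero, mul_sub, mul_one, h, sub_zero] at i2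

/-- PAIR ANGLE: `pair_gap`, `le_norm_compl`, `angle` (`E F - F E = (π π' - π' π) P`) -/
theorem pair_angle_alg {ι : Type} (s : Finset ι) (c a : ι → 𝔄) (hP : IsStarProjection P)
    (hE : IsStarProjection E) (hF : IsStarProjection F) (hG : IsStarProjection G)
    (pE : P * E = E) (pF : P * F = F) (eG : E * G = G) (fG : F * G = G) (eπ : π * P = E)
    (eπ' : π' * P = F) (cπ : Commute P π) (cπ' : Commute P π')
    (ca : ∀ i ∈ s, Commute P (a i)) (ea : ∀ i ∈ s, a i * P = c i * P)
    (cE : ∀ i ∈ s, E * c i * E = c i * E) (cF : ∀ i ∈ s, c i * F = 0) (g0 : 0 < g)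
    (hg : g • (P - F) ≤ P * (∑ i ∈ s, star (c i) * c i) * P)
    (hε : ∀ i ∈ s, ‖π * star (a i) - star (a i) * π‖ ≤ ε) (h0 : s.card * ε ^ 2 ≤ g / 2)
    (hk : ∀ X, E * X = X → (∀ i ∈ s, c i * X = 0) → G * X = X) (hκ : 0 < κ)
    (hn : ‖∑ i ∈ s, star (c i) * c i‖ ≤ κ) (hε' : ‖π * π' - π' * π‖ ≤ ε') :
    ‖E * F - G‖ ≤ ε' / Real.sqrt (g / (2 * κ)) := by
  have hD : IsStarProjection (E - G) := hG.sub_of_mul_eq_right hE eG
  have k1 := pair_gap s c a hP hE hF hG pE pF eG eπ ca ea cE cF hg hε (by linarith) hk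
  have k2 : ∑ i ∈ s, star (c i) * c i ≤ κ • (1 - F) := by
    refine le_norm_compl hF (Finset.sum_nonneg fun i _ => star_mul_self_nonneg _) hn ?_
    rw [Finset.sum_mul]
    exact Finset.sum_eq_zero fun i hi => by rw [mul_assoc, cF i hi, mul_zero]
  have gE : G * E = G := kb_flip hE.isSelfAdjoint hG.isSelfAdjoint hG.isSelfAdjoint eG
  have dE : (E - G) * E = E - G := by rw [sub_mul, hE.isIdempotentElem.eq, gE]
  have Ed : E * (E - G) = E - G := by rw [mul_sub, hE.isIdempotentElem.eq, eG]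
  have k3 := star_left_conjugate_le_conjugate
    ((smul_le_smul_of_nonneg_right (show g / 2 ≤ g - s.card * ε ^ 2 by linarith) hD.nonneg).trans k1)
    (E - G)
  have k4 := star_left_conjugate_le_conjugate k2 (E - G)
  rw [hD.isSelfAdjoint.star_eq, mul_smul_comm, smul_mul_assoc] at k3 k4
  rw [hD.isIdempotentElem.eq, hD.isIdempotentElem.eq, ← mul_assoc, ← mul_assoc, dE,
    mul_assoc _ E, Ed] at k3
  have k5 := smul_le_smul_of_nonneg_left (k3.trans k4) (inv_pos.2 hκ).le
  rw [smul_smul, smul_smul, inv_mul_cancel₀ hκ.ne', one_smul,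
    show κ⁻¹ * (g / 2) = g / (2 * κ) by field_simp] at k5
  refine angle hE hF hG eG fG (by positivity) k5 ?_
  have pp := hP.isIdempotentElem.eq
  have e : E * F - F * E = (π * π' - π' * π) * P := by
    rw [← eπ, ← eπ', mul_assoc π, mul_assoc π', ← mul_assoc P, ← mul_assoc P, cπ.eq, cπ'.eq,
      mul_assoc π', mul_assoc π, pp, sub_mul, mul_assoc, mul_assoc]
  rw [e]
  exact (kc_nm hε' hP.norm_le).trans_eq (mul_one _)

/-- MOVE.  `δ = K' - K`, `R = I • fcal W K`: `R K = -(1 - p)` (`mul_fcal_inv`, `Gap.eq_fcal`),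
`Γ p = R δ p` (`filt2_mul`, `fcal_eq_filt2`), `(1 - p) q = R δ q`, `p q p - p = -p (q - p)² p`,
`‖q - p‖ ≤ 2 J η` (`Gap.norm_sub_le`), `p Γ p = 0` (`filt_eig`, `IsFilt.inv0`). -/
theorem move_alg {K K' p q : 𝔄} {J η : ℝ} (hf : IsFilt γ' w W) (hγ : γ' ≤ γ) (h : Gap 1 K p 0 γ)
    (h0 : K * p = 0) (h' : Gap 1 K' q 0 γ) (h0' : K' * q = 0) (hJ : ∫ t, ‖W t‖ ≤ J)
    (hη : ‖K' - K‖ ≤ η) :
    star (Complex.I • filt W K (K' - K)) = -(Complex.I • filt W K (K' - K)) ∧
      p * (Complex.I • filt W K (K' - K)) * p = 0 ∧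
      ‖q * p - p - (Complex.I • filt W K (K' - K)) * p‖ ≤ 6 * J ^ 2 * η ^ 2 := by
  have hδ : IsSelfAdjoint (K' - K) := h'.sa.sub h.sa
  have he : K * p = ((0 : ℝ) : ℂ) • p := by rw [h0]; simp
  have J0 : 0 ≤ ∫ t, ‖W t‖ := MeasureTheory.integral_nonneg fun t => norm_nonneg _
  have η0 := norm_nonneg (K' - K)
  have pp : p * p = p := h.proj.isIdempotentElem.eq
  have qq : q * q = q := h'.proj.isIdempotentElem.eq
  refine ⟨?_, ?_, ?_⟩
  · rw [star_smul, (filt_sa hf.real_W h.sa hδ).star_eq, ← neg_smul]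
    simp
  · rw [mul_smul_comm, smul_mul_assoc, filt_eig hf.int_W h.sa h.proj.isSelfAdjoint he, hf.inv0,
      zero_smul, smul_zero]
  · have e1 : fcal w K = p := by
      have := h.eq_fcal hf he (by linarith)
      simpa using this
    have e2 : fcal W K * K = Complex.I • (1 - p) := by
      rw [← mul_fcal hf.int_W h.sa h.sa rfl, mul_fcal_inv hf h.sa, e1]
    have z : IsSelfAdjoint (0 : 𝔄) := IsSelfAdjoint.zero 𝔄
    have e3 : filt W K (K' - K) * p = fcal W K * ((K' - K) * p) := by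
      rw [filt_eq_filt2, filt2_mul (K' := 0) hf.int_W h.sa h.sa (by rw [h0, mul_zero]),
        fcal_eq_filt2, filt2_mul (K' := 0) hf.int_W h.sa z (by rw [zero_mul, mul_zero]), one_mul]
    have e4 : Complex.I • (fcal W K * ((K' - K) * q)) = (1 - p) * q := by
      rw [sub_mul, h0', zero_sub, mul_neg, ← mul_assoc, e2, smul_mul_assoc, smul_neg, smul_smul,
        Complex.I_mul_I, neg_smul, one_smul, neg_neg]
    have e5 : q * p - p - (Complex.I • filt W K (K' - K)) * p =
        -(p * ((q - p) * (q - p)) * p) +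
          Complex.I • (fcal W K * (K' - K) * (q - p) * p) := by
      have a1 : p * ((q - p) * (q - p)) * p = p - p * q * p := by
        have : p * ((q - p) * (q - p)) * p =
            p * (q * q) * p - p * q * (p * p) - (p * p) * q * p + (p * p) * (p * p) := by
          noncomm_ring
        rw [this, qq, pp, pp]; abel
      have a2 : fcal W K * (K' - K) * (q - p) * p =
          fcal W K * ((K' - K) * q) * p - fcal W K * ((K' - K) * (p * p)) := by
        noncomm_ring
      rw [a1, a2, pp, smul_sub, ← smul_mul_assoc, e4, smul_mul_assoc, e3]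
      noncomm_ring
    have n1 : ‖q - p‖ ≤ 2 * J * η := by
      refine (h.norm_sub_le hf h' (by linarith) (by linarith)).trans ?_
      exact mul_le_mul (by linarith) hη η0 (by linarith)
    have np : ‖p‖ ≤ 1 := h.proj.norm_le
    have nF : ‖fcal W K‖ ≤ J := (norm_fcal_le hf.int_W h.sa).trans hJ
    have n2 := kc_nm (kc_nm np (kc_nm n1 n1)) np
    have n3 := kc_nm (kc_nm (kc_nm nF hη) n1) np
    rw [e5]
    refine (norm_add_le _ _).trans ?_
    rw [norm_neg, norm_smul, Complex.norm_I, one_mul]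
    nlinarith

end Crest.Agent.R340.Kd
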