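import Crest.Agent.R340.PinDefs
import Crest.Agent.R340.FiltFun

/-! # Row 340, module KD: definitions (architect helper68) -/

set_option autoImplicit false

namespace Crest.Agent.R340.Pin

open Matrix MeasureTheory Crest.MathPhysics.Laughlin
open scoped Matrix.Norms.L2Operator MatrixOrder ComplexOrder ComplexConjugate

/-- the gap of `HC` -/
noncomputable def g0 : ℝ := 4616733319001 / 10 ^ 14

theorem g0_pos : 0 < g0 := by unfold g0; positivity

/-- filters with decay -/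
theorem ex_filt {γ : ℝ} (hγ : 0 < γ) : ∃ (w W : ℝ → ℂ) (C c : ℝ), 0 < C ∧ 0 < c ∧ Filt.IsFilt γ w W ∧
    Filt.Decay C c w ∧ Filt.Decay C c W ∧ Measurable w ∧ Measurable W := by
  obtain ⟨C, c, hC, hc, h⟩ := Filt.exists_filt
  obtain ⟨w, W, h1, h2, h3, h4, h5⟩ := h γ hγ
  refine ⟨w, W, γ * C + C, c * Real.sqrt γ, by positivity, by positivity, h1, fun t => (h4 t).trans ?_,
    fun t => (h5 t).trans ?_, h2, h3⟩
  · gcongr; linarith
  · have := mul_pos hγ hC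
    gcongr; linarith

/-- the filter for `HC` -/
noncomputable def w0 : ℝ → ℂ := (ex_filt g0_pos).choose

theorem w0_spec : ∃ (W : ℝ → ℂ) (C c : ℝ), 0 < C ∧ 0 < c ∧ Filt.IsFilt g0 w0 W ∧
    Filt.Decay C c w0 := by
  obtain ⟨W, C, c, h1, h2, h3, h4, -⟩ := (ex_filt g0_pos).choose_spec
  exact ⟨W, C, c, h1, h2, h3, h4⟩

/-- filtered annihilator -/
noncomputable def aF (Q : ℕ) (f : Fin (Q + 1) → ℂ) : Fk (Q + 1) := Filt.filt w0 (HC Q) (cC f)

/-- filtered penalty -/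
noncomputable def VF (Q : ℕ) (f : Fin (Q + 1) → ℂ) : Fk (Q + 1) := star (aF Q f) * aF Q f

/-- orbitals with a natural number index -/
noncomputable def orbN (Q : ℕ) (a : S2) (k : ℕ) : Fin (Q + 1) → ℂ :=
  if h : k < Q + 1 then orb Q a ⟨k, h⟩ else 0

/-- a unit of pins -/
def unit (a : S2) (m : ℕ) (w : S2) : Multiset S2 := w ::ₘ Multiset.replicate m a

/-- the vectors of a unit -/
noncomputable def uv (Q : ℕ) (a : S2) (m : ℕ) (w : S2) (i : Fin 4) : Fin (Q + 1) → ℂ :=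
  if (i : ℕ) < m then orbN Q a i else if (i : ℕ) = m then fo Q a m w else 0

/-- filtered penalty of a unit -/
noncomputable def VU (Q : ℕ) (a : S2) (m : ℕ) (w : S2) : Fk (Q + 1) := ∑ i, VF Q (uv Q a m w i)

/-- filtered penalty of `replicate m a` -/
noncomputable def VA (Q : ℕ) (a : S2) (m : ℕ) : Fk (Q + 1) :=
  ∑ k ∈ Finset.range m, VF Q (orbN Q a k)

/-- a family of units with centres `Cn` -/
structure Units (Q : ℕ) (r R : ℝ) (Cn : Finset S2) (m : S2 → ℕ) (w : S2 → S2) : Prop where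
  m_le : ∀ c ∈ Cn, m c ≤ 3
  rad : ∀ c ∈ Cn, dq Q c (w c) ≤ r + 1
  sep : ∀ c ∈ Cn, ∀ c' ∈ Cn, c ≠ c' → r ≤ dq Q c c'
  far : ∀ c ∈ Cn, ∀ c' ∈ Cn, c ≠ c' → w c ≠ c → R ≤ dq Q c c'

/-- all pins -/
def uD (Cn : Finset S2) (m : S2 → ℕ) (w : S2 → S2) : Multiset S2 := ∑ c ∈ Cn, unit c (m c) (w c)

/-- the parent Hamiltonian -/
noncomputable def KU (Q : ℕ) (Cn : Finset S2) (m : S2 → ℕ) (w : S2 → S2) : Fk (Q + 1) :=
  HC Q + ∑ c ∈ Cn, VU Q c (m c) (w c)

end Crest.Agent.R340.Pin
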