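import Crest.Agent.R340.IfLoc
import Crest.Agent.R340.GeoRho

/-! # Row 340, module KD: localisation of `fo` (architect helper68) -/

set_option autoImplicit false

namespace Crest.Agent.R340.Pin

open Matrix MeasureTheory Crest.MathPhysics.Laughlin
open scoped Matrix.Norms.L2Operator MatrixOrder ComplexOrder ComplexConjugate

/-! ### part A -/

/-- `OL_cC`, `orb_overlap_le`, `-(√k - D)²/2 ≤ a²/2 + a (√k - D)` -/
theorem OL_orb_k (Q : ℕ) (a : ℝ) (x : S2) (k : Fin (Q + 1)) :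
    OL Q 1 a (Real.exp (a ^ 2 / 2 + |a| * Real.sqrt k)) x (cC (orb Q x k)) := by
  have h1 : 1 ≤ Real.exp (a ^ 2 / 2 + |a| * Real.sqrt k) := Real.one_le_exp (by positivity)
  refine OL_cC (by positivity) ?_ fun y => ?_
  · have h : nq (orb Q x k) = 1 := by
      unfold nq
      rw [orb_dot]
      simp
    rw [h]
    exact one_le_pow₀ h1
  · refine (orb_overlap_le Q y x k).trans ?_
    rw [wt, ← Real.exp_add, Real.rpow_one, dq_symm Q y x]
    refine Real.exp_le_exp.2 ?_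
    have h3 : a * Real.sqrt k ≤ |a| * Real.sqrt k :=
      mul_le_mul_of_nonneg_right (le_abs_self a) (Real.sqrt_nonneg _)
    nlinarith [sq_nonneg (Real.sqrt k - dq Q x y + a)]

theorem h66_OL_sum {Q : ℕ} {a : ℝ} {x : S2} {ι : Type} (s : Finset ι) {c : ι → ℝ}
    {A : ι → Fk (Q + 1)} (h : ∀ i ∈ s, OL Q 1 a (c i) x (A i)) :
    OL Q 1 a (∑ i ∈ s, c i) x (∑ i ∈ s, A i) := by
  classical
  induction s using Finset.induction_on with
  | empty => simpa using (OL_orb_k Q a x 0).smul 0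
  | insert i s hi ih =>
    rw [Finset.sum_insert hi, Finset.sum_insert hi]
    exact (h i (Finset.mem_insert_self _ _)).add
      (ih fun j hj => h j (Finset.mem_insert_of_mem hj))

/-- `cC_sum`, `cC_smul`, `OL.add`, `OL.smul`, `OL_orb_k`; the series
`Σ (1 + k) ρ^k e^{|a| √k} / √k!` converges (`√k ≤ k`, `t^k / √k! ≤ 2^{-k} e^{2 t²}`) -/
theorem OL_orb_sum (a ρ : ℝ) (hρ : 1 ≤ ρ) : ∃ C, 0 ≤ C ∧ ∀ (Q : ℕ) (x : S2)
    (coef : Fin (Q + 1) → ℂ) (L : ℝ), 0 ≤ L →
      (∀ k : Fin (Q + 1), ‖coef k‖ ≤ L * ((1 + (k : ℝ)) * ρ ^ (k : ℕ) / Real.sqrt (k : ℕ).factorial)) →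
      OL Q 1 a (C * L) x (cC (∑ k, coef k • orb Q x k)) := by
  set t : ℝ := 2 * ρ * Real.exp |a| with ht
  have hρ0 : 0 ≤ ρ := zero_le_one.trans hρ
  have ht0 : 0 ≤ t := by positivity
  have key : ∀ k : ℕ, (1 + (k : ℝ)) * ρ ^ k / Real.sqrt k.factorial *
      Real.exp (a ^ 2 / 2 + |a| * Real.sqrt k) ≤
      Real.exp (a ^ 2 / 2) * Real.exp ((2 * t) ^ 2) * (1 / 2) ^ k := fun k => by
    have hf : 0 < Real.sqrt k.factorial := Real.sqrt_pos.2 (by positivity)
    have h1 : (1 + (k : ℝ)) ≤ 2 ^ k := by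
      have := Nat.lt_two_pow_self (n := k)
      rw [add_comm]
      exact_mod_cast this
    have h2 : Real.sqrt k ≤ k := by
      rw [Real.sqrt_le_iff]
      exact ⟨Nat.cast_nonneg k, by exact_mod_cast Nat.le_self_pow two_ne_zero k⟩
    have h3 : Real.exp (a ^ 2 / 2 + |a| * Real.sqrt k) ≤
        Real.exp (a ^ 2 / 2) * Real.exp |a| ^ k := by
      rw [← Real.exp_nat_mul, ← Real.exp_add]
      refine Real.exp_le_exp.2 ?_
      nlinarith [mul_le_mul_of_nonneg_left h2 (abs_nonneg a)]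
    have h4 : (2 * t) ^ k / Real.sqrt k.factorial ≤ Real.exp ((2 * t) ^ 2) := by
      refine (pow_le_pow_iff_left₀ (by positivity) (by positivity) two_ne_zero).1 ?_
      rw [div_pow, Real.sq_sqrt (by positivity), ← pow_mul, mul_comm k 2, pow_mul]
      refine (Real.pow_div_factorial_le_exp _ (by positivity) k).trans ?_
      exact le_self_pow₀ (Real.one_le_exp (by positivity)) two_ne_zero
    calc (1 + (k : ℝ)) * ρ ^ k / Real.sqrt k.factorial * Real.exp (a ^ 2 / 2 + |a| * Real.sqrt k)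
        ≤ 2 ^ k * ρ ^ k / Real.sqrt k.factorial * (Real.exp (a ^ 2 / 2) * Real.exp |a| ^ k) := by
          gcongr
      _ = Real.exp (a ^ 2 / 2) * ((2 * t) ^ k / Real.sqrt k.factorial) * (1 / 2) ^ k := by
          rw [ht, one_div, inv_pow]
          simp only [mul_pow]
          field_simp
      _ ≤ _ := by gcongr
  refine ⟨Real.exp (a ^ 2 / 2) * Real.exp ((2 * t) ^ 2) * 2, by positivity,
    fun Q x coef L hL hc => ?_⟩
  rw [cC_sum]
  simp only [cC_smul]
  refine (h66_OL_sum Finset.univ fun k _ => (OL_orb_k Q a x k).smul (conj (coef k))).mono ?_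
  calc ∑ k : Fin (Q + 1), ‖conj (coef k)‖ * Real.exp (a ^ 2 / 2 + |a| * Real.sqrt k)
      ≤ ∑ k : Fin (Q + 1), L * (Real.exp (a ^ 2 / 2) * Real.exp ((2 * t) ^ 2)) *
          (1 / 2) ^ (k : ℕ) := by
        refine Finset.sum_le_sum fun k _ => ?_
        rw [Complex.norm_conj, mul_assoc]
        refine (mul_le_mul_of_nonneg_right (hc k) (Real.exp_pos _).le).trans ?_
        rw [mul_assoc]
        exact mul_le_mul_of_nonneg_left (key k) hL
    _ ≤ L * (Real.exp (a ^ 2 / 2) * Real.exp ((2 * t) ^ 2)) * 2 := by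
        rw [← Finset.mul_sum, Fin.sum_univ_eq_sum_range (fun k => (1 / 2 : ℝ) ^ k) (Q + 1)]
        exact mul_le_mul_of_nonneg_left (sum_geometric_two_le _) (by positivity)
    _ = _ := by ring

/-- coefficients: `C(Q,k) ≤ Q^k / k!` (`Nat.choose_le_pow_div`), `|α| ≤ 1` (`spin_inner_sq`),
`√Q |β| = dq Q b w` (`spin_wedge_sq`, `dq_sq`); `ρ = max r 1` -/
theorem OL_fo_b (r a : ℝ) : ∃ C, 0 ≤ C ∧ ∀ Q, 1 ≤ Q → ∀ (b w : S2) (m : ℕ), dq Q b w ≤ r →
    OL Q 1 a C b (cC (fo Q b m w)) := by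
  obtain ⟨C, hC, H⟩ := OL_orb_sum a (max r 1) (le_max_right _ _)
  refine ⟨C * 1, by positivity, fun Q hQ b w m hr => ?_⟩
  have e : fo Q b m w = ∑ k : Fin (Q + 1), (if m ≤ (k : ℕ) then
      conj (((Real.sqrt (Q.choose k) / Real.sqrt Q ^ m : ℝ) : ℂ) *
        ((conj (spin b).1 * (spin w).1 + conj (spin b).2 * (spin w).2) ^ (Q - k) *
          wedge (spin b) (spin w) ^ ((k : ℕ) - m))) else 0) • orb Q b k := by
    refine Finset.sum_congr rfl fun k _ => ?_
    split_ifs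
    · rfl
    · rw [zero_smul]
  rw [e]
  refine H Q b _ 1 zero_le_one fun k => ?_
  have hρ : (1 : ℝ) ≤ max r 1 := le_max_right _ _
  have hf : 0 < Real.sqrt (k : ℕ).factorial :=
    Real.sqrt_pos.2 (by exact_mod_cast Nat.factorial_pos _)
  split_ifs with hk
  swap
  · rw [norm_zero]
    positivity
  have hs : 0 < Real.sqrt Q := Real.sqrt_pos.2 (by exact_mod_cast hQ)
  have h1 : ‖conj (spin b).1 * (spin w).1 + conj (spin b).2 * (spin w).2‖ ≤ 1 := by
    refine (pow_le_one_iff_of_nonneg (norm_nonneg _) two_ne_zero).1 ?_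
    rw [spin_inner_sq]
    linarith [(tS_mem w b).1]
  have h2 : Real.sqrt Q * ‖wedge (spin b) (spin w)‖ = dq Q b w := by
    refine (pow_left_inj₀ (by positivity) (dq_nonneg _ _ _) two_ne_zero).1 ?_
    rw [dq_symm, dq_sq, mul_pow, Real.sq_sqrt (Nat.cast_nonneg _), ← spin_wedge_sq, wedge]
    congr 3
    ring
  have h3 : Real.sqrt (Q.choose k) ≤ Real.sqrt Q ^ (k : ℕ) / Real.sqrt (k : ℕ).factorial := by
    refine Real.sqrt_le_iff.2 ⟨by positivity, ?_⟩
    rw [div_pow, ← pow_mul, mul_comm, pow_mul, Real.sq_sqrt (Nat.cast_nonneg _),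
      Real.sq_sqrt (Nat.cast_nonneg _)]
    exact Nat.choose_le_pow_div _ _
  obtain ⟨j, hj⟩ := Nat.exists_eq_add_of_le hk
  have h4 : dq Q b w ^ j ≤ max r 1 ^ (k : ℕ) :=
    (pow_le_pow_left₀ (dq_nonneg _ _ _) (hr.trans (le_max_left _ _)) j).trans
      (pow_le_pow_right₀ hρ (by omega))
  rw [Complex.norm_conj, norm_mul, norm_mul, norm_pow, norm_pow, Complex.norm_real,
    Real.norm_of_nonneg (by positivity), show (k : ℕ) - m = j by omega, one_mul]
  calc _ ≤ Real.sqrt Q ^ (k : ℕ) / Real.sqrt (k : ℕ).factorial / Real.sqrt Q ^ m *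
        (1 * ‖wedge (spin b) (spin w)‖ ^ j) := by
        gcongr
        exact pow_le_one₀ (norm_nonneg _) h1
    _ = 1 * dq Q b w ^ j / Real.sqrt (k : ℕ).factorial := by
        rw [← h2, show Real.sqrt Q ^ (k : ℕ) = Real.sqrt Q ^ m * Real.sqrt Q ^ j by
          rw [← pow_add, ← hj], mul_pow]
        field_simp
    _ ≤ _ := by
        have := dq_nonneg Q b w
        gcongr
        exact le_add_of_nonneg_right (Nat.cast_nonneg _)

/-- `OL.shift` at the rate `|a|` -/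
theorem OL_fo_w (r a : ℝ) : ∃ C, ∀ Q, 1 ≤ Q → ∀ (b w : S2) (m : ℕ), m ≤ 3 → dq Q b w ≤ r →
    OL Q 1 a C w (cC (fo Q b m w)) := by
  obtain ⟨C, hC, H⟩ := OL_fo_b r |a|
  refine ⟨Real.exp (|a| * r ^ (1 : ℝ)) * C, fun Q hQ b w m _ hr => ?_⟩
  have h := (H Q hQ b w m hr).shift one_pos le_rfl (abs_nonneg a) hr
  refine ⟨h.1, fun y => (h.2 y).trans (mul_le_mul_of_nonneg_left ?_ (by positivity))⟩
  exact Real.exp_le_exp.2 (neg_le_neg (mul_le_mul_of_nonneg_right (le_abs_self a)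
    (Real.rpow_nonneg (dq_nonneg _ _ _) _)))

/-! ### part B -/

/-- for unit spinors: `spin w' = A • spin w + B • (spin w)^⊥`, `|B|² = tS w w'`, `z = A / |A|` (or `1`),
`|A - z| = 1 - |A| ≤ |B|²` -/
theorem spin_close (b w w' : S2) : ∃ z : ℂ, ‖z‖ = 1 ∧
    ‖(conj (spin b).1 * (spin w').1 + conj (spin b).2 * (spin w').2) -
        z * (conj (spin b).1 * (spin w).1 + conj (spin b).2 * (spin w).2)‖ ≤
      tS w w' + Real.sqrt (tS w w') * Real.sqrt (tS b w) ∧
    ‖wedge (spin b) (spin w') - z * wedge (spin b) (spin w)‖ ≤ 2 * Real.sqrt (tS w w') := by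
  have hu : ‖conj (spin b).1 * (spin w).1 + conj (spin b).2 * (spin w).2‖ ≤ 1 := by
    have h1 := spin_inner_sq w b
    have h2 := (tS_mem w b).1
    exact (sq_le_one_iff₀ (norm_nonneg _)).1 (by linarith)
  have hβ : ‖wedge (spin b) (spin w)‖ = Real.sqrt (tS b w) := by
    rw [tS_symm, ← spin_wedge_sq, Real.sqrt_sq (norm_nonneg _), wedge]
    congr 1; ring
  have hB : ‖wedge (spin w) (spin w')‖ = Real.sqrt (tS w w') := by
    rw [tS_symm, ← spin_wedge_sq, Real.sqrt_sq (norm_nonneg _), wedge]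
    congr 1; ring
  have hA := spin_inner_sq w' w
  rw [tS_symm] at hA
  have hv : conj (spin w).1 * (spin w).1 + conj (spin w).2 * (spin w).2 = 1 := by
    have h := spin_unit w
    unfold IsUnitSp at h
    rw [Complex.conj_mul', Complex.conj_mul']
    exact_mod_cast h
  have ht := tS_mem w w'
  have hb1 : Real.sqrt (tS b w) ≤ 1 := Real.sqrt_le_one.2 (tS_mem b w).2
  have hts : tS w w' ≤ Real.sqrt (tS w w') := by
    have h1 : Real.sqrt (tS w w') ≤ 1 := Real.sqrt_le_one.2 ht.2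
    nlinarith [Real.mul_self_sqrt ht.1, Real.sqrt_nonneg (tS w w')]
  set A := conj (spin w).1 * (spin w').1 + conj (spin w).2 * (spin w').2 with hAd
  obtain ⟨z, hz, hAz⟩ : ∃ z : ℂ, ‖z‖ = 1 ∧ A = (‖A‖ : ℂ) * z := by
    by_cases h : A = 0
    · exact ⟨1, norm_one, by simp [h]⟩
    · have h' : (‖A‖ : ℂ) ≠ 0 := by exact_mod_cast norm_ne_zero_iff.2 h
      refine ⟨A / ‖A‖, ?_, by field_simp⟩
      rw [norm_div, Complex.norm_real, norm_norm, div_self (norm_ne_zero_iff.2 h)]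
  have hA1 : ‖A‖ ≤ 1 := (sq_le_one_iff₀ (norm_nonneg _)).1 (by linarith [ht.1])
  have hd : ‖A - z‖ ≤ tS w w' := by
    have e : A - z = ((‖A‖ - 1 : ℝ) : ℂ) * z := by push_cast; linear_combination hAz
    rw [e, norm_mul, hz, mul_one, Complex.norm_real, Real.norm_eq_abs,
      abs_of_nonpos (by linarith)]
    nlinarith [norm_nonneg A]
  refine ⟨z, hz, ?_, ?_⟩
  · have e : (conj (spin b).1 * (spin w').1 + conj (spin b).2 * (spin w').2) -
        z * (conj (spin b).1 * (spin w).1 + conj (spin b).2 * (spin w).2) =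
        (A - z) * (conj (spin b).1 * (spin w).1 + conj (spin b).2 * (spin w).2) -
          wedge (spin w) (spin w') * conj (wedge (spin b) (spin w)) := by
      simp only [hAd, wedge, map_sub, map_mul]
      linear_combination
        (-(conj (spin b).1 * (spin w').1 + conj (spin b).2 * (spin w').2)) * hv
    rw [e]
    refine (norm_sub_le _ _).trans ?_
    rw [norm_mul, norm_mul, Complex.norm_conj, hβ, hB]
    exact add_le_add ((mul_le_of_le_one_right (norm_nonneg _) hu).trans hd) le_rfl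
  · have e : wedge (spin b) (spin w') - z * wedge (spin b) (spin w) =
        (A - z) * wedge (spin b) (spin w) + wedge (spin w) (spin w') *
          conj (conj (spin b).1 * (spin w).1 + conj (spin b).2 * (spin w).2) := by
      simp only [hAd, wedge, map_add, map_mul, Complex.conj_conj]
      linear_combination (-((spin b).1 * (spin w').2 - (spin b).2 * (spin w').1)) * hv
    rw [e]
    refine (norm_add_le _ _).trans ?_
    rw [norm_mul, norm_mul, Complex.norm_conj, hβ, hB]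
    have h1 := (mul_le_of_le_one_right (norm_nonneg (A - z)) hb1).trans hd
    have h2 := mul_le_of_le_one_right (Real.sqrt_nonneg (tS w w')) hu
    linarith

theorem kfB_pow {x y : ℂ} {M : ℝ} (hx : ‖x‖ ≤ M) (hy : ‖y‖ ≤ M) (hM : 1 ≤ M) (n : ℕ) :
    ‖x ^ n - y ^ n‖ ≤ n * ‖x - y‖ * M ^ n := by
  induction n with
  | zero => simp
  | succ n ih =>
    have e : x ^ (n + 1) - y ^ (n + 1) = x * (x ^ n - y ^ n) + (x - y) * y ^ n := by ring
    rw [e]
    refine (norm_add_le _ _).trans ?_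
    rw [norm_mul, norm_mul, norm_pow]
    have h1 := mul_le_mul hx ih (norm_nonneg _) (by linarith)
    have h2 : ‖y‖ ^ n ≤ M ^ (n + 1) :=
      (pow_le_pow_left₀ (norm_nonneg _) hy n).trans (pow_le_pow_right₀ hM n.le_succ)
    have h3 := mul_le_mul_of_nonneg_left h2 (norm_nonneg (x - y))
    push_cast
    rw [pow_succ] at h3 ⊢
    linarith

theorem kfB_two {x x' y y' : ℂ} {M : ℝ} (hx : ‖x‖ ≤ 1) (hx' : ‖x'‖ ≤ 1) (hy : ‖y‖ ≤ M)
    (hy' : ‖y'‖ ≤ M) (hM : 1 ≤ M) (p n : ℕ) :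
    ‖x' ^ p * y' ^ n - x ^ p * y ^ n‖ ≤ (p * ‖x' - x‖ + n * ‖y' - y‖) * M ^ n := by
  have e : x' ^ p * y' ^ n - x ^ p * y ^ n =
      (x' ^ p - x ^ p) * y' ^ n + x ^ p * (y' ^ n - y ^ n) := by ring
  rw [e]
  refine (norm_add_le _ _).trans ?_
  rw [norm_mul, norm_mul, norm_pow, norm_pow, add_mul]
  have h1 := kfB_pow hx' hx le_rfl p
  rw [one_pow, mul_one] at h1
  exact add_le_add (mul_le_mul h1 (pow_le_pow_left₀ (norm_nonneg _) hy' n) (by positivity)
    (by positivity)) ((mul_le_of_le_one_left (norm_nonneg _)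
      (pow_le_one₀ (norm_nonneg _) hx)).trans (kfB_pow hy' hy hM n))

theorem kfB_choose (Q k : ℕ) (hQ : 1 ≤ Q) :
    Real.sqrt (Q.choose k) / Real.sqrt Q ^ k ≤ 1 / Real.sqrt k.factorial := by
  have hQ0 : (0 : ℝ) < Q := by exact_mod_cast hQ
  have hk : (0 : ℝ) < k.factorial := by exact_mod_cast k.factorial_pos
  rw [div_le_div_iff₀ (by positivity) (by positivity), one_mul,
    ← Real.sqrt_mul (Nat.cast_nonneg _), Real.sqrt_le_left (by positivity), ← pow_mul, mul_comm k,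
    pow_mul, Real.sq_sqrt hQ0.le, ← le_div_iff₀ hk]
  exact Nat.choose_le_pow_div k Q

theorem kfB_dq (Q : ℕ) (x y : S2) : Real.sqrt Q * Real.sqrt (tS x y) = dq Q x y := by
  rw [← Real.sqrt_mul (Nat.cast_nonneg _), ← dq_sq, Real.sqrt_sq (dq_nonneg _ _ _)]

/-- `fo` is Lipschitz up to the phase `z ^ (Q - m)`; coefficient bound
`(3 ρ + 2) d (1 + k) ρ^k / √k!` in `OL_orb_sum` (telescoping `|x^n - y^n| ≤ n |x - y| max^(n-1)`) -/
theorem OL_fo_sub (r a : ℝ) : ∃ C, 0 ≤ C ∧ ∀ Q, 1 ≤ Q → ∀ (b w w' : S2) (m : ℕ),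
    dq Q b w ≤ r → dq Q b w' ≤ r → ∃ z : ℂ, ‖z‖ = 1 ∧
      OL Q 1 a (C * dq Q w w') b (cC (fo Q b m w') - z • cC (fo Q b m w)) := by
  set ρ := max r 1 with hρd
  have hρ : 1 ≤ ρ := le_max_right _ _
  obtain ⟨C, hC0, hC⟩ := OL_orb_sum a ρ hρ
  refine ⟨C * (3 * ρ + 2), by positivity, fun Q hQ b w w' m h1 h2 => ?_⟩
  obtain ⟨z, hz, hα, hβ⟩ := spin_close b w w'
  refine ⟨z ^ (Q - m), by rw [norm_pow, hz, one_pow], ?_⟩
  have hQ0 : (0 : ℝ) < Q := by exact_mod_cast hQ
  have hs : 0 < Real.sqrt Q := Real.sqrt_pos.2 hQ0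
  have hss : Real.sqrt Q * Real.sqrt Q = Q := Real.mul_self_sqrt hQ0.le
  have hu : ∀ w : S2, ‖conj (spin b).1 * (spin w).1 + conj (spin b).2 * (spin w).2‖ ≤ 1 := by
    intro w
    have h1 := spin_inner_sq w b
    have h2 := (tS_mem w b).1
    exact (sq_le_one_iff₀ (norm_nonneg _)).1 (by linarith)
  have hw : ∀ w : S2, Real.sqrt Q * ‖wedge (spin b) (spin w)‖ = dq Q b w := by
    intro w
    rw [← kfB_dq, tS_symm, ← spin_wedge_sq, Real.sqrt_sq (norm_nonneg _), wedge]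
    congr 2; ring
  have r1 : dq Q b w ≤ ρ := h1.trans (le_max_left _ _)
  have r2 : dq Q b w' ≤ ρ := h2.trans (le_max_left _ _)
  have hd0 := dq_nonneg Q w w'
  have hd : dq Q w w' ≤ 2 * ρ := by
    have := dq_tri Q w b w'
    rw [dq_symm Q w b] at this
    linarith
  have hα' : Q * ‖(conj (spin b).1 * (spin w').1 + conj (spin b).2 * (spin w').2) -
      z * (conj (spin b).1 * (spin w).1 + conj (spin b).2 * (spin w).2)‖ ≤
      3 * ρ * dq Q w w' := by
    refine (mul_le_mul_of_nonneg_left hα hQ0.le).trans ?_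
    have e : (Q : ℝ) * (Real.sqrt (tS w w') * Real.sqrt (tS b w)) = dq Q w w' * dq Q b w := by
      rw [← kfB_dq, ← kfB_dq, mul_mul_mul_comm, hss]
    rw [mul_add, ← dq_sq, e]
    nlinarith [mul_le_mul_of_nonneg_left hd hd0, mul_le_mul_of_nonneg_left r1 hd0]
  have hβ' : Real.sqrt Q * ‖wedge (spin b) (spin w') - z * wedge (spin b) (spin w)‖ ≤
      2 * dq Q w w' := by
    refine (mul_le_mul_of_nonneg_left hβ hs.le).trans_eq ?_
    rw [← kfB_dq]; ring
  have hα1 := hu w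
  have hα2 := hu w'
  have hβ1 := (hw w).trans_le r1
  have hβ2 := (hw w').trans_le r2
  unfold fo
  generalize conj (spin b).1 * (spin w').1 + conj (spin b).2 * (spin w').2 = α' at *
  generalize conj (spin b).1 * (spin w).1 + conj (spin b).2 * (spin w).2 = α at *
  generalize wedge (spin b) (spin w') = β' at *
  generalize wedge (spin b) (spin w) = β at *
  have key := hC Q b (fun k => if m ≤ (k : ℕ) then
      conj (((Real.sqrt (Q.choose k) / Real.sqrt Q ^ m : ℝ) : ℂ) *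
        (α' ^ (Q - k) * β' ^ ((k : ℕ) - m) - z ^ (Q - m) * (α ^ (Q - k) * β ^ ((k : ℕ) - m))))
      else 0) ((3 * ρ + 2) * dq Q w w') (by positivity) fun k => ?_
  · rw [mul_assoc]
    convert key using 1
    rw [cC_sum, cC_sum, cC_sum, Finset.smul_sum, ← Finset.sum_sub_distrib]
    refine Finset.sum_congr rfl fun k _ => ?_
    split_ifs with hk
    · simp only [cC_smul, Complex.conj_conj, smul_smul, ← sub_smul]
      congr 1; ring
    · simp [cC_zero]
  · split_ifs with hk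
    · obtain ⟨n, hn⟩ : ∃ n, (k : ℕ) = m + n := ⟨k - m, by omega⟩
      have hkQ : (k : ℕ) ≤ Q := Nat.lt_succ_iff.1 k.2
      have hsC : ((Real.sqrt Q : ℝ) : ℂ) ≠ 0 := by exact_mod_cast hs.ne'
      have e : ((Real.sqrt (Q.choose k) / Real.sqrt Q ^ m : ℝ) : ℂ) *
          (α' ^ (Q - k) * β' ^ ((k : ℕ) - m) - z ^ (Q - m) * (α ^ (Q - k) * β ^ ((k : ℕ) - m))) =
          ((Real.sqrt (Q.choose k) / Real.sqrt Q ^ (k : ℕ) : ℝ) : ℂ) *
          (α' ^ (Q - k) * ((Real.sqrt Q : ℝ) * β') ^ n -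
            (z * α) ^ (Q - k) * ((Real.sqrt Q : ℝ) * (z * β)) ^ n) := by
        rw [show Q - m = (Q - k) + n by omega, show (k : ℕ) - m = n by omega]
        generalize Q - k = p
        generalize Real.sqrt (Q.choose k) = c
        rw [hn]
        push_cast
        field_simp
        ring
      rw [Complex.norm_conj, e, norm_mul, Complex.norm_real, Real.norm_of_nonneg (by positivity)]
      have h3 := kfB_two (x := z * α) (x' := α') (y := (Real.sqrt Q : ℝ) * (z * β))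
        (y' := (Real.sqrt Q : ℝ) * β') (by rwa [norm_mul, hz, one_mul]) hα2
        (by rwa [norm_mul, norm_mul, hz, one_mul, Complex.norm_real, Real.norm_of_nonneg hs.le])
        (by rwa [norm_mul, Complex.norm_real, Real.norm_of_nonneg hs.le]) hρ (Q - k) n
      rw [← mul_sub, norm_mul, Complex.norm_real, Real.norm_of_nonneg hs.le] at h3
      have h4 : ((Q - k : ℕ) : ℝ) * ‖α' - z * α‖ ≤ 3 * ρ * dq Q w w' :=
        (mul_le_mul_of_nonneg_right (by exact_mod_cast Nat.sub_le _ _) (norm_nonneg _)).trans hα'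
      have h5 : (n : ℝ) * (Real.sqrt Q * ‖β' - z * β‖) ≤ (k : ℕ) * (2 * dq Q w w') :=
        mul_le_mul (by exact_mod_cast (by omega : n ≤ (k : ℕ))) hβ' (by positivity) (by positivity)
      have h6 : ρ ^ n ≤ ρ ^ (k : ℕ) := pow_le_pow_right₀ hρ (by omega)
      have h7 : 3 * ρ * dq Q w w' + (k : ℕ) * (2 * dq Q w w') ≤
          (3 * ρ + 2) * dq Q w w' * (1 + (k : ℕ)) := by
        have k0 : (0 : ℝ) ≤ (k : ℕ) := Nat.cast_nonneg _
        nlinarith [mul_nonneg (mul_nonneg (by linarith : 0 ≤ ρ) hd0) k0]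
      have h8 := h3.trans (mul_le_mul ((add_le_add h4 h5).trans h7) h6 (by positivity)
        (by positivity))
      refine (mul_le_mul (kfB_choose Q k hQ) h8 (norm_nonneg _) (by positivity)).trans_eq ?_
      ring
    · rw [norm_zero]; positivity

end Crest.Agent.R340.Pin
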