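import Crest.Agent.R340.KdUnit

/-! # Row 340, module KD: the gap for a family of units (architect helper68) -/

set_option autoImplicit false

namespace Crest.Agent.R340.Pin

open Matrix MeasureTheory Crest.MathPhysics.Laughlin
open scoped Matrix.Norms.L2Operator MatrixOrder ComplexOrder ComplexConjugate

variable {Q : ℕ} {r R : ℝ} {Cn : Finset S2} {m : S2 → ℕ} {w : S2 → S2}

/-! ### part A -/

/-- `unit_pi r`, `comm_QL` at `α = 1/2` (for `π, π'` and for `π, star (aF ..)`), `Kd.pair_angle_alg`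
with `s = univ : Finset (Fin 4)`, `c i = cC (uv Q c' m' w' i)`; if `4 ε² ≤ g / 2` fails the weight is
bounded below and the norm is at most `2` -/
theorem pair_angle (r : ℝ) : ∃ (a K : ℝ) (Q₀ : ℕ), 0 < a ∧ 0 ≤ K ∧ ∀ Q, Q₀ ≤ Q →
    ∀ (c w c' w' : S2) (m m' : ℕ), m ≤ 3 → m' ≤ 3 → dq Q c w ≤ r → dq Q c' w' ≤ r →
      Disjoint (unit c m w) (unit c' m' w') →
      ‖PD Q (unit c m w) * PD Q (unit c' m' w') - PD Q (unit c m w + unit c' m' w')‖ ≤
        K * wt (1 / 2) a (dq Q c c') := by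
  obtain ⟨a, C, g, Q₀, ha, hC, hg, H⟩ := unit_pi r
  obtain ⟨b, K, hb, hK, HK⟩ := comm_QL (α := 1 / 2) (by norm_num) (by norm_num) ha
  have s1 : 0 < Real.sqrt (g / (2 * C)) := Real.sqrt_pos.2 (by positivity)
  have s2 : 0 < Real.sqrt (g / 8) := Real.sqrt_pos.2 (by positivity)
  refine ⟨b, K * C * C / Real.sqrt (g / (2 * C)) + 2 * (K * C * C) / Real.sqrt (g / 8), Q₀, hb,
    by positivity, fun Q hQ c w c' w' m m' hm hm' hw hw' hd => ?_⟩
  obtain ⟨hQ1, hP, HU⟩ := H Q hQ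
  obtain ⟨-, -, -, π, hπ, eπ, cπ⟩ := HU c w m hm hw
  obtain ⟨gp, nn, ol, π', hπ', eπ', cπ'⟩ := HU c' w' m' hm' hw'
  have hw0 : 0 < wt (1 / 2) b (dq Q c c') := Real.exp_pos _
  have k := fun B => HK Q hQ1 C C c c' π B hπ.1.ev hπ.2
  have k1 : ‖π * π' - π' * π‖ ≤ K * C * C * wt (1 / 2) b (dq Q c c') := ((k π').1 hπ'.2).1.1
  have k2 : ∀ i, ‖π * star (aF Q (uv Q c' m' w' i)) - star (aF Q (uv Q c' m' w' i)) * π‖ ≤
      K * C * C * wt (1 / 2) b (dq Q c c') := fun i => ((k _).2 (ol i).star).1.1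
  have t1 : 0 ≤ K * C * C / Real.sqrt (g / (2 * C)) * wt (1 / 2) b (dq Q c c') := by positivity
  have t2 : 0 ≤ 2 * (K * C * C) / Real.sqrt (g / 8) * wt (1 / 2) b (dq Q c c') := by positivity
  rw [add_mul]
  by_cases h0 : 4 * (K * C * C * wt (1 / 2) b (dq Q c c')) ^ 2 ≤ g / 2
  · rw [nU_eq hm'] at gp nn
    have := Kd.pair_angle_alg (Finset.univ : Finset (Fin 4)) (fun i => cC (uv Q c' m' w' i))
      (fun i => aF Q (uv Q c' m' w' i)) (PD_proj Q 0) (PD_proj Q (unit c m w))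
      (PD_proj Q (unit c' m' w')) (PD_proj Q (unit c m w + unit c' m' w'))
      (PD_mul_of_le (Multiset.zero_le _)).1 (PD_mul_of_le (Multiset.zero_le _)).1
      (PD_mul_of_le (Multiset.le_add_right _ _)).1 (PD_mul_of_le (Multiset.le_add_left _ _)).1
      eπ eπ' cπ cπ' (fun i _ => (aF_PD hP _).1) (fun i _ => (aF_PD hP _).2)
      (fun i _ => PD_cC_PD _ _) (fun i _ => uv_kill hQ1 le_rfl i) hg gp (fun i _ => k2 i)
      (by simpa using h0) (fun X hX hc => uv_meet hQ1 hm' hd X hX fun i => hc i (Finset.mem_univ i))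
      hC nn k1
    rw [div_mul_eq_mul_div]
    linarith
  · have n2 : ‖PD Q (unit c m w) * PD Q (unit c' m' w') - PD Q (unit c m w + unit c' m' w')‖ ≤
        2 := by
      refine (norm_sub_le _ _).trans ?_
      have a1 := (PD_proj Q (unit c m w)).norm_le
      have a2 := (PD_proj Q (unit c' m' w')).norm_le
      have a3 := (PD_proj Q (unit c m w + unit c' m' w')).norm_le
      have a4 := (norm_mul_le (PD Q (unit c m w)) (PD Q (unit c' m' w'))).trans
        (mul_le_one₀ a1 (norm_nonneg _) a2)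
      linarith
    have n3 : Real.sqrt (g / 8) ≤ K * C * C * wt (1 / 2) b (dq Q c c') :=
      Real.sqrt_le_iff.2 ⟨by positivity, by linarith [not_le.1 h0]⟩
    have n4 : 2 ≤ 2 * (K * C * C) / Real.sqrt (g / 8) * wt (1 / 2) b (dq Q c c') := by
      rw [div_mul_eq_mul_div, le_div_iff₀ s2]
      linarith
    linarith

/-! ### part B -/

open Classical in
/-- `wt α a d ≤ wt α (a/2) ρ * wt α (a/2) d` for `ρ ≤ d`; the sum of `wt α (a/2)` over a `1`-separated
set is bounded (`card_ball_le` shell by shell, or `sites_vol` for the counting measure) -/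
theorem tail_sum {α a K δ : ℝ} (hα : 0 < α) (ha : 0 < a) (hK : 0 ≤ K) (hδ : 0 < δ) :
    ∃ ρ₀ : ℝ, 1 ≤ ρ₀ ∧ ∀ ρ, ρ₀ ≤ ρ → ∀ Q, 1 ≤ Q → ∀ (T : Finset S2) (c : S2), Sep Q 1 T.val →
      ∑ b ∈ T, (if ρ ≤ dq Q c b then K * wt α a (dq Q c b) else 0) ≤ δ := by
  obtain ⟨G, hG⟩ := card_ball_le
  obtain ⟨V, hV, hvol⟩ := sites_vol hα (half_pos ha)
  have bd : ∀ Q, 1 ≤ Q → ∀ (T : Finset S2) (c : S2), Sep Q 1 T.val →
      ∑ b ∈ T, wt α (a / 2) (dq Q c b) ≤ V * |G| := by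
    intro Q hQ T c hT
    have hs : Sites Q G (Measure.count : Measure T) Subtype.val := by
      refine ⟨inferInstance, measurable_subtype_coe, fun u r hr => ?_⟩
      have h1 := hG Q hQ 1 T le_rfl hT u r hr
      rw [div_one] at h1
      refine le_trans (le_of_eq ?_) h1
      have e : {i : T | dq Q i u ≤ r} = ↑(T.attach.filter fun i : T => dq Q i u ≤ r) := by
        ext i
        simp
      rw [e, Measure.real, Measure.count_apply_finset, ENNReal.toReal_natCast,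
        Finset.filter_attach (fun b => dq Q b u ≤ r) T, Finset.card_map, Finset.card_attach]
    have h2 := (hvol Q G T Measure.count Subtype.val hs c).2
    rw [integral_count, Finset.sum_coe_sort T fun b => wt α (a / 2) (dq Q b c)] at h2
    simp only [dq_symm Q c]
    exact h2.trans (mul_le_mul_of_nonneg_left (le_abs_self G) hV)
  have lim : Filter.Tendsto (fun ρ : ℝ => K * (V * |G|) * wt α (a / 2) ρ) Filter.atTop
      (nhds (K * (V * |G|) * 0)) := by
    refine Filter.Tendsto.const_mul _ ?_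
    exact Real.tendsto_exp_neg_atTop_nhds_zero.comp
      ((tendsto_rpow_atTop hα).const_mul_atTop (half_pos ha))
  rw [mul_zero] at lim
  obtain ⟨ρ₁, h1⟩ := Filter.eventually_atTop.1 (lim.eventually (ge_mem_nhds hδ))
  refine ⟨max 1 ρ₁, le_max_left _ _, fun ρ hρ Q hQ T c hT => ?_⟩
  have hρ0 : 0 ≤ ρ := by linarith [le_max_left 1 ρ₁]
  have hw : ∀ x y : ℝ, 0 ≤ wt α x y := fun x y => (Real.exp_pos _).le
  refine le_trans ?_ (h1 ρ ((le_max_right _ _).trans hρ))
  calc _ ≤ ∑ b ∈ T, K * wt α (a / 2) ρ * wt α (a / 2) (dq Q c b) := by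
        refine Finset.sum_le_sum fun b _ => ?_
        split_ifs with hb
        · rw [mul_assoc]
          refine mul_le_mul_of_nonneg_left ?_ hK
          unfold wt
          rw [← Real.exp_add]
          have := Real.rpow_le_rpow hρ0 hb hα.le
          exact Real.exp_le_exp.2 (by nlinarith)
        · exact mul_nonneg (mul_nonneg hK (hw _ _)) (hw _ _)
    _ ≤ K * wt α (a / 2) ρ * (V * |G|) := by
        rw [← Finset.mul_sum]
        exact mul_le_mul_of_nonneg_left (bd Q hQ T c hT) (mul_nonneg hK (hw _ _))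
    _ = _ := by ring

theorem Units.sep_one (h : Units Q r R Cn m w) (hr : 1 ≤ r) : Sep Q 1 Cn.val :=
  fun a ha b hb hab => hr.trans (h.sep a ha b hb hab)

theorem Units.disjoint (h : Units Q r R Cn m w) (hr : 1 ≤ r) (hR : 2 * (r + 1) < R) {c c' : S2}
    (hc : c ∈ Cn) (hc' : c' ∈ Cn) (hne : c ≠ c') :
    Disjoint (unit c (m c) (w c)) (unit c' (m c') (w c')) := by
  have mem : ∀ {a x : S2}, x ∈ unit a (m a) (w a) → x = w a ∨ x = a := fun hx =>
    (Multiset.mem_cons.1 hx).imp_right Multiset.eq_of_mem_replicate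
  have near : ∀ {a x : S2}, a ∈ Cn → x ∈ unit a (m a) (w a) → dq Q a x ≤ r + 1 := fun ha hx => by
    rcases mem hx with rfl | rfl
    · exact h.rad _ ha
    · rw [dq_self]; linarith
  refine Multiset.disjoint_left.2 fun {x} hx hx' => ?_
  have h1 := near hc hx
  have h2 := near hc' hx'
  have h3 := dq_tri Q c x c'
  rw [dq_symm Q x c'] at h3
  have e1 : w c = c := by
    by_contra hw
    have := h.far c hc c' hc' hne hw
    linarith
  have e2 : w c' = c' := by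
    by_contra hw
    have := h.far c' hc' c hc hne.symm hw
    rw [dq_symm Q c' c] at this
    linarith
  have f1 : x = c := (mem hx).elim (fun e => e.trans e1) id
  have f2 : x = c' := (mem hx').elim (fun e => e.trans e2) id
  exact hne (f1.symm.trans f2)

theorem unit_le_uD {c : S2} (hc : c ∈ Cn) : unit c (m c) (w c) ≤ uD Cn m w :=
  Finset.single_le_sum (f := fun c => unit c (m c) (w c)) (fun _ _ => Multiset.zero_le _) hc

/-- induction on `Cn`, `mem_ZD_add` -/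
theorem Units.meet (h : Units Q r R Cn m w) (hr : 1 ≤ r) (hR : 2 * (r + 1) < R) (X : Fk (Q + 1))
    (h0 : PD Q 0 * X = X) (hX : ∀ c ∈ Cn, PD Q (unit c (m c) (w c)) * X = X) :
    PD Q (uD Cn m w) * X = X := by
  classical
  refine PD_mul_eq_iff.2 fun v => ?_
  have key : ∀ s : Finset S2, s ⊆ Cn → X *ᵥ v ∈ ZD Q (∑ c ∈ s, unit c (m c) (w c)) := by
    intro s
    induction s using Finset.induction_on with
    | empty => exact fun _ => PD_mul_eq_iff.1 h0 v
    | insert a s ha ih =>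
      intro hs
      have haC : a ∈ Cn := hs (Finset.mem_insert_self a s)
      have hsC : s ⊆ Cn := (Finset.subset_insert a s).trans hs
      rw [Finset.sum_insert ha, mem_ZD_add (Multiset.disjoint_finsetSum_right.2 fun c hc =>
        h.disjoint hr hR haC (hsC hc) fun e => ha (e ▸ hc))]
      exact ⟨PD_mul_eq_iff.1 (hX a haC) v, ih hsC⟩
  exact key Cn subset_rfl

/-! ### part C -/

/-- TWO SCALES.  `pair_angle 0` gives `(a₀, K₀)`, choose `r = ρ₀` from `tail_sum` (`δ = 1/4`);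
`pair_angle (r + 1)` gives `(a₁, K₁)`, choose `R ≥ ρ₁`, `R > 2 (r + 1)`.  `Kd.fnw_gap` with
`d c c' = (if r ≤ dq then K₀ wt a₀ else 0) + (if R ≤ dq then K₁ wt a₁ else 0)`, `δ = 1/2`; then
`unit_pi (r + 1)` (or `pin_gap`) for every unit. -/
theorem units_gap : ∃ (r R g : ℝ) (Q₀ : ℕ), 1 ≤ r ∧ 2 * (r + 1) < R ∧ 0 < g ∧ ∀ Q, Q₀ ≤ Q →
    ∀ (Cn : Finset S2) (m : S2 → ℕ) (w : S2 → S2), Units Q r R Cn m w →
      g • (PD Q 0 - PD Q (uD Cn m w)) ≤ PD Q 0 * (∑ c ∈ Cn, nU Q c (m c) (w c)) * PD Q 0 := by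
  classical
  obtain ⟨a0, K0, Q0, ha0, hK0, h0⟩ := pair_angle 0
  obtain ⟨r, hr1, ht0⟩ := tail_sum (α := 1 / 2) (δ := 1 / 4) (by norm_num) ha0 hK0 (by norm_num)
  obtain ⟨a1, K1, Q1, ha1, hK1, h1⟩ := pair_angle (r + 1)
  obtain ⟨ρ, -, ht1⟩ := tail_sum (α := 1 / 2) (δ := 1 / 4) (by norm_num) ha1 hK1 (by norm_num)
  obtain ⟨γ, Q2, hγ, hp⟩ := pin_gap (r + 1)
  obtain ⟨R, hRρ, hR⟩ : ∃ R, ρ ≤ R ∧ 2 * (r + 1) < R :=
    ⟨max ρ (2 * (r + 1) + 1), le_max_left _ _, (lt_add_one _).trans_le (le_max_right _ _)⟩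
  refine ⟨r, R, γ * (1 - 1 / 2), max (max Q0 Q1) (max Q2 1), hr1, hR, by positivity,
    fun Q hQ Cn m w hU => ?_⟩
  have hQ0 : Q0 ≤ Q := by omega
  have hQ1 : Q1 ≤ Q := by omega
  have hQ2 : Q2 ≤ Q := by omega
  have hQ3 : 1 ≤ Q := by omega
  have n0 : ∀ c c' : S2, 0 ≤ (if r ≤ dq Q c c' then K0 * wt (1 / 2) a0 (dq Q c c') else 0) :=
    fun c c' => by
      split_ifs
      · exact mul_nonneg hK0 (Real.exp_pos _).le
      · exact le_rfl
  have n1 : ∀ c c' : S2, 0 ≤ (if R ≤ dq Q c c' then K1 * wt (1 / 2) a1 (dq Q c c') else 0) :=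
    fun c c' => by
      split_ifs
      · exact mul_nonneg hK1 (Real.exp_pos _).le
      · exact le_rfl
  have key := Kd.fnw_gap (P := PD Q 0) (G := PD Q (uD Cn m w)) Cn
    (fun c => PD Q (unit c (m c) (w c)))
    (fun c c' => (if r ≤ dq Q c c' then K0 * wt (1 / 2) a0 (dq Q c c') else 0) +
      (if R ≤ dq Q c c' then K1 * wt (1 / 2) a1 (dq Q c c') else 0)) (δ := 1 / 2) (by norm_num)
    (PD_proj Q 0) (PD_proj Q _) (PD_mul_of_le (Multiset.zero_le _)).1 (fun c _ => PD_proj Q _)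
    (fun c _ => (PD_mul_of_le (Multiset.zero_le _)).1)
    (fun c c' => by simp only [dq_symm Q c c'])
    (fun c hc c' hc' hne => by
      refine ⟨PD Q (unit c (m c) (w c) + unit c' (m c') (w c')), PD_proj Q _,
        (PD_mul_of_le (Multiset.le_add_right _ _)).1, (PD_mul_of_le (Multiset.le_add_left _ _)).1,
        ?_⟩
      have hd := hU.disjoint hr1 hR hc hc' hne
      by_cases hw : w c = c ∧ w c' = c'
      · have h2 := h0 Q hQ0 c (w c) c' (w c') (m c) (m c') (hU.m_le c hc) (hU.m_le c' hc')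
          (by rw [hw.1, dq_self]) (by rw [hw.2, dq_self]) hd
        rw [if_pos (hU.sep c hc c' hc' hne)]
        exact h2.trans (le_add_of_nonneg_right (n1 c c'))
      · have hfar : R ≤ dq Q c c' := by
          by_cases hw1 : w c = c
          · rw [dq_symm]
            exact hU.far c' hc' c hc hne.symm fun hw2 => hw ⟨hw1, hw2⟩
          · exact hU.far c hc c' hc' hne hw1
        have h2 := h1 Q hQ1 c (w c) c' (w c') (m c) (m c') (hU.m_le c hc) (hU.m_le c' hc')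
          (hU.rad c hc) (hU.rad c' hc') hd
        rw [if_pos hfar]
        exact h2.trans (le_add_of_nonneg_left (n0 c c')))
    (fun c _ => by
      refine (Finset.sum_le_sum_of_subset_of_nonneg (Finset.erase_subset c Cn)
        fun c' _ _ => add_nonneg (n0 c c') (n1 c c')).trans ?_
      rw [Finset.sum_add_distrib]
      have e0 := ht0 r le_rfl Q hQ3 Cn c (hU.sep_one hr1)
      have e1 := ht1 R hRρ Q hQ3 Cn c (hU.sep_one hr1)
      linarith)
    (fun X hX hX' => hU.meet hr1 hR X hX hX')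
  rw [mul_smul, Finset.mul_sum, Finset.sum_mul]
  refine (smul_le_smul_of_nonneg_left key hγ.le).trans ?_
  rw [Finset.smul_sum]
  exact Finset.sum_le_sum fun c hc => hp Q hQ2 c (w c) (m c) (hU.m_le c hc) (hU.rad c hc)

/-- `units_gap`, `Kd.gap_add` (`V = Σ VU`, gap `min g g0`), `Filt.sq_of_gap` or `Gap.high`;
`locHam_HC`, `locHam_sum`, `unit_loc (r + 1)`, `LocHam.weaken`, `LocHam.add` -/
theorem units_parent : ∃ (r R g a C G : ℝ) (Q₀ : ℕ), 1 ≤ r ∧ 2 * (r + 1) < R ∧ 0 < g ∧ 0 < a ∧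
    ∀ Q, Q₀ ≤ Q → 1 ≤ Q ∧ ∀ (Cn : Finset S2) (m : S2 → ℕ) (w : S2 → S2), Units Q r R Cn m w →
      LocHam Q (1 / 2) a C G (KU Q Cn m w) ∧ Parent (KU Q Cn m w) (PD Q (uD Cn m w)) g := by
  obtain ⟨r, R, g, Q₀, hr, hR, hg, hgap⟩ := units_gap
  obtain ⟨Q₁, hH⟩ := parent_H
  obtain ⟨a, C, ha, hC, hU⟩ := unit_loc (r + 1)
  obtain ⟨C₀, G₀, hL⟩ := locHam_HC a
  obtain ⟨G₁, hS⟩ := locHam_sum
  refine ⟨r, R, min g g0, a, max (Real.exp a * C₀) (Real.exp a * C), G₀ + G₁, max Q₀ Q₁, hr, hR,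
    lt_min hg g0_pos, ha, fun Q hQ => ?_⟩
  obtain ⟨hQ1, hP⟩ := hH Q ((le_max_right _ _).trans hQ)
  refine ⟨hQ1, fun Cn m w h => ⟨?_, ?_⟩⟩
  · refine LocHam.add ((hL Q hQ1).weaken (by norm_num) (by norm_num) ha.le le_rfl (le_max_left _ _)
      le_rfl) (LocHam.weaken (hS Q hQ1 (1 / 2) a C Cn (fun c => VU Q c (m c) (w c)) (h.sep_one hr)
        fun c hc => ⟨IsSelfAdjoint.of_nonneg (VU_nonneg Q c _ _),
          (hU Q hQ1 c (w c) (m c) (h.m_le c hc) (h.rad c hc)).2.2⟩) (by norm_num) le_rfl ha.le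
      le_rfl (le_max_right _ _) le_rfl)
  · have hV : 0 ≤ ∑ c ∈ Cn, VU Q c (m c) (w c) := Finset.sum_nonneg fun c _ => VU_nonneg Q c _ _
    have hD := PD_proj Q (uD Cn m w)
    have hle0 := PD_mul_of_le (Q := Q) (Multiset.zero_le (uD Cn m w))
    have cV : Commute (PD Q 0) (∑ c ∈ Cn, VU Q c (m c) (w c)) :=
      Commute.sum_right _ _ _ fun c hc => (VU_PD hP (h.m_le c hc) c (w c)).1
    have vG : (∑ c ∈ Cn, VU Q c (m c) (w c)) * PD Q (uD Cn m w) = 0 := by
      rw [Finset.sum_mul]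
      exact Finset.sum_eq_zero fun c hc => VU_kill hQ1 hP (unit_le_uD hc)
    have e : PD Q 0 * (∑ c ∈ Cn, VU Q c (m c) (w c)) * PD Q 0 =
        PD Q 0 * (∑ c ∈ Cn, nU Q c (m c) (w c)) * PD Q 0 := by
      simp only [Finset.mul_sum, Finset.sum_mul]
      exact Finset.sum_congr rfl fun c hc => (VU_PD hP (h.m_le c hc) c (w c)).2
    have hp : 0 ≤ PD Q 0 - PD Q (uD Cn m w) :=
      (hD.sub_of_mul_eq_right (PD_proj Q 0) hle0.1).nonneg
    have hle : min g g0 • (PD Q 0 - PD Q (uD Cn m w)) ≤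
        PD Q 0 * (∑ c ∈ Cn, VU Q c (m c) (w c)) * PD Q 0 := by
      rw [e]
      exact (smul_le_smul_of_nonneg_right (min_le_left _ _) hp).trans
        (hgap Q ((le_max_left _ _).trans hQ) Cn m w h)
    obtain ⟨hG, hk⟩ := Kd.gap_add (hP.toGap (PD_proj Q 0)) hP.kill hV cV hD hle0.1 vG
      (min_le_right _ _) hle
    have hk' : PD Q (uD Cn m w) * (HC Q + ∑ c ∈ Cn, VU Q c (m c) (w c)) = 0 := by
      rw [hG.cp.eq, hk]
    refine ⟨add_nonneg hP.nonneg hV, hk, ?_⟩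
    have hh := hG.high
    rwa [sub_mul, one_mul, hk', sub_zero, mul_sub, mul_one, hk, sub_zero] at hh

end Crest.Agent.R340.Pin
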