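import Crest.Agent.R340.KdDefs
import Crest.Agent.R340.KdFo
import Crest.Agent.R340.KdAlg2
import Crest.Agent.R340.IfPin

/-! # Row 340, module KD: one unit (architect helper68) -/

set_option autoImplicit false

namespace Crest.Agent.R340.Pin

open Matrix MeasureTheory Crest.MathPhysics.Laughlin
open scoped Matrix.Norms.L2Operator MatrixOrder ComplexOrder ComplexConjugate

variable {Q m : ℕ} {D : Multiset S2} {a w : S2}

/-! ### part A: algebra -/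

theorem PD_mul_eq_iff {X : Fk (Q + 1)} : PD Q D * X = X ↔ ∀ v, X *ᵥ v ∈ ZD Q D := by
  constructor
  · intro h v
    rw [← h, ← mulVec_mulVec]
    exact PD_mulVec_mem D _
  · intro h
    refine Matrix.ext_iff_mulVec.2 fun v => ?_
    rw [← mulVec_mulVec]
    exact PD_mulVec_iff.2 (h v)

/-- `fockGap_main`, `FockGap.sq`, `Kd.ge_of_sq` with `R = 1 - PD Q 0`, `mem_ZD_zero` -/
theorem parent_H : ∃ Q₀ : ℕ, ∀ Q, Q₀ ≤ Q → 1 ≤ Q ∧ Parent (HC Q) (PD Q 0) g0 := by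
  obtain ⟨Q₀, h⟩ := fockGap_main
  refine ⟨max Q₀ 1, fun Q hQ => ⟨le_trans (le_max_right _ _) hQ, HC_nonneg Q, ?_, ?_⟩⟩
  · refine Matrix.ext_iff_mulVec.2 fun v => ?_
    rw [← mulVec_mulVec, zero_mulVec]
    exact mem_ZD_zero.1 (PD_mulVec_mem 0 v)
  · refine Kd.ge_of_sq g0_pos.le (HC_nonneg Q) (h Q (le_trans (le_max_left _ _) hQ)).sq
      (PD_proj Q 0).one_sub fun X hX => ?_
    rw [sub_mul, one_mul, PD_mul_eq_iff.2 fun v => mem_ZD_zero.2 ?_, sub_self]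
    rw [mulVec_mulVec, hX, zero_mulVec]

/-- `cC_mem_ZD` -/
theorem PD_cC_PD (D : Multiset S2) (f : Fin (Q + 1) → ℂ) :
    PD Q D * cC f * PD Q D = cC f * PD Q D := by
  rw [mul_assoc]
  refine PD_mul_eq_iff.2 fun v => ?_
  rw [← mulVec_mulVec]
  exact cC_mem_ZD f (PD_mulVec_mem D v)

/-- `Kd.filt_ann`, `Parent.toGap` -/
theorem aF_PD (h : Parent (HC Q) (PD Q 0) g0) (f : Fin (Q + 1) → ℂ) :
    Commute (PD Q 0) (aF Q f) ∧ aF Q f * PD Q 0 = cC f * PD Q 0 := by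
  obtain ⟨W, C, c, -, -, hf, -⟩ := w0_spec
  have h1 := Kd.filt_ann hf le_rfl (h.toGap (PD_proj Q 0)) h.kill (cC f)
  exact ⟨h1.1, h1.2.trans (PD_cC_PD 0 f)⟩

theorem low_cC {n : ℕ} (f : Fin n → ℂ) : Low 1 (cC f) := by
  unfold Low
  rw [numC_mul_cC]
  simp

theorem Low.nc {n : ℕ} {A B : Fk n} (hA : Low 1 A) (hB : Low 1 B) : NC (star A * B) := by
  have e : ∀ {Y : Fk n}, Low 1 Y → numC n * Y = Y * numC n - (1 : ℂ) • Y := fun {Y} hY => by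
    have := hY
    unfold Low at this
    rw [Int.cast_one, neg_smul] at this
    rw [sub_eq_add_neg, ← this]
    abel
  exact commute_numC_star_mul (star_one ℂ) (e hA) (e hB)

theorem low_aF (f : Fin (Q + 1) → ℂ) : Low 1 (aF Q f) := by
  exact Low.filt (commute_numC_HC Q) (low_cC f) w0

theorem VU_nonneg (Q : ℕ) (a : S2) (m : ℕ) (w : S2) : 0 ≤ VU Q a m w := by
  exact Finset.sum_nonneg fun i _ => star_mul_self_nonneg _

theorem VU_nc (Q : ℕ) (a : S2) (m : ℕ) (w : S2) : NC (VU Q a m w) := by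
  exact Commute.sum_right _ _ _ fun i _ => Low.nc (low_aF _) (low_aF _)

theorem ua2_sum (hm : m ≤ 3) (Q : ℕ) (a w : S2) (F : (Fin (Q + 1) → ℂ) → Fk (Q + 1))
    (hF : F 0 = 0) :
    ∑ i, F (uv Q a m w i) = ∑ k ∈ Finset.range m, F (orbN Q a k) + F (fo Q a m w) := by
  interval_cases m <;> simp [Fin.sum_univ_four, uv, Finset.sum_range_succ, hF]

theorem ua2_nA (Q : ℕ) (a : S2) (m : ℕ) :
    nA Q a m = ∑ k ∈ Finset.range m, star (cC (orbN Q a k)) * cC (orbN Q a k) := by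
  have h1 : nA Q a m = ∑ k ∈ Finset.range (Q + 1),
      if k < m then star (cC (orbN Q a k)) * cC (orbN Q a k) else 0 := by
    rw [← Fin.sum_univ_eq_sum_range]
    refine Finset.sum_congr rfl fun k _ => ?_
    rw [orbN, dif_pos k.2]
  rw [h1, ← Finset.sum_filter]
  refine Finset.sum_subset (fun k hk => Finset.mem_range.2 (Finset.mem_filter.1 hk).2)
    fun k hk hk' => ?_
  rw [orbN, dif_neg fun h =>
    hk' (Finset.mem_filter.2 ⟨Finset.mem_range.2 h, Finset.mem_range.1 hk⟩), cC_zero, mul_zero]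

theorem nU_eq (hm : m ≤ 3) (Q : ℕ) (a w : S2) :
    nU Q a m w = ∑ i, star (cC (uv Q a m w i)) * cC (uv Q a m w i) := by
  rw [ua2_sum hm Q a w (fun f => star (cC f) * cC f) (by rw [cC_zero, mul_zero]), nU, ua2_nA]

theorem VU_eq (hm : m ≤ 3) (Q : ℕ) (a w : S2) : VU Q a m w = VA Q a m + VF Q (fo Q a m w) := by
  exact ua2_sum hm Q a w (VF Q) (by simp [VF, aF, cC_zero, Filt.filt, Filt.tau])

theorem VU_PD (h : Parent (HC Q) (PD Q 0) g0) (hm : m ≤ 3) (a w : S2) :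
    Commute (PD Q 0) (VU Q a m w) ∧
      PD Q 0 * VU Q a m w * PD Q 0 = PD Q 0 * nU Q a m w * PD Q 0 := by
  have hs : star (PD Q 0) = PD Q 0 := (projOf_proj _).isSelfAdjoint.star_eq
  constructor
  · refine Commute.sum_right _ _ _ fun i _ => Commute.mul_right ?_ (aF_PD h _).1
    have h1 := (aF_PD h (uv Q a m w i)).1.star_star
    rwa [hs] at h1
  · rw [nU_eq hm, VU, Finset.mul_sum, Finset.mul_sum, Finset.sum_mul, Finset.sum_mul]
    refine Finset.sum_congr rfl fun i _ => ?_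
    have h1 := (aF_PD h (uv Q a m w i)).2
    have h2 := congrArg star h1
    rw [star_mul, star_mul, hs] at h2
    rw [VF, ← mul_assoc, h2, mul_assoc, h1, ← mul_assoc, mul_assoc (PD Q 0)]

/-! ### part B: kernels (`mem_ZD_unit`, `mem_ZD_replicate`, `ZD_anti`, `mem_ZD_add`) -/

theorem h9_kill {Y : Fk (Q + 1)} (h : ∀ v ∈ ZD Q D, Y *ᵥ v = 0) : Y * PD Q D = 0 := by
  refine gg_ext fun S => ?_
  rw [← mulVec_mulVec, zero_mulVec]
  exact h _ (PD_mulVec_mem D _)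

theorem h9_orb_kill (h : Multiset.replicate m a ≤ D) (k : Fin (Q + 1)) (hk : (k : ℕ) < m) :
    cC (orb Q a k) * PD Q D = 0 :=
  h9_kill fun _ hv => ((mem_ZD_replicate a m).1 (ZD_anti h hv)).2 k hk

theorem fo_kill (hQ : 1 ≤ Q) (h : unit a m w ≤ D) : cC (fo Q a m w) * PD Q D = 0 := by
  exact h9_kill fun _ hv => ((mem_ZD_unit hQ a w m).1 (ZD_anti h hv)).2

theorem uv_kill (hQ : 1 ≤ Q) (h : unit a m w ≤ D) (i : Fin 4) :
    cC (uv Q a m w i) * PD Q D = 0 := by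
  unfold uv orbN
  split_ifs with h1 h2 h3
  · exact h9_orb_kill ((Multiset.le_cons_self _ w).trans h) _ h1
  · simp [cC]
  · exact fo_kill hQ h
  · simp [cC]

theorem nA_kill (h : Multiset.replicate m a ≤ D) : nA Q a m * PD Q D = 0 := by
  rw [nA, Finset.sum_mul]
  refine Finset.sum_eq_zero fun k _ => ?_
  split_ifs with hk
  · rw [mul_assoc, h9_orb_kill h k hk, mul_zero]
  · exact zero_mul _

theorem nU_kill (hQ : 1 ≤ Q) (h : unit a m w ≤ D) : nU Q a m w * PD Q D = 0 := by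
  rw [nU, add_mul, nA_kill ((Multiset.le_cons_self _ w).trans h), mul_assoc, fo_kill hQ h,
    mul_zero, add_zero]

theorem VU_kill (hQ : 1 ≤ Q) (hH : Parent (HC Q) (PD Q 0) g0) (h : unit a m w ≤ D) :
    VU Q a m w * PD Q D = 0 := by
  rw [VU, Finset.sum_mul]
  refine Finset.sum_eq_zero fun i _ => ?_
  have hP := (PD_mul_of_le (Q := Q) (Multiset.zero_le D)).1
  have e : aF Q (uv Q a m w i) * PD Q D = 0 := by
    rw [← hP, ← mul_assoc, (aF_PD hH _).2, mul_assoc, hP, uv_kill hQ h]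
  rw [VF, mul_assoc, e, mul_zero]

theorem uv_meet (hQ : 1 ≤ Q) (hm : m ≤ 3) (hd : Disjoint D (unit a m w)) (X : Fk (Q + 1))
    (hX : PD Q D * X = X) (h : ∀ i, cC (uv Q a m w i) * X = 0) :
    PD Q (D + unit a m w) * X = X := by
  refine PD_mul_eq_iff.2 fun v => ?_
  have h1 := PD_mul_eq_iff.1 hX v
  have h2 : ∀ i, cC (uv Q a m w i) *ᵥ (X *ᵥ v) = 0 := fun i => by
    rw [mulVec_mulVec, h i, zero_mulVec]
  refine (mem_ZD_add hd).2 ⟨h1, (mem_ZD_unit hQ a w m).2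
    ⟨(mem_ZD_replicate a m).2 ⟨h1.1, fun k hk => ?_⟩, ?_⟩⟩
  · have h3 := h2 ⟨k, by omega⟩
    rwa [uv, if_pos hk, orbN, dif_pos k.2] at h3
  · have h3 := h2 ⟨m, by omega⟩
    rwa [uv, if_neg (lt_irrefl m), if_pos rfl] at h3

/-! ### part C: locality -/

/-- `locHam_HC 1`, `filt_QL` with `w0_spec` -/
theorem aF_loc : ∃ a K, 0 < a ∧ a ≤ 1 ∧ 0 ≤ K ∧ ∀ Q, 1 ≤ Q → ∀ (C : ℝ) (x : S2) (A : Fk (Q + 1)),
    OL Q 1 1 C x A → OL Q (1 / 2) a (K * C) x (Filt.filt w0 (HC Q) A) := by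
  obtain ⟨C0, G, hH⟩ := locHam_HC 1
  obtain ⟨W, Cw, cw, -, hc, hf, hd⟩ := w0_spec
  obtain ⟨a', K', ha', hK', h⟩ := filt_QL (α := 1) (a := 1) (C := C0) (G := G) (Cw := Cw)
    one_pos le_rfl one_pos hc
  refine ⟨min a' 1, Real.exp a' * K', lt_min ha' one_pos, min_le_right _ _, by positivity,
    fun Q hQ C x A hA => ?_⟩
  have h1 := (h Q hQ (HC Q) (hH Q hQ) w0 hf.int_w hd C x A).2 hA
  rw [mul_assoc]
  exact h1.weaken (by norm_num) le_rfl (lt_min ha' one_pos).le (min_le_left _ _)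

theorem h85_uv (r : ℝ) : ∃ C, 0 < C ∧ ∀ Q, 1 ≤ Q → ∀ (c w : S2) (m : ℕ), dq Q c w ≤ r →
    ∀ i, OL Q 1 1 C c (cC (uv Q c m w i)) := by
  obtain ⟨C1, h1⟩ := OL_orb 1 3
  obtain ⟨C2, -, h2⟩ := OL_fo_b r 1
  refine ⟨max (max C1 C2) 1, lt_max_of_lt_right one_pos, fun Q hQ c w m hr i => ?_⟩
  have hz : OL Q 1 1 (max (max C1 C2) 1) c (cC (0 : Fin (Q + 1) → ℂ)) := by
    have h3 := (h2 Q hQ c w m hr).smul 0
    rw [zero_smul, norm_zero, zero_mul] at h3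
    rw [cC_zero]
    exact h3.mono (le_max_of_le_right zero_le_one)
  unfold uv
  split_ifs with hi hi'
  · unfold orbN
    split_ifs with hk
    · exact (h1 Q c ⟨i, hk⟩ (Nat.lt_succ_iff.1 i.2)).mono
        (le_max_of_le_left (le_max_left _ _))
    · exact hz
  · exact (h2 Q hQ c w m hr).mono (le_max_of_le_left (le_max_right _ _))
  · exact hz

/-- `OL_orb`, `OL_fo_b`, `aF_loc`, `OL.mul` -/
theorem unit_loc (r : ℝ) : ∃ a C, 0 < a ∧ 0 < C ∧ ∀ Q, 1 ≤ Q → ∀ (c w : S2) (m : ℕ), m ≤ 3 →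
    dq Q c w ≤ r → ‖nU Q c m w‖ ≤ C ∧ (∀ i, OL Q (1 / 2) a C c (aF Q (uv Q c m w i))) ∧
      NL Q (1 / 2) a C c (VU Q c m w) := by
  obtain ⟨a, K, ha, -, hK, hF⟩ := aF_loc
  obtain ⟨C0, hC0, hU⟩ := h85_uv r
  have p1 : 0 < 4 * (C0 * C0) := by positivity
  have p2 : 0 ≤ K * C0 := by positivity
  have p3 : 0 ≤ 2 * (K * C0) * (K * C0) := by positivity
  refine ⟨a, 4 * (C0 * C0) + K * C0 + 4 * (2 * (K * C0) * (K * C0)), ha, by linarith,
    fun Q hQ c w m hm hr => ?_⟩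
  have h1 := hU Q hQ c w m hr
  have h2 : ∀ i, OL Q (1 / 2) a (K * C0) c (aF Q (uv Q c m w i)) := fun i =>
    hF Q hQ C0 c _ (h1 i)
  have h3 : ∀ i, QL Q (1 / 2) a (2 * (K * C0) * (K * C0)) c (VF Q (uv Q c m w i)) := fun i =>
    (h2 i).star.mul (h2 i)
  refine ⟨?_, fun i => (h2 i).mono (by linarith), VU_nc Q c m w, ?_⟩
  · rw [nU_eq hm]
    have h4 : ∀ i, ‖star (cC (uv Q c m w i)) * cC (uv Q c m w i)‖ ≤ C0 * C0 := fun i =>
      (norm_mul_le _ _).trans (mul_le_mul (h1 i).star.1 (h1 i).1 (norm_nonneg _) hC0.le)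
    refine (norm_sum_le _ _).trans ?_
    rw [Fin.sum_univ_four]
    linarith [h4 0, h4 1, h4 2, h4 3]
  · unfold VU
    rw [Fin.sum_univ_four]
    exact ((((h3 0).add (h3 1)).add (h3 2)).add (h3 3)).mono (by linarith)

/-- `pin_gap r`, `unit_loc`, `π = fcal w (VU ..)` for a filter of gap `g` (`ex_filt`), `Kd.fcal_pin`,
`QL.fcal`, `NC.fcal` -/
theorem unit_pi (r : ℝ) : ∃ (a C g : ℝ) (Q₀ : ℕ), 0 < a ∧ 0 < C ∧ 0 < g ∧ ∀ Q, Q₀ ≤ Q →
    1 ≤ Q ∧ Parent (HC Q) (PD Q 0) g0 ∧ ∀ (c w : S2) (m : ℕ), m ≤ 3 → dq Q c w ≤ r →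
      g • (PD Q 0 - PD Q (unit c m w)) ≤ PD Q 0 * nU Q c m w * PD Q 0 ∧ ‖nU Q c m w‖ ≤ C ∧
      (∀ i, OL Q (1 / 2) a C c (aF Q (uv Q c m w i))) ∧
      ∃ π : Fk (Q + 1), NL Q (1 / 2) a C c π ∧ π * PD Q 0 = PD Q (unit c m w) ∧
        Commute (PD Q 0) π := by
  obtain ⟨γ, Q1, hγ, hgap⟩ := pin_gap r
  obtain ⟨Q2, hpar⟩ := parent_H
  obtain ⟨a, C, ha, hC, hloc⟩ := unit_loc r
  obtain ⟨v, W, Cw, cw, -, hc, hf, hd, -, hmv, -⟩ := ex_filt hγ
  have hi : Integrable fun t : ℝ => t * ‖v t‖ := by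
    refine (Filt.Decay.integrable_pow (C := Cw) hc 1).mono'
      (measurable_id.mul hmv.norm).aestronglyMeasurable (Filter.Eventually.of_forall fun t => ?_)
    rw [norm_mul, norm_norm, Real.norm_eq_abs, pow_one]
    exact mul_le_mul_of_nonneg_left (hd t) (abs_nonneg t)
  obtain ⟨C', hC'⟩ : ∃ C', C' = (∫ t, ‖v t‖) + (∫ t, |t| * ‖v t‖) * C := ⟨_, rfl⟩
  refine ⟨a, max C C', γ, max Q1 Q2, ha, lt_max_of_lt_left hC, hγ, fun Q hQ => ?_⟩
  obtain ⟨hQ1, hH⟩ := hpar Q ((le_max_right _ _).trans hQ)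
  refine ⟨hQ1, hH, fun c w m hm hr => ?_⟩
  obtain ⟨l1, l2, l3⟩ := hloc Q hQ1 c w m hm hr
  have g1 : γ • (PD Q 0 - PD Q (unit c m w)) ≤ PD Q 0 * nU Q c m w * PD Q 0 :=
    hgap Q ((le_max_left _ _).trans hQ) c w m hm hr
  have hV : IsSelfAdjoint (VU Q c m w) := IsSelfAdjoint.of_nonneg (VU_nonneg Q c m w)
  obtain ⟨v1, v2⟩ := VU_PD hH hm c w
  obtain ⟨k1, k2, -⟩ := Kd.fcal_pin hf le_rfl (PD_proj Q 0) hV v1 (PD_proj Q (unit c m w))
    (PD_mul_of_le (Multiset.zero_le _)).1 (VU_kill hQ1 hH le_rfl) (by rw [v2]; exact g1)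
  refine ⟨g1, l1.trans (le_max_left _ _), fun i => (l2 i).mono (le_max_left _ _),
    Filt.fcal v (VU Q c m w), ⟨l3.1.fcal v, ?_⟩, k1, k2⟩
  exact (l3.2.fcal hV hf.int_w hi).mono (hC' ▸ le_max_right _ _)

end Crest.Agent.R340.Pin
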