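import Crest.Agent.R340.LsDefs
import Crest.Agent.R340.LcVol
import Crest.Agent.R340.GeoInt

/-! # Row 340, module LOC on `S2`: orbitals, weights, volume, profile -/

set_option autoImplicit false

namespace Crest.Agent.R340.Ls

open Matrix MeasureTheory Finset Crest.MathPhysics.Laughlin
open Loc (nv cA par dA cm Ev ell E1 EL)
open Pin (wt Sites)
open scoped Matrix.Norms.L2Operator MatrixOrder ComplexOrder

variable {Q m : ℕ} {α a b r s : ℝ}

/-! ### part A: orbitals -/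

theorem orN_coe (x : S2) (j : Fin (Q + 1)) : orN Q x j = orb Q x j := by
  simp only [orN, dif_pos j.2, Fin.eta]
theorem orN_of_lt (x : S2) {j : ℕ} (h : Q < j) : orN Q x j = 0 := by
  simp only [orN, dif_neg (show ¬ j < Q + 1 by omega)]
theorem orN_zero (Q : ℕ) (x : S2) : orN Q x 0 = coh Q x :=
  (orN_coe x (0 : Fin (Q + 1))).trans (orb_zero Q x)
theorem orN_dot (Q : ℕ) (x : S2) (i j : ℕ) :
    star (orN Q x i) ⬝ᵥ orN Q x j = if i = j ∧ i ≤ Q then 1 else 0 := by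
  by_cases hi : i < Q + 1
  · by_cases hj : j < Q + 1
    · rw [orN, orN, dif_pos hi, dif_pos hj, orb_dot]
      simp [Nat.lt_succ_iff.1 hi]
    · rw [orN_of_lt x (show Q < j by omega), dotProduct_zero, if_neg (by omega)]
  · rw [orN_of_lt x (show Q < i by omega), star_zero, zero_dotProduct, if_neg (by omega)]
theorem measurable_orN (Q j : ℕ) : Measurable fun x => orN Q x j := by
  unfold orN
  split_ifs with h
  · exact measurable_orb Q _
  · exact measurable_const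
theorem nv_coh (Q : ℕ) (x : S2) : nv (coh Q x) = 1 := by
  have h := Loc.nv_sq (coh Q x)
  rw [← orN_zero, orN_dot, if_pos ⟨rfl, Nat.zero_le _⟩, orN_zero] at h
  have h' : nv (coh Q x) ^ 2 = 1 := by exact_mod_cast h
  exact (pow_eq_one_iff_of_nonneg (Loc.nv_nonneg _) two_ne_zero).1 h'
theorem nv_orN_le (Q : ℕ) (x : S2) (j : ℕ) : nv (orN Q x j) ≤ 1 := by
  have h := Loc.nv_sq (orN Q x j)
  rw [orN_dot] at h
  have h' : nv (orN Q x j) ^ 2 ≤ 1 := by
    split_ifs at h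
    · exact le_of_eq (by exact_mod_cast h)
    · have : nv (orN Q x j) ^ 2 = 0 := by exact_mod_cast h
      linarith
  exact (pow_le_one_iff_of_nonneg (Loc.nv_nonneg _) two_ne_zero).1 h'
theorem pj_top (x : S2) (h : Q < m) (v : Fin (Q + 1) → ℂ) : pj Q x m v = v := by
  unfold pj
  rw [← sum_subset (range_subset_range.2 (show Q + 1 ≤ m from h))
    (fun j _ hj => by rw [orN_of_lt x (show Q < j by simpa using hj), smul_zero]),
    ← Fin.sum_univ_eq_sum_range (fun j => (star (orN Q x j) ⬝ᵥ v) • orN Q x j) (Q + 1)]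
  conv_rhs => rw [← one_mulVec v, ← sum_orb Q x, Matrix.sum_mulVec]
  refine sum_congr rfl fun j _ => ?_
  rw [orN_coe, vecMulVec_mulVec, op_smul_eq_smul]
theorem sub_pj (x : S2) (m : ℕ) (v : Fin (Q + 1) → ℂ) :
    v - pj Q x m v = ∑ j ∈ Ico m (Q + 1), (star (orN Q x j) ⬝ᵥ v) • orN Q x j := by
  rcases le_or_gt m (Q + 1) with h | h
  · rw [sub_eq_iff_eq_add']
    conv_lhs => rw [← pj_top x (Nat.lt_succ_self Q) v]
    exact (sum_range_add_sum_Ico _ h).symm
  · rw [pj_top x (by omega), sub_self, Ico_eq_empty (by omega), sum_empty]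
theorem nv_pj_le (x : S2) (m : ℕ) (v : Fin (Q + 1) → ℂ) : nv (pj Q x m v) ≤ nv v := by
  have h0 : star (pj Q x m v) ⬝ᵥ (v - pj Q x m v) = 0 := by
    rw [sub_pj, dotProduct_sum]
    refine sum_eq_zero fun j hj => ?_
    rw [dotProduct_smul, pj, star_sum, sum_dotProduct, sum_eq_zero, smul_zero]
    intro i hi
    have h1 := mem_range.1 hi
    have h2 := (mem_Ico.1 hj).1
    rw [star_smul, smul_dotProduct, orN_dot, if_neg (by omega), smul_zero]
  rw [dotProduct_sub, sub_eq_zero, ← Loc.nv_sq] at h0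
  have h1 := Loc.norm_dot_le (pj Q x m v) v
  rw [h0, Complex.norm_real, Real.norm_of_nonneg (sq_nonneg _), sq] at h1
  rcases (Loc.nv_nonneg (pj Q x m v)).eq_or_lt with h | h
  · rw [← h]; exact Loc.nv_nonneg v
  · exact le_of_mul_le_mul_left h1 h
theorem lsA_coh_dot (Q : ℕ) (x u : S2) (j : ℕ) :
    ‖star (coh Q u) ⬝ᵥ orN Q x j‖ ≤ Real.exp (-(dq Q x u - Real.sqrt j) ^ 2 / 2) := by
  by_cases h : j < Q + 1
  · rw [orN, dif_pos h]
    refine (orb_overlap_le Q u x ⟨j, h⟩).trans (le_of_eq ?_)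
    have : dq Q u x = dq Q x u := by simp only [dq, norm_sub_rev]
    rw [this]
    congr 1
    ring
  · rw [orN_of_lt x (show Q < j by omega)]
    simp [Real.exp_nonneg]
theorem norm_orN_dot_coh (Q : ℕ) (x u : S2) (j : ℕ) :
    ‖star (orN Q x j) ⬝ᵥ coh Q u‖ ≤ Real.exp (-(dq Q x u - Real.sqrt j) ^ 2 / 2) := by
  rw [← norm_star, ← star_dotProduct]
  exact lsA_coh_dot Q x u j
theorem norm_coh_dot_orN (Q : ℕ) (x u : S2) (j : ℕ) :
    ‖star (coh Q u) ⬝ᵥ orN Q x j‖ ≤ Real.exp (-(dq Q x u - Real.sqrt j) ^ 2 / 2) :=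
  lsA_coh_dot Q x u j
theorem nv_pj_coh (Q : ℕ) (x u : S2) (m : ℕ) : nv (pj Q x m (coh Q u)) ≤
    ∑ j ∈ range m, Real.exp (-(dq Q x u - Real.sqrt j) ^ 2 / 2) := by
  refine (Loc.nv_sum _ _).trans (sum_le_sum fun j _ => ?_)
  rw [Loc.nv_smul]
  exact (mul_le_of_le_one_right (norm_nonneg _) (nv_orN_le Q x j)).trans (norm_orN_dot_coh Q x u j)

/-! ### part B: weights and volume -/

theorem wt_pos (α a r : ℝ) : 0 < wt α a r := Real.exp_pos _
theorem wt_le_one (ha : 0 ≤ a) (hr : 0 ≤ r) : wt α a r ≤ 1 := by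
  exact Real.exp_le_one_iff.2 (neg_nonpos.2 (mul_nonneg ha (Real.rpow_nonneg hr _)))
theorem wt_zero (h0 : 0 < α) (a : ℝ) : wt α a 0 = 1 := by
  simp [wt, Real.zero_rpow h0.ne']
theorem wt_add (α a b r : ℝ) : wt α (a + b) r = wt α a r * wt α b r := by
  unfold wt
  rw [← Real.exp_add]
  congr 1
  ring
theorem wt_anti (h : b ≤ a) (hr : 0 ≤ r) : wt α a r ≤ wt α b r := by
  exact Real.exp_le_exp.2 (neg_le_neg (mul_le_mul_of_nonneg_right h (Real.rpow_nonneg hr _)))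
theorem wt_anti_right (h0 : 0 ≤ α) (ha : 0 ≤ a) (hs : 0 ≤ s) (h : s ≤ r) :
    wt α a r ≤ wt α a s := by
  exact Real.exp_le_exp.2 (neg_le_neg (mul_le_mul_of_nonneg_left (Real.rpow_le_rpow hs h h0) ha))
/-- `r ^ β ≤ 1 + r ^ α` -/
theorem wt_le_of_le {β : ℝ} (h0 : 0 < β) (h : β ≤ α) (ha : 0 ≤ a) (h1 : a ≤ 1) (hr : 0 ≤ r) :
    wt α a r ≤ 3 * wt β a r := by
  have e1 : r ^ β ≤ 1 + r ^ α := by
    rcases le_total r 1 with hr1 | hr1
    · have := Real.rpow_le_one hr hr1 h0.le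
      have := Real.rpow_nonneg hr α
      linarith
    · have := Real.rpow_le_rpow_of_exponent_le hr1 h
      linarith
  have e2 : -(a * r ^ α) ≤ 1 + -(a * r ^ β) := by nlinarith [mul_le_mul_of_nonneg_left e1 ha]
  unfold wt
  refine (Real.exp_le_exp.2 e2).trans ?_
  rw [Real.exp_add]
  exact mul_le_mul_of_nonneg_right (by linarith [Real.exp_one_lt_d9]) (Real.exp_pos _).le
@[fun_prop] theorem continuous_wt (h0 : 0 < α) (a : ℝ) : Continuous (wt α a) := by
  exact Real.continuous_exp.comp (continuous_const.mul (Real.continuous_rpow_const h0.le)).neg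
theorem b1_rpow_tri (h0 : 0 < α) (h1 : α ≤ 1) (Q : ℕ) (x y z : S2) :
    dq Q x z ^ α ≤ dq Q x y ^ α + dq Q y z ^ α :=
  (Real.rpow_le_rpow (dq_nonneg Q x z) (dq_tri Q x y z) h0.le).trans
    (Real.rpow_add_le_add_rpow (dq_nonneg Q x y) (dq_nonneg Q y z) h0.le h1)
/-- `wt α (-a)` is the inverse weight -/
theorem wt_tri (h0 : 0 < α) (h1 : α ≤ 1) (ha : 0 ≤ a) (Q : ℕ) (x y z : S2) :
    wt α a (dq Q y z) ≤ wt α (-a) (dq Q x y) * wt α a (dq Q x z) := by
  unfold wt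
  rw [← Real.exp_add]
  exact Real.exp_le_exp.2 (by nlinarith [mul_le_mul_of_nonneg_left (b1_rpow_tri h0 h1 Q x y z) ha])
theorem wt_mul_le (h0 : 0 < α) (h1 : α ≤ 1) (ha : 0 ≤ a) (Q : ℕ) (x y z : S2) :
    wt α a (dq Q x y) * wt α a (dq Q y z) ≤ wt α a (dq Q x z) := by
  unfold wt
  rw [← Real.exp_add]
  exact Real.exp_le_exp.2 (by nlinarith [mul_le_mul_of_nonneg_left (b1_rpow_tri h0 h1 Q x y z) ha])
/-- `Loc.gauss_le` -/
theorem gauss_wt (h0 : 0 < α) (h1 : α ≤ 1) (b0 : 0 ≤ b) (b1 : b ≤ 1) (hr : 0 ≤ r) (hs : 0 ≤ s) :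
    Real.exp (-(r - s) ^ 2 / 2) ≤ 5 * (wt α (-b) s * wt α b r) := by
  refine (Loc.gauss_le h0 h1 b0 b1 hr hs).trans ?_
  have e : Real.exp (3 / 2) ≤ 5 := by
    have h2 : Real.exp (3 / 2) ^ 2 = Real.exp 1 ^ 3 := by
      rw [← Real.exp_nat_mul, ← Real.exp_nat_mul]; norm_num
    have h3 : Real.exp 1 ^ 3 ≤ 2.72 ^ 3 :=
      pow_le_pow_left₀ (Real.exp_pos _).le (by linarith [Real.exp_one_lt_d9]) 3
    exact abs_le_of_sq_le_sq' (by rw [h2]; linarith) (by norm_num) |>.2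
  unfold wt
  rw [neg_mul, neg_neg]
  exact mul_le_mul_of_nonneg_right e (by positivity)
/-- `Loc.sum_exp_sqrt` -/
theorem sum_wt (h0 : 0 < α) (k : ℕ) : ∃ (K : ℝ) (p : ℕ), 1 ≤ K ∧
    ∀ (a a' : ℝ), 0 ≤ a' → a' < a → a ≤ 1 → ∀ m M : ℕ,
      ∑ j ∈ Ico m M, (2 + j : ℝ) ^ k * wt α a (Real.sqrt j) ≤
        K / (a - a') ^ p * wt α a' (Real.sqrt m) := by
  exact Loc.sum_exp_sqrt h0 k
/-- `muq_ball`, and `muq_univ` for `Q = 0` -/
theorem sites_muq (Q : ℕ) : Sites Q 2 (muq Q) id := by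
  refine ⟨inferInstance, measurable_id, fun u r hr => ?_⟩
  rcases Nat.eq_zero_or_pos Q with rfl | hQ
  · have h1 : (muq 0).real {i | dq 0 (id i) u ≤ r} ≤ (muq 0).real Set.univ :=
      measureReal_mono (Set.subset_univ _)
    have h2 : (muq 0).real Set.univ = 1 := by simp [Measure.real, muq_univ]
    nlinarith
  · have h := muq_ball hQ u r
    have e : {i | dq Q (id i) u ≤ r} = {y | dq Q u y ≤ r} := by
      ext y; simp [dq_symm Q y u]
    rw [e]
    have := ENNReal.toReal_le_of_le_ofReal (by positivity) h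
    refine this.trans ?_
    nlinarith

section Sites

variable {G : ℝ} {ι : Type} [MeasurableSpace ι] {ν : Measure ι} {x : ι → S2}

theorem b61_cont (Q : ℕ) (u : S2) : Continuous fun g : S2 => dq Q g u := by
  unfold dq
  fun_prop
theorem b61_integrable (h : Sites Q G ν x) {F : S2 → ℝ} (hF : Continuous F) :
    Integrable (fun i => F (x i)) ν := by
  have := h.fin
  obtain ⟨C, hC⟩ := isCompact_univ.exists_bound_of_continuousOn hF.continuousOn
  exact Integrable.of_bound (hF.measurable.comp h.meas).aestronglyMeasurable C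
    (ae_of_all _ fun i => hC _ (Set.mem_univ _))
theorem sites_nonneg (h : Sites Q G ν x) : 0 ≤ G := by
  have := measureReal_nonneg.trans
    (h.growth ⟨EuclideanSpace.single 0 1, by simp⟩ 0 le_rfl)
  simpa using this
theorem sites_integrable (h : Sites Q G ν x) {F : ℝ → ℝ} (hF : Continuous F) (u : S2) :
    Integrable (fun i => F (dq Q (x i) u)) ν := by
  exact b61_integrable h (F := fun g => F (dq Q g u)) (hF.comp (b61_cont Q u))
theorem sites_integrable₂ (h : Sites Q G ν x) {F : ℝ × ℝ → ℝ} (hF : Continuous F) (u v : S2) :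
    Integrable (fun i => F (dq Q (x i) u, dq Q (x i) v)) ν := by
  exact b61_integrable h (F := fun g => F (dq Q g u, dq Q g v))
    (hF.comp ((b61_cont Q u).prodMk (b61_cont Q v)))
theorem sites_restrict (h : Sites Q G ν x) (s : Set ι) : Sites Q G (ν.restrict s) x := by
  have := h.fin
  refine ⟨inferInstance, h.meas, fun u r hr => le_trans ?_ (h.growth u r hr)⟩
  exact ENNReal.toReal_mono (measure_ne_top _ _) (Measure.le_iff'.1 Measure.restrict_le_self _)
/-- shells `k ≤ d < k + 1` -/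
theorem sites_int_le (h : Sites Q G ν x) (u : S2) {F : ℝ → ℝ} {f : ℕ → ℝ} (hF : Continuous F)
    (hf : ∀ k : ℕ, ∀ r, (k : ℝ) ≤ r → r ≤ k + 1 → F r ≤ f k) (f0 : ∀ k, 0 ≤ f k) {S : ℝ}
    (hS : ∀ M, ∑ k ∈ range M, (2 + k : ℝ) ^ 2 * f k ≤ S) :
    ∫ i, F (dq Q (x i) u) ∂ν ≤ G * S := by
  have := h.fin
  have hd := b61_cont Q u
  have hm : ∀ k : ℕ, MeasurableSet {i | dq Q (x i) u ≤ (k : ℝ) + 1} := fun k =>
    measurableSet_le (hd.measurable.comp h.meas) measurable_const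
  have hi : ∀ k : ℕ, Integrable ({i | dq Q (x i) u ≤ (k : ℝ) + 1}.indicator fun _ => f k) ν :=
    fun k => (integrable_const _).indicator (hm k)
  have h1 : ∫ i, F (dq Q (x i) u) ∂ν ≤ ∫ i, ∑ k ∈ range (⌊Real.sqrt Q⌋₊ + 1),
      {i | dq Q (x i) u ≤ (k : ℝ) + 1}.indicator (fun _ => f k) i ∂ν := by
    refine integral_mono (sites_integrable h hF u) (integrable_finsetSum _ fun k _ => hi k)
      fun i => ?_
    have h0 := dq_nonneg Q (x i) u
    have h2 := (Nat.lt_floor_add_one (dq Q (x i) u)).le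
    refine le_trans ?_ (single_le_sum
      (f := fun k : ℕ => {i | dq Q (x i) u ≤ (k : ℝ) + 1}.indicator (fun _ => f k) i)
      (fun k _ => Set.indicator_nonneg (fun _ _ => f0 k) i)
      (mem_range.mpr (Nat.lt_succ_of_le (Nat.floor_le_floor (dq_le Q (x i) u)))))
    rw [Set.indicator_of_mem (show i ∈ {j | dq Q (x j) u ≤ (⌊dq Q (x i) u⌋₊ : ℝ) + 1} from h2)]
    exact hf _ _ (Nat.floor_le h0) h2
  refine h1.trans ?_
  rw [integral_finsetSum _ fun k _ => hi k]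
  refine le_trans ?_ (mul_le_mul_of_nonneg_left (hS (⌊Real.sqrt Q⌋₊ + 1)) (sites_nonneg h))
  rw [mul_sum]
  refine sum_le_sum fun k _ => ?_
  rw [integral_indicator_const _ (hm k), smul_eq_mul, ← mul_assoc]
  refine mul_le_mul_of_nonneg_right ((h.growth u _ (by positivity)).trans (le_of_eq ?_)) (f0 k)
  ring

end Sites

/-- `sites_int_le`, `Loc.sum_exp` -/
theorem int_wt (h0 : 0 < α) : ∃ (K : ℝ) (p : ℕ), 1 ≤ K ∧
    ∀ (a : ℝ), 0 < a → a ≤ 1 → ∀ (Q : ℕ) (G : ℝ) (ι : Type) [MeasurableSpace ι] (ν : Measure ι)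
      (x : ι → S2), Sites Q G ν x → ∀ u, ∫ i, wt α a (dq Q (x i) u) ∂ν ≤ G * (K / a ^ p) := by
  obtain ⟨K, p, hK, hs⟩ := Loc.sum_exp h0 2
  refine ⟨K, p, hK, fun a a0 a1 Q G ι _ ν x h u => ?_⟩
  exact sites_int_le h u (F := wt α a) (f := fun k => wt α a k) (continuous_wt h0 a)
    (fun k r hk _ => wt_anti_right h0.le a0.le (Nat.cast_nonneg k) hk)
    (fun k => (wt_pos _ _ _).le) (hs a a0 a1)
theorem integrable_dq {F : ℝ → ℝ} (hF : Continuous F) (Q : ℕ) (x : S2) :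
    Integrable (fun w => F (dq Q x w)) (muq Q) := by
  have h := sites_integrable (sites_muq Q) hF x
  simpa only [id, dq_symm Q _ x] using h
theorem int_wt_muq (h0 : 0 < α) : ∃ (K : ℝ) (p : ℕ), 1 ≤ K ∧
    ∀ (a : ℝ), 0 < a → a ≤ 1 → ∀ (Q : ℕ) (x : S2), ∫ w, wt α a (dq Q x w) ∂muq Q ≤ K / a ^ p := by
  obtain ⟨K, p, hK, hs⟩ := int_wt h0
  refine ⟨2 * K, p, by linarith, fun a a0 a1 Q x => ?_⟩
  have h := hs a a0 a1 Q 2 S2 (muq Q) id (sites_muq Q) x
  simp only [id, dq_symm Q _ x] at h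
  rwa [mul_div_assoc]
theorem b61_ring : ∃ K : ℝ, 1 ≤ K ∧ ∀ (Q : ℕ) (g : S2) (s : ℝ), 0 ≤ s →
    ∫ w, Real.exp (-(dq Q g w - s) ^ 2 / 4) ∂muq Q ≤ K * (1 + s) ^ 2 := by
  have hq : Summable fun n : ℕ => Real.exp (-(n : ℝ) / 2) := by
    refine (summable_geometric_of_lt_one (Real.exp_pos (-1 / 2)).le
      (Real.exp_lt_one_iff.mpr (by norm_num))).congr fun n => ?_
    rw [← Real.exp_nat_mul]
    congr 1
    ring
  have hz : Summable fun j : ℤ => Real.exp (-|(j : ℝ)| / 2) :=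
    Summable.of_nat_of_neg (hq.congr fun n => by simp) (hq.congr fun n => by simp)
  have hT : 0 ≤ ∑' j : ℤ, Real.exp (-|(j : ℝ)| / 2) := tsum_nonneg fun j => (Real.exp_pos _).le
  refine ⟨8 * (16 * Real.exp (5 / 2) * ∑' j : ℤ, Real.exp (-|(j : ℝ)| / 2)) + 1,
    le_add_of_nonneg_left (by positivity), fun Q g s hs => ?_⟩
  have h := sites_int_le (sites_muq Q) g (F := fun r => Real.exp (-(r - s) ^ 2 / 4))
    (f := fun k => Real.exp (2 - |(k : ℝ) - s|)) (by fun_prop) (fun k r h1 h2 => by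
      refine Real.exp_le_exp.mpr ?_
      have a1 : |(k : ℝ) - s| ≤ |r - s| + 1 := by
        rw [abs_le]
        constructor <;> linarith [le_abs_self (r - s), neg_abs_le (r - s)]
      nlinarith [sq_nonneg (|r - s| - 2), sq_abs (r - s)]) (fun k => (Real.exp_pos _).le)
    (S := (1 + s) ^ 2 * (16 * Real.exp (5 / 2) * ∑' j : ℤ, Real.exp (-|(j : ℝ)| / 2))) (fun M => by
      have b1 : ∑ k ∈ range M, Real.exp (-|(((k : ℤ) - (⌊s⌋₊ : ℤ) : ℤ) : ℝ)| / 2) ≤
          ∑' j : ℤ, Real.exp (-|(j : ℝ)| / 2) := by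
        rw [← sum_image (s := range M) (g := fun k : ℕ => (k : ℤ) - (⌊s⌋₊ : ℤ))
          (f := fun j : ℤ => Real.exp (-|(j : ℝ)| / 2)) (fun a _ b _ hab => by
            simpa using hab)]
        exact hz.sum_le_tsum _ fun j _ => (Real.exp_pos _).le
      refine le_trans ?_ (mul_le_mul_of_nonneg_left (mul_le_mul_of_nonneg_left b1
        (by positivity)) (by positivity))
      rw [mul_sum, mul_sum]
      refine sum_le_sum fun k _ => ?_
      push_cast
      set t := |(k : ℝ) - s| with ht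
      have t0 : 0 ≤ t := abs_nonneg _
      have c1 : (2 + k : ℝ) ≤ (1 + s) * (4 * Real.exp (t / 4)) := by
        have := Real.add_one_le_exp (t / 4)
        have h3 : (k : ℝ) - s ≤ t := le_abs_self _
        nlinarith [mul_nonneg hs t0]
      have c2 : |(k : ℝ) - ⌊s⌋₊| ≤ t + 1 := by
        have h3 : (k : ℝ) - s ≤ t := le_abs_self _
        have h4 : -t ≤ (k : ℝ) - s := neg_abs_le _
        rw [abs_le]
        constructor <;> linarith [Nat.floor_le hs, Nat.lt_floor_add_one s]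
      have c3 : Real.exp (t / 4) ^ 2 * Real.exp (2 - t) ≤
          Real.exp (5 / 2) * Real.exp (-|(k : ℝ) - ⌊s⌋₊| / 2) := by
        rw [← Real.exp_nat_mul, ← Real.exp_add, ← Real.exp_add]
        refine Real.exp_le_exp.mpr ?_
        push_cast
        linarith
      calc (2 + k : ℝ) ^ 2 * Real.exp (2 - t)
          ≤ ((1 + s) * (4 * Real.exp (t / 4))) ^ 2 * Real.exp (2 - t) :=
            mul_le_mul_of_nonneg_right (pow_le_pow_left₀ (by positivity) c1 2) (by positivity)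
        _ = (1 + s) ^ 2 * (16 * (Real.exp (t / 4) ^ 2 * Real.exp (2 - t))) := by ring
        _ ≤ (1 + s) ^ 2 * (16 * (Real.exp (5 / 2) * Real.exp (-|(k : ℝ) - ⌊s⌋₊| / 2))) := by
            gcongr
        _ = _ := by ring)
  simp only [id, dq_symm Q _ g] at h
  refine h.trans ?_
  nlinarith [sq_nonneg (1 + s), mul_nonneg (sq_nonneg (1 + s)) (mul_nonneg
    (by positivity : (0 : ℝ) ≤ 16 * Real.exp (5 / 2)) hT)]
/-- `Loc.gauss_le'` (also for `b < 0`, exchange `r` and `s`), then `sites_int_le` -/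
theorem int_ring_wt : ∃ K : ℝ, 1 ≤ K ∧ ∀ (α b : ℝ), 0 < α → α ≤ 1 → |b| ≤ 1 →
    ∀ (Q : ℕ) (x : S2) (s : ℝ), 0 ≤ s →
    ∫ w, Real.exp (-(dq Q x w - s) ^ 2 / 2) * wt α b (dq Q x w) ∂muq Q ≤
      K * (1 + s) ^ 2 * wt α b s := by
  obtain ⟨K, hK, h⟩ := b61_ring
  have he : 1 ≤ Real.exp 2 := Real.one_le_exp (by norm_num)
  refine ⟨Real.exp 2 * K, by nlinarith, fun α b h0 h1 hb Q g s hs => ?_⟩
  have hc : Integrable (fun w => Real.exp (-(dq Q g w - s) ^ 2 / 4)) (muq Q) :=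
    integrable_dq (F := fun r => Real.exp (-(r - s) ^ 2 / 4)) (by fun_prop) Q g
  have hw := wt_pos α b s
  calc ∫ w, Real.exp (-(dq Q g w - s) ^ 2 / 2) * wt α b (dq Q g w) ∂muq Q
      ≤ ∫ w, Real.exp 2 * wt α b s * Real.exp (-(dq Q g w - s) ^ 2 / 4) ∂muq Q := by
        refine integral_mono_of_nonneg (Filter.Eventually.of_forall fun w =>
          mul_nonneg (Real.exp_pos _).le (wt_pos _ _ _).le)
          (hc.const_mul _) (Filter.Eventually.of_forall fun w => ?_)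
        have h2 := Loc.vcC_mul h0 h1 (b := -b) (by rwa [abs_neg]) (dq_nonneg Q g w) hs
        simp only [wt]
        rw [← Real.exp_add, ← Real.exp_add, ← Real.exp_add, Real.exp_le_exp]
        nlinarith [sq_nonneg (|dq Q g w - s| - 2), sq_abs (dq Q g w - s)]
    _ = Real.exp 2 * wt α b s *
        ∫ w, Real.exp (-(dq Q g w - s) ^ 2 / 4) ∂muq Q := integral_const_mul _ _
    _ ≤ Real.exp 2 * wt α b s * (K * (1 + s) ^ 2) := by
        gcongr
        exact h Q g s hs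
    _ = _ := by ring

/-! ### part C: the profile -/

theorem pf_nonneg (A : Fk (Q + 1)) (u : S2) : 0 ≤ pf Q A u := by
  exact Loc.ell_nonneg _ _
theorem pf_le (A : Fk (Q + 1)) (u : S2) : pf Q A u ≤ 4 * ‖A‖ := by
  have := Loc.ell_le A (coh Q u)
  rwa [nv_coh, mul_one] at this
theorem measurable_pf (A : Fk (Q + 1)) : Measurable (pf Q A) := by
  have h : Continuous fun v : Fin (Q + 1) → ℂ => ell A v :=
    Loc.continuous_ell continuous_const continuous_id
  exact h.measurable.comp (measurable_coh Q)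
theorem pf_eq_loc (A : Fk (Q + 1)) (u : S2) :
    pf Q A u = Fw.loc (fun y => dA (coh Q y)) A u := by
  rfl
theorem pf_of_ev {A : Fk (Q + 1)} (h : Ev A) (u : S2) : pf Q A u = Fw.loc (ca Q) A u := by
  exact Loc.ell_of_ev h _
theorem pf_of_odd {A : Fk (Q + 1)} (h : par (Q + 1) * A = -(A * par (Q + 1))) (u : S2) :
    pf Q A u = Fw.gloc (ca Q) A u := by
  exact Loc.ell_of_odd h _
theorem isL_iff_QL {A : Fk (Q + 1)} (h : Ev A) {C : ℝ} {x : S2} :
    IsL Q α a C x A ↔ Pin.QL Q α a C x A := by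
  simp only [IsL, Pin.QL, pf_of_ev h]
theorem isL_iff_OL {A : Fk (Q + 1)} (h : par (Q + 1) * A = -(A * par (Q + 1))) {C : ℝ} {x : S2} :
    IsL Q α a C x A ↔ Pin.OL Q α a C x A := by
  simp only [IsL, Pin.OL, pf_of_odd h]
theorem inter_of_SInter {C G : ℝ} {ι : Type} [MeasurableSpace ι] {ν : Measure ι} {x : ι → S2}
    {M : ι → Fk (Q + 1)} (h : Pin.SInter Q α a C G ν x M) : Inter Q α a C G ν x M := by
  exact ⟨h.sites, h.int, fun i => Loc.ev_of_numC (h.loc i).1,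
    fun i => (isL_iff_QL (Loc.ev_of_numC (h.loc i).1)).2 (h.loc i).2⟩
theorem isInter_of_LocHam {C G : ℝ} {K : Fk (Q + 1)} (h : Pin.LocHam Q α a C G K) :
    IsInter Q α a C G K ∧ IsSelfAdjoint K ∧ Pin.NC K := by
  obtain ⟨ι, _, ν, x, M, hM, rfl⟩ := h
  refine ⟨⟨ι, _, ν, x, M, inter_of_SInter hM, rfl⟩, ?_,
    Loc.commute_integral hM.int fun i => (hM.loc i).1⟩
  have h1 := (starL' ℝ (A := Fk (Q + 1))).integral_comp_comm (μ := ν) M
  simp only [starL'_apply] at h1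
  rw [IsSelfAdjoint, ← h1]
  exact integral_congr_ae (Filter.Eventually.of_forall fun i => (hM.sa i).star_eq)
theorem integrable_mul_pf (A : Fk (Q + 1)) {F : ℝ → ℝ} (hF : Continuous F) (x : S2) :
    Integrable (fun w => F (dq Q x w) * pf Q A w) (muq Q) := by
  exact (integrable_dq hF Q x).mul_bdd (measurable_pf A).aestronglyMeasurable
    (Filter.Eventually.of_forall fun w => by
      rw [Real.norm_of_nonneg (pf_nonneg A w)]; exact pf_le A w)
/-- resolution of the identity (`gc2_two`, `cC_eq_integral`) -/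
theorem ell_le_int (A : Fk (Q + 1)) (v : Fin (Q + 1) → ℂ) :
    ell A v ≤ ∫ u, ‖star (coh Q u) ⬝ᵥ v‖ * pf Q A u ∂muq Q := by
  simp only [pf, ell, ← Loc.norm_cm_star]
  exact gc2_two Q v
    ((ContinuousLinearMap.mul ℂ _ A - (ContinuousLinearMap.mul ℂ _).flip A).comp
      ((ContinuousLinearMap.mul ℂ _).flip (par (Q + 1))))
    ((ContinuousLinearMap.mul ℂ _ (star A) - (ContinuousLinearMap.mul ℂ _).flip (star A)).comp
      ((ContinuousLinearMap.mul ℂ _).flip (par (Q + 1))))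
theorem ell_orN_le (A : Fk (Q + 1)) (x : S2) (j : ℕ) : ell A (orN Q x j) ≤
    ∫ u, Real.exp (-(dq Q x u - Real.sqrt j) ^ 2 / 2) * pf Q A u ∂muq Q := by
  refine (ell_le_int A _).trans (integral_mono_of_nonneg
    (Filter.Eventually.of_forall fun u => mul_nonneg (norm_nonneg _) (pf_nonneg A u))
    (integrable_mul_pf A (F := fun r => Real.exp (-(r - Real.sqrt j) ^ 2 / 2)) (by fun_prop) x)
    (Filter.Eventually.of_forall fun u => ?_))
  exact mul_le_mul_of_nonneg_right (norm_coh_dot_orN Q x u j) (pf_nonneg A u)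

end Crest.Agent.R340.Ls
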