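import Crest.Agent.R340.LocM2
import Crest.Agent.R340.LsGeo

/-! # Commutators of quasi-local operators (IfLoc part C) -/

set_option autoImplicit false

namespace Crest.Agent.R340.Pin

open Matrix MeasureTheory Crest.MathPhysics.Laughlin
open scoped Matrix.Norms.L2Operator MatrixOrder ComplexOrder ComplexConjugate

/-! ### part A: weights -/

/-- `Ls.int_wt` at `min a 1`, `Ls.wt_anti`, `Ls.sites_integrable`, `Ls.sites_nonneg` -/
theorem vol_wt {α a : ℝ} (h0 : 0 < α) (ha : 0 < a) : ∃ V, 0 ≤ V ∧ ∀ (Q : ℕ) (G : ℝ) (ι : Type)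
    [MeasurableSpace ι] (ν : Measure ι) (x : ι → S2), Sites Q G ν x → ∀ y,
      Integrable (fun i => wt α a (dq Q (x i) y)) ν ∧ ∫ i, wt α a (dq Q (x i) y) ∂ν ≤ V * G := by
  obtain ⟨K, p, hK, h⟩ := Ls.int_wt h0
  have hm : 0 < min a 1 := lt_min ha one_pos
  refine ⟨K / min a 1 ^ p, by positivity, fun Q G ι _ ν x hs y => ?_⟩
  have hi := Ls.sites_integrable hs (Ls.continuous_wt h0 a) y
  have hi' := Ls.sites_integrable hs (Ls.continuous_wt h0 (min a 1)) y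
  refine ⟨hi, ?_⟩
  calc ∫ i, wt α a (dq Q (x i) y) ∂ν ≤ ∫ i, wt α (min a 1) (dq Q (x i) y) ∂ν :=
        integral_mono hi hi' fun i => Ls.wt_anti (min_le_left _ _) (dq_nonneg _ _ _)
    _ ≤ G * (K / min a 1 ^ p) := h _ hm (min_le_right _ _) Q G ι ν x hs y
    _ = _ := mul_comm _ _

/-- `wt (2b) (y,u) * wt b (x,u) = wt b (y,u) * (wt b (x,u) * wt b (u,y)) ≤ wt b (y,u) * wt b (x,y)`,
then `vol_wt` with `Ls.sites_muq`, `integral_mono_of_nonneg` -/
theorem conv_wt {α b : ℝ} (h0 : 0 < α) (h1 : α ≤ 1) (hb : 0 < b) : ∃ V, 0 ≤ V ∧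
    ∀ (Q : ℕ) (x y : S2) (S : ℝ) (g : S2 → ℝ), (∀ u, 0 ≤ g u) →
      (∀ u, g u ≤ S * wt α b (dq Q x u)) →
      ∫ u, wt α (2 * b) (dq Q y u) * g u ∂muq Q ≤ V * S * wt α b (dq Q x y) := by
  obtain ⟨V, hV, h⟩ := vol_wt h0 hb
  refine ⟨V * 2, by positivity, fun Q x y S g g0 g1 => ?_⟩
  obtain ⟨hi, hle⟩ := h Q 2 S2 (muq Q) id (Ls.sites_muq Q) y
  simp only [id] at hi hle
  have hS : 0 ≤ S := nonneg_of_mul_nonneg_left ((g0 x).trans (g1 x)) (Ls.wt_pos _ _ _)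
  have hw := Ls.wt_pos α b (dq Q x y)
  calc ∫ u, wt α (2 * b) (dq Q y u) * g u ∂muq Q
      ≤ ∫ u, (S * wt α b (dq Q x y)) * wt α b (dq Q u y) ∂muq Q := by
        refine integral_mono_of_nonneg (Filter.Eventually.of_forall fun u => ?_)
          (hi.const_mul _) (Filter.Eventually.of_forall fun u => ?_)
        · exact mul_nonneg (Ls.wt_pos _ _ _).le (g0 u)
        · have h2 := Ls.wt_mul_le h0 h1 hb.le Q x u y
          have h3 := Ls.wt_pos α b (dq Q u y)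
          show wt α (2 * b) (dq Q y u) * g u ≤ _
          rw [two_mul, Ls.wt_add, dq_symm Q y u]
          calc wt α b (dq Q u y) * wt α b (dq Q u y) * g u
              ≤ wt α b (dq Q u y) * wt α b (dq Q u y) * (S * wt α b (dq Q x u)) :=
                mul_le_mul_of_nonneg_left (g1 u) (by positivity)
            _ = S * (wt α b (dq Q x u) * wt α b (dq Q u y)) * wt α b (dq Q u y) := by ring
            _ ≤ _ := mul_le_mul_of_nonneg_right (mul_le_mul_of_nonneg_left h2 hS) h3.le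
    _ = (S * wt α b (dq Q x y)) * ∫ u, wt α b (dq Q u y) ∂muq Q := integral_const_mul _ _
    _ ≤ (S * wt α b (dq Q x y)) * (V * 2) := mul_le_mul_of_nonneg_left hle (by positivity)
    _ = _ := by ring

/-- with `d, p, q` the `α`-th powers of `dq x y`, `dq x u`, `dq y u`: if `p ≤ 3 d` use the first
bound, else the second (`p ≤ d + q` by `Ls.b1_rpow_tri`) -/
theorem min_wt {α a b t D₁ D₂ : ℝ} (h0 : 0 < α) (h1 : α ≤ 1) (hb : 0 ≤ b) (hab : b ≤ a)
    (hD₁ : 0 ≤ D₁) (hD₂ : 0 ≤ D₂) {Q : ℕ} {x y u : S2} (t1 : t ≤ D₁ * wt α b (dq Q x y))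
    (t2 : t ≤ D₂ * (wt α a (dq Q x u) + wt α a (dq Q y u))) :
    t ≤ (D₁ + 2 * D₂) * wt α (b / 4) (dq Q x y) * wt α (b / 4) (dq Q x u) := by
  have htri := Ls.b1_rpow_tri h0 h1 Q x y u
  have hd := Real.rpow_nonneg (dq_nonneg Q x y) α
  have hp := Real.rpow_nonneg (dq_nonneg Q x u) α
  have hq := Real.rpow_nonneg (dq_nonneg Q y u) α
  unfold wt at *
  rw [mul_assoc, ← Real.exp_add]
  generalize dq Q x y ^ α = d at *
  generalize dq Q x u ^ α = p at *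
  generalize dq Q y u ^ α = q at *
  have hE := Real.exp_pos (-(b / 4 * d) + -(b / 4 * p))
  rcases le_total p (3 * d) with h | h
  · have e : Real.exp (-(b * d)) ≤ Real.exp (-(b / 4 * d) + -(b / 4 * p)) :=
      Real.exp_le_exp.2 (by nlinarith [mul_le_mul_of_nonneg_left h hb])
    have := mul_le_mul_of_nonneg_left e hD₁
    nlinarith [mul_nonneg hD₂ hE.le]
  · have e1 : Real.exp (-(a * p)) ≤ Real.exp (-(b / 4 * d) + -(b / 4 * p)) :=
      Real.exp_le_exp.2 (by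
        nlinarith [mul_le_mul_of_nonneg_left h hb, mul_le_mul_of_nonneg_right hab hp,
          mul_nonneg hb hp])
    have e2 : Real.exp (-(a * q)) ≤ Real.exp (-(b / 4 * d) + -(b / 4 * p)) :=
      Real.exp_le_exp.2 (by
        nlinarith [mul_le_mul_of_nonneg_left h hb, mul_le_mul_of_nonneg_right hab hq,
          mul_le_mul_of_nonneg_left htri hb, mul_nonneg hb hp])
    have := mul_le_mul_of_nonneg_left (add_le_add e1 e2) hD₂
    nlinarith [mul_nonneg hD₁ hE.le]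

/-- `Fw.loc_le norm_ca_le`, `min_wt` -/
theorem QL_of_two {α a b D₁ D₂ : ℝ} (h0 : 0 < α) (h1 : α ≤ 1) (hb : 0 ≤ b) (hab : b ≤ a)
    (hD₁ : 0 ≤ D₁) (hD₂ : 0 ≤ D₂) {Q : ℕ} {x y : S2} {T : Fk (Q + 1)}
    (t1 : ‖T‖ ≤ D₁ * wt α b (dq Q x y))
    (t2 : ∀ u, Fw.loc (ca Q) T u ≤ D₂ * (wt α a (dq Q x u) + wt α a (dq Q y u))) :
    QL Q α (b / 4) ((4 * D₁ + 2 * D₂) * wt α (b / 4) (dq Q x y)) x T := by
  refine ⟨t1.trans ?_, fun u => ?_⟩
  · exact mul_le_mul (by linarith) (Ls.wt_anti (by linarith) (dq_nonneg Q x y))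
      (Ls.wt_pos _ _ _).le (by linarith)
  · refine min_wt h0 h1 hb hab (by linarith) hD₂ ?_ (t2 u)
    have := Fw.loc_le (norm_ca_le Q) T u
    linarith

theorem c95_comm {n : ℕ} (A B c : Fk n) :
    ‖A * B * c - c * (A * B)‖ ≤ ‖A‖ * ‖B * c - c * B‖ + ‖A * c - c * A‖ * ‖B‖ := by
  have e : A * B * c - c * (A * B) = A * (B * c - c * B) + (A * c - c * A) * B := by
    noncomm_ring
  rw [e]
  exact (norm_add_le _ _).trans (add_le_add (norm_mul_le _ _) (norm_mul_le _ _))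

theorem c95_acomm {n : ℕ} (A B c : Fk n) :
    ‖A * B * c - c * (A * B)‖ ≤ ‖A‖ * ‖B * c + c * B‖ + ‖A * c + c * A‖ * ‖B‖ := by
  have e : A * B * c - c * (A * B) = A * (B * c + c * B) - (A * c + c * A) * B := by
    noncomm_ring
  rw [e]
  exact (norm_sub_le _ _).trans (add_le_add (norm_mul_le _ _) (norm_mul_le _ _))

/-- `[A B, c] = A [B, c] + [A, c] B` -/
theorem loc_mul_le' {Q : ℕ} (A B : Fk (Q + 1)) (u : S2) :
    Fw.loc (ca Q) (A * B) u ≤ ‖A‖ * Fw.loc (ca Q) B u + Fw.loc (ca Q) A u * ‖B‖ := by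
  have h1 := c95_comm A B (ca Q u)
  have h2 := c95_comm A B (star (ca Q u))
  unfold Fw.loc
  linarith

/-- `[A B, c] = A {B, c} - {A, c} B` -/
theorem loc_mul_gloc {Q : ℕ} (A B : Fk (Q + 1)) (u : S2) :
    Fw.loc (ca Q) (A * B) u ≤ ‖A‖ * Fw.gloc (ca Q) B u + Fw.gloc (ca Q) A u * ‖B‖ := by
  have h1 := c95_acomm A B (ca Q u)
  have h2 := c95_acomm A B (star (ca Q u))
  unfold Fw.loc Fw.gloc
  linarith

/-! ### part B: two local operators -/

/-- `master_ev` at `a₀ = min a 1` (with `Z = B`), `conv_wt` at `b = a₀ / 4` -/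
theorem norm_comm_ev {α a : ℝ} (h0 : 0 < α) (h1 : α ≤ 1) (ha : 0 < a) :
    ∃ b K, 0 < b ∧ b ≤ a ∧ 0 ≤ K ∧ ∀ Q, 1 ≤ Q → ∀ (C C' : ℝ) (x y : S2) (A B : Fk (Q + 1)),
      Loc.Ev A → QL Q α a C x A → QL Q α a C' y B →
        ‖A * B - B * A‖ ≤ K * C * C' * wt α b (dq Q x y) := by
  have ha0 : 0 < min a 1 := lt_min ha one_pos
  have hl := min_le_left a 1
  obtain ⟨K, hK, h⟩ := master_ev h0 h1 ha0 (min_le_right a 1)
  obtain ⟨V, hV, hc⟩ := conv_wt (b := min a 1 / 4) h0 h1 (by positivity)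
  refine ⟨min a 1 / 4, K * V, by positivity, by linarith, by positivity,
    fun Q hQ C C' x y A B hA hx hy => ?_⟩
  have hC : 0 ≤ C := (norm_nonneg _).trans hx.1
  have hC' : 0 ≤ C' := (norm_nonneg _).trans hy.1
  have a1 := h Q hQ C' y A B hA fun z => (hy.2 z).trans
    (mul_le_mul_of_nonneg_left (Ls.wt_anti hl (dq_nonneg _ _ _)) hC')
  have a2 := hc Q x y C (Fw.loc (ca Q) A) (Fw.loc_nonneg _ _) fun u => (hx.2 u).trans
    (mul_le_mul_of_nonneg_left (Ls.wt_anti (by linarith) (dq_nonneg _ _ _)) hC)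
  rw [show 2 * (min a 1 / 4) = min a 1 / 2 by ring] at a2
  refine a1.trans ((mul_le_mul_of_nonneg_left a2 (mul_nonneg hK hC')).trans (le_of_eq ?_))
  ring

/-- `master_od`, `conv_wt` -/
theorem norm_acomm_od {α a : ℝ} (h0 : 0 < α) (h1 : α ≤ 1) (ha : 0 < a) :
    ∃ b K, 0 < b ∧ b ≤ a ∧ 0 ≤ K ∧ ∀ Q, 1 ≤ Q → ∀ (C C' : ℝ) (x y : S2) (A B : Fk (Q + 1)),
      Loc.par (Q + 1) * A = -(A * Loc.par (Q + 1)) → OL Q α a C x A → OL Q α a C' y B →
        ‖A * B + B * A‖ ≤ K * C * C' * wt α b (dq Q x y) := by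
  have ha0 : 0 < min a 1 := lt_min ha one_pos
  have hl := min_le_left a 1
  obtain ⟨K, hK, h⟩ := master_od h0 h1 ha0 (min_le_right a 1)
  obtain ⟨V, hV, hc⟩ := conv_wt (b := min a 1 / 4) h0 h1 (by positivity)
  refine ⟨min a 1 / 4, K * V, by positivity, by linarith, by positivity,
    fun Q hQ C C' x y A B hA hx hy => ?_⟩
  have hC : 0 ≤ C := (norm_nonneg _).trans hx.1
  have hC' : 0 ≤ C' := (norm_nonneg _).trans hy.1
  have a1 := h Q hQ C' y A B hA fun z => (hy.2 z).trans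
    (mul_le_mul_of_nonneg_left (Ls.wt_anti hl (dq_nonneg _ _ _)) hC')
  have a2 := hc Q x y C (Fw.gloc (ca Q) A) (fun u => add_nonneg (norm_nonneg _) (norm_nonneg _))
    fun u => (hx.2 u).trans
      (mul_le_mul_of_nonneg_left (Ls.wt_anti (by linarith) (dq_nonneg _ _ _)) hC)
  rw [show 2 * (min a 1 / 4) = min a 1 / 2 by ring] at a2
  refine a1.trans ((mul_le_mul_of_nonneg_left a2 (mul_nonneg hK hC')).trans (le_of_eq ?_))
  ring

/-- `norm_comm_ev`, `QL_of_two` (twice, `dq_symm`) with `D₁ = K C C'`, `D₂ = 2 C C'`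
(`loc_mul_le'`, `Fw.loc_sub_le`); `OL` case: `OL_iff_QL_par`, `(A B - B A) θ = A (B θ) - (B θ) A` -/
theorem comm_QL' {α a : ℝ} (h0 : 0 < α) (h1 : α ≤ 1) (ha : 0 < a) : ∃ a' K, 0 < a' ∧ 0 ≤ K ∧
    ∀ Q, 1 ≤ Q → ∀ (C C' : ℝ) (x y : S2) (A B : Fk (Q + 1)), Loc.Ev A → QL Q α a C x A →
      (QL Q α a C' y B →
        QL Q α a' (K * C * C' * wt α a' (dq Q x y)) x (A * B - B * A) ∧
        QL Q α a' (K * C * C' * wt α a' (dq Q x y)) y (A * B - B * A)) ∧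
      (OL Q α a C' y B →
        OL Q α a' (K * C * C' * wt α a' (dq Q x y)) x (A * B - B * A) ∧
        OL Q α a' (K * C * C' * wt α a' (dq Q x y)) y (A * B - B * A)) := by
  obtain ⟨b, K, hb, hab, hK, H⟩ := norm_comm_ev h0 h1 ha
  have main : ∀ Q, 1 ≤ Q → ∀ (C C' : ℝ) (x y : S2) (A B : Fk (Q + 1)), Loc.Ev A →
      QL Q α a C x A → QL Q α a C' y B →
        QL Q α (b / 4) ((4 * K + 4) * C * C' * wt α (b / 4) (dq Q x y)) x (A * B - B * A) ∧
        QL Q α (b / 4) ((4 * K + 4) * C * C' * wt α (b / 4) (dq Q x y)) y (A * B - B * A) := by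
    intro Q hQ C C' x y A B hE hA hB
    have hC : 0 ≤ C := (norm_nonneg _).trans hA.1
    have hC' : 0 ≤ C' := (norm_nonneg _).trans hB.1
    have t1 := H Q hQ C C' x y A B hE hA hB
    have t2 : ∀ u, Fw.loc (ca Q) (A * B - B * A) u ≤
        2 * C * C' * (wt α a (dq Q x u) + wt α a (dq Q y u)) := fun u => by
      have k1 : ‖A‖ * Fw.loc (ca Q) B u ≤ C * (C' * wt α a (dq Q y u)) :=
        mul_le_mul hA.1 (hB.2 u) (Fw.loc_nonneg _ _ _) hC
      have k2 : ‖B‖ * Fw.loc (ca Q) A u ≤ C' * (C * wt α a (dq Q x u)) :=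
        mul_le_mul hB.1 (hA.2 u) (Fw.loc_nonneg _ _ _) hC'
      have k3 := loc_mul_le' A B u
      have k4 := loc_mul_le' B A u
      have k5 := Fw.loc_sub_le (ca Q) (A * B) (B * A) u
      linarith
    have e : (4 * K + 4) * C * C' = 4 * (K * C * C') + 2 * (2 * C * C') := by ring
    rw [e]
    refine ⟨QL_of_two h0 h1 hb.le hab (by positivity) (by positivity) t1 t2, ?_⟩
    rw [dq_symm Q x y] at t1 ⊢
    exact QL_of_two h0 h1 hb.le hab (by positivity) (by positivity) t1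
      fun u => by rw [add_comm (wt α a (dq Q y u))]; exact t2 u
  refine ⟨b / 4, 4 * K + 4, by positivity, by positivity, fun Q hQ C C' x y A B hE hA =>
    ⟨main Q hQ C C' x y A B hE hA, fun hB => ?_⟩⟩
  have e : (A * B - B * A) * Loc.par (Q + 1) =
      A * (B * Loc.par (Q + 1)) - B * Loc.par (Q + 1) * A := by
    have e1 : Loc.par (Q + 1) * A = A * Loc.par (Q + 1) := hE
    rw [sub_mul, mul_assoc, mul_assoc, mul_assoc, e1]
  rw [OL_iff_QL_par, OL_iff_QL_par, e]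
  exact main Q hQ C C' x y A _ hE hA (OL_iff_QL_par.1 hB)

/-- `norm_acomm_od`, `QL_of_two`, `loc_mul_gloc` -/
theorem acomm_OL' {α a : ℝ} (h0 : 0 < α) (h1 : α ≤ 1) (ha : 0 < a) : ∃ a' K, 0 < a' ∧ 0 ≤ K ∧
    ∀ Q, 1 ≤ Q → ∀ (C C' : ℝ) (x y : S2) (A B : Fk (Q + 1)),
      Loc.par (Q + 1) * A = -(A * Loc.par (Q + 1)) → OL Q α a C x A →
      OL Q α a C' y B → QL Q α a' (K * C * C' * wt α a' (dq Q x y)) x (A * B + B * A) := by
  obtain ⟨b, K, hb, hba, hK, h⟩ := norm_acomm_od h0 h1 ha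
  refine ⟨b / 4, 4 * K + 4, by positivity, by positivity, fun Q hQ C C' x y A B hA hx hy => ?_⟩
  have hC : 0 ≤ C := (norm_nonneg _).trans hx.1
  have hC' : 0 ≤ C' := (norm_nonneg _).trans hy.1
  have key := QL_of_two (D₁ := K * C * C') (D₂ := 2 * (C * C')) h0 h1 hb.le hba (by positivity)
    (by positivity) (h Q hQ C C' x y A B hA hx hy) fun u => by
      have b0 := Fw.loc_add_le (ca Q) (A * B) (B * A) u
      have b1 := loc_mul_gloc A B u
      have b2 := loc_mul_gloc B A u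
      have gA : 0 ≤ Fw.gloc (ca Q) A u := add_nonneg (norm_nonneg _) (norm_nonneg _)
      have gB : 0 ≤ Fw.gloc (ca Q) B u := add_nonneg (norm_nonneg _) (norm_nonneg _)
      have c1 : ‖A‖ * Fw.gloc (ca Q) B u ≤ C * (C' * wt α a (dq Q y u)) :=
        mul_le_mul hx.1 (hy.2 u) gB hC
      have c2 : ‖B‖ * Fw.gloc (ca Q) A u ≤ C' * (C * wt α a (dq Q x u)) :=
        mul_le_mul hy.1 (hx.2 u) gA hC'
      nlinarith
  rwa [show 4 * (K * C * C') + 2 * (2 * (C * C')) = (4 * K + 4) * C * C' by ring] at key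

/-! ### part C: interactions -/

theorem LocHam.ev' {Q : ℕ} {α a C G : ℝ} {M : Fk (Q + 1)} (h : LocHam Q α a C G M) :
    IsSelfAdjoint M ∧ NC M ∧ Loc.Ev M ∧ 0 ≤ G := by
  obtain ⟨ι, _, ν, x, m, hm, rfl⟩ := h
  have hn : NC (∫ i, m i ∂ν) := Fw.cC_num hm.int fun i => (hm.loc i).1
  exact ⟨Fw.cC_sa hm.sa, hn, Loc.ev_of_numC hn, Ls.sites_nonneg hm.sites⟩

theorem LocHam.mono' {Q : ℕ} {α a C C' G : ℝ} {M : Fk (Q + 1)} (h : LocHam Q α a C G M)
    (hC : C ≤ C') : LocHam Q α a C' G M := by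
  obtain ⟨ι, _, ν, x, m, hm, rfl⟩ := h
  exact ⟨ι, _, ν, x, m, ⟨hm.sites, hm.int, hm.sa, fun i => ⟨(hm.loc i).1, (hm.loc i).2.1.trans hC,
    fun y => ((hm.loc i).2.2 y).trans
      (mul_le_mul_of_nonneg_right hC (Ls.wt_pos _ _ _).le)⟩⟩, rfl⟩

/-- `Fw.cC_comm`, `comm_QL'` for every term (centre `y`), `norm_integral_le_of_norm_le`,
`Fw.loc_integral_le`, `vol_wt`; `OL` case from the `QL` case by `OL_iff_QL_par` -/
theorem comm_LocHam' {α a : ℝ} (h0 : 0 < α) (h1 : α ≤ 1) (ha : 0 < a) : ∃ a' K, 0 < a' ∧ 0 ≤ K ∧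
    ∀ Q, 1 ≤ Q → ∀ (C G C' : ℝ) (y : S2) (M B : Fk (Q + 1)), 0 ≤ C → LocHam Q α a C G M →
      (QL Q α a C' y B → QL Q α a' (K * C * G * C') y (M * B - B * M)) ∧
      (OL Q α a C' y B → OL Q α a' (K * C * G * C') y (M * B - B * M)) := by
  obtain ⟨a', K, ha', hK, h⟩ := comm_QL' h0 h1 ha
  obtain ⟨V, hV, hv⟩ := vol_wt h0 ha'
  have key : ∀ Q, 1 ≤ Q → ∀ (C G C' : ℝ) (y : S2) (M B : Fk (Q + 1)), 0 ≤ C → LocHam Q α a C G M →
      QL Q α a C' y B → QL Q α a' (K * V * C * G * C') y (M * B - B * M) := by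
    intro Q hQ C G C' y M B hC hM hB
    obtain ⟨ι, _, ν, x, m, hm, rfl⟩ := hM
    have hC' : 0 ≤ C' := (norm_nonneg _).trans hB.1
    have hq := fun i => ((h Q hQ C C' (x i) y (m i) B (Loc.ev_of_numC (hm.loc i).1)
      (hm.loc i).2).1 hB).2
    obtain ⟨i1, i2⟩ := hv Q G ι ν x hm.sites y
    have i3 : ∫ i, K * C * C' * wt α a' (dq Q (x i) y) ∂ν ≤ K * V * C * G * C' := by
      rw [integral_const_mul]
      exact (mul_le_mul_of_nonneg_left i2 (by positivity)).trans_eq (by ring)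
    have i4 : Integrable (fun i => m i * B - B * m i) ν :=
      (hm.int.mul_const B).sub (hm.int.const_mul B)
    rw [Fw.cC_comm hm.int B]
    refine ⟨(norm_integral_le_of_norm_le (i1.const_mul _) (ae_of_all _ fun i => (hq i).1)).trans i3,
      fun u => ?_⟩
    refine (Fw.loc_integral_le i4 (fun i => (hq i).2 u)
      ((i1.const_mul _).mul_const _)).trans ?_
    rw [integral_mul_const]
    exact mul_le_mul_of_nonneg_right i3 (Ls.wt_pos _ _ _).le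
  refine ⟨a', K * V, ha', mul_nonneg hK hV, fun Q hQ C G C' y M B hC hM =>
    ⟨key Q hQ C G C' y M B hC hM, fun hB => ?_⟩⟩
  have := key Q hQ C G C' y M _ hC hM (OL_iff_QL_par.1 hB)
  rw [OL_iff_QL_par]
  rwa [mul_assoc B, hM.ev'.2.2.1.eq, ← mul_assoc, ← mul_assoc, ← sub_mul] at this

end Crest.Agent.R340.Pin
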