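import Crest.Agent.R340.LsApx

/-! # Row 340, module LOC on `S2`: the master estimate for arbitrary parities -/

set_option autoImplicit false

namespace Crest.Agent.R340.Ls

open Matrix MeasureTheory Finset Crest.MathPhysics.Laughlin
open Loc (nv cA par dA cm Ev ell E1 EL)
open Pin (wt Sites)
open scoped Matrix.Norms.L2Operator MatrixOrder ComplexOrder

variable {n : ℕ}

/-- even part -/
noncomputable def evP (A : Fk n) : Fk n := (1 / 2 : ℂ) • (A + par n * A * par n)

/-- odd part -/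
noncomputable def odP (A : Fk n) : Fk n := (1 / 2 : ℂ) • (A - par n * A * par n)

theorem evP_add_odP (A : Fk n) : evP A + odP A = A := by
  rw [evP, odP, ← smul_add, add_add_sub_cancel, ← two_smul ℂ A, smul_smul]; norm_num

theorem par_par_mul (A : Fk n) : par n * (par n * A) = A := by
  rw [← mul_assoc, Loc.par_mul_par, one_mul]

theorem ev_evP (A : Fk n) : Ev (evP A) := by
  rw [Ev, Commute, SemiconjBy, evP, mul_smul_comm, smul_mul_assoc]
  simp only [mul_add, add_mul, mul_assoc, par_par_mul, Loc.par_mul_par, mul_one, add_comm]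

theorem od_odP (A : Fk n) : par n * odP A = -(odP A * par n) := by
  rw [odP, mul_smul_comm, smul_mul_assoc, ← smul_neg]
  simp only [mul_sub, sub_mul, mul_assoc, par_par_mul, Loc.par_mul_par, mul_one, neg_sub]

theorem ell_evP_le (A : Fk n) (v : Fin n → ℂ) : ell (evP A) v ≤ ell A v := by
  have := Loc.ell_add A (par n * A * par n) v
  rw [evP, Loc.ell_smul, Loc.ell_par_conj] at *
  norm_num
  linarith

theorem ell_odP_le (A : Fk n) (v : Fin n → ℂ) : ell (odP A) v ≤ ell A v := by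
  have := Loc.ell_sub A (par n * A * par n) v
  rw [odP, Loc.ell_smul, Loc.ell_par_conj] at *
  norm_num
  linarith

/-- plain commutators of `Z` are dual commutators of `evP Z + odP Z θ` -/
theorem cm_par_conj (Z : Fk n) {c : Fk n} (hc : par n * c = -(c * par n)) :
    ‖cm (par n * Z * par n) c‖ = ‖cm Z c‖ := by
  have hc' : c * par n = -(par n * c) := by rw [hc, neg_neg]
  have : cm (par n * Z * par n) c = -(par n * cm Z c * par n) := by
    simp only [cm, mul_sub, sub_mul, neg_sub, mul_assoc]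
    rw [hc, ← mul_assoc c, hc', ← mul_assoc (par n) c]
    simp only [mul_neg, neg_mul, mul_assoc]
    abel
  rw [this, norm_neg, Loc.norm_mul_par, Loc.norm_par_mul]

theorem norm_cm_half_le (Z W c : Fk n) (h : ‖cm W c‖ = ‖cm Z c‖) :
    ‖cm ((1 / 2 : ℂ) • (Z + W)) c‖ ≤ ‖cm Z c‖ ∧ ‖cm ((1 / 2 : ℂ) • (Z - W)) c‖ ≤ ‖cm Z c‖ := by
  have e1 : cm ((1 / 2 : ℂ) • (Z + W)) c = (1 / 2 : ℂ) • (cm Z c + cm W c) := by
    simp only [cm, smul_mul_assoc, mul_smul_comm, ← smul_sub, add_mul, mul_add]; congr 1; abel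
  have e2 : cm ((1 / 2 : ℂ) • (Z - W)) c = (1 / 2 : ℂ) • (cm Z c - cm W c) := by
    simp only [cm, smul_mul_assoc, mul_smul_comm, ← smul_sub, sub_mul, mul_sub]; congr 1; abel
  have := norm_add_le (cm Z c) (cm W c)
  have := norm_sub_le (cm Z c) (cm W c)
  rw [e1, e2, norm_smul, norm_smul]
  norm_num
  constructor <;> linarith

theorem ell_evP_le_loc (Z : Fk n) (v : Fin n → ℂ) :
    ell (evP Z) v ≤ ‖cm Z (cA v)‖ + ‖cm Z (star (cA v))‖ := by
  rw [Loc.ell_of_ev (ev_evP Z)]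
  exact add_le_add (norm_cm_half_le _ _ _ (cm_par_conj Z (Loc.par_mul_cA v))).1
    (norm_cm_half_le _ _ _ (cm_par_conj Z (Loc.par_mul_star_cA v))).1

theorem od_mul_par {W : Fk n} (h : par n * W = -(W * par n)) :
    par n * (W * par n) = -(W * par n * par n) := by
  rw [← mul_assoc, h, neg_mul]

theorem acm_mul_par (W : Fk n) {c : Fk n} (hc : par n * c = -(c * par n)) :
    ‖W * par n * c + c * (W * par n)‖ = ‖cm W c‖ := by
  have : W * par n * c + c * (W * par n) = -(cm W c * par n) := by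
    simp only [cm, sub_mul, neg_sub, mul_assoc, hc, mul_neg]
    abel
  rw [this, norm_neg, Loc.norm_mul_par]

theorem ell_odP_par_le_loc (Z : Fk n) (v : Fin n → ℂ) :
    ell (odP Z * par n) v ≤ ‖cm Z (cA v)‖ + ‖cm Z (star (cA v))‖ := by
  rw [Loc.ell_of_odd (od_mul_par (od_odP Z)), acm_mul_par _ (Loc.par_mul_cA v),
    acm_mul_par _ (Loc.par_mul_star_cA v)]
  exact add_le_add (norm_cm_half_le _ _ _ (cm_par_conj Z (Loc.par_mul_cA v))).2
    (norm_cm_half_le _ _ _ (cm_par_conj Z (Loc.par_mul_star_cA v))).2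

theorem master_min {α a : ℝ} (h0 : 0 < α) (h1 : α ≤ 1) (ha : 0 < a) : ∃ K : ℝ, 0 ≤ K ∧
    ∀ (Q : ℕ) (C : ℝ) (y : S2) (A Z : Fk (Q + 1)),
      (∀ z, Fw.loc (ca Q) Z z ≤ C * wt α a (dq Q y z)) →
      ‖A * Z - Z * A‖ ≤ K * C * ∫ u, wt α (min a 1 / 2) (dq Q y u) * ell A (coh Q u) ∂muq Q := by
  obtain ⟨K, p, hK, H⟩ := norm_cm_le_int h0 h1
  obtain ⟨K', p', hK', H'⟩ := norm_acm_le_int h0 h1
  have b0 : 0 < min a 1 := lt_min ha one_pos
  have b1 : min a 1 ≤ 1 := min_le_right _ _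
  refine ⟨2 * (K / min a 1 ^ p) + K' / min a 1 ^ p', by positivity, fun Q C y A Z h => ?_⟩
  have hC : 0 ≤ C := nonneg_of_mul_nonneg_left
    ((add_nonneg (norm_nonneg _) (norm_nonneg _)).trans (h y)) (wt_pos _ _ _)
  have h' : ∀ z, ‖cm Z (cA (coh Q z))‖ + ‖cm Z (star (cA (coh Q z)))‖ ≤
      C * wt α (min a 1) (dq Q y z) := fun z =>
    (h z).trans (mul_le_mul_of_nonneg_left (wt_anti (min_le_left _ _) (dq_nonneg _ _ _)) hC)
  have hI : ∀ B : Fk (Q + 1), (∀ v, ell B v ≤ ell A v) →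
      ∫ w, wt α (3 * min a 1 / 4) (dq Q y w) * pf Q B w ∂muq Q ≤
        ∫ u, wt α (min a 1 / 2) (dq Q y u) * ell A (coh Q u) ∂muq Q := fun B hB =>
    integral_mono (integrable_mul_pf B (continuous_wt h0 _) y)
      (integrable_mul_pf A (continuous_wt h0 _) y) fun w =>
        mul_le_mul (wt_anti (by linarith) (dq_nonneg _ _ _)) (hB _) (pf_nonneg _ _) (wt_pos _ _ _).le
  have k1 := (H _ b0 b1 Q C y (evP Z) A (Or.inl (ev_evP Z))
    fun u => (ell_evP_le_loc Z _).trans (h' u)).trans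
    (mul_le_mul_of_nonneg_left (hI A fun _ => le_rfl) (by positivity))
  have k2 := (H _ b0 b1 Q C y (odP Z * par _) (evP A) (Or.inr (ev_evP A))
    fun u => (ell_odP_par_le_loc Z _).trans (h' u)).trans
    (mul_le_mul_of_nonneg_left (hI _ (ell_evP_le A)) (by positivity))
  have k3 := (H' _ b0 b1 Q C y (odP Z * par _) (odP A) (od_mul_par (od_odP Z)) (od_odP A)
    fun u => (ell_odP_par_le_loc Z _).trans (h' u)).trans
    (mul_le_mul_of_nonneg_left (hI _ (ell_odP_le A)) (by positivity))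
  rw [acm_mul_par _ (od_odP A)] at k3
  have e2 : cm (odP Z * par _) (evP A) = cm (odP Z) (evP A) * par _ := by
    simp only [cm, sub_mul, mul_assoc, (ev_evP A).eq]
  rw [e2, Loc.norm_mul_par] at k2
  have e : A * Z - Z * A = -(cm (evP Z) A + (cm (odP Z) (evP A) + cm (odP Z) (odP A))) := by
    have e3 : cm (odP Z) (evP A) + cm (odP Z) (odP A) = cm (odP Z) A := by
      conv_rhs => rw [← evP_add_odP A]
      simp only [cm, mul_add, add_mul]; abel
    rw [e3]
    conv_lhs => rw [← evP_add_odP Z]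
    simp only [cm, mul_add, add_mul]; abel
  rw [e, norm_neg]
  have := norm_add_le (cm (evP Z) A) (cm (odP Z) (evP A) + cm (odP Z) (odP A))
  have := norm_add_le (cm (odP Z) (evP A)) (cm (odP Z) (odP A))
  linarith

end Crest.Agent.R340.Ls
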