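import Crest.Agent.R340.GeoLRo
import Crest.Agent.R340.LsMaster

/-! # The master commutator estimate on the sphere -/

set_option autoImplicit false

namespace Crest.Agent.R340.Pin

open Matrix MeasureTheory Crest.MathPhysics.Laughlin
open scoped Matrix.Norms.L2Operator MatrixOrder ComplexOrder ComplexConjugate

/-- MASTER: `Z` has small plain commutators with the fields far from `y`; `A` is arbitrary and is
tested with the dual fields (`Loc.ell A (coh Q u)` is `Fw.loc` for even, `Fw.gloc` for odd `A`). -/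
theorem master {α a : ℝ} (h0 : 0 < α) (h1 : α ≤ 1) (ha : 0 < a) (ha1 : a ≤ 1) :
    ∃ K : ℝ, 0 ≤ K ∧
    ∀ Q, 1 ≤ Q → ∀ (C : ℝ) (y : S2) (A Z : Fk (Q + 1)),
      (∀ z, Fw.loc (ca Q) Z z ≤ C * wt α a (dq Q y z)) →
      ‖A * Z - Z * A‖ ≤ K * C * ∫ u, wt α (a / 2) (dq Q y u) * Loc.ell A (coh Q u) ∂muq Q := by
  obtain ⟨K, hK, H⟩ := Ls.master_min h0 h1 ha
  rw [min_eq_left ha1] at H
  exact ⟨K, hK, fun Q _ => H Q⟩

end Crest.Agent.R340.Pin
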