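import Crest.Agent.R340.LocM

/-! # Corollaries of the master estimate -/

set_option autoImplicit false

namespace Crest.Agent.R340.Pin

open Matrix MeasureTheory Crest.MathPhysics.Laughlin
open scoped Matrix.Norms.L2Operator MatrixOrder ComplexOrder ComplexConjugate

theorem ell_coh_odd {Q : ℕ} {Y : Fk (Q + 1)} (hY : Loc.par (Q + 1) * Y = -(Y * Loc.par (Q + 1)))
    (u : S2) : Loc.ell Y (coh Q u) = Fw.gloc (ca Q) Y u := by
  rw [← ko_toSU, ell_ko_odd hY, hopf_toSU]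

theorem OL_iff_QL_par {Q : ℕ} {α a C : ℝ} {x : S2} {Y : Fk (Q + 1)} :
    OL Q α a C x Y ↔ QL Q α a C x (Y * Loc.par (Q + 1)) := by
  simp only [OL, QL, gloc_eq_loc_par, Loc.norm_mul_par]

/-- even `A`, plain commutators on both sides -/
theorem master_ev {α a : ℝ} (h0 : 0 < α) (h1 : α ≤ 1) (ha : 0 < a) (ha1 : a ≤ 1) :
    ∃ K : ℝ, 0 ≤ K ∧
    ∀ Q, 1 ≤ Q → ∀ (C : ℝ) (y : S2) (A Z : Fk (Q + 1)), Loc.Ev A →
      (∀ z, Fw.loc (ca Q) Z z ≤ C * wt α a (dq Q y z)) →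
      ‖A * Z - Z * A‖ ≤ K * C * ∫ u, wt α (a / 2) (dq Q y u) * Fw.loc (ca Q) A u ∂muq Q := by
  obtain ⟨K, hK, h⟩ := master h0 h1 ha ha1
  refine ⟨K, hK, fun Q hQ C y A Z hA hZ => ?_⟩
  simpa only [ell_coh hA] using h Q hQ C y A Z hZ

/-- even `A`, `Y` with small anticommutators -/
theorem master_ev' {α a : ℝ} (h0 : 0 < α) (h1 : α ≤ 1) (ha : 0 < a) (ha1 : a ≤ 1) :
    ∃ K : ℝ, 0 ≤ K ∧
    ∀ Q, 1 ≤ Q → ∀ (C : ℝ) (y : S2) (A Y : Fk (Q + 1)), Loc.Ev A →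
      (∀ z, Fw.gloc (ca Q) Y z ≤ C * wt α a (dq Q y z)) →
      ‖A * Y - Y * A‖ ≤ K * C * ∫ u, wt α (a / 2) (dq Q y u) * Fw.loc (ca Q) A u ∂muq Q := by
  obtain ⟨K, hK, h⟩ := master_ev h0 h1 ha ha1
  refine ⟨K, hK, fun Q hQ C y A Y hA hY => ?_⟩
  have := h Q hQ C y A (Y * Loc.par (Q + 1)) hA (by simpa only [gloc_eq_loc_par] using hY)
  rwa [mul_assoc Y, hA.eq, ← mul_assoc, ← mul_assoc, ← sub_mul, Loc.norm_mul_par] at this

/-- odd `A`, `Y` with small anticommutators -/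
theorem master_od {α a : ℝ} (h0 : 0 < α) (h1 : α ≤ 1) (ha : 0 < a) (ha1 : a ≤ 1) :
    ∃ K : ℝ, 0 ≤ K ∧
    ∀ Q, 1 ≤ Q → ∀ (C : ℝ) (y : S2) (A Y : Fk (Q + 1)),
      Loc.par (Q + 1) * A = -(A * Loc.par (Q + 1)) →
      (∀ z, Fw.gloc (ca Q) Y z ≤ C * wt α a (dq Q y z)) →
      ‖A * Y + Y * A‖ ≤ K * C * ∫ u, wt α (a / 2) (dq Q y u) * Fw.gloc (ca Q) A u ∂muq Q := by
  obtain ⟨K, hK, h⟩ := master h0 h1 ha ha1
  refine ⟨K, hK, fun Q hQ C y A Y hA hY => ?_⟩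
  have := h Q hQ C y A (Y * Loc.par (Q + 1)) (by simpa only [gloc_eq_loc_par] using hY)
  simp only [ell_coh_odd hA] at this
  rwa [mul_assoc Y, hA, mul_neg, sub_neg_eq_add, ← mul_assoc, ← mul_assoc, ← add_mul,
    Loc.norm_mul_par] at this

theorem loc_par_conj {Q : ℕ} (T : Fk (Q + 1)) (u : S2) :
    Fw.loc (ca Q) (Loc.par (Q + 1) * T * Loc.par (Q + 1)) u = Fw.loc (ca Q) T u := by
  have key : ∀ e : Fk (Q + 1), Loc.par (Q + 1) * e = -(e * Loc.par (Q + 1)) →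
      ‖Loc.par (Q + 1) * T * Loc.par (Q + 1) * e - e * (Loc.par (Q + 1) * T * Loc.par (Q + 1))‖ =
        ‖T * e - e * T‖ := by
    intro e he
    have he' : e * Loc.par (Q + 1) = -(Loc.par (Q + 1) * e) := by rw [he, neg_neg]
    have : Loc.par (Q + 1) * T * Loc.par (Q + 1) * e - e * (Loc.par (Q + 1) * T * Loc.par (Q + 1)) =
        -(Loc.par (Q + 1) * (T * e - e * T) * Loc.par (Q + 1)) := by
      have a1 : Loc.par (Q + 1) * T * Loc.par (Q + 1) * e =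
          -(Loc.par (Q + 1) * T * e * Loc.par (Q + 1)) := by
        rw [mul_assoc, he, mul_neg, ← mul_assoc]
      have a2 : e * (Loc.par (Q + 1) * T * Loc.par (Q + 1)) =
          -(Loc.par (Q + 1) * e * T * Loc.par (Q + 1)) := by
        rw [← mul_assoc, ← mul_assoc, he', neg_mul, neg_mul]
      rw [a1, a2]
      noncomm_ring
    rw [this, norm_neg, Loc.norm_mul_par, Loc.norm_par_mul]
  rw [Fw.loc, Fw.loc, key (ca Q u) (Loc.par_mul_cA _), key (star (ca Q u)) (Loc.par_mul_star_cA _)]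

/-- arbitrary `T` (plain commutators), odd `Y` -/
theorem master_any {α a : ℝ} (h0 : 0 < α) (h1 : α ≤ 1) (ha : 0 < a) (ha1 : a ≤ 1) :
    ∃ K : ℝ, 0 ≤ K ∧
    ∀ Q, 1 ≤ Q → ∀ (C : ℝ) (y : S2) (T Y : Fk (Q + 1)),
      Loc.par (Q + 1) * Y = -(Y * Loc.par (Q + 1)) →
      (∀ z, Fw.gloc (ca Q) Y z ≤ C * wt α a (dq Q y z)) →
      ‖T * Y - Y * T‖ ≤ K * C * ∫ u, wt α (a / 2) (dq Q y u) * Fw.loc (ca Q) T u ∂muq Q := by
  obtain ⟨K, hK, h⟩ := master_ev' h0 h1 ha ha1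
  obtain ⟨K', hK', h'⟩ := master_od h0 h1 ha ha1
  refine ⟨K + K', by positivity, fun Q hQ C y T Y hY hC => ?_⟩
  set θ := Loc.par (Q + 1) with hθ
  have θθ : θ * θ = 1 := Loc.par_mul_par
  have C0 : 0 ≤ C := nonneg_of_mul_nonneg_left
    ((add_nonneg (norm_nonneg _) (norm_nonneg _)).trans (hC y)) (Real.exp_pos _)
  set Te := (1 / 2 : ℂ) • (T + θ * T * θ) with hTe
  set To := (1 / 2 : ℂ) • (T - θ * T * θ) with hTo
  have e1 : θ * (θ * T * θ) = T * θ := by rw [← mul_assoc, ← mul_assoc, θθ, one_mul]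
  have e2 : θ * T * θ * θ = θ * T := by rw [mul_assoc, θθ, mul_one]
  have ev : Loc.Ev Te := by
    change θ * Te = Te * θ
    rw [hTe, mul_smul_comm, smul_mul_assoc, mul_add, add_mul, e1, e2, add_comm (θ * T)]
  have od : θ * To = -(To * θ) := by
    rw [hTo, mul_smul_comm, smul_mul_assoc, mul_sub, sub_mul, e1, e2, ← smul_neg, neg_sub]
  have od' : θ * (To * θ) = -(To * θ * θ) := by rw [← mul_assoc, od, neg_mul]
  have l1 : ∀ u, Fw.loc (ca Q) Te u ≤ Fw.loc (ca Q) T u := fun u => by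
    have := Fw.loc_add_le (ca Q) T (θ * T * θ) u
    rw [loc_par_conj] at this
    rw [hTe, Fw.loc_smul]
    norm_num
    linarith
  have l2 : ∀ u, Fw.gloc (ca Q) (To * θ) u ≤ Fw.loc (ca Q) T u := fun u => by
    have := Fw.loc_sub_le (ca Q) T (θ * T * θ) u
    rw [loc_par_conj] at this
    rw [gloc_eq_loc_par, mul_assoc, θθ, mul_one, hTo, Fw.loc_smul]
    norm_num
    linarith
  have mw : Measurable fun u => wt α (a / 2) (dq Q y u) := by
    have := h54_meas_dq Q y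
    unfold wt
    fun_prop
  have iw := integrable_mul_loc Q T mw (C := 1) fun u => by
    rw [wt, abs_of_pos (Real.exp_pos _)]
    exact Real.exp_le_one_iff.2 (neg_nonpos.2 (mul_nonneg (by positivity)
      (Real.rpow_nonneg (dq_nonneg _ _ _) _)))
  have mono : ∀ g : S2 → ℝ, (∀ u, 0 ≤ g u) → (∀ u, g u ≤ Fw.loc (ca Q) T u) →
      ∫ u, wt α (a / 2) (dq Q y u) * g u ∂muq Q ≤
        ∫ u, wt α (a / 2) (dq Q y u) * Fw.loc (ca Q) T u ∂muq Q := fun g g0 g1 =>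
    integral_mono_of_nonneg (Filter.Eventually.of_forall fun u =>
      mul_nonneg (Real.exp_pos _).le (g0 u)) iw (Filter.Eventually.of_forall fun u =>
        mul_le_mul_of_nonneg_left (g1 u) (Real.exp_pos _).le)
  have b1 := (h Q hQ C y Te Y ev hC).trans (mul_le_mul_of_nonneg_left
    (mono _ (Fw.loc_nonneg _ _) l1) (mul_nonneg hK C0))
  have b2 := (h' Q hQ C y (To * θ) Y od' hC).trans (mul_le_mul_of_nonneg_left
    (mono _ (fun u => add_nonneg (norm_nonneg _) (norm_nonneg _)) l2) (mul_nonneg hK' C0))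
  have e3 : To * θ * Y + Y * (To * θ) = -((To * Y - Y * To) * θ) := by
    rw [mul_assoc To, hY]
    noncomm_ring
  rw [e3, norm_neg, Loc.norm_mul_par] at b2
  have e4 : T * Y - Y * T = (Te * Y - Y * Te) + (To * Y - Y * To) := by
    have : T = Te + To := by
      rw [hTe, hTo, ← smul_add, add_add_sub_cancel, ← two_smul ℂ T, smul_smul]; norm_num
    conv_lhs => rw [this]
    noncomm_ring
  rw [e4, add_mul, add_mul]
  exact (norm_add_le _ _).trans (add_le_add b1 b2)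

theorem recon_of_master : ∃ cr : ℝ → ℝ, (∀ a, 0 ≤ cr a) ∧ ∀ q, 1 ≤ q → Recon cr q := by
  have h : ∀ a : ℝ, ∃ K : ℝ, 0 ≤ K ∧ (0 < a → a ≤ 1 → ∀ Q, 1 ≤ Q → ∀ (C : ℝ) (y : S2) (A Y : Fk (Q + 1)),
      Loc.Ev A → (∀ z, Fw.gloc (ca Q) Y z ≤ C * wt (1 / 2) a (dq Q y z)) →
      ‖A * Y - Y * A‖ ≤
        K * C * ∫ u, wt (1 / 2) (a / 2) (dq Q y u) * Fw.loc (ca Q) A u ∂muq Q) := by
    intro a
    by_cases ha : 0 < a ∧ a ≤ 1
    · obtain ⟨K, hK, h⟩ := master_ev' (α := 1 / 2) (by norm_num) (by norm_num) ha.1 ha.2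
      exact ⟨K, hK, fun _ _ => h⟩
    · exact ⟨0, le_rfl, fun h h' => absurd ⟨h, h'⟩ ha⟩
  choose cr h0 h using h
  refine ⟨cr, h0, fun q hq a ha ha1 y K Y A hA _ hY => ?_⟩
  simpa only [wt, ← Real.sqrt_eq_rpow, neg_mul] using h a ha ha1 q hq K y A Y (Loc.ev_of_numC hA)
    (by simpa only [wt, ← Real.sqrt_eq_rpow, neg_mul] using hY)

end Crest.Agent.R340.Pin
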