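import Crest.Agent.R340.LsEx

/-! # Row 340, module LOC on `S2`: approximation and the master commutator bounds -/

set_option autoImplicit false

namespace Crest.Agent.R340.Ls

open Matrix MeasureTheory Finset Crest.MathPhysics.Laughlin
open Loc (nv cA par dA cm Ev ell E1 EL)
open Pin (wt Sites)
open scoped Matrix.Norms.L2Operator MatrixOrder ComplexOrder

variable {α : ℝ}

theorem h41_wt_neg_mono (h0 : 0 ≤ α) {b s r : ℝ} (b0 : 0 ≤ b) (hs : 0 ≤ s) (h : s ≤ r) :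
    wt α (-b) s ≤ wt α (-b) r := by
  unfold wt
  have := mul_le_mul_of_nonneg_left (Real.rpow_le_rpow hs h h0) b0
  exact Real.exp_le_exp.2 (by linarith)

theorem h41_gauss (h0 : 0 < α) (h1 : α ≤ 1) {b r : ℝ} (b0 : 0 ≤ b) (b1 : b ≤ 1) (hr : 0 ≤ r)
    {j m : ℕ} (h : j ≤ m) :
    Real.exp (-(r - Real.sqrt j) ^ 2 / 2) ≤ 5 * (wt α (-b) (Real.sqrt m) * wt α b r) := by
  refine (gauss_wt h0 h1 b0 b1 hr (Real.sqrt_nonneg _)).trans ?_
  have := h41_wt_neg_mono h0.le b0 (Real.sqrt_nonneg (j : ℝ))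
    (Real.sqrt_le_sqrt (Nat.cast_le.2 h : (j : ℝ) ≤ m))
  exact mul_le_mul_of_nonneg_left (mul_le_mul_of_nonneg_right this (wt_pos _ _ _).le) (by norm_num)

/-- `ell_le_of_mem`, `nv_pj_coh`, `gauss_wt` -/
theorem isL_of_mem (h0 : 0 < α) (h1 : α ≤ 1) {a : ℝ} (a0 : 0 ≤ a) (a1 : a ≤ 1) {Q m : ℕ} {x : S2}
    {A : Fk (Q + 1)} (h : A ∈ Lc Q x m) :
    IsL Q α a (20 * (1 + m) * wt α (-a) (Real.sqrt m) * ‖A‖) x A := by
  have hm : (0 : ℝ) ≤ m := Nat.cast_nonneg m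
  have hA := norm_nonneg A
  have hw : 1 ≤ wt α (-a) (Real.sqrt m) := by
    unfold wt
    exact Real.one_le_exp (by
      have := mul_nonneg a0 (Real.rpow_nonneg (Real.sqrt_nonneg (m : ℝ)) α)
      linarith)
  refine ⟨le_mul_of_one_le_left hA (by nlinarith), fun u => ?_⟩
  have e1 : nv (pj Q x m (coh Q u)) ≤ m * (5 * (wt α (-a) (Real.sqrt m) * wt α a (dq Q x u))) := by
    refine (nv_pj_coh Q x u m).trans ?_
    have := sum_le_card_nsmul (range m) (fun j : ℕ => Real.exp (-(dq Q x u - Real.sqrt j) ^ 2 / 2))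
      _ fun j hj => h41_gauss h0 h1 a0 a1 (dq_nonneg Q x u) (mem_range.1 hj).le
    rwa [card_range, nsmul_eq_mul] at this
  have hp := mul_nonneg (mul_nonneg (zero_le_one.trans hw) (wt_pos α a (dq Q x u)).le) hA
  refine (ell_le_of_mem h _).trans ((mul_le_mul_of_nonneg_left e1 (by positivity)).trans ?_)
  nlinarith

/-- `norm_sub_Ex_le`, `ell_orN_le`, `int_ring_wt`, `sum_wt` (`(1 + √j)² ≤ 2 (2 + j)`) -/
theorem approx (h0 : 0 < α) (h1 : α ≤ 1) : ∃ (K : ℝ) (p : ℕ), 1 ≤ K ∧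
    ∀ (a a' : ℝ), 0 ≤ a' → a' < a → a ≤ 1 → ∀ (Q : ℕ) (C : ℝ) (x : S2) (A : Fk (Q + 1)),
      (∀ u, pf Q A u ≤ C * wt α a (dq Q x u)) → ∀ m : ℕ,
      ‖A - Ex Q x m A‖ ≤ K / (a - a') ^ p * C * wt α a' (Real.sqrt m) := by
  obtain ⟨K₁, hK₁, hr⟩ := int_ring_wt
  obtain ⟨K₂, p, hK₂, hs⟩ := sum_wt h0 1
  refine ⟨2 * K₁ * K₂, p, by nlinarith, fun a a' h2 h3 h4 Q C x A hA m => ?_⟩
  have hC : 0 ≤ C :=
    nonneg_of_mul_nonneg_left ((pf_nonneg A x).trans (hA x)) (wt_pos _ _ _)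
  have ha : |a| ≤ 1 := abs_le.2 ⟨by linarith, h4⟩
  have e : ∀ j : ℕ, ell A (orN Q x j) ≤
      2 * K₁ * C * ((2 + j : ℝ) ^ 1 * wt α a (Real.sqrt j)) := fun j => by
    have i1 : ell A (orN Q x j) ≤ C * ∫ u, Real.exp (-(dq Q x u - Real.sqrt j) ^ 2 / 2) *
        wt α a (dq Q x u) ∂muq Q := by
      rw [← integral_const_mul]
      refine (ell_orN_le A x j).trans (integral_mono_of_nonneg
        (Filter.Eventually.of_forall fun u => mul_nonneg (Real.exp_pos _).le (pf_nonneg A u))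
        ((integrable_dq (F := fun r => Real.exp (-(r - Real.sqrt j) ^ 2 / 2) * wt α a r)
          ((by fun_prop : Continuous fun r : ℝ => Real.exp (-(r - Real.sqrt j) ^ 2 / 2)).mul
            (continuous_wt h0 a)) Q x).const_mul C)
        (Filter.Eventually.of_forall fun u => ?_))
      exact (mul_le_mul_of_nonneg_left (hA u) (Real.exp_pos _).le).trans_eq (by ring)
    have i2 := hr α a h0 h1 ha Q x _ (Real.sqrt_nonneg (j : ℝ))
    have i3 : (1 + Real.sqrt j) ^ 2 ≤ 2 * (2 + j : ℝ) := by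
      have := Real.sq_sqrt (Nat.cast_nonneg j : (0 : ℝ) ≤ j)
      nlinarith [sq_nonneg (Real.sqrt j - 1)]
    have i4 : K₁ * (1 + Real.sqrt j) ^ 2 * wt α a (Real.sqrt j) ≤
        K₁ * (2 * (2 + j : ℝ)) * wt α a (Real.sqrt j) :=
      mul_le_mul_of_nonneg_right (mul_le_mul_of_nonneg_left i3 (by linarith)) (wt_pos _ _ _).le
    exact (i1.trans (mul_le_mul_of_nonneg_left (i2.trans i4) hC)).trans_eq (by ring)
  refine (norm_sub_Ex_le x m A).trans ((sum_le_sum fun j _ => e j).trans ?_)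
  rw [← mul_sum]
  exact (mul_le_mul_of_nonneg_left (hs a a' h2 h3 h4 m (Q + 1))
    (mul_nonneg (by linarith) hC)).trans_eq (by ring)

theorem h41_wt_succ (h0 : 0 < α) (h1 : α ≤ 1) {a : ℝ} (a0 : 0 ≤ a) (a1 : a ≤ 1) (m : ℕ) :
    wt α a (Real.sqrt m) ≤ 3 * wt α a (Real.sqrt (m + 1)) := by
  have hm : (0 : ℝ) ≤ m := Nat.cast_nonneg m
  have e1 : Real.sqrt (m + 1) ≤ Real.sqrt m + 1 := by
    refine Real.sqrt_le_iff.2 ⟨by positivity, ?_⟩
    nlinarith [Real.sq_sqrt hm, Real.sqrt_nonneg (m : ℝ)]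
  have e2 : Real.sqrt (m + 1) ^ α ≤ Real.sqrt m ^ α + 1 := by
    refine (Real.rpow_le_rpow (Real.sqrt_nonneg _) e1 h0.le).trans ?_
    have := Real.rpow_add_le_add_rpow (Real.sqrt_nonneg (m : ℝ)) zero_le_one h0.le h1
    rwa [Real.one_rpow] at this
  have e3 : Real.exp 1 ≤ 3 := Real.exp_one_lt_three.le
  refine le_trans ?_ (mul_le_mul_of_nonneg_right e3 (wt_pos _ _ _).le)
  unfold wt
  rw [← Real.exp_add]
  exact Real.exp_le_exp.2 (by nlinarith [mul_le_mul_of_nonneg_left e2 a0])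

/-- the increments; `√(m+1) ^ α ≤ √m ^ α + 1` -/
theorem incr (h0 : 0 < α) (h1 : α ≤ 1) : ∃ (K : ℝ) (p : ℕ), 1 ≤ K ∧
    ∀ (a a' : ℝ), 0 ≤ a' → a' < a → a ≤ 1 → ∀ (Q : ℕ) (C : ℝ) (x : S2) (A : Fk (Q + 1)),
      (∀ u, pf Q A u ≤ C * wt α a (dq Q x u)) → ∀ m : ℕ,
      ‖Ex Q x (m + 1) A - Ex Q x m A‖ ≤ K / (a - a') ^ p * C * wt α a' (Real.sqrt (m + 1)) := by
  obtain ⟨K, p, hK, h⟩ := approx h0 h1
  refine ⟨4 * K, p, by linarith, fun a a' h2 h3 h4 Q C x A hA m => ?_⟩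
  have hC : 0 ≤ C :=
    nonneg_of_mul_nonneg_left ((pf_nonneg A x).trans (hA x)) (wt_pos _ _ _)
  have hd : 0 ≤ K / (a - a') ^ p * C :=
    mul_nonneg (div_nonneg (by linarith) (pow_nonneg (by linarith) _)) hC
  have e1 := h a a' h2 h3 h4 Q C x A hA m
  have e2 := h a a' h2 h3 h4 Q C x A hA (m + 1)
  rw [Nat.cast_succ] at e2
  have e3 := mul_le_mul_of_nonneg_left (h41_wt_succ h0 h1 h2 (by linarith) m) hd
  have e : Ex Q x (m + 1) A - Ex Q x m A = (A - Ex Q x m A) - (A - Ex Q x (m + 1) A) := by abel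
  rw [e]
  refine (norm_sub_le _ _).trans ((add_le_add (e1.trans e3) e2).trans_eq (by ring))

theorem apxB_wt (h0 : 0 < α) (h1 : α ≤ 1) {b : ℝ} (b0 : 0 ≤ b) (b1 : b ≤ 1) (m : ℕ) :
    wt α (-b) (Real.sqrt (m + 1 : ℕ)) ≤ 3 * wt α (-b) (Real.sqrt m) := by
  have e1 : Real.sqrt (m + 1 : ℕ) ≤ Real.sqrt m + 1 := by
    rw [Real.sqrt_le_left (by positivity)]
    push_cast
    nlinarith [Real.sq_sqrt (Nat.cast_nonneg (α := ℝ) m), Real.sqrt_nonneg (m : ℝ)]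
  have e2 : Real.sqrt (m + 1 : ℕ) ^ α ≤ Real.sqrt m ^ α + 1 := by
    refine (Real.rpow_le_rpow (Real.sqrt_nonneg _) e1 h0.le).trans ?_
    simpa using Real.rpow_add_le_add_rpow (Real.sqrt_nonneg (m : ℝ)) zero_le_one h0.le h1
  have e3 : -(-b * Real.sqrt (m + 1 : ℕ) ^ α) ≤ 1 + -(-b * Real.sqrt m ^ α) := by
    nlinarith [mul_le_mul_of_nonneg_left e2 b0]
  unfold wt
  refine (Real.exp_le_exp.2 e3).trans ?_
  rw [Real.exp_add]
  exact mul_le_mul_of_nonneg_right (by linarith [Real.exp_one_lt_d9]) (Real.exp_pos _).le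

theorem apxB_mem {Q : ℕ} (x : S2) (m : ℕ) (A : Fk (Q + 1)) :
    Ex Q x (m + 1) A - Ex Q x m A ∈ Lc Q x (m + 1) :=
  sub_mem (Ex_mem x _ A) (Lc_mono x (Nat.le_succ m) (Ex_mem x m A))

/-- `exists_telescope`, `norm_sub_Ex_le_two`, `isL_of_mem` for the increments, `sum_wt` -/
theorem isL_of_approx (h0 : 0 < α) (h1 : α ≤ 1) : ∃ (K : ℝ) (p : ℕ), 1 ≤ K ∧
    ∀ (a a' : ℝ), 0 ≤ a' → a' < a → a ≤ 1 → ∀ (Q : ℕ) (C : ℝ) (x : S2) (A : Fk (Q + 1)),
      ‖A‖ ≤ C → (∀ m : ℕ, ∃ B ∈ Lc Q x m, ‖A - B‖ ≤ C * wt α a (Real.sqrt m)) →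
      IsL Q α a' (K / (a - a') ^ p * C) x A := by
  obtain ⟨K, p, hK, hs⟩ := sum_wt h0 1
  refine ⟨240 * K, p, by linarith, fun a a' a0 haa a1 Q C x A hA h => ?_⟩
  have hC : 0 ≤ C := (norm_nonneg _).trans hA
  have hd : 0 < a - a' := sub_pos.2 haa
  have h2 : ∀ m : ℕ, ‖A - Ex Q x m A‖ ≤ 2 * (C * wt α a (Real.sqrt m)) := fun m => by
    obtain ⟨B, hB, hB'⟩ := h m
    exact (norm_sub_Ex_le_two hB A).trans (by linarith)
  refine ⟨hA.trans (le_mul_of_one_le_left hC ?_), fun u => ?_⟩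
  · rw [le_div_iff₀ (pow_pos hd p)]
    linarith [pow_le_one₀ (n := p) hd.le (by linarith)]
  have key : ∀ m : ℕ, ell (Ex Q x (m + 1) A - Ex Q x m A) (coh Q u) ≤
      240 * C * wt α a' (dq Q x u) * ((2 + m : ℝ) ^ 1 * wt α (a - a') (Real.sqrt m)) := fun m => by
    have k1 : ‖Ex Q x (m + 1) A - Ex Q x m A‖ ≤ 4 * (C * wt α a (Real.sqrt m)) := by
      have e : Ex Q x (m + 1) A - Ex Q x m A = (A - Ex Q x m A) - (A - Ex Q x (m + 1) A) := by abel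
      have := mul_le_mul_of_nonneg_left (wt_anti_right (a := a) h0.le (by linarith)
        (Real.sqrt_nonneg _) (Real.sqrt_le_sqrt (Nat.cast_le.2 (Nat.le_succ m)))) hC
      rw [e]
      linarith [norm_sub_le (A - Ex Q x m A) (A - Ex Q x (m + 1) A), h2 m, h2 (m + 1)]
    have k2 := apxB_wt h0 h1 a0 (by linarith) m
    have k3 := wt_pos α (-a') (Real.sqrt m)
    have k4 := wt_pos α a' (dq Q x u)
    refine ((isL_of_mem h0 h1 a0 (by linarith) (apxB_mem x m A)).2 u).trans ?_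
    calc _ ≤ 20 * (1 + ((m + 1 : ℕ) : ℝ)) * (3 * wt α (-a') (Real.sqrt m)) *
          (4 * (C * wt α a (Real.sqrt m))) * wt α a' (dq Q x u) := by gcongr
      _ = _ := by
          rw [sub_eq_add_neg a a', wt_add]
          push_cast
          ring
  obtain ⟨z, hz⟩ := exists_telescope x A
  have h3 := hs (a - a') 0 le_rfl hd (by linarith) 0 (Q + 1)
  rw [sub_zero, Nat.cast_zero, Real.sqrt_zero, wt_zero h0, mul_one, ← range_eq_Ico] at h3
  unfold pf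
  calc ell A (coh Q u)
      ≤ ∑ m ∈ range (Q + 1), ell (Ex Q x (m + 1) A - Ex Q x m A) (coh Q u) := by
        conv_lhs => rw [hz]
        refine (Loc.ell_add _ _ _).trans ?_
        rw [Loc.ell_smul, Loc.ell_one, mul_zero, zero_add]
        exact Loc.ell_sum _ _ _
    _ ≤ 240 * C * wt α a' (dq Q x u) * (K / (a - a') ^ p) := by
        refine (sum_le_sum fun m _ => key m).trans ?_
        rw [← mul_sum]
        exact mul_le_mul_of_nonneg_left h3 (mul_nonneg (by positivity) (wt_pos _ _ _).le)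
    _ = _ := by ring

/-- the kernel of `Σ_{j ≤ m} ell B (orN x j)`: `ell_orN_le`, `gauss_wt` -/
theorem sum_ell_orN_le (h0 : 0 < α) (h1 : α ≤ 1) {b : ℝ} (b0 : 0 ≤ b) (b1 : b ≤ 1) {Q : ℕ} (x : S2)
    (B : Fk (Q + 1)) (m : ℕ) : ∑ j ∈ range m, ell B (orN Q x j) ≤
      5 * m * wt α (-b) (Real.sqrt m) * ∫ w, wt α b (dq Q x w) * pf Q B w ∂muq Q := by
  have e : ∀ j ∈ range m, ell B (orN Q x j) ≤
      5 * wt α (-b) (Real.sqrt m) * ∫ w, wt α b (dq Q x w) * pf Q B w ∂muq Q := fun j hj => by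
    rw [← integral_const_mul]
    refine (ell_orN_le B x j).trans (integral_mono_of_nonneg
      (Filter.Eventually.of_forall fun u => mul_nonneg (Real.exp_pos _).le (pf_nonneg B u))
      ((integrable_mul_pf B (continuous_wt h0 b) x).const_mul _)
      (Filter.Eventually.of_forall fun u => ?_))
    exact (mul_le_mul_of_nonneg_right (h41_gauss h0 h1 b0 b1 (dq_nonneg Q x u)
      (mem_range.1 hj).le) (pf_nonneg B u)).trans_eq (by ring)
  have := sum_le_card_nsmul (range m) _ _ e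
  rw [card_range, nsmul_eq_mul] at this
  exact this.trans_eq (by ring)

theorem h89_sum (h0 : 0 < α) (h1 : α ≤ 1) : ∃ (K : ℝ) (p : ℕ), 1 ≤ K ∧
    ∀ (a : ℝ), 0 < a → a ≤ 1 → ∀ (Q : ℕ) (C : ℝ) (x : S2) (D B : Fk (Q + 1)),
      (∀ u, pf Q D u ≤ C * wt α a (dq Q x u)) →
      ∑ m ∈ range (Q + 1), 2 * ‖Ex Q x (m + 1) D - Ex Q x m D‖ *
          ∑ j ∈ range (m + 1), ell B (orN Q x j) ≤
        K / a ^ p * C * ∫ w, wt α (3 * a / 4) (dq Q x w) * pf Q B w ∂muq Q := by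
  obtain ⟨K1, p1, hK1, H1⟩ := incr h0 h1
  obtain ⟨K2, p2, hK2, H2⟩ := sum_wt h0 1
  refine ⟨10 * K1 * K2 * 8 ^ (p1 + p2), p1 + p2, ?_, fun a ha ha1 Q C x D B hD => ?_⟩
  · have h8 : (1 : ℝ) ≤ 8 ^ (p1 + p2) := one_le_pow₀ (by norm_num)
    exact one_le_mul_of_one_le_of_one_le (one_le_mul_of_one_le_of_one_le (by linarith) hK2) h8
  have hC : 0 ≤ C := (mul_nonneg_iff_of_pos_right (wt_pos _ _ _)).1 ((pf_nonneg D x).trans (hD x))
  have hI : 0 ≤ ∫ w, wt α (3 * a / 4) (dq Q x w) * pf Q B w ∂muq Q :=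
    integral_nonneg fun w => mul_nonneg (wt_pos _ _ _).le (pf_nonneg B w)
  have hS := fun m => sum_ell_orN_le h0 h1 (b := 3 * a / 4) (by positivity) (by linarith) x B m
  generalize ∫ w, wt α (3 * a / 4) (dq Q x w) * pf Q B w ∂muq Q = I at hI hS ⊢
  have k1 : ∀ m ∈ range (Q + 1), 2 * ‖Ex Q x (m + 1) D - Ex Q x m D‖ *
        ∑ j ∈ range (m + 1), ell B (orN Q x j) ≤
      (10 * (K1 / (a / 8) ^ p1) * C * I) *
        ((2 + ((m + 1 : ℕ) : ℝ)) ^ 1 * wt α (a / 8) (Real.sqrt ((m + 1 : ℕ) : ℝ))) := by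
    intro m _
    have e1 := H1 a (7 * a / 8) (by positivity) (by linarith) ha1 Q C x D hD m
    have e2 := hS (m + 1)
    rw [show a - 7 * a / 8 = a / 8 by ring, ← Nat.cast_succ] at e1
    have e3 : wt α (a / 8) (Real.sqrt ((m + 1 : ℕ) : ℝ)) =
        wt α (7 * a / 8) (Real.sqrt ((m + 1 : ℕ) : ℝ)) *
          wt α (-(3 * a / 4)) (Real.sqrt ((m + 1 : ℕ) : ℝ)) := by
      rw [← wt_add]; congr 1; ring
    have w1 := wt_pos α (7 * a / 8) (Real.sqrt ((m + 1 : ℕ) : ℝ))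
    have w2 := wt_pos α (-(3 * a / 4)) (Real.sqrt ((m + 1 : ℕ) : ℝ))
    have e4 : 5 * ((m + 1 : ℕ) : ℝ) * wt α (-(3 * a / 4)) (Real.sqrt ((m + 1 : ℕ) : ℝ)) * I ≤
        5 * (2 + ((m + 1 : ℕ) : ℝ)) * wt α (-(3 * a / 4)) (Real.sqrt ((m + 1 : ℕ) : ℝ)) * I := by
      gcongr
      linarith
    refine (mul_le_mul (mul_le_mul_of_nonneg_left e1 (by norm_num)) (e2.trans e4)
      (Finset.sum_nonneg fun j _ => Loc.ell_nonneg _ _) (by positivity)).trans (le_of_eq ?_)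
    rw [e3]
    ring
  have k2 := H2 (a / 8) 0 le_rfl (by positivity) (by linarith) 0 (Q + 1 + 1)
  rw [← range_eq_Ico, sum_range_succ', sub_zero, show wt α 0 (Real.sqrt ((0 : ℕ) : ℝ)) = 1 by
    simp [wt], mul_one] at k2
  have k3 : 0 ≤ (2 + ((0 : ℕ) : ℝ)) ^ 1 * wt α (a / 8) (Real.sqrt ((0 : ℕ) : ℝ)) :=
    mul_nonneg (by positivity) (wt_pos _ _ _).le
  refine (sum_le_sum k1).trans ?_
  rw [← mul_sum]
  refine (mul_le_mul_of_nonneg_left (le_trans (le_add_of_nonneg_right k3) k2)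
    (by positivity)).trans (le_of_eq ?_)
  rw [div_pow, div_pow, pow_add, pow_add]
  field_simp

theorem h89_incr_mem {Q : ℕ} (x : S2) (m : ℕ) (D : Fk (Q + 1)) :
    Ex Q x (m + 1) D - Ex Q x m D ∈ Lc Q x (m + 1) :=
  sub_mem (Ex_mem x _ D) (Lc_mono x (Nat.le_succ m) (Ex_mem x m D))

/-- MASTER LEMMA M1 (reconstruction).  `exists_telescope` for `D`, `norm_cm_le_of_Lc` for the
increments, `incr` with `a' = 7 a / 8`, `sum_ell_orN_le` with `b = 3 a / 4`, `sum_wt`. -/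
theorem norm_cm_le_int (h0 : 0 < α) (h1 : α ≤ 1) : ∃ (K : ℝ) (p : ℕ), 1 ≤ K ∧
    ∀ (a : ℝ), 0 < a → a ≤ 1 → ∀ (Q : ℕ) (C : ℝ) (x : S2) (D B : Fk (Q + 1)), Ev D ∨ Ev B →
      (∀ u, pf Q D u ≤ C * wt α a (dq Q x u)) →
      ‖cm D B‖ ≤ K / a ^ p * C * ∫ w, wt α (3 * a / 4) (dq Q x w) * pf Q B w ∂muq Q := by
  obtain ⟨K, p, hK, H⟩ := h89_sum h0 h1
  refine ⟨K, p, hK, fun a ha ha1 Q C x D B he hD => le_trans ?_ (H a ha ha1 Q C x D B hD)⟩
  obtain ⟨z, hz⟩ := exists_telescope x D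
  have e : cm D B = ∑ m ∈ range (Q + 1), cm (Ex Q x (m + 1) D - Ex Q x m D) B := by
    conv_lhs => rw [hz]
    simp only [cm, add_mul, mul_add, smul_mul_assoc, mul_smul_comm, one_mul, mul_one, sum_mul,
      mul_sum, sum_sub_distrib (fun m => (Ex Q x (m + 1) D - Ex Q x m D) * B)]
    abel
  rw [e]
  refine norm_sum_le_of_le _ fun m _ => ?_
  rw [Loc.norm_cm_symm]
  exact norm_cm_le_of_Lc (h89_incr_mem x m D)
    (he.symm.imp id fun h => (ev_Ex h x _).sub (ev_Ex h x _))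

/-- MASTER LEMMA M2.  The same with `norm_cm_cm_le_of_Lc`, `nv_pj_coh`, `b = 3 a / 8` twice. -/
theorem norm_cm_cm_le_int (h0 : 0 < α) (h1 : α ≤ 1) : ∃ (K : ℝ) (p : ℕ), 1 ≤ K ∧
    ∀ (a : ℝ), 0 < a → a ≤ 1 → ∀ (Q : ℕ) (C : ℝ) (x u : S2) (D A : Fk (Q + 1)), Ev D →
      (∀ u, pf Q D u ≤ C * wt α a (dq Q x u)) →
      ‖cm A (cm D (dA (coh Q u)))‖ + ‖cm A (cm D (star (dA (coh Q u))))‖ ≤
        K / a ^ p * C * wt α (3 * a / 8) (dq Q x u) *
          ∫ w, wt α (3 * a / 8) (dq Q x w) * pf Q A w ∂muq Q := by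
  obtain ⟨K1, p1, hK1, hi⟩ := incr h0 h1
  obtain ⟨K2, p2, hK2, hs⟩ := sum_wt h0 2
  refine ⟨200 * K1 * K2 * 8 ^ (p1 + p2), p1 + p2, ?_, fun a a0 a1 Q C x u D A hD h => ?_⟩
  · have : (1 : ℝ) ≤ 8 ^ (p1 + p2) := one_le_pow₀ (by norm_num)
    calc (1 : ℝ) ≤ 200 * 1 * 1 * 1 := by norm_num
      _ ≤ _ := by gcongr
  have hC : 0 ≤ C := nonneg_of_mul_nonneg_left ((pf_nonneg D u).trans (h u)) (wt_pos _ _ _)
  have b0 : 0 ≤ 3 * a / 8 := by linarith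
  have b1 : 3 * a / 8 ≤ 1 := by linarith
  obtain ⟨I, hI⟩ : ∃ I, ∫ w, wt α (3 * a / 8) (dq Q x w) * pf Q A w ∂muq Q = I := ⟨_, rfl⟩
  have hI0 : 0 ≤ I := hI ▸ integral_nonneg fun w => mul_nonneg (wt_pos _ _ _).le (pf_nonneg A w)
  rw [hI]
  have k4 := wt_pos α (3 * a / 8) (dq Q x u)
  have key : ∀ m : ℕ, ‖cm A (cm (Ex Q x (m + 1) D - Ex Q x m D) (dA (coh Q u)))‖ +
      ‖cm A (cm (Ex Q x (m + 1) D - Ex Q x m D) (star (dA (coh Q u))))‖ ≤
      200 * (K1 / (a / 8) ^ p1) * C * wt α (3 * a / 8) (dq Q x u) * I *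
        ((2 + m : ℝ) ^ 2 * wt α (a / 8) (Real.sqrt m)) := fun m => by
    have k1 := hi a (7 * a / 8) (by linarith) (by linarith) a1 Q C x D h m
    rw [show a - 7 * a / 8 = a / 8 by ring, ← Nat.cast_succ] at k1
    have k2 := sum_ell_orN_le h0 h1 b0 b1 x A (m + 1)
    rw [hI] at k2
    have k3 : nv (pj Q x (m + 1) (coh Q u)) ≤ ((m + 1 : ℕ) : ℝ) *
        (5 * (wt α (-(3 * a / 8)) (Real.sqrt (m + 1 : ℕ)) * wt α (3 * a / 8) (dq Q x u))) := by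
      refine (nv_pj_coh Q x u _).trans ((sum_le_card_nsmul _ _ _ fun j hj => ?_).trans_eq
        (by rw [card_range, nsmul_eq_mul]))
      refine (gauss_wt h0 h1 b0 b1 (dq_nonneg Q x u) (Real.sqrt_nonneg _)).trans ?_
      have : wt α (-(3 * a / 8)) (Real.sqrt j) ≤ wt α (-(3 * a / 8)) (Real.sqrt (m + 1 : ℕ)) := by
        unfold wt
        rw [neg_mul, neg_mul, neg_neg, neg_neg]
        have := (mem_range.1 hj).le
        gcongr
      gcongr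
    have k5 := wt_pos α (7 * a / 8) (Real.sqrt (m + 1 : ℕ))
    have k6 := wt_pos α (-(3 * a / 8)) (Real.sqrt (m + 1 : ℕ))
    have k7 : wt α (a / 8) (Real.sqrt (m + 1 : ℕ)) ≤ wt α (a / 8) (Real.sqrt m) :=
      wt_anti_right h0.le (by linarith) (Real.sqrt_nonneg _)
        (Real.sqrt_le_sqrt (Nat.cast_le.2 (Nat.le_succ m)))
    have k8 := wt_pos α (a / 8) (Real.sqrt (m + 1 : ℕ))
    have k9 : 0 ≤ ∑ j ∈ range (m + 1), ell A (orN Q x j) :=
      sum_nonneg fun j _ => Loc.ell_nonneg _ _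
    have k10 := Loc.nv_nonneg (pj Q x (m + 1) (coh Q u))
    have k11 : wt α (a / 8) (Real.sqrt (m + 1 : ℕ)) = wt α (7 * a / 8) (Real.sqrt (m + 1 : ℕ)) *
        wt α (-(3 * a / 8)) (Real.sqrt (m + 1 : ℕ)) * wt α (-(3 * a / 8)) (Real.sqrt (m + 1 : ℕ)) := by
      rw [← wt_add, ← wt_add]
      congr 1
      ring
    refine (norm_cm_cm_le_of_Lc (apxB_mem x m D) ((ev_Ex hD x _).sub (ev_Ex hD x _)) A _).trans ?_
    calc _ ≤ 8 * (K1 / (a / 8) ^ p1 * C * wt α (7 * a / 8) (Real.sqrt (m + 1 : ℕ))) *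
          (((m + 1 : ℕ) : ℝ) *
            (5 * (wt α (-(3 * a / 8)) (Real.sqrt (m + 1 : ℕ)) * wt α (3 * a / 8) (dq Q x u)))) *
          (5 * ((m + 1 : ℕ) : ℝ) * wt α (-(3 * a / 8)) (Real.sqrt (m + 1 : ℕ)) * I) := by gcongr
      _ = 200 * (K1 / (a / 8) ^ p1) * C * wt α (3 * a / 8) (dq Q x u) * I *
          (((m + 1 : ℕ) : ℝ) ^ 2 * wt α (a / 8) (Real.sqrt (m + 1 : ℕ))) := by
          rw [k11]
          ring
      _ ≤ _ := mul_le_mul_of_nonneg_left (mul_le_mul (pow_le_pow_left₀ (by positivity)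
          (by push_cast; linarith) 2) k7 k8.le (by positivity)) (by positivity)
  obtain ⟨z, hz⟩ := exists_telescope x D
  have h3 := hs (a / 8) 0 le_rfl (by linarith) (by linarith) 0 (Q + 1)
  rw [sub_zero, Nat.cast_zero, Real.sqrt_zero, wt_zero h0, mul_one, ← range_eq_Ico] at h3
  have h4 : ∀ Y, ‖cm A (cm D Y)‖ ≤
      ∑ m ∈ range (Q + 1), ‖cm A (cm (Ex Q x (m + 1) D - Ex Q x m D) Y)‖ := fun Y => by
    refine le_of_eq_of_le (congrArg norm ?_) (norm_sum_le _ _)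
    conv_lhs => rw [hz]
    simp only [cm, add_mul, mul_add, smul_mul_assoc, mul_smul_comm, one_mul, mul_one,
      add_sub_add_left_eq_sub, sum_mul, mul_sum, ← sum_sub_distrib]
  calc _ ≤ 200 * (K1 / (a / 8) ^ p1) * C * wt α (3 * a / 8) (dq Q x u) * I * (K2 / (a / 8) ^ p2) := by
        refine (add_le_add (h4 _) (h4 _)).trans ?_
        rw [← sum_add_distrib]
        refine (sum_le_sum fun m _ => key m).trans ?_
        rw [← mul_sum]
        exact mul_le_mul_of_nonneg_left h3 (by positivity)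
    _ = _ := by
        simp only [div_pow, pow_add]
        field_simp

theorem h89_odd_E1 {n : ℕ} {θ d X : Fk n} (h1 : θ * d = -(d * θ))
    (h2 : θ * star d = -(star d * θ)) (hX : θ * X = -(X * θ)) :
    θ * E1 d X = -(E1 d X * θ) := by
  have hg : θ * (d + star d) = -((d + star d) * θ) := by rw [mul_add, add_mul, h1, h2, neg_add]
  have hk : θ * (d - star d) = -((d - star d) * θ) := by
    rw [mul_sub, sub_mul, h1, h2, neg_sub', sub_neg_eq_add]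
  rw [E1, h59_star_h]
  generalize d + star d = g at hg
  generalize d - star d = k at hk
  have a1 : ∀ Z, θ * (g * Z) = -(g * (θ * Z)) := fun Z => by
    rw [← mul_assoc, hg, neg_mul, mul_assoc]
  have a2 : ∀ Z, θ * (k * Z) = -(k * (θ * Z)) := fun Z => by
    rw [← mul_assoc, hk, neg_mul, mul_assoc]
  have a3 : ∀ Z, θ * (X * Z) = -(X * (θ * Z)) := fun Z => by
    rw [← mul_assoc, hX, neg_mul, mul_assoc]
  rw [mul_smul_comm, smul_mul_assoc, ← smul_neg]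
  congr 1
  simp only [mul_add, add_mul, mul_assoc, mul_neg, neg_mul, a1, a2, a3, hg, hk, hX, neg_neg,
    neg_add]

theorem h89_odd_Ex {Q : ℕ} {D : Fk (Q + 1)} (h : par (Q + 1) * D = -(D * par (Q + 1))) (x : S2)
    (m : ℕ) : par (Q + 1) * Ex Q x m D = -(Ex Q x m D * par (Q + 1)) := by
  refine x91_ind (fun X => par (Q + 1) * X = -(X * par (Q + 1))) _ (fun d hd X hX => ?_) h
  obtain ⟨j, -, rfl, -⟩ := x91_mem hd
  exact h89_odd_E1 (Loc.h19_par_dA _) (Loc.h19_par_star_dA _) hX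

theorem h89_half {n : ℕ} {Y : Fk n} (h : Y = -Y) : Y = 0 := by
  have e2 : (2 : ℂ) • Y = 0 := by rw [two_smul]; nth_rewrite 1 [h]; exact neg_add_cancel _
  exact (smul_eq_zero.1 e2).resolve_left two_ne_zero

theorem h89_acm {Q m : ℕ} {x : S2} {A B : Fk (Q + 1)} (h : A ∈ Lc Q x m)
    (hA : par (Q + 1) * A = -(A * par (Q + 1))) (hB : par (Q + 1) * B = -(B * par (Q + 1))) :
    ‖A * B + B * A‖ ≤ 2 * ‖A‖ * ∑ j ∈ range m, ell B (orN Q x j) := by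
  have pp : par (Q + 1) * par (Q + 1) = 1 := Loc.par_mul_par
  have hm : A * par (Q + 1) ∈ Ld Q x m := by
    obtain ⟨X₀, -, X₁, h₁, e₀, e₁, rfl⟩ := h17_split h
    rw [mul_add, add_mul, e₀, ← mul_assoc, e₁, neg_mul, neg_add, add_left_inj] at hA
    rw [add_mul, h89_half hA, zero_add, mul_assoc, pp, mul_one]
    exact h₁
  have k := norm_cm_le_of_Ld hm B
  have e : cm B (A * par (Q + 1)) = (A * B + B * A) * par (Q + 1) := by
    rw [cm, mul_assoc A, hB, mul_neg, sub_neg_eq_add, add_mul, mul_assoc, mul_assoc]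
    exact add_comm _ _
  rwa [e, Loc.norm_mul_par, Loc.norm_mul_par] at k

/-- M1 for anticommutators of odd operators: the increments `δ` of `D` are odd, `z = 0`,
`δ θ ∈ Ld` and `cm B (δ θ) = (B δ + δ B) θ`; `norm_cm_le_of_Ld` -/
theorem norm_acm_le_int (h0 : 0 < α) (h1 : α ≤ 1) : ∃ (K : ℝ) (p : ℕ), 1 ≤ K ∧
    ∀ (a : ℝ), 0 < a → a ≤ 1 → ∀ (Q : ℕ) (C : ℝ) (x : S2) (D B : Fk (Q + 1)),
      par (Q + 1) * D = -(D * par (Q + 1)) → par (Q + 1) * B = -(B * par (Q + 1)) →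
      (∀ u, pf Q D u ≤ C * wt α a (dq Q x u)) →
      ‖D * B + B * D‖ ≤ K / a ^ p * C * ∫ w, wt α (3 * a / 4) (dq Q x w) * pf Q B w ∂muq Q := by
  obtain ⟨K, p, hK, H⟩ := h89_sum h0 h1
  refine ⟨K, p, hK, fun a ha ha1 Q C x D B hD hB hp => le_trans ?_ (H a ha ha1 Q C x D B hp)⟩
  have pp : par (Q + 1) * par (Q + 1) = 1 := Loc.par_mul_par
  have e0 : Ex Q x 0 D = 0 := by
    obtain ⟨z, hz⟩ := exists_of_mem_Lc_zero (Ex_mem x 0 D)
    have k := h89_odd_Ex hD x 0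
    rw [hz, mul_smul_comm, smul_mul_assoc, mul_one, one_mul] at k
    rw [hz, ← pp, ← smul_mul_assoc, h89_half k, zero_mul]
  have hz : D = ∑ m ∈ range (Q + 1), (Ex Q x (m + 1) D - Ex Q x m D) := by
    rw [Finset.sum_range_sub (fun m => Ex Q x m D), Ex_top x (Nat.lt_succ_self Q), e0, sub_zero]
  have e : D * B + B * D = ∑ m ∈ range (Q + 1), ((Ex Q x (m + 1) D - Ex Q x m D) * B +
      B * (Ex Q x (m + 1) D - Ex Q x m D)) := by
    rw [sum_add_distrib, ← sum_mul, ← mul_sum, ← hz]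
  rw [e]
  refine norm_sum_le_of_le _ fun m _ => h89_acm (h89_incr_mem x m D) ?_ hB
  rw [mul_sub, sub_mul, h89_odd_Ex hD, h89_odd_Ex hD, neg_sub', sub_neg_eq_add]

end Crest.Agent.R340.Ls
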