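import Crest.Agent.R340.LcCar
import Crest.Agent.R340.PinDefs

/-! # Row 340, module LOC on `S2`: definitions -/

set_option autoImplicit false

namespace Crest.Agent.R340.Ls

open Matrix MeasureTheory Finset Crest.MathPhysics.Laughlin
open Loc (nv cA par dA cm Ev ell E1 EL)
open Pin (wt Sites)
open scoped Matrix.Norms.L2Operator MatrixOrder ComplexOrder

/-- the `j`-th orbital centred at `x` (zero for `j > Q`) -/
noncomputable def orN (Q : ℕ) (x : S2) (j : ℕ) : Fin (Q + 1) → ℂ :=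
  if h : j < Q + 1 then orb Q x ⟨j, h⟩ else 0

/-- projection on the first `m` orbitals at `x` -/
noncomputable def pj (Q : ℕ) (x : S2) (m : ℕ) (v : Fin (Q + 1) → ℂ) : Fin (Q + 1) → ℂ :=
  ∑ j ∈ range m, (star (orN Q x j) ⬝ᵥ v) • orN Q x j

/-- the profile (`= Fw.loc (ca Q) A` for even `A`, `= Fw.gloc (ca Q) A` for odd `A`) -/
noncomputable def pf (Q : ℕ) (A : Fk (Q + 1)) (u : S2) : ℝ := ell A (coh Q u)

/-- `A` (of any parity) is localised at `x`; `= Pin.QL` for even, `= Pin.OL` for odd `A` -/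
def IsL (Q : ℕ) (α a C : ℝ) (x : S2) (A : Fk (Q + 1)) : Prop :=
  ‖A‖ ≤ C ∧ ∀ u, pf Q A u ≤ C * wt α a (dq Q x u)

/-- an interaction with even local terms; the operator is `∫ i, D i ∂ν` -/
structure Inter (Q : ℕ) (α a C G : ℝ) {ι : Type} [MeasurableSpace ι] (ν : Measure ι) (x : ι → S2)
    (D : ι → Fk (Q + 1)) : Prop where
  sites : Sites Q G ν x
  int : Integrable D ν
  ev : ∀ i, Ev (D i)
  loc : ∀ i, IsL Q α a C (x i) (D i)

/-- `K` is the integral of an interaction -/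
def IsInter (Q : ℕ) (α a C G : ℝ) (K : Fk (Q + 1)) : Prop :=
  ∃ (ι : Type) (_ : MeasurableSpace ι) (ν : Measure ι) (x : ι → S2) (D : ι → Fk (Q + 1)),
    Inter Q α a C G ν x D ∧ K = ∫ i, D i ∂ν

/-- the CAR algebra of the first `m` orbitals at `x` -/
noncomputable def Lc (Q : ℕ) (x : S2) (m : ℕ) : StarSubalgebra ℂ (Fk (Q + 1)) :=
  StarAlgebra.adjoin ℂ {X | ∃ j < m, X = cA (orN Q x j)}

/-- the same for the dual fields -/
noncomputable def Ld (Q : ℕ) (x : S2) (m : ℕ) : StarSubalgebra ℂ (Fk (Q + 1)) :=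
  StarAlgebra.adjoin ℂ {X | ∃ j < m, X = dA (orN Q x j)}

/-- conditional expectation onto `Lc Q x m` -/
noncomputable def Ex (Q : ℕ) (x : S2) (m : ℕ) (X : Fk (Q + 1)) : Fk (Q + 1) :=
  EL ((List.range' m (Q + 1 - m)).map fun j => dA (orN Q x j)) X

theorem cA_eq {n : ℕ} (v : Fin n → ℂ) : cA v = cC v := rfl

theorem cA_coh (Q : ℕ) (x : S2) : cA (coh Q x) = ca Q x := rfl

end Crest.Agent.R340.Ls
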