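import Crest.Agent.R340.LsGeo

/-! # Row 340, module LOC on `S2`: conditional expectations -/

set_option autoImplicit false

namespace Crest.Agent.R340.Ls

open Matrix MeasureTheory Finset Crest.MathPhysics.Laughlin
open Loc (nv cA par dA cm Ev ell E1 EL)
open Pin (wt Sites)
open scoped Matrix.Norms.L2Operator MatrixOrder ComplexOrder

variable {n Q m : ℕ}

/-! ### part A: one mode -/

/-- one fermionic mode -/
structure Mode (d : Fk n) : Prop where
  sq : d * d = 0
  car : d * star d + star d * d = 1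

/-- `Y` commutes or anticommutes with the mode -/
def Grad (Y d : Fk n) : Prop :=
  (Y * d = d * Y ∧ Y * star d = star d * Y) ∨ (Y * d = -(d * Y) ∧ Y * star d = -(star d * Y))

variable {d X Y : Fk n}

theorem mode_cA {v : Fin n → ℂ} (h : star v ⬝ᵥ v = 1) : Mode (cA v) :=
  ⟨Loc.cA_mul_self v, by rw [Loc.cA_car, h, one_smul]⟩
theorem mode_dA {v : Fin n → ℂ} (h : star v ⬝ᵥ v = 1) : Mode (dA v) :=
  ⟨by rw [Loc.a2_dA_dA, Loc.cA_mul_self, neg_zero], by rw [Loc.dA_car, h, one_smul]⟩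
theorem Mode.h59_sq (h : Mode d) : star d * star d = 0 := by
  rw [← star_mul, h.sq, star_zero]
theorem h59_star_g (d : Fk n) : star (d + star d) = d + star d := by
  rw [star_add, star_star, add_comm]
theorem h59_star_h (d : Fk n) : star (d - star d) = -(d - star d) := by
  rw [star_sub, star_star, neg_sub]
theorem Mode.h59_gg (h : Mode d) : (d + star d) * (d + star d) = 1 := by
  rw [add_mul, mul_add, mul_add, h.sq, h.h59_sq, zero_add, add_zero, h.car]
theorem Mode.h59_hh (h : Mode d) : (d - star d) * (d - star d) = -1 := by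
  rw [sub_mul, mul_sub, mul_sub, h.sq, h.h59_sq, ← h.car]; abel
theorem Mode.h59_hg (h : Mode d) :
    (d - star d) * (d + star d) = -((d + star d) * (d - star d)) := by
  rw [sub_mul, add_mul, mul_add, mul_add, mul_sub, mul_sub, h.sq, h.h59_sq]; abel
theorem Mode.unitary₁ (h : Mode d) : d + star d ∈ unitary (Fk n) := by
  rw [Unitary.mem_iff, h59_star_g]
  exact ⟨h.h59_gg, h.h59_gg⟩
theorem Mode.unitary₂ (h : Mode d) : d - star d ∈ unitary (Fk n) := by
  rw [Unitary.mem_iff, h59_star_h, neg_mul, mul_neg, h.h59_hh, neg_neg]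
  exact ⟨rfl, rfl⟩
theorem E1_add (d X Y : Fk n) : E1 d (X + Y) = E1 d X + E1 d Y := by
  simp only [E1, ← smul_add]
  congr 1
  simp only [mul_add _ X Y, add_mul (_ * X) (_ * Y), mul_add _ (_ * X * _) (_ * Y * _),
    add_mul (_ * (_ * X * _)) (_ * (_ * Y * _))]
  abel
theorem E1_smul (d : Fk n) (z : ℂ) (X : Fk n) : E1 d (z • X) = z • E1 d X := by
  simp only [E1, mul_smul_comm, smul_mul_assoc, ← smul_add]
  rw [smul_comm]
theorem E1_sub (d X Y : Fk n) : E1 d (X - Y) = E1 d X - E1 d Y := by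
  rw [sub_eq_add_neg, E1_add, ← neg_one_smul ℂ Y, E1_smul, neg_one_smul, sub_eq_add_neg]
theorem E1_star (d X : Fk n) : star (E1 d X) = E1 d (star X) := by
  have e : star (1 / 4 : ℂ) = 1 / 4 := by simp
  simp only [E1, star_smul, e, star_add (X + _ + _), star_add (X + _), star_add X, star_mul,
    h59_star_g, star_star, mul_assoc]
theorem E1_nonneg (d : Fk n) (h : 0 ≤ X) : 0 ≤ E1 d X := by
  have a1 : ∀ Z : Fk n, 0 ≤ Z → 0 ≤ (d + star d) * Z * (d + star d) := fun Z hZ => by
    have := star_right_conjugate_nonneg hZ (d + star d)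
    rwa [h59_star_g] at this
  have a2 := star_right_conjugate_nonneg h (d - star d)
  have a3 : (0 : ℂ) ≤ 1 / 4 := by
    rw [show (1 / 4 : ℂ) = ((1 / 4 : ℝ) : ℂ) by simp]
    exact Complex.zero_le_real.2 (by norm_num)
  exact smul_nonneg a3 (add_nonneg (add_nonneg (add_nonneg h (a1 X h)) a2) (a1 _ a2))
theorem Mode.h59_ng (h : Mode d) (Z : Fk n) : ‖(d + star d) * Z * (d + star d)‖ = ‖Z‖ := by
  rw [CStarRing.norm_mul_mem_unitary _ h.unitary₁, CStarRing.norm_mem_unitary_mul _ h.unitary₁]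
theorem Mode.h59_nh (h : Mode d) (Z : Fk n) : ‖(d - star d) * Z * star (d - star d)‖ = ‖Z‖ := by
  rw [CStarRing.norm_mul_mem_unitary _ (Unitary.star_mem h.unitary₂),
    CStarRing.norm_mem_unitary_mul _ h.unitary₂]
theorem norm_E1_le (h : Mode d) (X : Fk n) : ‖E1 d X‖ ≤ ‖X‖ := by
  have e : ‖(1 / 4 : ℂ)‖ = 1 / 4 := by simp
  rw [E1, norm_smul, e]
  have := norm_add₄_le (a := X) (b := (d + star d) * X * (d + star d))
    (c := (d - star d) * X * star (d - star d))
    (d := (d + star d) * ((d - star d) * X * star (d - star d)) * (d + star d))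
  rw [h.h59_ng, h.h59_ng, h.h59_nh] at this
  linarith
theorem norm_sub_E1_le (h : Mode d) (X : Fk n) :
    ‖X - E1 d X‖ ≤ ‖cm X d‖ + ‖cm X (star d)‖ := by
  have e : ‖(1 / 4 : ℂ)‖ = 1 / 4 := by simp
  have b1 : ‖X - (d + star d) * X * (d + star d)‖ ≤ ‖cm X d‖ + ‖cm X (star d)‖ := by
    have : X - (d + star d) * X * (d + star d) = (cm X d + cm X (star d)) * (d + star d) := by
      have e1 : cm X d + cm X (star d) = X * (d + star d) - (d + star d) * X := by
        simp only [cm, mul_add, add_mul]; abel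
      rw [e1, sub_mul, mul_assoc X, h.h59_gg, mul_one]
    rw [this, CStarRing.norm_mul_mem_unitary _ h.unitary₁]
    exact norm_add_le _ _
  have b2 : ‖X - (d - star d) * X * star (d - star d)‖ ≤ ‖cm X d‖ + ‖cm X (star d)‖ := by
    have : X - (d - star d) * X * star (d - star d) =
        (cm X d - cm X (star d)) * star (d - star d) := by
      have e1 : cm X d - cm X (star d) = X * (d - star d) - (d - star d) * X := by
        simp only [cm, mul_sub, sub_mul]; abel
      rw [e1, sub_mul (X * _), mul_assoc X, (Unitary.mem_iff.1 h.unitary₂).2, mul_one]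
    rw [this, CStarRing.norm_mul_mem_unitary _ (Unitary.star_mem h.unitary₂)]
    exact norm_sub_le _ _
  have b3 := h.h59_ng (X - (d - star d) * X * star (d - star d))
  have e2 : X - E1 d X = (1 / 4 : ℂ) • ((X - (d + star d) * X * (d + star d)) +
      (X - (d - star d) * X * star (d - star d)) + (X - (d + star d) * X * (d + star d)) +
      (d + star d) * (X - (d - star d) * X * star (d - star d)) * (d + star d)) := by
    rw [E1, mul_sub (d + star d) X, sub_mul ((d + star d) * X)]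
    module
  rw [e2, norm_smul, e]
  have := norm_add₄_le (a := X - (d + star d) * X * (d + star d))
    (b := X - (d - star d) * X * star (d - star d)) (c := X - (d + star d) * X * (d + star d))
    (d := (d + star d) * (X - (d - star d) * X * star (d - star d)) * (d + star d))
  linarith
theorem h59_comm {g k : Fk n} (gg : g * g = 1) (kk : k * k = -1) (kg : k * g = -(g * k))
    (X : Fk n) : Commute g (X + g * X * g + k * X * -k + g * (k * X * -k) * g) ∧
      Commute k (X + g * X * g + k * X * -k + g * (k * X * -k) * g) := by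
  have gg' : ∀ Z, g * (g * Z) = Z := fun Z => by rw [← mul_assoc, gg, one_mul]
  have kk' : ∀ Z, k * (k * Z) = -Z := fun Z => by rw [← mul_assoc, kk, neg_one_mul]
  have kg' : ∀ Z, k * (g * Z) = -(g * (k * Z)) := fun Z => by
    rw [← mul_assoc, kg, neg_mul, mul_assoc]
  constructor
  · simp only [Commute, SemiconjBy, mul_add, add_mul, mul_assoc, mul_neg, neg_mul, gg, gg', kg,
      kg', kk, kk', neg_neg, mul_one]
    abel
  · simp only [Commute, SemiconjBy, mul_add, add_mul, mul_assoc, mul_neg, neg_mul, gg, gg', kg,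
      kg', kk, kk', neg_neg, mul_one]
    abel
theorem commute_E1 (h : Mode d) (X : Fk n) :
    Commute d (E1 d X) ∧ Commute (star d) (E1 d X) := by
  obtain ⟨c1, c2⟩ := h59_comm h.h59_gg h.h59_hh h.h59_hg X
  rw [← h59_star_h] at c1 c2
  have e1 : d = (1 / 2 : ℂ) • ((d + star d) + (d - star d)) := by module
  have e2 : star d = (1 / 2 : ℂ) • ((d + star d) - (d - star d)) := by module
  have r1 := ((c1.add_left c2).smul_left (1 / 2 : ℂ)).smul_right (1 / 4 : ℂ)
  have r2 := ((c1.sub_left c2).smul_left (1 / 2 : ℂ)).smul_right (1 / 4 : ℂ)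
  rw [← e1] at r1
  rw [← e2] at r2
  exact ⟨r1, r2⟩
theorem E1_mul_left (h : Commute Y d) (h' : Commute Y (star d)) (X : Fk n) :
    E1 d (Y * X) = Y * E1 d X := by
  have c1 : ∀ Z, (d + star d) * (Y * Z) = Y * ((d + star d) * Z) := fun Z => by
    rw [← mul_assoc, ← (h.add_right h').eq, mul_assoc]
  have c2 : ∀ Z, (d - star d) * (Y * Z) = Y * ((d - star d) * Z) := fun Z => by
    rw [← mul_assoc, ← (h.sub_right h').eq, mul_assoc]
  simp only [E1, mul_smul_comm, mul_add Y, mul_assoc, c1, c2]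
theorem E1_one (h : Mode d) : E1 d 1 = 1 := by
  rw [E1, mul_one, mul_one, (Unitary.mem_iff.1 h.unitary₂).2, mul_one, h.h59_gg]
  module
theorem E1_of_commute (hd : Mode d) (h : Commute X d) (h' : Commute X (star d)) : E1 d X = X := by
  have := E1_mul_left h h' 1
  rwa [mul_one, E1_one hd, mul_one] at this
private theorem h21_conj {a b : Fk n}
    (h : (Y * a = a * Y ∧ Y * b = b * Y) ∨ (Y * a = -(a * Y) ∧ Y * b = -(b * Y)))
    (hX : Commute Y X) : Commute Y (a * X * b) := by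
  have hX' : Y * X = X * Y := hX
  change Y * (a * X * b) = a * X * b * Y
  rcases h with ⟨h1, h2⟩ | ⟨h1, h2⟩
  · calc Y * (a * X * b) = (Y * a) * X * b := by simp only [mul_assoc]
      _ = a * (Y * X) * b := by rw [h1]; simp only [mul_assoc]
      _ = a * X * (Y * b) := by rw [hX']; simp only [mul_assoc]
      _ = _ := by rw [h2]; simp only [mul_assoc]
  · calc Y * (a * X * b) = (Y * a) * X * b := by simp only [mul_assoc]
      _ = -(a * (Y * X) * b) := by rw [h1]; simp only [mul_assoc, neg_mul]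
      _ = -(a * X * (Y * b)) := by rw [hX']; simp only [mul_assoc]
      _ = _ := by rw [h2]; simp only [mul_assoc, mul_neg, neg_neg]
theorem Grad.commute_E1 (h : Grad Y d) (hX : Commute Y X) : Commute Y (E1 d X) := by
  have h1 : (Y * (d + star d) = (d + star d) * Y ∧ Y * (d + star d) = (d + star d) * Y) ∨
      (Y * (d + star d) = -((d + star d) * Y) ∧ Y * (d + star d) = -((d + star d) * Y)) := by
    rcases h with ⟨h1, h2⟩ | ⟨h1, h2⟩
    · left; rw [and_self, mul_add, add_mul, h1, h2]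
    · right; rw [and_self, mul_add, add_mul, h1, h2, neg_add]
  have h2 : (Y * (d - star d) = (d - star d) * Y ∧
        Y * star (d - star d) = star (d - star d) * Y) ∨
      (Y * (d - star d) = -((d - star d) * Y) ∧
        Y * star (d - star d) = -(star (d - star d) * Y)) := by
    rw [star_sub, star_star]
    rcases h with ⟨h1, h2⟩ | ⟨h1, h2⟩
    · left; simp only [mul_sub, sub_mul, h1, h2, and_self]
    · right
      simp only [mul_sub, sub_mul, h1, h2]
      constructor <;> abel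
  unfold E1
  exact (((hX.add_right (h21_conj h1 hX)).add_right (h21_conj h2 hX)).add_right
    (h21_conj h1 (h21_conj h2 hX))).smul_right _
/-- `E1 d X = (d^* d X d^* d + d^* X d + d X d^* + d d^* X d d^*) / 2` -/
theorem commute_numC_E1 (h : Mode d) (hd : numC n * d = d * numC n - d) (hX : Commute (numC n) X) :
    Commute (numC n) (E1 d X) := by
  have hN : star (numC n) = numC n := numC_sa n
  have hd' : numC n * star d = star d * numC n + star d := by
    have := congrArg star hd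
    rw [star_mul, star_sub, star_mul, hN] at this
    rw [this]; abel
  have hX' : numC n * X = X * numC n := hX
  have hs : star d * star d = 0 := by rw [← star_mul, h.sq, star_zero]
  have k1 : ∀ Z : Fk n, Commute (numC n) Z → Commute (numC n) (d * Z * star d) := by
    intro Z hZ
    have hZ' : numC n * Z = Z * numC n := hZ
    change numC n * (d * Z * star d) = d * Z * star d * numC n
    calc numC n * (d * Z * star d) = (numC n * d) * Z * star d := by simp only [mul_assoc]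
      _ = d * (numC n * Z) * star d - d * Z * star d := by
        rw [hd]; simp only [mul_assoc, sub_mul]
      _ = d * Z * (numC n * star d) - d * Z * star d := by rw [hZ']; simp only [mul_assoc]
      _ = _ := by rw [hd']; simp only [mul_assoc, mul_add, add_sub_cancel_right]
  have k2 : ∀ Z : Fk n, Commute (numC n) Z → Commute (numC n) (star d * Z * d) := by
    intro Z hZ
    have hZ' : numC n * Z = Z * numC n := hZ
    change numC n * (star d * Z * d) = star d * Z * d * numC n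
    calc numC n * (star d * Z * d) = (numC n * star d) * Z * d := by simp only [mul_assoc]
      _ = star d * (numC n * Z) * d + star d * Z * d := by
        rw [hd']; simp only [mul_assoc, add_mul]
      _ = star d * Z * (numC n * d) + star d * Z * d := by rw [hZ']; simp only [mul_assoc]
      _ = _ := by rw [hd]; simp only [mul_assoc, mul_sub, sub_add_cancel]
  have k3 : Commute (numC n) (star d * d - d * star d) := by
    have a1 := k1 1 (Commute.one_right _)
    have a2 := k2 1 (Commute.one_right _)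
    rw [mul_one] at a1 a2
    exact a2.sub_right a1
  have e1 : (d + star d) * (d - star d) = star d * d - d * star d := by
    simp only [add_mul, mul_sub, h.sq, hs]; abel
  have e2 : star (d - star d) * (d + star d) = star d * d - d * star d := by
    simp only [star_sub, star_star, mul_add, sub_mul, h.sq, hs]; abel
  have e3 : (d + star d) * ((d - star d) * X * star (d - star d)) * (d + star d) =
      (star d * d - d * star d) * X * (star d * d - d * star d) := by
    calc _ = ((d + star d) * (d - star d)) * X * (star (d - star d) * (d + star d)) := by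
          simp only [mul_assoc]
      _ = _ := by rw [e1, e2]
  have e4 : X + (d + star d) * X * (d + star d) + (d - star d) * X * star (d - star d) =
      X + (d * X * star d + d * X * star d) + (star d * X * d + star d * X * d) := by
    simp only [star_sub, star_star, mul_add, add_mul, mul_sub, sub_mul]; abel
  unfold E1
  rw [e3, e4]
  exact (((hX.add_right ((k1 X hX).add_right (k1 X hX))).add_right
    ((k2 X hX).add_right (k2 X hX))).add_right ((k3.mul_right hX).mul_right k3)).smul_right _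
theorem norm_EL_le {l : List (Fk n)} (h : ∀ d ∈ l, Mode d) (X : Fk n) : ‖EL l X‖ ≤ ‖X‖ := by
  induction l with
  | nil => exact le_rfl
  | cons d l ih =>
    exact (norm_E1_le (h d (by simp)) (EL l X)).trans
      (ih fun e he => h e (List.mem_cons_of_mem _ he))
theorem norm_sub_EL_le {l : List (Fk n)} (h : ∀ d ∈ l, Mode d) (X : Fk n) :
    ‖X - EL l X‖ ≤ (l.map fun d => ‖cm X d‖ + ‖cm X (star d)‖).sum := by
  induction l with
  | nil => simp [EL]
  | cons d l ih =>
    have hd := h d (by simp)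
    have e : X - EL (d :: l) X = (X - E1 d X) + E1 d (X - EL l X) := by
      rw [E1_sub]
      change X - E1 d (EL l X) = _
      abel
    rw [e, List.map_cons, List.sum_cons]
    exact (norm_add_le _ _).trans (add_le_add (norm_sub_E1_le hd X)
      ((norm_E1_le hd _).trans (ih fun e he => h e (List.mem_cons_of_mem _ he))))
theorem commute_EL {l : List (Fk n)} (h : ∀ d ∈ l, Mode d)
    (hp : l.Pairwise fun d e => Grad d e ∧ Grad (star d) e ∧ Grad e d ∧ Grad (star e) d)
    (X : Fk n) : ∀ d ∈ l, Commute d (EL l X) ∧ Commute (star d) (EL l X) := by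
  induction l with
  | nil => simp
  | cons d l ih =>
    rw [List.pairwise_cons] at hp
    intro e he
    rcases List.mem_cons.1 he with rfl | he
    · exact commute_E1 (h e (by simp)) (EL l X)
    · obtain ⟨h1, h2⟩ := ih (fun e he => h e (List.mem_cons_of_mem _ he)) hp.2 e he
      obtain ⟨-, -, g1, g2⟩ := hp.1 e he
      exact ⟨g1.commute_E1 h1, g2.commute_E1 h2⟩
/-- averaging `A` over the modes gives an operator that commutes with `Y` -/
theorem norm_cm_le_of_adjoin {l : List (Fk n)} (h : ∀ d ∈ l, Mode d)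
    (hp : l.Pairwise fun d e => Grad d e ∧ Grad (star d) e ∧ Grad e d ∧ Grad (star e) d)
    (hY : Y ∈ StarAlgebra.adjoin ℂ {d | d ∈ l}) (A : Fk n) :
    ‖cm A Y‖ ≤ 2 * ‖Y‖ * (l.map fun d => ‖cm A d‖ + ‖cm A (star d)‖).sum := by
  have hc : Commute Y (EL l A) ∧ Commute (star Y) (EL l A) := by
    induction hY using StarAlgebra.adjoin_induction with
    | mem x hx => exact commute_EL h hp A x hx
    | algebraMap r =>
      refine ⟨Algebra.commutes r _, ?_⟩
      rw [← algebraMap_star_comm]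
      exact Algebra.commutes _ _
    | add x y _ _ hx hy =>
      rw [star_add]
      exact ⟨hx.1.add_left hy.1, hx.2.add_left hy.2⟩
    | mul x y _ _ hx hy =>
      rw [star_mul]
      exact ⟨hx.1.mul_left hy.1, hy.2.mul_left hx.2⟩
    | star x _ hx =>
      rw [star_star]
      exact ⟨hx.2, hx.1⟩
  have e : cm A Y = cm (A - EL l A) Y := by
    unfold cm
    rw [sub_mul, mul_sub, hc.1.eq]
    abel
  rw [e]
  refine (Loc.norm_cm_le _ _).trans ?_
  rw [mul_right_comm]
  exact mul_le_mul_of_nonneg_left (norm_sub_EL_le h A) (by positivity)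

/-! ### part B: local algebras -/

variable {x : S2} {A B : Fk (Q + 1)}

theorem Lc_mono (x : S2) {m m' : ℕ} (h : m ≤ m') : Lc Q x m ≤ Lc Q x m' :=
  StarAlgebra.adjoin_mono fun _ ⟨j, hj, e⟩ => ⟨j, hj.trans_le h, e⟩
theorem h48_cA_pj_mem (x : S2) (m : ℕ) (v : Fin (Q + 1) → ℂ) : cA (pj Q x m v) ∈ Lc Q x m := by
  rw [pj, Loc.cA_sum]
  refine sum_mem fun j hj => ?_
  rw [Loc.cA_smul]
  exact SMulMemClass.smul_mem _ (StarAlgebra.subset_adjoin ℂ _ ⟨j, mem_range.1 hj, rfl⟩)
/-- `Loc.adjoin_annC`, `pj_top` -/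
theorem Lc_top (x : S2) (h : Q < m) : Lc Q x m = ⊤ := by
  rw [eq_top_iff, ← Loc.adjoin_annC]
  refine StarAlgebra.adjoin_le ?_
  rintro _ ⟨j, rfl⟩
  have := h48_cA_pj_mem x m (Pi.single j 1)
  rwa [pj_top x h, Loc.cA_single] at this
theorem exists_of_mem_Lc_zero (h : A ∈ Lc Q x 0) : ∃ z : ℂ, A = z • 1 := by
  have e : Lc Q x 0 ≤ ⊥ := StarAlgebra.adjoin_le fun _ ⟨j, hj, _⟩ => absurd hj (Nat.not_lt_zero j)
  obtain ⟨z, hz⟩ := StarSubalgebra.mem_bot.1 (e h)
  exact ⟨z, by rw [← hz, Algebra.algebraMap_eq_smul_one]⟩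
theorem cA_orN_mem (x : S2) {j : ℕ} (h : j < m) : cA (orN Q x j) ∈ Lc Q x m :=
  StarAlgebra.subset_adjoin ℂ _ ⟨j, h, rfl⟩
theorem cA_pj_mem (x : S2) (m : ℕ) (v : Fin (Q + 1) → ℂ) : cA (pj Q x m v) ∈ Lc Q x m :=
  h48_cA_pj_mem x m v
theorem dA_pj_mem (x : S2) (m : ℕ) (v : Fin (Q + 1) → ℂ) : dA (pj Q x m v) ∈ Ld Q x m := by
  rw [pj, Loc.dA_sum]
  refine sum_mem fun j hj => ?_
  rw [Loc.dA_smul]
  exact SMulMemClass.smul_mem _ (StarAlgebra.subset_adjoin ℂ _ ⟨j, mem_range.1 hj, rfl⟩)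
theorem commute_dA_of_mem (h : A ∈ Lc Q x m) {j : ℕ} (hj : m ≤ j) :
    Commute A (dA (orN Q x j)) ∧ Commute A (star (dA (orN Q x j))) := by
  unfold Lc at h
  induction h using StarAlgebra.adjoin_induction with
  | mem a ha =>
    obtain ⟨i, hi, rfl⟩ := ha
    refine ⟨sub_eq_zero.1 (Loc.cm_cA_dA _ _), sub_eq_zero.1 ((Loc.cm_cA_star_dA _ _).trans ?_)⟩
    rw [orN_dot, if_neg (by omega), zero_smul, neg_zero]
  | algebraMap r => exact ⟨Algebra.commutes r _, Algebra.commutes r _⟩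
  | add a b _ _ iha ihb => exact ⟨iha.1.add_left ihb.1, iha.2.add_left ihb.2⟩
  | mul a b _ _ iha ihb => exact ⟨iha.1.mul_left ihb.1, iha.2.mul_left ihb.2⟩
  | star a _ iha => exact ⟨by simpa only [star_star] using iha.2.star_star, iha.1.star_star⟩
theorem cm_dA_pj (h : A ∈ Lc Q x m) (v : Fin (Q + 1) → ℂ) :
    cm A (dA v) = cm A (dA (pj Q x m v)) ∧ cm A (star (dA v)) = cm A (star (dA (pj Q x m v))) := by
  have e : dA v = dA (pj Q x m v) + dA (v - pj Q x m v) := by
    rw [← Loc.dA_add, add_sub_cancel]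
  have c : Commute A (dA (v - pj Q x m v)) ∧ Commute A (star (dA (v - pj Q x m v))) := by
    rw [sub_pj, Loc.dA_sum, star_sum]
    refine ⟨Commute.sum_right _ _ _ fun j hj => ?_, Commute.sum_right _ _ _ fun j hj => ?_⟩
    · rw [Loc.dA_smul]
      exact (commute_dA_of_mem h (mem_Ico.1 hj).1).1.smul_right _
    · rw [Loc.dA_smul, star_smul]
      exact (commute_dA_of_mem h (mem_Ico.1 hj).1).2.smul_right _
  constructor
  · rw [e, Loc.h19_cm_add, show cm A (dA (v - pj Q x m v)) = 0 from sub_eq_zero.2 c.1.eq, add_zero]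
  · rw [e, star_add, Loc.h19_cm_add,
      show cm A (star (dA (v - pj Q x m v))) = 0 from sub_eq_zero.2 c.2.eq, add_zero]
theorem ell_le_of_mem (h : A ∈ Lc Q x m) (v : Fin (Q + 1) → ℂ) :
    ell A v ≤ 4 * ‖A‖ * nv (pj Q x m v) := by
  have := Loc.ell_le A (pj Q x m v)
  rwa [ell, ← (cm_dA_pj h v).1, ← (cm_dA_pj h v).2] at this
theorem h17_split (h : A ∈ Lc Q x m) : ∃ X₀ ∈ Ld Q x m, ∃ X₁ ∈ Ld Q x m,
    par (Q + 1) * X₀ = X₀ * par (Q + 1) ∧ par (Q + 1) * X₁ = -(X₁ * par (Q + 1)) ∧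
      A = X₀ + X₁ * par (Q + 1) := by
  have pp : par (Q + 1) * par (Q + 1) = 1 := Loc.par_mul_par
  unfold Lc at h
  induction h using StarAlgebra.adjoin_induction with
  | mem a ha =>
    obtain ⟨j, hj, rfl⟩ := ha
    refine ⟨0, zero_mem _, dA (orN Q x j), StarAlgebra.subset_adjoin ℂ _ ⟨j, hj, rfl⟩, by simp,
      Loc.h19_par_dA _, ?_⟩
    rw [zero_add, Loc.dA, mul_assoc, pp, mul_one]
  | algebraMap r =>
    exact ⟨algebraMap ℂ _ r, algebraMap_mem _ r, 0, zero_mem _, (Algebra.commutes r _).symm,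
      by simp, by simp⟩
  | add a b _ _ iha ihb =>
    obtain ⟨X₀, h₀, X₁, h₁, e₀, e₁, rfl⟩ := iha
    obtain ⟨Y₀, k₀, Y₁, k₁, f₀, f₁, rfl⟩ := ihb
    refine ⟨X₀ + Y₀, add_mem h₀ k₀, X₁ + Y₁, add_mem h₁ k₁, ?_, ?_, ?_⟩
    · rw [mul_add, add_mul, e₀, f₀]
    · rw [mul_add, add_mul, e₁, f₁, neg_add]
    · rw [add_mul]; abel
  | mul a b _ _ iha ihb =>
    obtain ⟨X₀, h₀, X₁, h₁, e₀, e₁, rfl⟩ := iha
    obtain ⟨Y₀, k₀, Y₁, k₁, f₀, f₁, rfl⟩ := ihb
    have a1 : ∀ Z, par (Q + 1) * (X₀ * Z) = X₀ * (par (Q + 1) * Z) := fun Z => by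
      rw [← mul_assoc, e₀, mul_assoc]
    have a2 : ∀ Z, par (Q + 1) * (X₁ * Z) = -(X₁ * (par (Q + 1) * Z)) := fun Z => by
      rw [← mul_assoc, e₁, neg_mul, mul_assoc]
    have a3 : ∀ Z, par (Q + 1) * (Y₁ * Z) = -(Y₁ * (par (Q + 1) * Z)) := fun Z => by
      rw [← mul_assoc, f₁, neg_mul, mul_assoc]
    refine ⟨X₀ * Y₀ - X₁ * Y₁, sub_mem (mul_mem h₀ k₀) (mul_mem h₁ k₁), X₀ * Y₁ + X₁ * Y₀,
      add_mem (mul_mem h₀ k₁) (mul_mem h₁ k₀), ?_, ?_, ?_⟩
    · simp only [mul_sub, sub_mul, a1, a2, f₀, f₁, mul_neg, neg_neg, mul_assoc]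
    · simp only [mul_add, add_mul, a1, a2, f₀, f₁, mul_neg, neg_add, mul_assoc]
    · simp only [mul_add, add_mul, a3, f₀, pp, mul_neg, mul_one, mul_assoc]
      abel
  | star a _ iha =>
    obtain ⟨X₀, h₀, X₁, h₁, e₀, e₁, rfl⟩ := iha
    have e₀' := congrArg star e₀
    have e₁' := congrArg star e₁
    simp only [star_mul, star_neg, Loc.star_par] at e₀' e₁'
    refine ⟨star X₀, star_mem h₀, -star X₁, neg_mem (star_mem h₁), e₀'.symm, ?_, ?_⟩
    · rw [neg_mul, e₁', mul_neg, neg_neg]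
    · rw [star_add, star_mul, Loc.star_par, neg_mul, e₁', neg_neg]

/-- every element of `Lc` is `X₀ + X₁ θ` with `X₀`, `X₁ ∈ Ld`, `X₀` even, `X₁` odd -/
theorem mem_Ld_of_ev (h : A ∈ Lc Q x m) (he : Ev A) : A ∈ Ld Q x m := by
  obtain ⟨X₀, h₀, X₁, -, e₀, e₁, rfl⟩ := h17_split h
  have pp : par (Q + 1) * par (Q + 1) = 1 := Loc.par_mul_par
  have e : par (Q + 1) * (X₀ + X₁ * par (Q + 1)) = (X₀ + X₁ * par (Q + 1)) * par (Q + 1) := he
  rw [mul_add, add_mul, e₀, ← mul_assoc, e₁, neg_mul, mul_assoc, pp, mul_one, add_right_inj] at e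
  have e2 : (2 : ℂ) • X₁ = 0 := by rw [two_smul]; nth_rewrite 1 [← e]; exact neg_add_cancel _
  have e3 : X₁ = 0 := (smul_eq_zero.1 e2).resolve_left two_ne_zero
  rw [e3, zero_mul, add_zero]
  exact h₀

theorem h17_sum_range (k : ℕ) (g : ℕ → ℝ) : ((List.range k).map g).sum = ∑ j ∈ range k, g j := by
  induction k with
  | zero => simp
  | succ k ih => rw [List.range_succ, List.map_append, List.sum_append, ih, Finset.sum_range_succ]; simp

theorem h17_cm_adjoin (f : (Fin (Q + 1) → ℂ) → Fk (Q + 1)) (f0 : f 0 = 0)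
    (fm : ∀ v, star v ⬝ᵥ v = 1 → Mode (f v)) (fa : ∀ v w, f v * f w = -(f w * f v))
    (fc : ∀ v w, f v * star (f w) + star (f w) * f v = (star v ⬝ᵥ w) • (1 : Fk (Q + 1)))
    (h : B ∈ StarAlgebra.adjoin ℂ {X | ∃ j < m, X = f (orN Q x j)}) (A : Fk (Q + 1)) :
    ‖cm A B‖ ≤ 2 * ‖B‖ *
      ∑ j ∈ range m, (‖cm A (f (orN Q x j))‖ + ‖cm A (star (f (orN Q x j)))‖) := by
  have g1 : ∀ v w, star v ⬝ᵥ w = 0 → star w ⬝ᵥ v = 0 →
      Grad (f v) (f w) ∧ Grad (star (f v)) (f w) := by
    intro v w h1 h2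
    have c1 := fc v w
    have c2 := fc w v
    rw [h1, zero_smul] at c1
    rw [h2, zero_smul] at c2
    have c3 := congrArg star (fa w v)
    rw [star_mul, star_neg, star_mul] at c3
    exact ⟨Or.inr ⟨fa v w, eq_neg_of_add_eq_zero_left c1⟩,
      Or.inr ⟨eq_neg_of_add_eq_zero_right c2, c3⟩⟩
  have key := norm_cm_le_of_adjoin (Y := B)
    (l := (List.range (min m (Q + 1))).map fun j => f (orN Q x j)) ?_ ?_ ?_ A
  · refine key.trans (mul_le_mul_of_nonneg_left ?_ (by positivity))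
    rw [List.map_map, h17_sum_range]
    exact Finset.sum_le_sum_of_subset_of_nonneg (Finset.range_subset_range.2 (min_le_left _ _))
      fun j _ _ => add_nonneg (norm_nonneg _) (norm_nonneg _)
  · intro d hd
    obtain ⟨j, hj, rfl⟩ := List.mem_map.1 hd
    rw [List.mem_range, lt_min_iff] at hj
    exact fm _ (by rw [orN_dot, if_pos ⟨rfl, by omega⟩])
  · rw [List.pairwise_map]
    refine List.pairwise_lt_range.imp fun {i j} hij => ?_
    have h1 : star (orN Q x i) ⬝ᵥ orN Q x j = 0 := by rw [orN_dot, if_neg (by omega)]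
    have h2 : star (orN Q x j) ⬝ᵥ orN Q x i = 0 := by rw [orN_dot, if_neg (by omega)]
    exact ⟨(g1 _ _ h1 h2).1, (g1 _ _ h1 h2).2, (g1 _ _ h2 h1).1, (g1 _ _ h2 h1).2⟩
  · refine StarAlgebra.adjoin_le (S := StarAlgebra.adjoin ℂ _) ?_ h
    rintro _ ⟨j, hj, rfl⟩
    by_cases hQ : Q < j
    · rw [orN_of_lt x hQ, f0]; exact zero_mem _
    · exact StarAlgebra.subset_adjoin ℂ _
        (List.mem_map.2 ⟨j, List.mem_range.2 (lt_min hj (by omega)), rfl⟩)

theorem norm_cm_le_of_Ld (h : B ∈ Ld Q x m) (A : Fk (Q + 1)) :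
    ‖cm A B‖ ≤ 2 * ‖B‖ * ∑ j ∈ range m, ell A (orN Q x j) :=
  h17_cm_adjoin dA (by rw [Loc.dA, Loc.cA_zero, zero_mul]) (fun _ => mode_dA) Loc.dA_anticomm
    Loc.dA_car h A
theorem x91_ind (P : Fk n → Prop) (l : List (Fk n)) (h : ∀ d ∈ l, ∀ X, P X → P (E1 d X))
    (hX : P X) : P (EL l X) := by
  induction l with
  | nil => exact hX
  | cons d l ih =>
    exact h d List.mem_cons_self _ (ih fun e he => h e (List.mem_cons_of_mem _ he))
theorem x91_cons (d : Fk n) (l : List (Fk n)) (X : Fk n) : EL (d :: l) X = E1 d (EL l X) := rfl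
theorem x91_add (l : List (Fk n)) (X Y : Fk n) : EL l (X + Y) = EL l X + EL l Y := by
  induction l with
  | nil => rfl
  | cons d l ih => rw [x91_cons, x91_cons, x91_cons, ih, E1_add]
theorem x91_sub (l : List (Fk n)) (X Y : Fk n) : EL l (X - Y) = EL l X - EL l Y := by
  induction l with
  | nil => rfl
  | cons d l ih => rw [x91_cons, x91_cons, x91_cons, ih, E1_sub]
theorem x91_smul (l : List (Fk n)) (z : ℂ) (X : Fk n) : EL l (z • X) = z • EL l X := by
  induction l with
  | nil => rfl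
  | cons d l ih => rw [x91_cons, x91_cons, ih, E1_smul]
theorem x91_star (l : List (Fk n)) (X : Fk n) : star (EL l X) = EL l (star X) := by
  induction l with
  | nil => rfl
  | cons d l ih => rw [x91_cons, x91_cons, E1_star, ih]
theorem x91_mem {x : S2} {d : Fk (Q + 1)}
    (h : d ∈ (List.range' m (Q + 1 - m)).map fun j => dA (orN Q x j)) :
    ∃ j, m ≤ j ∧ d = dA (orN Q x j) ∧ Mode d := by
  obtain ⟨j, hj, rfl⟩ := List.mem_map.1 h
  rw [List.mem_range'_1] at hj
  refine ⟨j, hj.1, rfl, mode_dA ?_⟩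
  rw [orN_dot, if_pos ⟨rfl, by omega⟩]
/-- `B` even: `mem_Ld_of_ev`; `A` even: average over the modes `cA`, `Loc.ell_of_ev` -/
theorem norm_cm_le_of_Lc (h : B ∈ Lc Q x m) (he : Ev A ∨ Ev B) :
    ‖cm A B‖ ≤ 2 * ‖B‖ * ∑ j ∈ range m, ell A (orN Q x j) := by
  rcases he with he | he
  · simp only [Loc.ell_of_ev he]
    exact h17_cm_adjoin cA Loc.cA_zero (fun _ => mode_cA) Loc.cA_anticomm Loc.cA_car h A
  · exact norm_cm_le_of_Ld (mem_Ld_of_ev h he) A
theorem norm_cm_cm_le_of_Lc (h : B ∈ Lc Q x m) (he : Ev B) (A : Fk (Q + 1)) (v : Fin (Q + 1) → ℂ) :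
    ‖cm A (cm B (dA v))‖ + ‖cm A (cm B (star (dA v)))‖ ≤
      8 * ‖B‖ * nv (pj Q x m v) * ∑ j ∈ range m, ell A (orN Q x j) := by
  have hB := mem_Ld_of_ev h he
  have hd := dA_pj_mem x m v
  have hS : 0 ≤ ∑ j ∈ range m, ell A (orN Q x j) := Finset.sum_nonneg fun j _ => Loc.ell_nonneg _ _
  have key : ∀ D ∈ Ld Q x m, ‖D‖ ≤ nv (pj Q x m v) →
      ‖cm A (cm B D)‖ ≤ 4 * ‖B‖ * nv (pj Q x m v) * ∑ j ∈ range m, ell A (orN Q x j) := by
    intro D hD hn
    have hm : cm B D ∈ Ld Q x m := sub_mem (mul_mem hB hD) (mul_mem hD hB)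
    refine (norm_cm_le_of_Ld hm A).trans (mul_le_mul_of_nonneg_right ?_ hS)
    have := Loc.norm_cm_le B D
    nlinarith [norm_nonneg B, mul_le_mul_of_nonneg_left hn (norm_nonneg B)]
  rw [(cm_dA_pj h v).1, (cm_dA_pj h v).2]
  have k1 := key _ hd (Loc.norm_dA_le _)
  have k2 := key _ (star_mem hd) (by rw [norm_star]; exact Loc.norm_dA_le _)
  linarith

/-! ### part C: the conditional expectation -/

theorem Ex_add (x : S2) (m : ℕ) (A B : Fk (Q + 1)) : Ex Q x m (A + B) = Ex Q x m A + Ex Q x m B := by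
  exact x91_add _ A B
theorem Ex_sub (x : S2) (m : ℕ) (A B : Fk (Q + 1)) : Ex Q x m (A - B) = Ex Q x m A - Ex Q x m B := by
  exact x91_sub _ A B
theorem Ex_smul (x : S2) (m : ℕ) (z : ℂ) (A : Fk (Q + 1)) : Ex Q x m (z • A) = z • Ex Q x m A := by
  exact x91_smul _ z A
theorem Ex_star (x : S2) (m : ℕ) (A : Fk (Q + 1)) : star (Ex Q x m A) = Ex Q x m (star A) := by
  exact x91_star _ A
theorem Ex_nonneg (x : S2) (m : ℕ) (h : 0 ≤ A) : 0 ≤ Ex Q x m A := by
  exact x91_ind (fun X => 0 ≤ X) _ (fun d _ _ hX => E1_nonneg d hX) h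
theorem norm_Ex_le (x : S2) (m : ℕ) (A : Fk (Q + 1)) : ‖Ex Q x m A‖ ≤ ‖A‖ := by
  exact norm_EL_le (fun d hd => let ⟨_, _, _, h⟩ := x91_mem hd; h) A
theorem Ex_top (x : S2) (h : Q < m) (A : Fk (Q + 1)) : Ex Q x m A = A := by
  rw [Ex, show Q + 1 - m = 0 by omega]
  rfl
theorem Ex_succ (x : S2) (h : m ≤ Q) (A : Fk (Q + 1)) :
    Ex Q x m A = E1 (dA (orN Q x m)) (Ex Q x (m + 1) A) := by
  rw [Ex, Ex, show Q + 1 - m = Q + 1 - (m + 1) + 1 by omega, List.range'_succ]
  rfl
theorem Ex_of_mem (h : A ∈ Lc Q x m) : Ex Q x m A = A := by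
  refine x91_ind (fun X => X = A) _ (fun d hd X hX => ?_) rfl
  obtain ⟨j, hj, rfl, hm⟩ := x91_mem hd
  rw [hX]
  exact E1_of_commute hm (commute_dA_of_mem h hj).1 (commute_dA_of_mem h hj).2
theorem h7_E1_vals {c θ : Fk n} (h1 : c * c = 0) (h2 : c * star c + star c * c = 1)
    (h3 : θ * c = -(c * θ)) (h4 : θ * star c = -(star c * θ)) (h5 : θ * θ = 1) (h6 : star θ = θ) :
    E1 (c * θ) c = 0 ∧ E1 (c * θ) (star c) = 0 ∧ E1 (c * θ) (star c * c) = (1 / 2 : ℂ) • 1 := by
  have h7 : star c * star c = 0 := by rw [← star_mul, h1, star_zero]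
  have h2' : c * star c = 1 - star c * c := eq_sub_of_add_eq h2
  simp only [E1, star_sub, star_mul, star_star, h6]
  generalize star c = s at *
  have g1 : ∀ y, c * (c * y) = 0 := fun y => by rw [← mul_assoc, h1, zero_mul]
  have g2 : ∀ y, c * (s * y) = y - s * (c * y) := fun y => by
    rw [← mul_assoc, h2', sub_mul, one_mul, mul_assoc]
  have g3 : ∀ y, θ * (c * y) = -(c * (θ * y)) := fun y => by
    rw [← mul_assoc, h3, neg_mul, mul_assoc]
  have g4 : ∀ y, θ * (s * y) = -(s * (θ * y)) := fun y => by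
    rw [← mul_assoc, h4, neg_mul, mul_assoc]
  have g5 : ∀ y, θ * (θ * y) = y := fun y => by rw [← mul_assoc, h5, one_mul]
  have g7 : ∀ y, s * (s * y) = 0 := fun y => by rw [← mul_assoc, h7, zero_mul]
  refine ⟨?_, ?_, ?_⟩ <;>
  · simp only [mul_add, add_mul, mul_sub, sub_mul, mul_assoc, mul_neg, neg_mul, neg_neg, h1, h2',
      h3, h4, h5, h7, g1, g2, g3, g4, g5, g7, mul_zero, zero_mul, mul_one, one_mul, neg_zero,
      sub_zero, zero_sub, add_zero, zero_add, neg_sub]
    module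

theorem h7_E1_mul_right (h : Commute Y d) (h' : Commute Y (star d)) (X : Fk n) :
    E1 d (X * Y) = E1 d X * Y := by
  apply star_injective
  have a1 : Commute (star Y) d := by simpa using h'.star_star
  rw [E1_star, star_mul, E1_mul_left a1 h.star_star, star_mul, E1_star]

/-- `Lc (m+1)` is `{a₀ + a₁ c + a₂ c^* + a₃ c^* c}` with `aᵢ ∈ Lc m`; `E1 d c = 0`,
`E1 d (c^* c) = 1 / 2` -/
theorem E1_mem (h : m ≤ Q) (hA : A ∈ Lc Q x (m + 1)) : E1 (dA (orN Q x m)) A ∈ Lc Q x m := by
  have hn : star (orN Q x m) ⬝ᵥ orN Q x m = 1 := by rw [orN_dot, if_pos ⟨rfl, h⟩]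
  have hM := mode_dA hn
  obtain ⟨c, hc⟩ : ∃ c, c = cA (orN Q x m) := ⟨_, rfl⟩
  obtain ⟨d, hd⟩ : ∃ d, d = dA (orN Q x m) := ⟨_, rfl⟩
  have h1 : c * c = 0 := hc ▸ Loc.cA_mul_self _
  have h2 : c * star c + star c * c = 1 := by rw [hc, Loc.cA_car, hn, one_smul]
  have h7 : star c * star c = 0 := by rw [← star_mul, h1, star_zero]
  have h2' : c * star c = 1 - star c * c := eq_sub_of_add_eq h2
  obtain ⟨v1, v2, v3⟩ := h7_E1_vals (θ := par (Q + 1)) h1 h2 (hc ▸ Loc.par_mul_cA _)
    (hc ▸ Loc.par_mul_star_cA _) Loc.par_mul_par Loc.star_par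
  have hdc : c * par (Q + 1) = d := by rw [hc, hd, dA]
  rw [hdc] at v1 v2 v3
  rw [← hd] at hM ⊢
  have hz : E1 d 0 = 0 := by simpa using E1_smul d 0 0
  let P : Fk (Q + 1) → Prop := fun B => E1 d B ∈ Lc Q x m ∧ E1 d (B * c) ∈ Lc Q x m ∧
    E1 d (B * star c) ∈ Lc Q x m ∧ E1 d (B * (star c * c)) ∈ Lc Q x m
  have P1 : P 1 := by
    refine ⟨?_, ?_, ?_, ?_⟩
    · rw [E1_one hM]; exact one_mem _
    · rw [one_mul, v1]; exact zero_mem _
    · rw [one_mul, v2]; exact zero_mem _
    · rw [one_mul, v3]; exact SMulMemClass.smul_mem _ (one_mem _)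
  have Pc : ∀ B, P B → P (B * c) := by
    rintro B ⟨b1, b2, b3, b4⟩
    refine ⟨b2, ?_, ?_, ?_⟩
    · rw [mul_assoc, h1, mul_zero, hz]; exact zero_mem _
    · rw [mul_assoc, h2', mul_sub, mul_one, E1_sub]; exact sub_mem b1 b4
    · rw [mul_assoc, ← mul_assoc c, h2', sub_mul, one_mul, mul_assoc (star c), h1, mul_zero,
        sub_zero]
      exact b2
  have Ps : ∀ B, P B → P (B * star c) := by
    rintro B ⟨b1, b2, b3, b4⟩
    refine ⟨b3, ?_, ?_, ?_⟩
    · rw [mul_assoc]; exact b4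
    · rw [mul_assoc, h7, mul_zero, hz]; exact zero_mem _
    · rw [mul_assoc, ← mul_assoc (star c), h7, zero_mul, mul_zero, hz]; exact zero_mem _
  have Pg : ∀ g ∈ Lc Q x m, g * c = -(c * g) → g * star c = -(star c * g) →
      ∀ B, P B → P (B * g) := by
    rintro g hg e1 e2 B ⟨b1, b2, b3, b4⟩
    obtain ⟨k1, k2⟩ := commute_dA_of_mem hg (le_refl m)
    rw [← hd] at k1 k2
    have hneg : ∀ Z, E1 d (-Z) = -E1 d Z := fun Z => by simpa [hz] using E1_sub d 0 Z
    refine ⟨?_, ?_, ?_, ?_⟩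
    · rw [h7_E1_mul_right k1 k2]; exact mul_mem b1 hg
    · rw [mul_assoc, e1, mul_neg, ← mul_assoc, hneg, h7_E1_mul_right k1 k2]
      exact neg_mem (mul_mem b2 hg)
    · rw [mul_assoc, e2, mul_neg, ← mul_assoc, hneg, h7_E1_mul_right k1 k2]
      exact neg_mem (mul_mem b3 hg)
    · have : g * (star c * c) = star c * c * g := by
        rw [← mul_assoc, e2, neg_mul, mul_assoc, e1, mul_neg, neg_neg, mul_assoc]
      rw [mul_assoc, this, ← mul_assoc, h7_E1_mul_right k1 k2]
      exact mul_mem b4 hg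
  have hanti : ∀ j < m, cA (orN Q x j) * c = -(c * cA (orN Q x j)) ∧
      cA (orN Q x j) * star c = -(star c * cA (orN Q x j)) := by
    intro j hj
    refine ⟨hc ▸ Loc.cA_anticomm _ _, ?_⟩
    have := Loc.cA_car (orN Q x j) (orN Q x m)
    rw [orN_dot, if_neg (fun h' => hj.ne h'.1), zero_smul, ← hc] at this
    exact eq_neg_of_add_eq_zero_left this
  have key : ∀ B ∈ Algebra.adjoin ℂ ({X | ∃ j < m + 1, X = cA (orN Q x j)} ∪
      star {X | ∃ j < m + 1, X = cA (orN Q x j)}), ∀ B', P B' → P (B' * B) := by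
    intro B hB
    induction hB using Algebra.adjoin_induction with
    | mem g hg =>
      rcases hg with ⟨j, hj, rfl⟩ | ⟨j, hj, hg⟩
      · rcases Nat.lt_succ_iff_lt_or_eq.1 hj with hj | rfl
        · exact Pg _ (cA_orN_mem x hj) (hanti j hj).1 (hanti j hj).2
        · rw [← hc]; exact Pc
      · have hg' : g = star (cA (orN Q x j)) := by rw [← hg, star_star]
        subst hg'
        rcases Nat.lt_succ_iff_lt_or_eq.1 hj with hj | rfl
        · refine Pg _ (star_mem (cA_orN_mem x hj)) ?_ ?_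
          · have := congrArg star (hanti j hj).2
            rw [star_neg, star_mul, star_mul, star_star] at this
            rw [this, neg_neg]
          · have := congrArg star (hanti j hj).1
            rw [star_neg, star_mul, star_mul] at this
            rw [this, neg_neg]
        · rw [← hc]; exact Ps
    | algebraMap z =>
      rintro B' ⟨b1, b2, b3, b4⟩
      rw [Algebra.algebraMap_eq_smul_one, mul_smul_comm, mul_one]
      refine ⟨?_, ?_, ?_, ?_⟩
      · rw [E1_smul]; exact SMulMemClass.smul_mem _ b1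
      · rw [smul_mul_assoc, E1_smul]; exact SMulMemClass.smul_mem _ b2
      · rw [smul_mul_assoc, E1_smul]; exact SMulMemClass.smul_mem _ b3
      · rw [smul_mul_assoc, E1_smul]; exact SMulMemClass.smul_mem _ b4
    | add y z _ _ hy hz' =>
      intro B' hB'
      obtain ⟨a1, a2, a3, a4⟩ := hy B' hB'
      obtain ⟨b1, b2, b3, b4⟩ := hz' B' hB'
      rw [mul_add]
      refine ⟨?_, ?_, ?_, ?_⟩
      · rw [E1_add]; exact add_mem a1 b1
      · rw [add_mul, E1_add]; exact add_mem a2 b2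
      · rw [add_mul, E1_add]; exact add_mem a3 b3
      · rw [add_mul, E1_add]; exact add_mem a4 b4
    | mul y z _ _ hy hz' =>
      intro B' hB'
      rw [← mul_assoc]
      exact hz' _ (hy _ hB')
  have hA' : A ∈ (Lc Q x (m + 1)).toSubalgebra := hA
  rw [Lc, StarAlgebra.adjoin_toSubalgebra] at hA'
  have := (key A hA' 1 P1).1
  rwa [one_mul] at this

theorem Ex_mem (x : S2) (m : ℕ) (A : Fk (Q + 1)) : Ex Q x m A ∈ Lc Q x m := by
  have key : ∀ k m, m + k = Q + 1 → Ex Q x m A ∈ Lc Q x m := by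
    intro k
    induction k with
    | zero => intro m hm; rw [Lc_top x (by omega)]; exact StarSubalgebra.mem_top
    | succ k ih =>
      intro m hm
      rw [Ex_succ x (by omega)]
      exact E1_mem (by omega) (ih (m + 1) (by omega))
  by_cases h : Q < m
  · rw [Lc_top x h]; exact StarSubalgebra.mem_top
  · exact key (Q + 1 - m) m (by omega)
theorem norm_sub_Ex_le (x : S2) (m : ℕ) (A : Fk (Q + 1)) :
    ‖A - Ex Q x m A‖ ≤ ∑ j ∈ Ico m (Q + 1), ell A (orN Q x j) := by
  refine (norm_sub_EL_le (fun d hd => let ⟨_, _, _, h⟩ := x91_mem hd; h) A).trans_eq ?_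
  rw [List.map_map]
  rfl
theorem norm_sub_Ex_le_two (h : B ∈ Lc Q x m) (A : Fk (Q + 1)) :
    ‖A - Ex Q x m A‖ ≤ 2 * ‖A - B‖ := by
  have e : A - Ex Q x m A = (A - B) - Ex Q x m (A - B) := by
    rw [Ex_sub, Ex_of_mem h]; abel
  rw [e, two_mul]
  exact (norm_sub_le _ _).trans (add_le_add le_rfl (norm_Ex_le x m _))
theorem ev_Ex (h : Ev A) (x : S2) (m : ℕ) : Ev (Ex Q x m A) := by
  refine x91_ind (fun X => Commute (par (Q + 1)) X) _ (fun d hd X hX => ?_) h
  obtain ⟨j, -, rfl, -⟩ := x91_mem hd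
  refine Grad.commute_E1 (Or.inr ⟨?_, ?_⟩) hX
  · rw [dA, ← mul_assoc, Loc.par_mul_cA, neg_mul]
  · rw [Loc.a2_star_dA, mul_assoc, Loc.par_mul_star_cA, mul_neg]
theorem commute_numC_Ex (h : Commute (numC (Q + 1)) A) (x : S2) (m : ℕ) :
    Commute (numC (Q + 1)) (Ex Q x m A) := by
  refine x91_ind (fun X => Commute (numC (Q + 1)) X) _ (fun d hd X hX => ?_) h
  obtain ⟨j, -, rfl, hm⟩ := x91_mem hd
  exact commute_numC_E1 hm (Loc.numC_mul_dA _) hX
theorem aesm_Ex {ι : Type} [MeasurableSpace ι] {ν : Measure ι} {x : ι → S2} {D : ι → Fk (Q + 1)}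
    (hx : Measurable x) (hD : AEStronglyMeasurable D ν) (m : ℕ) :
    AEStronglyMeasurable (fun i => Ex Q (x i) m (D i)) ν := by
  have hc : Continuous fun p : Fk (Q + 1) × Fk (Q + 1) => E1 p.1 p.2 := by
    unfold E1
    fun_prop
  unfold Ex
  generalize List.range' m (Q + 1 - m) = l
  induction l with
  | nil => exact hD
  | cons j l ih =>
    have h1 : AEStronglyMeasurable (fun i => dA (orN Q (x i) j)) ν :=
      Loc.continuous_dA.comp_aestronglyMeasurable
        ((measurable_orN Q j).comp hx).aestronglyMeasurable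
    have h2 := hc.comp_aestronglyMeasurable (h1.prodMk ih)
    simp only [List.map_cons, x91_cons]
    exact h2
/-- telescoping: `A = z + Σ_{m ≤ Q} (Ex (m+1) A - Ex m A)` -/
theorem exists_telescope (x : S2) (A : Fk (Q + 1)) : ∃ z : ℂ,
    A = z • 1 + ∑ m ∈ range (Q + 1), (Ex Q x (m + 1) A - Ex Q x m A) := by
  obtain ⟨z, hz⟩ := exists_of_mem_Lc_zero (Ex_mem x 0 A)
  refine ⟨z, ?_⟩
  rw [Finset.sum_range_sub (fun m => Ex Q x m A), Ex_top x (Nat.lt_succ_self Q), hz]
  abel

end Crest.Agent.R340.Ls
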