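import Crest.Agent.R340.LsOps
import Crest.Agent.R340.LrGen
import Crest.Agent.R340.FiltFun
import Crest.Agent.R340.GeoPair

/-! # Row 340, module LOC on `S2`: Lieb-Robinson bounds and filters -/

set_option autoImplicit false

namespace Crest.Agent.R340.Ls

open Matrix MeasureTheory Finset Crest.MathPhysics.Laughlin
open Loc (nv cA par dA cm Ev ell E1 EL)
open Pin (wt Sites)
open scoped Matrix.Norms.L2Operator MatrixOrder ComplexOrder

open Filt

variable {α : ℝ}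

/-! ### part A: Lieb-Robinson -/

/-- `Fw.lr_ode` with `c y = dA (coh Q y)`, `F = wt α b (dq Q y ·)`, `kernel_inter`
(use the velocity `K / a ^ p * G * C + ε`, or state `0 < G * C` cases separately) -/
theorem lr_ode (h0 : 0 < α) (h1 : α ≤ 1) : ∃ (K : ℝ) (p : ℕ), 1 ≤ K ∧
    ∀ (a b : ℝ), 0 < a → a ≤ 1 → 0 ≤ b → b ≤ a / 4 → ∀ (Q : ℕ) (C G c : ℝ) (y : S2)
      (D T : ℝ → Fk (Q + 1)) (s t : ℝ), 0 ≤ C → Continuous D → (∀ r, IsSelfAdjoint (D r)) →
      (∀ r, HasDerivAt T (Complex.I • (D r * T r - T r * D r)) r) →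
      (∀ r ∈ Set.uIcc s t, IsInter Q α a C G (D r)) →
      (∀ u, pf Q (T s) u ≤ c * wt α b (dq Q y u)) → ∀ u,
      pf Q (T t) u ≤ 2 * c * Real.exp (K / a ^ p * (1 + G * C) * |t - s|) * wt α b (dq Q y u) := by
  obtain ⟨K, p, hK, hker⟩ := kernel_inter h0 h1
  refine ⟨2 * K, p, by linarith, ?_⟩
  intro a b a0 a1 b0 hb Q C G c y D T s t C0 hD hs hT hI hTs u
  have G0 : 0 ≤ G := (hI s Set.left_mem_uIcc).nonneg
  have GC : 0 ≤ G * C := mul_nonneg G0 C0
  have Kp : 0 < K / a ^ p := div_pos (by linarith) (pow_pos a0 p)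
  have hv : 0 < K / a ^ p * (1 + G * C) := mul_pos Kp (by linarith)
  have cT : Continuous T := continuous_iff_continuousAt.2 fun r => (hT r).continuousAt
  obtain ⟨B, hB⟩ := (isCompact_uIcc (a := s) (b := t)).exists_bound_of_continuousOn
    cT.continuousOn
  have h := Fw.lr_ode (c := fun y => dA (coh Q y)) (D := D) (T := T) hD hs hT
    (fun x => (Loc.norm_dA_le _).trans_eq (nv_coh Q x)) (F := fun u => wt α b (dq Q y u))
    (m := wt α b (Real.sqrt Q)) (v := K / a ^ p * (1 + G * C)) (κ := c) (s := s) (B := B)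
    (wt_pos _ _ _) (fun u => wt_anti_right h0.le b0 (dq_nonneg Q y u) (dq_le Q y u)) hv
    (J := Set.uIcc s t) (fun r hr => Set.uIcc_subset_uIcc Set.left_mem_uIcc hr) hB
    (fun r hr S S0 hS w => by
      have h2 := hker a b a0 a1 b0 hb Q C G S y (D r) (T r) C0 (hI r hr) hS w
      refine le_trans h2 ?_
      have h3 := wt_pos α b (dq Q y w)
      have h4 : K / a ^ p * G * C ≤ K / a ^ p * (1 + G * C) := by
        rw [mul_assoc]
        exact mul_le_mul_of_nonneg_left (by linarith) Kp.le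
      exact mul_le_mul_of_nonneg_right (mul_le_mul_of_nonneg_right h4 S0) h3.le)
    hTs t Set.right_mem_uIcc u
  have e : 2 * K / a ^ p * (1 + G * C) * |t - s| = 2 * (K / a ^ p * (1 + G * C)) * |t - s| := by
    ring
  rw [e]
  exact h

theorem lr_tau (h0 : 0 < α) (h1 : α ≤ 1) : ∃ (K : ℝ) (p : ℕ), 1 ≤ K ∧
    ∀ (a b : ℝ), 0 < a → a ≤ 1 → 0 ≤ b → b ≤ a / 4 → ∀ (Q : ℕ) (C G c : ℝ) (y : S2)
      (H A : Fk (Q + 1)), 0 ≤ C → IsSelfAdjoint H → IsInter Q α a C G H →
      (∀ u, pf Q A u ≤ c * wt α b (dq Q y u)) → ∀ (t : ℝ) (u : S2),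
      pf Q (tau H t A) u ≤ 2 * c * Real.exp (K / a ^ p * (1 + G * C) * |t|) * wt α b (dq Q y u) := by
  obtain ⟨K, p, hK, h⟩ := lr_ode h0 h1
  refine ⟨K, p, hK, ?_⟩
  intro a b a0 a1 b0 hb Q C G c y H A C0 hH hI hA t u
  have := h a b a0 a1 b0 hb Q C G c y (fun _ => H) (fun t => tau H t A) 0 t C0 continuous_const
    (fun _ => hH) (fun r => by rw [← evA_tau_comm]; exact hasDerivAt_tau H A r) (fun _ _ => hI)
    (by simpa only [tau_zero] using hA) u
  simpa only [sub_zero] using this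

/-- both conjugations: `T r = U r A (U r)^*` from `0` to `s`, and `T r = U r (U s)^* A U s (U r)^*`
from `s` to `0` -/
theorem lr_flow (h0 : 0 < α) (h1 : α ≤ 1) : ∃ (K : ℝ) (p : ℕ), 1 ≤ K ∧
    ∀ (a b : ℝ), 0 < a → a ≤ 1 → 0 ≤ b → b ≤ a / 4 → ∀ (Q : ℕ) (C G C' : ℝ) (y : S2)
      (D U : ℝ → Fk (Q + 1)) (s : ℝ) (A : Fk (Q + 1)), 0 ≤ C → Continuous D →
      (∀ r, IsSelfAdjoint (D r)) →
      IsFlow D U → (∀ r ∈ Set.uIcc 0 s, IsInter Q α a C G (D r)) → IsL Q α b C' y A →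
      IsL Q α b (2 * C' * Real.exp (K / a ^ p * (1 + G * C) * |s|)) y (U s * A * star (U s)) ∧
      IsL Q α b (2 * C' * Real.exp (K / a ^ p * (1 + G * C) * |s|)) y (star (U s) * A * U s) := by
  obtain ⟨K, p, hK, h⟩ := lr_ode h0 h1
  refine ⟨K, p, hK, ?_⟩
  intro a b a0 a1 b0 hb Q C G C' y D U s A C0 hD hs hU hI hA
  have hu := hU.unitary hD hs
  have G0 : 0 ≤ G := (hI 0 Set.left_mem_uIcc).nonneg
  have C'0 : 0 ≤ C' := (norm_nonneg _).trans hA.1
  have e1 : 1 ≤ Real.exp (K / a ^ p * (1 + G * C) * |s|) := by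
    refine Real.one_le_exp ?_
    have : 0 ≤ K := by linarith
    positivity
  have hn : C' ≤ 2 * C' * Real.exp (K / a ^ p * (1 + G * C) * |s|) := by nlinarith
  have hX : ∀ (Y : Fk (Q + 1)) (r : ℝ), HasDerivAt (fun r => U r * Y * star (U r))
      (Complex.I • (D r * (U r * Y * star (U r)) - U r * Y * star (U r) * D r)) r := fun Y r => by
    refine (((hU.deriv r).mul_const Y).mul (hU.deriv_star hs r)).congr_deriv ?_
    simp only [smul_add, smul_neg, smul_mul_assoc, mul_neg, mul_smul_comm, mul_assoc,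
      sub_eq_add_neg]
  refine ⟨⟨?_, fun u => ?_⟩, ⟨?_, fun u => ?_⟩⟩
  · have := flowB_norm (Unitary.star_mem (hu s)) (Unitary.star_mem (hu s)) A
    rw [star_star] at this
    rw [this]
    exact hA.1.trans hn
  · have := h a b a0 a1 b0 hb Q C G C' y D (fun r => U r * A * star (U r)) 0 s C0 hD hs (hX A) hI
      (by simpa only [hU.zero, star_one, one_mul, mul_one] using hA.2) u
    simpa only [sub_zero] using this
  · rw [flowB_norm (hu s) (hu s)]
    exact hA.1.trans hn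
  · have e : U s * (star (U s) * A * U s) * star (U s) = A := by
      have h3 := Unitary.mul_star_self_of_mem (hu s)
      calc U s * (star (U s) * A * U s) * star (U s) =
            (U s * star (U s)) * A * (U s * star (U s)) := by noncomm_ring
        _ = A := by rw [h3, one_mul, mul_one]
    have := h a b a0 a1 b0 hb Q C G C' y D (fun r => U r * (star (U s) * A * U s) * star (U r)) s 0
      C0 hD hs (hX _) (fun r hr => hI r (by rwa [Set.uIcc_comm] at hr))
      (by simpa only [e] using hA.2) u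
    simpa only [hU.zero, star_one, one_mul, mul_one, zero_sub, abs_neg] using this

/-! ### part B: filters -/

private theorem h50_int {cw v : ℝ} (hc : 0 < cw) (hv : 0 < v) : ∃ C1 c1 : ℝ, 0 < C1 ∧ 0 < c1 ∧
    ∀ (Cw B ρ : ℝ) (w : ℝ → ℂ), 0 ≤ B → 0 ≤ ρ → Integrable w → Decay Cw cw w →
      (Integrable fun t => ‖w t‖ * (B * min 1 (Real.exp (v * |t| - ρ)))) ∧
      ∫ t, ‖w t‖ * (B * min 1 (Real.exp (v * |t| - ρ))) ≤
        Cw * B * (C1 * Real.exp (-c1 * Real.sqrt ρ)) := by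
  obtain ⟨C1, c1, hC1, hc1, h⟩ := Decay.lr hc hv
  refine ⟨C1, c1, hC1, hc1, fun Cw B ρ w hB hρ hw hd => ?_⟩
  have m0 : ∀ t : ℝ, 0 ≤ min 1 (Real.exp (v * |t| - ρ)) := fun t =>
    le_min zero_le_one (Real.exp_pos _).le
  have mc : Continuous fun t : ℝ => min 1 (Real.exp (v * |t| - ρ)) := by fun_prop
  have hCw : 0 ≤ Cw := by
    have := (norm_nonneg _).trans (hd 0)
    simpa using this
  have i1 : Integrable fun t => ‖w t‖ * (B * min 1 (Real.exp (v * |t| - ρ))) := by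
    refine hw.norm.mul_bdd (c := B) (continuous_const.mul mc).aestronglyMeasurable
      (ae_of_all _ fun t => ?_)
    rw [Real.norm_eq_abs, abs_of_nonneg (mul_nonneg hB (m0 t))]
    exact mul_le_of_le_one_right hB (min_le_left _ _)
  have i2 : Integrable fun t : ℝ =>
      Real.exp (-cw * Real.sqrt |t|) * min 1 (Real.exp (v * |t| - ρ)) := by
    refine (h93_int hc).mul_bdd (c := 1) mc.aestronglyMeasurable (ae_of_all _ fun t => ?_)
    rw [Real.norm_eq_abs, abs_of_nonneg (m0 t)]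
    exact min_le_left _ _
  refine ⟨i1, ?_⟩
  calc ∫ t, ‖w t‖ * (B * min 1 (Real.exp (v * |t| - ρ)))
      ≤ ∫ t : ℝ, Cw * B * (Real.exp (-cw * Real.sqrt |t|) * min 1 (Real.exp (v * |t| - ρ))) := by
        refine integral_mono i1 (i2.const_mul _) fun t => ?_
        have := mul_le_mul_of_nonneg_right (hd t) (mul_nonneg hB (m0 t))
        exact this.trans_eq (by ring)
    _ = Cw * B * ∫ t : ℝ, Real.exp (-cw * Real.sqrt |t|) * min 1 (Real.exp (v * |t| - ρ)) :=
        integral_const_mul _ _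
    _ ≤ _ := mul_le_mul_of_nonneg_left (h ρ hρ) (mul_nonneg hCw hB)

private theorem h50_wt {c1 b r : ℝ} (hc1 : 0 < c1) (b0 : 0 < b) (hr : 0 ≤ r) :
    Real.exp (-c1 * Real.sqrt (b * r ^ α)) ≤ wt (α / 2) (min 1 (c1 * Real.sqrt b)) r := by
  have e : Real.sqrt (r ^ α) = r ^ (α / 2) := by
    rw [Real.sqrt_eq_rpow, ← Real.rpow_mul hr, mul_one_div]
  refine le_trans (le_of_eq ?_) (wt_anti (min_le_right _ _) hr)
  rw [wt, Real.sqrt_mul b0.le, e]
  congr 1
  ring

private theorem h50_min {B X Y e : ℝ} (hB : 0 ≤ B) (h1 : X ≤ B) (h2 : X ≤ Y * e) (hY : Y ≤ B)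
    (he : 0 ≤ e) : X ≤ B * min 1 e := by
  rcases le_total 1 e with h | h
  · rw [min_eq_left h, mul_one]; exact h1
  · rw [min_eq_right h]; exact h2.trans (mul_le_mul_of_nonneg_right hY he)

/-- a filter halves the exponent: `lr_tau`, `pf_le`, `Decay.lr` -/
theorem isL_filt (h0 : 0 < α) (h1 : α ≤ 1) {a b C G cw : ℝ} (a0 : 0 < a) (a1 : a ≤ 1) (b0 : 0 < b)
    (hb : b ≤ a / 4) (hc : 0 < cw) : ∃ a' K : ℝ, 0 < a' ∧ a' ≤ 1 ∧ 1 ≤ K ∧
    ∀ (Q : ℕ) (Cw C' : ℝ) (y : S2) (H A : Fk (Q + 1)) (w : ℝ → ℂ), IsSelfAdjoint H →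
      IsInter Q α a C G H → Integrable w → Decay Cw cw w → IsL Q α b C' y A →
      IsL Q (α / 2) a' (K * Cw * C') y (filt w H A) := by
  obtain ⟨K0, p, hK0, lr⟩ := lr_tau h0 h1
  have hv : 0 < K0 / a ^ p * (1 + |G| * |C|) := by positivity
  set v := K0 / a ^ p * (1 + |G| * |C|) with hvd
  obtain ⟨C1, c1, hC1, hc1, hint⟩ := h50_int hc hv
  have hI : 0 ≤ ∫ t : ℝ, Real.exp (-cw * Real.sqrt |t|) :=
    integral_nonneg fun t => (Real.exp_pos _).le
  set I0 := ∫ t : ℝ, Real.exp (-cw * Real.sqrt |t|) with hI0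
  refine ⟨min 1 (c1 * Real.sqrt b), 1 + 8 * C1 + I0, lt_min one_pos (by positivity),
    min_le_left _ _, by linarith, fun Q Cw C' y H A w hH hI' hw hd hA => ?_⟩
  have hC' : 0 ≤ C' := (norm_nonneg _).trans hA.1
  have hCw : 0 ≤ Cw := by
    have := (norm_nonneg _).trans (hd 0)
    simpa using this
  have hCC : 0 ≤ Cw * C' := mul_nonneg hCw hC'
  constructor
  · have e1 := norm_filt2_le hw hH hH A
    rw [← filt_eq_filt2] at e1
    have e2 : ∫ t, ‖w t‖ ≤ Cw * I0 := by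
      rw [hI0, ← integral_const_mul]
      exact integral_mono hw.norm ((h93_int hc).const_mul _) hd
    have e3 : (∫ t, ‖w t‖) * ‖A‖ ≤ Cw * I0 * C' :=
      mul_le_mul e2 hA.1 (norm_nonneg _) (mul_nonneg hCw hI)
    nlinarith
  · intro u
    have hd0 := dq_nonneg Q y u
    have hρ : 0 ≤ b * dq Q y u ^ α := mul_nonneg b0.le (Real.rpow_nonneg hd0 _)
    obtain ⟨i1, i2⟩ := hint Cw (4 * C') (b * dq Q y u ^ α) w (by positivity) hρ hw hd
    have hpf : ∀ t, pf Q (tau H t A) u ≤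
        4 * C' * min 1 (Real.exp (v * |t| - b * dq Q y u ^ α)) := fun t => by
      refine h50_min (Y := 2 * C') (by positivity) ?_ ?_ (by linarith) (Real.exp_pos _).le
      · have := pf_le (tau H t A) u
        rw [norm_tau hH] at this
        linarith [hA.1]
      · have := lr a b a0 a1 b0.le hb Q |C| |G| C' y H A (abs_nonneg _) hH
          (hI'.mono le_rfl (le_abs_self _) (le_abs_self _)) hA.2 t u
        rw [sub_eq_add_neg, Real.exp_add, ← mul_assoc]
        exact this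
    have one : ∀ d : Fk (Q + 1), (∀ t, ‖cm (tau H t A) d‖ ≤ pf Q (tau H t A) u) →
        ‖cm (filt w H A) d‖ ≤
          Cw * (4 * C') * (C1 * Real.exp (-c1 * Real.sqrt (b * dq Q y u ^ α))) := fun d hd' =>
      (norm_clm_filt_le ((ContinuousLinearMap.mul ℂ _).flip d - ContinuousLinearMap.mul ℂ _ d)
        hw hH A (fun t => (hd' t).trans (hpf t)) i1).trans i2
    have o1 := one (dA (coh Q u)) fun t => le_add_of_nonneg_right (norm_nonneg _)
    have o2 := one (star (dA (coh Q u))) fun t => le_add_of_nonneg_left (norm_nonneg _)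
    have o3 := h50_wt (α := α) hc1 b0 hd0
    have o4 := wt_pos (α / 2) (min 1 (c1 * Real.sqrt b)) (dq Q y u)
    have o5 := mul_le_mul_of_nonneg_left o3 (mul_nonneg hCC hC1.le)
    have o6 := mul_nonneg (mul_nonneg hCC (add_nonneg zero_le_one hI)) o4.le
    unfold pf ell
    nlinarith

theorem k58_Cw {Cw cw : ℝ} {w : ℝ → ℂ} (h : Decay Cw cw w) : 0 ≤ Cw :=
  nonneg_of_mul_nonneg_left ((norm_nonneg _).trans (h 0)) (Real.exp_pos _)

theorem k58_filt {cw v : ℝ} (hc : 0 < cw) (hv : 0 < v) : ∃ C₃ c₃ : ℝ, 0 < C₃ ∧ 0 < c₃ ∧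
    ∀ (Q : ℕ) (Cw M ρ : ℝ) (H D : Fk (Q + 1)) (w : ℝ → ℂ) (u : S2), IsSelfAdjoint H →
      Integrable w → Decay Cw cw w → 0 ≤ M → 0 ≤ ρ →
      (∀ t, pf Q (tau H t D) u ≤ M * min 1 (Real.exp (v * |t| - ρ))) →
      pf Q (filt w H D) u ≤ Cw * M * (C₃ * Real.exp (-c₃ * Real.sqrt ρ)) := by
  obtain ⟨C₃, c₃, h1, h2, h3⟩ := Decay.lr hc hv
  refine ⟨C₃, c₃, h1, h2, fun Q Cw M ρ H D w u hH hw hd hM hρ h => ?_⟩
  have hCw := k58_Cw hd
  have hm : ∀ t : ℝ, 0 ≤ min 1 (Real.exp (v * |t| - ρ)) := fun t =>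
    le_min zero_le_one (Real.exp_pos _).le
  have hi : Integrable fun t : ℝ =>
      Real.exp (-cw * Real.sqrt |t|) * min 1 (Real.exp (v * |t| - ρ)) :=
    (h93_int hc).mul_bdd (c := 1) (Continuous.aestronglyMeasurable (by fun_prop))
      (Filter.Eventually.of_forall fun t => by
        rw [Real.norm_of_nonneg (hm t)]; exact min_le_left _ _)
  refine (Loc.ell_integral (integrable_filt hw hH D) (coh Q u)).2.trans ?_
  refine le_trans ?_ (mul_le_mul_of_nonneg_left (h3 ρ hρ) (mul_nonneg hCw hM))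
  rw [← integral_const_mul]
  refine integral_mono_of_nonneg (Filter.Eventually.of_forall fun t => Loc.ell_nonneg _ _)
    (hi.const_mul _) (Filter.Eventually.of_forall fun t => ?_)
  calc ell (w t • tau H t D) (coh Q u) = ‖w t‖ * pf Q (tau H t D) u := Loc.ell_smul _ _ _
    _ ≤ (Cw * Real.exp (-cw * Real.sqrt |t|)) * (M * min 1 (Real.exp (v * |t| - ρ))) :=
        mul_le_mul (hd t) (h t) (pf_nonneg _ _) (by positivity)
    _ = _ := by ring

theorem k58_sqrt {β b d s : ℝ} (h0 : 0 < α) (hβ : 2 * α ≤ β) (hb : 0 ≤ b) (hs : 1 ≤ s)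
    (hd : s ≤ d) : Real.sqrt b * (d ^ α - s ^ α) ≤ Real.sqrt (max 0 (b * (d ^ β - s ^ β))) := by
  have s0 : 0 < s := by linarith
  have d0 : 0 < d := by linarith
  have e : ∀ x : ℝ, 0 < x → x ^ β = (x ^ α) ^ 2 * x ^ (β - 2 * α) := fun x hx => by
    rw [sq, ← Real.rpow_add hx, ← Real.rpow_add hx]
    congr 1
    ring
  have h1 : s ^ α ≤ d ^ α := Real.rpow_le_rpow s0.le hd h0.le
  have h2 : 0 ≤ s ^ α := Real.rpow_nonneg s0.le _
  have h3 : 1 ≤ s ^ (β - 2 * α) := Real.one_le_rpow hs (by linarith)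
  have h4 : s ^ (β - 2 * α) ≤ d ^ (β - 2 * α) := Real.rpow_le_rpow s0.le hd (by linarith)
  have h5 : (s ^ α) ^ 2 * (s ^ (β - 2 * α) - 1) ≤ (d ^ α) ^ 2 * (d ^ (β - 2 * α) - 1) :=
    mul_le_mul (pow_le_pow_left₀ h2 h1 2) (by linarith) (by linarith) (sq_nonneg _)
  have h6 : (d ^ α - s ^ α) ^ 2 ≤ d ^ β - s ^ β := by
    rw [e d d0, e s s0]
    nlinarith [mul_nonneg h2 (sub_nonneg.2 h1)]
  refine Real.le_sqrt_of_sq_le (le_trans ?_ (le_max_right _ _))
  rw [mul_pow, Real.sq_sqrt hb]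
  exact mul_le_mul_of_nonneg_left h6 hb

theorem k58_exp {β b c κ a d s : ℝ} (h0 : 0 < α) (hβ : 2 * α ≤ β) (hb : 0 ≤ b) (hc : 0 ≤ c)
    (k0 : 0 ≤ κ) (k1 : κ ≤ 1 / 4) (k2 : κ ≤ c * Real.sqrt b) (a0 : 0 ≤ a) (a1 : a ≤ 1) (hs : 1 ≤ s)
    (hd : 0 ≤ d) :
    wt α (a / 2) s * Real.exp (-c * Real.sqrt (max 0 (b * (d ^ β - s ^ β)))) ≤
      wt α (a / 4) s * wt α (κ * a) d := by
  have hs0 : 0 ≤ s ^ α := Real.rpow_nonneg (by linarith) _
  have hr := Real.sqrt_nonneg (max 0 (b * (d ^ β - s ^ β)))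
  have h1 : κ * a * (d ^ α - s ^ α) ≤ c * Real.sqrt (max 0 (b * (d ^ β - s ^ β))) := by
    rcases le_total s d with h | h
    · have h2 := mul_le_mul_of_nonneg_left (k58_sqrt h0 hβ hb hs h) hc
      have h3 : s ^ α ≤ d ^ α := Real.rpow_le_rpow (by linarith) h h0.le
      have h4 : κ * a ≤ c * Real.sqrt b := (mul_le_of_le_one_right k0 a1).trans k2
      rw [← mul_assoc] at h2
      exact (mul_le_mul_of_nonneg_right h4 (sub_nonneg.2 h3)).trans h2
    · have h3 : d ^ α ≤ s ^ α := Real.rpow_le_rpow hd h h0.le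
      exact (mul_nonpos_of_nonneg_of_nonpos (mul_nonneg k0 a0) (sub_nonpos.2 h3)).trans
        (mul_nonneg hc hr)
  unfold wt
  rw [← Real.exp_add, ← Real.exp_add, Real.exp_le_exp]
  nlinarith [mul_le_mul_of_nonneg_right k1 (mul_nonneg a0 hs0)]

/-- for an interaction with exponent `β ≥ 2 α` the exponent `α` is kept: telescope `A`, `incr`,
`isL_of_mem` (exponent `β`, rate `a₀ / 4`) and `lr_tau` for the increments, `Decay.lr` with
`ρ = max 0 (a₀ / 4 * (d ^ β - √(m+1) ^ β))`, `√ρ ≥ ...`, `sum_wt` -/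
theorem isL_filt_keep {β : ℝ} (h0 : 0 < α) (hβ : 2 * α ≤ β) (h1 : β ≤ 1) {a₀ C G cw : ℝ}
    (a0 : 0 < a₀) (a1 : a₀ ≤ 1) (hc : 0 < cw) : ∃ (κ K : ℝ) (p : ℕ), 0 < κ ∧ κ ≤ 1 ∧ 1 ≤ K ∧
    ∀ (a : ℝ), 0 < a → a ≤ 1 → ∀ (Q : ℕ) (Cw C' : ℝ) (y : S2) (H A : Fk (Q + 1)) (w : ℝ → ℂ),
      IsSelfAdjoint H → IsInter Q β a₀ C G H → Integrable w → Decay Cw cw w → IsL Q α a C' y A →
      IsL Q α (κ * a) (K / a ^ p * Cw * C') y (filt w H A) := by
  have β0 : 0 < β := by linarith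
  have α1 : α ≤ 1 := by linarith
  obtain ⟨K₁, p₁, hK₁, hlr⟩ := lr_tau β0 h1
  obtain ⟨K₂, p₂, hK₂, hin⟩ := incr h0 α1
  obtain ⟨K₄, p₄, hK₄, hsum⟩ := sum_wt h0 1
  set v : ℝ := K₁ / a₀ ^ p₁ * (1 + max G 0 * max C 0) with hv
  have v0 : 0 < v := by positivity
  obtain ⟨C₃, c₃, hC₃, hc₃, hf⟩ := k58_filt hc v0
  set b : ℝ := a₀ / 4 with hb
  have b0 : 0 < b := by positivity
  set I : ℝ := ∫ t : ℝ, Real.exp (-cw * Real.sqrt |t|) with hI
  have I0 : 0 ≤ I := integral_nonneg fun t => (Real.exp_pos _).le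
  set K₅ : ℝ := 40 * C₃ * (K₂ * 2 ^ p₂) * (K₄ * 4 ^ p₄) with hK₅
  have K50 : 0 ≤ K₅ := by positivity
  refine ⟨min (1 / 4) (c₃ * Real.sqrt b), K₅ + I + 1, p₂ + p₄, by positivity,
    (min_le_left _ _).trans (by norm_num), by linarith,
    fun a ha ha1 Q Cw C' y H A w hH hint hw hd hA => ?_⟩
  set κ : ℝ := min (1 / 4) (c₃ * Real.sqrt b) with hκ
  have κ0 : 0 ≤ κ := by positivity
  have hCw := k58_Cw hd
  have hC' : 0 ≤ C' := hA.nonneg
  have hint' : IsInter Q β a₀ (max C 0) (max G 0) H :=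
    hint.mono le_rfl (le_max_left _ _) (le_max_left _ _)
  have hap : a ^ (p₂ + p₄) ≤ 1 := pow_le_one₀ ha.le ha1
  refine ⟨?_, fun u => ?_⟩
  · have h2 : ∫ t, ‖w t‖ ≤ Cw * I := by
      rw [hI, ← integral_const_mul]
      exact integral_mono hw.norm ((h93_int hc).const_mul _) hd
    have h3 : I ≤ (K₅ + I + 1) / a ^ (p₂ + p₄) := by
      rw [le_div_iff₀ (by positivity)]
      nlinarith [mul_le_mul_of_nonneg_left hap I0]
    calc ‖filt w H A‖ ≤ (∫ t, ‖w t‖) * ‖A‖ := norm_filt2_le hw hH hH A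
      _ ≤ Cw * I * C' := mul_le_mul h2 hA.1 (norm_nonneg _) (by positivity)
      _ = I * Cw * C' := by ring
      _ ≤ _ := by gcongr
  · obtain ⟨z, hz⟩ := exists_telescope y A
    set D : ℕ → Fk (Q + 1) := fun m => Ex Q y (m + 1) A - Ex Q y m A with hD
    set d : ℝ := dq Q y u with hdd
    have d0 : 0 ≤ d := dq_nonneg _ _ _
    have e1 : pf Q (filt w H A) u ≤ ∑ m ∈ range (Q + 1), pf Q (filt w H (D m)) u := by
      have e2 : filt w H A =
          ft w 0 • z • (1 : Fk (Q + 1)) + ∑ m ∈ range (Q + 1), filt w H (D m) := by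
        conv_lhs => rw [hz]
        rw [filt_eq_filt2, filt2_add hw hH hH, filt2_sum hw hH hH, ← filt_eq_filt2,
          filt_of_commute w ((Commute.one_right H).smul_right z)]
        rfl
      rw [e2]
      refine (Loc.ell_add _ _ _).trans ?_
      rw [Loc.ell_smul, Loc.ell_smul, Loc.ell_one, mul_zero, mul_zero, zero_add]
      exact Loc.ell_sum _ _ _
    have e3 : ∀ m : ℕ, pf Q (filt w H (D m)) u ≤
        (Cw * C' * wt α (κ * a) d * (40 * C₃ * (K₂ / (a - a / 2) ^ p₂))) *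
          ((2 + m : ℝ) ^ 1 * wt α (a / 4) (Real.sqrt m)) := by
      intro m
      set s : ℝ := Real.sqrt (m + 1) with hs
      have m0 : (0 : ℝ) ≤ m := Nat.cast_nonneg m
      have s1 : 1 ≤ s := Real.one_le_sqrt.2 (by linarith)
      have hmem : D m ∈ Lc Q y (m + 1) :=
        sub_mem (Ex_mem y (m + 1) A) (Lc_mono y (Nat.le_succ m) (Ex_mem y m A))
      have hL := (isL_of_mem β0 h1 b0.le (by linarith) hmem).2
      have hn := hin a (a / 2) (by positivity) (by linarith) ha1 Q C' y A hA.2 m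
      have nD := norm_nonneg (D m)
      have ht : ∀ t, pf Q (tau H t (D m)) u ≤
          40 * (2 + m) * ‖D m‖ * min 1 (Real.exp (v * |t| - max 0 (b * (d ^ β - s ^ β)))) := by
        intro t
        have t1 : pf Q (tau H t (D m)) u ≤ 40 * (2 + m) * ‖D m‖ * 1 := by
          refine (pf_le _ _).trans ?_
          rw [norm_tau hH]
          nlinarith [mul_nonneg m0 nD]
        rw [mul_min_of_nonneg _ _ (by positivity)]
        refine le_min t1 ?_
        rcases le_total 0 (b * (d ^ β - s ^ β)) with hρ | hρ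
        · rw [max_eq_right hρ]
          refine (hlr a₀ b a0 a1 b0.le le_rfl Q _ _ _ y H (D m) (le_max_right _ _) hH hint' hL t
            u).trans (le_of_eq ?_)
          have e4 : Real.exp (v * |t| - b * (d ^ β - s ^ β)) =
              wt β (-b) s * Real.exp (v * |t|) * wt β b d := by
            unfold wt
            rw [← Real.exp_add, ← Real.exp_add]
            congr 1
            ring
          rw [e4]
          push_cast
          ring
        · rw [max_eq_left hρ, sub_zero]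
          refine t1.trans (mul_le_mul_of_nonneg_left (Real.one_le_exp (by positivity))
            (by positivity))
      have h5 := hf Q Cw _ _ H (D m) w u hH hw hd (by positivity) (le_max_left _ _) ht
      have h6 := k58_exp (β := β) (κ := κ) h0 hβ b0.le hc₃.le κ0 (min_le_left _ _)
        (min_le_right _ _) ha.le ha1 s1 d0
      have h7 : wt α (a / 4) s ≤ wt α (a / 4) (Real.sqrt m) :=
        wt_anti_right h0.le (by positivity) (Real.sqrt_nonneg _) (Real.sqrt_le_sqrt (by linarith))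
      have h8 : 0 ≤ K₂ / (a - a / 2) ^ p₂ := div_nonneg (by linarith) (pow_nonneg (by linarith) _)
      have w1 := (wt_pos α (κ * a) d).le
      have w2 := (wt_pos α (a / 2) s).le
      calc pf Q (filt w H (D m)) u
          ≤ Cw * (40 * (2 + m) * ‖D m‖) *
            (C₃ * Real.exp (-c₃ * Real.sqrt (max 0 (b * (d ^ β - s ^ β))))) := h5
        _ ≤ Cw * (40 * (2 + m) * (K₂ / (a - a / 2) ^ p₂ * C' * wt α (a / 2) s)) *
            (C₃ * Real.exp (-c₃ * Real.sqrt (max 0 (b * (d ^ β - s ^ β))))) := by gcongr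
        _ = (Cw * C' * (40 * C₃ * (K₂ / (a - a / 2) ^ p₂)) * (2 + m)) *
            (wt α (a / 2) s * Real.exp (-c₃ * Real.sqrt (max 0 (b * (d ^ β - s ^ β))))) := by ring
        _ ≤ (Cw * C' * (40 * C₃ * (K₂ / (a - a / 2) ^ p₂)) * (2 + m)) *
            (wt α (a / 4) (Real.sqrt m) * wt α (κ * a) d) :=
          mul_le_mul_of_nonneg_left (h6.trans (mul_le_mul_of_nonneg_right h7 w1)) (by positivity)
        _ = _ := by ring
    have e5 := hsum (a / 4) 0 le_rfl (by positivity) (by linarith) 0 (Q + 1)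
    have e6 : wt α 0 (Real.sqrt (0 : ℕ)) = 1 := by simp [wt]
    rw [e6, mul_one, sub_zero, ← range_eq_Ico] at e5
    have h8 : 0 ≤ K₂ / (a - a / 2) ^ p₂ := div_nonneg (by linarith) (pow_nonneg (by linarith) _)
    have w1 := (wt_pos α (κ * a) d).le
    refine (e1.trans (sum_le_sum fun m _ => e3 m)).trans ?_
    rw [← mul_sum]
    refine (mul_le_mul_of_nonneg_left e5 (by positivity)).trans ?_
    have e7 : Cw * C' * wt α (κ * a) d * (40 * C₃ * (K₂ / (a - a / 2) ^ p₂)) * (K₄ / (a / 4) ^ p₄) =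
        K₅ / a ^ (p₂ + p₄) * Cw * C' * wt α (κ * a) d := by
      rw [show a - a / 2 = a / 2 by ring, hK₅, div_pow, div_pow, pow_add]
      field_simp
    rw [e7]
    gcongr
    linarith

/-- Duhamel: a perturbation `V` whose terms almost commute with the evolved operator -/
theorem norm_filt_sub_filt (h0 : 0 < α) (h1 : α ≤ 1) {a b C G cw : ℝ} (a0 : 0 < a) (a1 : a ≤ 1)
    (b0 : 0 < b) (hb : b ≤ a / 4) (hc : 0 < cw) : ∃ a' K : ℝ, 0 < a' ∧ a' ≤ 1 ∧ 1 ≤ K ∧
    ∀ (Q : ℕ) (Cw C' CV GV R : ℝ) (y : S2) (H A : Fk (Q + 1)) (w : ℝ → ℂ) (ι : Type)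
      [MeasurableSpace ι] (ν : Measure ι) (x : ι → S2) (V : ι → Fk (Q + 1)), IsSelfAdjoint H →
      IsSelfAdjoint (∫ i, V i ∂ν) → IsInter Q α a C G H → Inter Q α a CV GV ν x V → 0 ≤ CV → 0 ≤ R →
      (∀ i, R ≤ dq Q (x i) y) → Integrable w → Decay Cw cw w → IsL Q α b C' y A →
      ‖filt w (H + ∫ i, V i ∂ν) A - filt w H A‖ ≤
        K * Cw * C' * (1 + GV * CV) * wt (α / 2) a' R := by
  obtain ⟨K0, p, hK0, lr⟩ := lr_tau h0 h1
  obtain ⟨K1, p1, hK1, hcm⟩ := norm_cm_le_wt h0 h1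
  obtain ⟨K2, p2, hK2, hiw⟩ := int_wt h0
  have hv : 0 < K0 / a ^ p * (1 + |G| * |C|) := by positivity
  set v := K0 / a ^ p * (1 + |G| * |C|) with hvd
  obtain ⟨C1, c1, hC1, hc1, hint⟩ := h50_int hc (v := v + 1) (by positivity)
  have b1 : b ≤ 1 := by linarith
  have b3 : 0 < 3 * b / 8 := by positivity
  have hM : 0 < 2 * (K1 / b ^ p1) * (K2 / (3 * b / 8) ^ p2) := by positivity
  set M := 2 * (K1 / b ^ p1) * (K2 / (3 * b / 8) ^ p2) with hMd
  refine ⟨min 1 (c1 * Real.sqrt (3 * b / 8)), 1 + (2 + M) * C1, lt_min one_pos (by positivity),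
    min_le_left _ _, le_add_of_nonneg_right (by positivity),
    fun Q Cw C' CV GV R y H A w ι _ ν x V hH hV hI' hVi hCV hR hRx hw hd hA => ?_⟩
  have hC' : 0 ≤ C' := (norm_nonneg _).trans hA.1
  have hCw : 0 ≤ Cw := by
    have := (norm_nonneg _).trans (hd 0)
    simpa using this
  have hGV : 0 ≤ GV := sites_nonneg hVi.sites
  have hGC : 0 ≤ GV * CV := mul_nonneg hGV hCV
  have hρ : 0 ≤ 3 * b / 8 * R ^ α := mul_nonneg b3.le (Real.rpow_nonneg hR _)
  have hB : 0 ≤ (2 + M) * (1 + GV * CV) * C' := by positivity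
  obtain ⟨i1, i2⟩ := hint Cw ((2 + M) * (1 + GV * CV) * C') (3 * b / 8 * R ^ α) w hB hρ hw hd
  have hwR := wt_pos α (3 * b / 8) R
  have hs : ∀ s : ℝ, ‖cm (∫ i, V i ∂ν) (tau H s A)‖ ≤
      M * (GV * CV) * C' * Real.exp (v * |s|) * wt α (3 * b / 8) R := fun s => by
    have hpf := lr a b a0 a1 b0.le hb Q |C| |G| C' y H A (abs_nonneg _) hH
      (hI'.mono le_rfl (le_abs_self _) (le_abs_self _)) hA.2 s
    have hE := Real.exp_pos (v * |s|)
    have cw : Continuous fun r : ℝ => wt α (3 * b / 8) r := by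
      unfold wt
      exact Real.continuous_exp.comp (continuous_const.mul
        (continuous_id.rpow_const fun _ => Or.inr h0.le)).neg
    have hc0 : 0 ≤ K1 / b ^ p1 * CV * (2 * C' * Real.exp (v * |s|)) * wt α (3 * b / 8) R := by
      positivity
    rw [Loc.cm_integral_left hVi.int]
    calc ‖∫ i, cm (V i) (tau H s A) ∂ν‖
        ≤ ∫ i, K1 / b ^ p1 * CV * (2 * C' * Real.exp (v * |s|)) * wt α (3 * b / 8) R *
            wt α (3 * b / 8) (dq Q (x i) y) ∂ν := by
          refine norm_integral_le_of_norm_le ((sites_integrable hVi.sites cw y).const_mul _)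
            (ae_of_all _ fun i => ?_)
          have e1 := hcm b b0 b1 Q CV (2 * C' * Real.exp (v * |s|)) (x i) y (V i) (tau H s A)
            (Or.inl (hVi.ev i)) (fun u => ((hVi.loc i).2 u).trans (mul_le_mul_of_nonneg_left
              (wt_anti (by linarith) (dq_nonneg _ _ _)) hCV)) hpf
          refine e1.trans ?_
          rw [show 3 * b / 4 = 3 * b / 8 + 3 * b / 8 by ring, wt_add, mul_assoc _ (wt α _ R)]
          refine mul_le_mul_of_nonneg_left (mul_le_mul_of_nonneg_right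
            (wt_anti_right h0.le b3.le hR (hRx i)) (wt_pos _ _ _).le) (by positivity)
      _ = K1 / b ^ p1 * CV * (2 * C' * Real.exp (v * |s|)) * wt α (3 * b / 8) R *
            ∫ i, wt α (3 * b / 8) (dq Q (x i) y) ∂ν := integral_const_mul _ _
      _ ≤ K1 / b ^ p1 * CV * (2 * C' * Real.exp (v * |s|)) * wt α (3 * b / 8) R *
            (GV * (K2 / (3 * b / 8) ^ p2)) :=
          mul_le_mul_of_nonneg_left (hiw _ b3 (by linarith) Q GV ι ν x hVi.sites y) hc0
      _ = _ := by rw [hMd]; ring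
  have hg : ∀ t, ‖tau (H + ∫ i, V i ∂ν) t A - tau H t A‖ ≤ (2 + M) * (1 + GV * CV) * C' *
      min 1 (Real.exp ((v + 1) * |t| - 3 * b / 8 * R ^ α)) := fun t => by
    refine h50_min (Y := M * (GV * CV) * C') hB ?_ ?_ ?_ (Real.exp_pos _).le
    · have e1 := norm_sub_le (tau (H + ∫ i, V i ∂ν) t A) (tau H t A)
      rw [norm_tau (hH.add hV), norm_tau hH] at e1
      have e2 : 0 ≤ (M + (2 + M) * (GV * CV)) * C' := by positivity
      nlinarith [hA.1]
    · have e1 := norm_tau_sub (hH.add hV) hH A t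
      rw [add_sub_cancel_left] at e1
      have hX : 0 ≤ M * (GV * CV) * C' := by positivity
      have e2 := intervalIntegral.norm_integral_le_of_norm_le_const (a := 0) (b := t)
        (C := M * (GV * CV) * C' * Real.exp (v * |t|) * wt α (3 * b / 8) R)
        (f := fun s => ‖(∫ i, V i ∂ν) * tau H s A - tau H s A * ∫ i, V i ∂ν‖) fun s hs' => by
          rw [norm_norm]
          refine (hs s).trans (mul_le_mul_of_nonneg_right (mul_le_mul_of_nonneg_left
            (Real.exp_le_exp.2 (mul_le_mul_of_nonneg_left ?_ hv.le)) hX) hwR.le)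
          simpa using Set.abs_sub_left_of_mem_uIcc (Set.uIoc_subset_uIcc hs')
      rw [Real.norm_eq_abs, sub_zero] at e2
      refine (e1.trans e2).trans ?_
      have e3 : |t| ≤ Real.exp |t| := by linarith [Real.add_one_le_exp |t|]
      rw [show (v + 1) * |t| - 3 * b / 8 * R ^ α = v * |t| + -(3 * b / 8 * R ^ α) + |t| by ring,
        Real.exp_add, Real.exp_add]
      have e4 : 0 ≤ M * (GV * CV) * C' * Real.exp (v * |t|) * wt α (3 * b / 8) R := by positivity
      refine (mul_le_mul_of_nonneg_left e3 e4).trans_eq ?_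
      rw [wt]
      ring
    · have e2 : 0 ≤ (2 + M + 2 * (GV * CV)) * C' := by positivity
      nlinarith
  refine ((norm_filt_sub_le hw (hH.add hV) hH A hg i1).trans i2).trans ?_
  have o3 := h50_wt (α := α) hc1 b3 hR
  have o4 := wt_pos (α / 2) (min 1 (c1 * Real.sqrt (3 * b / 8))) R
  have o5 := mul_le_mul_of_nonneg_left o3 (mul_nonneg (mul_nonneg hCw hB) hC1.le)
  have o6 : 0 ≤ Cw * C' * (1 + GV * CV) * wt (α / 2) (min 1 (c1 * Real.sqrt (3 * b / 8))) R := by
    positivity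
  nlinarith

/-! ### part C: the Hamiltonian -/

theorem g51_By_zero (x : S2) : By 0 x = 0 := by
  simp [By, bC, Bn]
theorem g51_By (Q : ℕ) (x : S2) : By Q x = cA (orN Q x 1) * cA (orN Q x 0) := by
  rcases Nat.eq_zero_or_pos Q with rfl | hQ
  · rw [g51_By_zero, orN_of_lt x one_pos, cA_eq, cC_zero, zero_mul]
  · have e : orN Q x 1 = orb Q x 1 := by
      rw [← orN_coe, Fin.val_one', Nat.mod_eq_of_lt (by omega)]
    rw [By_eq hQ, e, orN_zero, cA_coh, cA_eq]
theorem By_mem (Q : ℕ) (x : S2) : By Q x ∈ Lc Q x 2 := by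
  rw [g51_By]
  exact mul_mem (StarAlgebra.subset_adjoin _ _ ⟨1, by omega, rfl⟩)
    (StarAlgebra.subset_adjoin _ _ ⟨0, by omega, rfl⟩)
theorem g51_isL (h0 : 0 < α) (h1 : α ≤ 1) {a : ℝ} (a0 : 0 ≤ a) (a1 : a ≤ 1) (Q : ℕ) (x : S2) :
    ‖By Q x‖ ≤ 1 ∧ ∀ u, pf Q (By Q x) u ≤ 20 * wt α a (dq Q x u) := by
  have n1 : ∀ j, ‖cA (orN Q x j)‖ ≤ 1 := fun j => (Loc.norm_cA_le _).trans (nv_orN_le Q x j)
  rw [g51_By]
  refine ⟨(norm_mul_le _ _).trans (mul_le_one₀ (n1 1) (norm_nonneg _) (n1 0)), fun u => ?_⟩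
  have k0 := (isL_ca h0 h1 a0 a1 Q x).2 u
  have k1 := (isL_cA_orN h0 h1 a0 a1 Q x 1).2 u
  have e : wt α (-a) (Real.sqrt (1 : ℕ)) ≤ 3 := by
    rw [Nat.cast_one, Real.sqrt_one, wt, Real.one_rpow, mul_one, neg_neg]
    exact (Real.exp_le_exp.2 a1).trans Real.exp_one_lt_three.le
  have w0 := wt_pos α a (dq Q x u)
  rw [← cA_coh, ← orN_zero] at k0
  refine (Loc.ell_mul _ _ _).trans ?_
  have m0 := mul_le_mul_of_nonneg_right (n1 1) (Loc.ell_nonneg (cA (orN Q x 0)) (coh Q u))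
  have m1 := mul_le_mul_of_nonneg_left (n1 0) (Loc.ell_nonneg (cA (orN Q x 1)) (coh Q u))
  have m2 := mul_le_mul_of_nonneg_right e w0.le
  unfold pf at k0 k1
  linarith
theorem isL_By (h0 : 0 < α) (h1 : α ≤ 1) {a : ℝ} (a0 : 0 ≤ a) (a1 : a ≤ 1) (Q : ℕ) (x : S2) :
    IsL Q α a 300 x (By Q x) := by
  obtain ⟨k1, k2⟩ := g51_isL h0 h1 a0 a1 Q x
  refine ⟨by linarith, fun u => (k2 u).trans ?_⟩
  have := wt_pos α a (dq Q x u)
  linarith
theorem ev_By (Q : ℕ) (x : S2) : Ev (By Q x) := by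
  rw [g51_By]
  exact Loc.ev_cA_cA _ _
theorem inter_hx (Q : ℕ) : Inter Q 1 1 600 2 (muq Q) id (hx Q) := by
  refine ⟨sites_muq Q, ?_, fun x => ?_, fun x => ?_⟩
  · rcases Nat.eq_zero_or_pos Q with rfl | hQ
    · have e : hx 0 = fun _ => 0 := by
        funext x
        rw [hx, g51_By_zero, mul_zero, smul_zero]
      rw [e]
      exact integrable_zero _ _ _
    · exact (HC_eq_integral hQ).1
  · rw [hx, ← Complex.coe_smul]
    exact ((ev_By Q x).star.mul (ev_By Q x)).smul _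
  · obtain ⟨k1, k2⟩ := g51_isL one_pos le_rfl zero_le_one le_rfl Q x
    have h : IsL Q 1 1 40 x (star (By Q x) * By Q x) := by
      refine ⟨(norm_mul_le _ _).trans ?_, fun u => (Loc.ell_mul _ _ _).trans ?_⟩
      · rw [norm_star]
        have := mul_le_one₀ k1 (norm_nonneg _) k1
        linarith
      · rw [norm_star, Loc.ell_star]
        have m0 := mul_le_mul_of_nonneg_right k1 (Loc.ell_nonneg (By Q x) (coh Q u))
        have k3 := k2 u
        unfold pf at k3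
        linarith
    refine (h.rsmul _).mono ?_
    have hq : (0 : ℝ) ≤ Q := Nat.cast_nonneg Q
    have : |(2 * (Q : ℝ) - 1) / ((Q : ℝ) + 1)| ≤ 2 := by
      rw [abs_div, abs_of_pos (by positivity : (0 : ℝ) < Q + 1), div_le_iff₀ (by positivity), abs_le]
      constructor <;> linarith
    linarith
theorem isInter_HC (Q : ℕ) : IsInter Q 1 1 600 2 (HC Q) := by
  refine ⟨S2, inferInstance, muq Q, id, hx Q, inter_hx Q, ?_⟩
  rcases Nat.eq_zero_or_pos Q with rfl | hQ
  · have e : hx 0 = fun _ => 0 := by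
      funext x
      rw [hx, g51_By_zero, mul_zero, smul_zero]
    rw [e, HC_eq]
    simp
  · exact (HC_eq_integral hQ).2
theorem isInter_pot (Q : ℕ) {φ : S2 → ℝ} (hφ : Measurable φ) {c : ℝ} (hc : ∀ x, |φ x| ≤ c) :
    IsInter Q 1 1 (50 * c) 2 (dG (toeplitz Q φ)) := by
  refine ⟨S2, inferInstance, muq Q, id, fun x => (φ x : ℂ) • (star (ca Q x) * ca Q x),
    ⟨sites_muq Q, ?_, fun x => (Loc.ev_star_cA_cA _ _).smul _, fun x => ?_⟩, dG_toeplitz Q hφ hc⟩
  · have hi : ∀ i j : Fin (Q + 1), Integrable (fun x => ((φ x : ℂ) *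
        (coh Q x i * (starRingEnd ℂ) (coh Q x j))) •
        (star (annC i) * annC j : Fk (Q + 1))) (muq Q) := fun i j =>
      (gc2_int Q i j (φ := fun x => (φ x : ℂ)) (Complex.measurable_ofReal.comp hφ) (C := c)
        fun x => by simpa using hc x).smul_const _
    have h : ∀ x, (φ x : ℂ) • (star (ca Q x) * ca Q x) = ∑ i, ∑ j,
        ((φ x : ℂ) * (coh Q x i * (starRingEnd ℂ) (coh Q x j))) •
          (star (annC i) * annC j : Fk (Q + 1)) := by
      intro x
      rw [ca, ← dG_vecMulVec, ← dG_smul, dG]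
      rfl
    simp only [h]
    exact integrable_finsetSum _ fun i _ => integrable_finsetSum _ fun j _ => hi i j
  · have h := isL_ca one_pos le_rfl zero_le_one le_rfl Q x
    refine ((h.star.mul h).smul _).mono ?_
    rw [Complex.norm_real, Real.norm_eq_abs]
    linarith [hc x]

end Crest.Agent.R340.Ls
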