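import Crest.Agent.R340.LsApx
import Crest.Agent.R340.FiltEv

/-! # Row 340, module LOC on `S2`: calculus of localised operators -/

set_option autoImplicit false

namespace Crest.Agent.R340.Ls

open Matrix MeasureTheory Finset Crest.MathPhysics.Laughlin
open Loc (nv cA par dA cm Ev ell E1 EL)
open Pin (wt Sites)
open scoped Matrix.Norms.L2Operator MatrixOrder ComplexOrder

variable {Q : ℕ} {α a b C C' G : ℝ} {x y : S2} {A B : Fk (Q + 1)}

/-! ### part A: elementary rules -/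

theorem IsL.nonneg (h : IsL Q α a C x A) : 0 ≤ C := by
  exact (norm_nonneg _).trans h.1
theorem IsL.mono (h : IsL Q α a C x A) (hC : C ≤ C') : IsL Q α a C' x A := by
  exact ⟨h.1.trans hC, fun u => (h.2 u).trans (mul_le_mul_of_nonneg_right hC (wt_pos _ _ _).le)⟩
theorem IsL.mono_rate (h : IsL Q α a C x A) (hb : b ≤ a) : IsL Q α b C x A := by
  exact ⟨h.1, fun u => (h.2 u).trans
    (mul_le_mul_of_nonneg_left (wt_anti hb (dq_nonneg Q x u)) h.nonneg)⟩
theorem IsL.mono_exp {β : ℝ} (h : IsL Q α a C x A) (h0 : 0 < β) (hβ : β ≤ α) (a0 : 0 ≤ a)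
    (a1 : a ≤ 1) : IsL Q β a (3 * C) x A := by
  have hC := h.nonneg
  refine ⟨h.1.trans (by linarith), fun u => (h.2 u).trans ?_⟩
  have := mul_le_mul_of_nonneg_left (wt_le_of_le h0 hβ a0 a1 (dq_nonneg Q x u)) hC
  linarith
theorem IsL.move (h : IsL Q α a C x A) (h0 : 0 < α) (h1 : α ≤ 1) (a0 : 0 ≤ a) (y : S2) :
    IsL Q α a (C * wt α (-a) (dq Q y x)) y A := by
  have h2 : 1 ≤ wt α (-a) (dq Q y x) := Real.one_le_exp (by
    have := mul_nonneg a0 (Real.rpow_nonneg (dq_nonneg Q y x) α)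
    linarith)
  refine ⟨h.1.trans (le_mul_of_one_le_right h.nonneg h2), fun u => (h.2 u).trans ?_⟩
  rw [mul_assoc]
  exact mul_le_mul_of_nonneg_left (wt_tri h0 h1 a0 Q y x u) h.nonneg
theorem IsL.add (h : IsL Q α a C x A) (h' : IsL Q α a C' x B) : IsL Q α a (C + C') x (A + B) := by
  refine ⟨(norm_add_le _ _).trans (add_le_add h.1 h'.1), fun u => ?_⟩
  rw [add_mul]
  exact (Loc.ell_add A B _).trans (add_le_add (h.2 u) (h'.2 u))
theorem IsL.sub (h : IsL Q α a C x A) (h' : IsL Q α a C' x B) : IsL Q α a (C + C') x (A - B) := by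
  refine ⟨(norm_sub_le _ _).trans (add_le_add h.1 h'.1), fun u => ?_⟩
  rw [add_mul]
  exact (Loc.ell_sub A B _).trans (add_le_add (h.2 u) (h'.2 u))
theorem IsL.neg (h : IsL Q α a C x A) : IsL Q α a C x (-A) := by
  refine ⟨(norm_neg A).trans_le h.1, fun u => le_of_eq_of_le ?_ (h.2 u)⟩
  rw [pf, pf, ← neg_one_smul ℂ A, Loc.ell_smul, norm_neg, norm_one, one_mul]
theorem IsL.smul (h : IsL Q α a C x A) (z : ℂ) : IsL Q α a (‖z‖ * C) x (z • A) := by
  refine ⟨(norm_smul z A).trans_le (mul_le_mul_of_nonneg_left h.1 (norm_nonneg z)), fun u => ?_⟩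
  rw [pf, Loc.ell_smul, mul_assoc]
  exact mul_le_mul_of_nonneg_left (h.2 u) (norm_nonneg z)
theorem IsL.rsmul (h : IsL Q α a C x A) (t : ℝ) : IsL Q α a (|t| * C) x (t • A) := by
  have := h.smul (t : ℂ)
  rwa [Complex.norm_real, Real.norm_eq_abs, Complex.coe_smul] at this
theorem IsL.star (h : IsL Q α a C x A) : IsL Q α a C x (star A) := by
  exact ⟨(norm_star A).trans_le h.1, fun u => (Loc.ell_star A _).trans_le (h.2 u)⟩
theorem IsL.mul (h : IsL Q α a C x A) (h' : IsL Q α a C' x B) :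
    IsL Q α a (2 * C * C') x (A * B) := by
  have hC := h.nonneg
  have hC' := h'.nonneg
  refine ⟨?_, fun u => (Loc.ell_mul A B _).trans ?_⟩
  · have h1 := (norm_mul_le A B).trans (mul_le_mul h.1 h'.1 (norm_nonneg _) hC)
    have h2 := mul_nonneg hC hC'
    linarith
  · have k1 := mul_le_mul h.1 (h'.2 u) (Loc.ell_nonneg _ _) hC
    have k2 := mul_le_mul (h.2 u) h'.1 (norm_nonneg _) (mul_nonneg hC (wt_pos _ _ _).le)
    unfold pf at k1 k2
    linarith
theorem isL_one (Q : ℕ) (α a : ℝ) (x : S2) : IsL Q α a 1 x 1 := by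
  refine ⟨norm_one.le, fun u => ?_⟩
  rw [pf, Loc.ell_one, one_mul]
  exact (wt_pos _ _ _).le
theorem isL_zero (Q : ℕ) (α a : ℝ) (x : S2) : IsL Q α a 0 x 0 := by
  simpa using (isL_one Q α a x).smul 0
theorem isL_sum {ι : Type} (s : Finset ι) {A : ι → Fk (Q + 1)} {C : ι → ℝ}
    (h : ∀ i ∈ s, IsL Q α a (C i) x (A i)) : IsL Q α a (∑ i ∈ s, C i) x (∑ i ∈ s, A i) := by
  refine ⟨(norm_sum_le _ _).trans (sum_le_sum fun i hi => (h i hi).1), fun u => ?_⟩
  rw [sum_mul]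
  exact (Loc.ell_sum s A _).trans (sum_le_sum fun i hi => (h i hi).2 u)
theorem isL_integral {ι : Type} [MeasurableSpace ι] {ν : Measure ι} {A : ι → Fk (Q + 1)}
    {C : ι → ℝ} (hA : Integrable A ν) (hC : Integrable C ν) (h : ∀ i, IsL Q α a (C i) x (A i)) :
    IsL Q α a (∫ i, C i ∂ν) x (∫ i, A i ∂ν) := by
  refine ⟨norm_integral_le_of_norm_le hC (Filter.Eventually.of_forall fun i => (h i).1), fun u => ?_⟩
  obtain ⟨h1, h2⟩ := Loc.ell_integral hA (coh Q u)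
  rw [← integral_mul_const]
  exact h2.trans (integral_mono h1 (hC.mul_const _) fun i => (h i).2 u)
/-- `Loc.ell_cA`, `norm_orN_dot_coh`, `gauss_wt` -/
theorem isL_cA_orN (h0 : 0 < α) (h1 : α ≤ 1) (a0 : 0 ≤ a) (a1 : a ≤ 1) (Q : ℕ) (x : S2) (j : ℕ) :
    IsL Q α a (5 * wt α (-a) (Real.sqrt j)) x (cA (orN Q x j)) := by
  refine ⟨?_, fun u => ?_⟩
  · have e1 : ‖cA (orN Q x j)‖ ≤ 1 := (Loc.norm_cA_le _).trans (nv_orN_le Q x j)
    have e2 : 1 ≤ wt α (-a) (Real.sqrt j) := by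
      have h3 : 0 ≤ a * Real.sqrt j ^ α := by positivity
      exact Real.one_le_exp (by linarith)
    linarith
  · have e1 : pf Q (cA (orN Q x j)) u = ‖star (orN Q x j) ⬝ᵥ coh Q u‖ := Loc.ell_cA _ _
    rw [e1, mul_assoc]
    exact (norm_orN_dot_coh Q x u j).trans
      (gauss_wt h0 h1 a0 a1 (dq_nonneg Q x u) (Real.sqrt_nonneg _))
theorem isL_ca (h0 : 0 < α) (h1 : α ≤ 1) (a0 : 0 ≤ a) (a1 : a ≤ 1) (Q : ℕ) (x : S2) :
    IsL Q α a 5 x (ca Q x) := by
  have h := isL_cA_orN h0 h1 a0 a1 Q x 0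
  rwa [Nat.cast_zero, Real.sqrt_zero, wt_zero h0, mul_one, orN_zero, cA_coh] at h
/-- a small operator: geometric mean of the two bounds -/
theorem IsL.of_small (h : IsL Q α a C x A) (a0 : 0 ≤ a) {ε : ℝ} (hε : ‖A‖ ≤ ε) :
    IsL Q α (a / 2) (2 * Real.sqrt (ε * C)) x A := by
  have hA := norm_nonneg A
  have ε0 : 0 ≤ ε := hA.trans hε
  have C0 : 0 ≤ C := hA.trans h.1
  have hs := Real.sqrt_nonneg (ε * C)
  have hq : Real.sqrt (ε * C) ^ 2 = ε * C := Real.sq_sqrt (mul_nonneg ε0 C0)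
  refine ⟨?_, fun u => ?_⟩
  · have e1 : ‖A‖ ≤ Real.sqrt (ε * C) := by
      refine Real.le_sqrt_of_sq_le ?_
      rw [sq]
      exact mul_le_mul hε h.1 hA ε0
    linarith
  · have hw := wt_pos α (a / 2) (dq Q x u)
    have e0 := pf_nonneg A u
    have e1 : pf Q A u ≤ 4 * ε := (pf_le A u).trans (by linarith)
    have e2 : pf Q A u ≤ C * (wt α (a / 2) (dq Q x u) * wt α (a / 2) (dq Q x u)) := by
      rw [← wt_add, add_halves]
      exact h.2 u
    refine abs_le_of_sq_le_sq' ?_ (by positivity) |>.2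
    calc pf Q A u ^ 2 = pf Q A u * pf Q A u := sq _
      _ ≤ (4 * ε) * (C * (wt α (a / 2) (dq Q x u) * wt α (a / 2) (dq Q x u))) :=
        mul_le_mul e1 e2 e0 (by positivity)
      _ = (2 * Real.sqrt (ε * C) * wt α (a / 2) (dq Q x u)) ^ 2 := by
        rw [mul_pow, mul_pow, hq]; ring
/-- functional calculus through `fcal`: `ell (ev A t) v ≤ |t| ell A v` -/
theorem ell_fcal_le {n : ℕ} {A : Fk n} (hA : IsSelfAdjoint A) {w : ℝ → ℂ} (hw : Integrable w)
    (hw1 : Integrable fun t => |t| * ‖w t‖) (v : Fin n → ℂ) :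
    ell (Filt.fcal w A) v ≤ (∫ t, |t| * ‖w t‖) * ell A v := by
  have e1 := Filt.norm_fcal_comm_le hw hw1 hA (dA v)
  have e2 := Filt.norm_fcal_comm_le hw hw1 hA (star (dA v))
  unfold ell cm
  rw [mul_add]
  exact add_le_add e1 e2
theorem IsL.fcal (h : IsL Q α a C x A) (hA : IsSelfAdjoint A) {w : ℝ → ℂ} (hw : Integrable w)
    (hw1 : Integrable fun t => |t| * ‖w t‖) :
    IsL Q α a ((∫ t, ‖w t‖) + (∫ t, |t| * ‖w t‖) * C) x (Filt.fcal w A) := by
  have C0 : 0 ≤ C := (norm_nonneg A).trans h.1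
  have i0 : 0 ≤ ∫ t, ‖w t‖ := integral_nonneg fun t => norm_nonneg _
  have i1 : 0 ≤ ∫ t, |t| * ‖w t‖ := integral_nonneg fun t => by positivity
  refine ⟨(Filt.norm_fcal_le hw hA).trans (le_add_of_nonneg_right (mul_nonneg i1 C0)),
    fun u => ?_⟩
  have hw' := wt_pos α a (dq Q x u)
  have e1 : pf Q (Filt.fcal w A) u ≤ (∫ t, |t| * ‖w t‖) * pf Q A u := ell_fcal_le hA hw hw1 _
  have e2 := mul_le_mul_of_nonneg_left (h.2 u) i1
  have e3 := mul_nonneg i0 hw'.le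
  nlinarith

/-! ### part B: commutators -/

/-- M1, `wt_mul_le`, `int_wt_muq` with rate `a / 4` -/
theorem norm_cm_le_wt (h0 : 0 < α) (h1 : α ≤ 1) : ∃ (K : ℝ) (p : ℕ), 1 ≤ K ∧
    ∀ (a : ℝ), 0 < a → a ≤ 1 → ∀ (Q : ℕ) (C C' : ℝ) (x y : S2) (A B : Fk (Q + 1)), Ev A ∨ Ev B →
      (∀ u, pf Q A u ≤ C * wt α a (dq Q x u)) → (∀ u, pf Q B u ≤ C' * wt α a (dq Q y u)) →
      ‖cm A B‖ ≤ K / a ^ p * C * C' * wt α (3 * a / 4) (dq Q x y) := by
  obtain ⟨K1, p1, hK1, H1⟩ := norm_cm_le_int h0 h1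
  obtain ⟨K2, p2, hK2, H2⟩ := int_wt_muq h0
  refine ⟨K1 * (K2 * 4 ^ p2), p1 + p2,
    one_le_mul_of_one_le_of_one_le hK1
      (one_le_mul_of_one_le_of_one_le hK2 (one_le_pow₀ (by norm_num))), ?_⟩
  intro a a0 a1 Q C C' x y A B hev hA hB
  have hC : 0 ≤ C := nonneg_of_mul_nonneg_left ((pf_nonneg A x).trans (hA x)) (wt_pos _ _ _)
  have hC' : 0 ≤ C' := nonneg_of_mul_nonneg_left ((pf_nonneg B x).trans (hB x)) (wt_pos _ _ _)
  have hW := wt_pos α (3 * a / 4) (dq Q x y)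
  have i1 : ∫ w, wt α (3 * a / 4) (dq Q x w) * pf Q B w ∂muq Q ≤
      ∫ w, C' * wt α (3 * a / 4) (dq Q x y) * wt α (a / 4) (dq Q y w) ∂muq Q := by
    refine integral_mono (integrable_mul_pf B (continuous_wt h0 _) x)
      ((integrable_dq (continuous_wt h0 _) Q y).const_mul _) fun w => ?_
    have e : wt α a (dq Q y w) = wt α (3 * a / 4) (dq Q w y) * wt α (a / 4) (dq Q y w) := by
      rw [dq_symm Q w y, ← wt_add]; congr 1; ring
    have h2 := wt_mul_le h0 h1 (show 0 ≤ 3 * a / 4 by positivity) Q x w y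
    have h3 := wt_pos α (a / 4) (dq Q y w)
    have h4 := wt_pos α (3 * a / 4) (dq Q x w)
    calc wt α (3 * a / 4) (dq Q x w) * pf Q B w
        ≤ wt α (3 * a / 4) (dq Q x w) * (C' * wt α a (dq Q y w)) := by gcongr; exact hB w
      _ = C' * (wt α (3 * a / 4) (dq Q x w) * wt α (3 * a / 4) (dq Q w y)) *
          wt α (a / 4) (dq Q y w) := by rw [e]; ring
      _ ≤ _ := by gcongr
  rw [integral_const_mul] at i1
  have i2 := H2 (a / 4) (by positivity) (by linarith) Q y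
  have i3 : ∫ w, wt α (3 * a / 4) (dq Q x w) * pf Q B w ∂muq Q ≤
      C' * wt α (3 * a / 4) (dq Q x y) * (K2 / (a / 4) ^ p2) :=
    i1.trans (by gcongr)
  refine (H1 a a0 a1 Q C x A B hev hA).trans ?_
  have hK : 0 ≤ K1 / a ^ p1 * C := by positivity
  refine (mul_le_mul_of_nonneg_left i3 hK).trans (le_of_eq ?_)
  rw [div_pow, pow_add]
  field_simp

/-- `pf ≤ 4 ‖cm A B‖` and Leibniz; interpolate with exponents `3/4`, `1/4` -/
theorem isL_cm (h0 : 0 < α) (h1 : α ≤ 1) : ∃ (K : ℝ) (p : ℕ), 1 ≤ K ∧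
    ∀ (a : ℝ), 0 < a → a ≤ 1 → ∀ (Q : ℕ) (C C' : ℝ) (x y : S2) (A B : Fk (Q + 1)), Ev A ∨ Ev B →
      IsL Q α a C x A → IsL Q α a C' y B →
      IsL Q α (a / 4) (K / a ^ p * C * C' * wt α (a / 4) (dq Q x y)) x (cm A B) := by
  obtain ⟨K, p, hK, H⟩ := norm_cm_le_wt h0 h1
  refine ⟨4 * K, p, by linarith, ?_⟩
  intro a a0 a1 Q C C' x y A B hev hA hB
  have hC : 0 ≤ C := (norm_nonneg A).trans hA.1
  have hC' : 0 ≤ C' := (norm_nonneg B).trans hB.1
  have hN := H a a0 a1 Q C C' x y A B hev hA.2 hB.2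
  have hK1 : 1 ≤ K / a ^ p := by
    rw [one_le_div (by positivity)]
    exact (pow_le_one₀ a0.le a1).trans hK
  have hCC : 0 ≤ C * C' := mul_nonneg hC hC'
  have e4 : 4 * K / a ^ p * C * C' = 4 * (K / a ^ p * C * C') := by ring
  have hM : C * C' ≤ K / a ^ p * C * C' := by
    rw [mul_assoc]; exact le_mul_of_one_le_left hCC hK1
  rw [e4]
  generalize K / a ^ p * C * C' = M at hN hM
  have hM0 : 0 ≤ M := hCC.trans hM
  have hxy := wt_pos α (a / 4) (dq Q x y)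
  constructor
  · have h2 : wt α (3 * a / 4) (dq Q x y) ≤ wt α (a / 4) (dq Q x y) :=
      wt_anti (by linarith) (dq_nonneg Q x y)
    have h3 := mul_le_mul_of_nonneg_left h2 hM0
    have h4 := mul_nonneg hM0 hxy.le
    linarith
  · intro u
    have tri := b1_rpow_tri h0 h1 Q x y u
    have r0 := Real.rpow_nonneg (dq_nonneg Q x y) α
    have s0 := Real.rpow_nonneg (dq_nonneg Q x u) α
    have ew : wt α (a / 4) (dq Q x y) * wt α (a / 4) (dq Q x u) =
        Real.exp (-(a / 4 * (dq Q x y ^ α + dq Q x u ^ α))) := by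
      unfold wt; rw [← Real.exp_add]; congr 1; ring
    rw [mul_assoc, ew]
    rcases le_total (dq Q x u ^ α) (2 * dq Q x y ^ α) with hs | hs
    · have h2 : wt α (3 * a / 4) (dq Q x y) ≤
          Real.exp (-(a / 4 * (dq Q x y ^ α + dq Q x u ^ α))) :=
        Real.exp_le_exp.2 (by nlinarith)
      have h3 := mul_le_mul_of_nonneg_left h2 hM0
      have h4 := pf_le (cm A B) u
      linarith
    · have h2 : wt α a (dq Q x u) ≤ Real.exp (-(a / 4 * (dq Q x y ^ α + dq Q x u ^ α))) :=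
        Real.exp_le_exp.2 (by nlinarith)
      have h3 : wt α a (dq Q y u) ≤ Real.exp (-(a / 4 * (dq Q x y ^ α + dq Q x u ^ α))) :=
        Real.exp_le_exp.2 (by nlinarith)
      have hE := Real.exp_pos (-(a / 4 * (dq Q x y ^ α + dq Q x u ^ α)))
      generalize Real.exp (-(a / 4 * (dq Q x y ^ α + dq Q x u ^ α))) = E at h2 h3 hE
      have h4 : pf Q A u ≤ C * E := (hA.2 u).trans (by gcongr)
      have h5 : pf Q B u ≤ C' * E := (hB.2 u).trans (by gcongr)
      have h6 : ‖A‖ * pf Q B u ≤ C * (C' * E) :=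
        mul_le_mul hA.1 h5 (pf_nonneg B u) hC
      have h7 : ‖B‖ * pf Q A u ≤ C' * (C * E) :=
        mul_le_mul hB.1 h4 (pf_nonneg A u) hC'
      have h8 := Loc.ell_sub (A * B) (B * A) (coh Q u)
      have h9 := Loc.ell_mul A B (coh Q u)
      have h10 := Loc.ell_mul B A (coh Q u)
      have h11 := mul_le_mul_of_nonneg_right hM hE.le
      unfold pf at h6 h7 ⊢
      unfold cm
      nlinarith

/-- a family of terms that decay away from `y` -/
theorem isL_integral_sites (h0 : 0 < α) (h1 : α ≤ 1) : ∃ (K : ℝ) (p : ℕ), 1 ≤ K ∧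
    ∀ (a : ℝ), 0 < a → a ≤ 1 → ∀ (Q : ℕ) (C G : ℝ) (ι : Type) [MeasurableSpace ι] (ν : Measure ι)
      (x : ι → S2) (A : ι → Fk (Q + 1)) (y : S2), Sites Q G ν x → Integrable A ν →
      (∀ i, IsL Q α a (C * wt α a (dq Q (x i) y)) (x i) (A i)) → 0 ≤ C →
      IsL Q α (a / 2) (K / a ^ p * G * C) y (∫ i, A i ∂ν) := by
  obtain ⟨K, p, hK, H⟩ := int_wt h0
  refine ⟨K * 2 ^ p, p, one_le_mul_of_one_le_of_one_le hK (one_le_pow₀ (by norm_num)), ?_⟩
  intro a a0 a1 Q C G ι _ ν x A y hS hA hL hC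
  have h2 : ∀ i, IsL Q α (a / 2) (C * wt α (a / 2) (dq Q (x i) y)) y (A i) := fun i => by
    have h3 : wt α a (dq Q (x i) y) ≤ wt α (a / 2) (dq Q (x i) y) :=
      wt_anti (by linarith) (dq_nonneg _ _ _)
    refine ⟨(hL i).1.trans (by gcongr), fun u => ((hL i).2 u).trans ?_⟩
    have e : wt α a (dq Q (x i) y) = wt α (a / 2) (dq Q (x i) y) * wt α (a / 2) (dq Q y (x i)) := by
      rw [dq_symm Q y (x i), ← wt_add]; congr 1; ring
    have h4 : wt α a (dq Q (x i) u) ≤ wt α (a / 2) (dq Q (x i) u) :=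
      wt_anti (by linarith) (dq_nonneg _ _ _)
    have h5 := wt_mul_le h0 h1 (show 0 ≤ a / 2 by positivity) Q y (x i) u
    have h6 := wt_pos α (a / 2) (dq Q (x i) y)
    have h7 := wt_pos α (a / 2) (dq Q y (x i))
    calc C * wt α a (dq Q (x i) y) * wt α a (dq Q (x i) u)
        = C * wt α (a / 2) (dq Q (x i) y) *
          (wt α (a / 2) (dq Q y (x i)) * wt α a (dq Q (x i) u)) := by rw [e]; ring
      _ ≤ C * wt α (a / 2) (dq Q (x i) y) *
          (wt α (a / 2) (dq Q y (x i)) * wt α (a / 2) (dq Q (x i) u)) := by gcongr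
      _ ≤ _ := by gcongr
  refine (isL_integral hA ((sites_integrable hS (continuous_wt h0 _) y).const_mul C) h2).mono ?_
  rw [integral_const_mul]
  refine (mul_le_mul_of_nonneg_left (H (a / 2) (by positivity) (by linarith) Q G ι ν x hS y)
    hC).trans (le_of_eq ?_)
  rw [div_pow]
  field_simp

/-! ### part C: interactions -/

theorem IsInter.nonneg {K : Fk (Q + 1)} (h : IsInter Q α a C G K) : 0 ≤ G := by
  obtain ⟨ι, _, ν, x, D, h, -⟩ := h
  exact sites_nonneg h.sites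
theorem IsInter.ev {K : Fk (Q + 1)} (h : IsInter Q α a C G K) : Ev K := by
  obtain ⟨ι, _, ν, x, D, h, rfl⟩ := h
  exact Loc.commute_integral h.int h.ev
theorem IsInter.mono {K : Fk (Q + 1)} (h : IsInter Q α a C G K) (hb : b ≤ a) (hC : C ≤ C') {G' : ℝ}
    (hG : G ≤ G') : IsInter Q α b C' G' K := by
  obtain ⟨ι, _, ν, x, D, h, rfl⟩ := h
  exact ⟨ι, _, ν, x, D, ⟨⟨h.sites.fin, h.sites.meas, fun u r hr => (h.sites.growth u r hr).trans
    (mul_le_mul_of_nonneg_right hG (sq_nonneg _))⟩, h.int, h.ev,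
    fun i => ((h.loc i).mono_rate hb).mono hC⟩, rfl⟩
theorem IsInter.mono_exp {β : ℝ} {K : Fk (Q + 1)} (h : IsInter Q α a C G K) (h0 : 0 < β)
    (hβ : β ≤ α) (a0 : 0 ≤ a) (a1 : a ≤ 1) : IsInter Q β a (3 * C) G K := by
  obtain ⟨ι, _, ν, x, D, h, rfl⟩ := h
  exact ⟨ι, _, ν, x, D, ⟨h.sites, h.int, h.ev, fun i => (h.loc i).mono_exp h0 hβ a0 a1⟩, rfl⟩
theorem IsInter.smul {K : Fk (Q + 1)} (h : IsInter Q α a C G K) (z : ℂ) :
    IsInter Q α a (‖z‖ * C) G (z • K) := by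
  obtain ⟨ι, _, ν, x, D, h, rfl⟩ := h
  exact ⟨ι, _, ν, x, fun i => z • D i, ⟨h.sites, h.int.smul z, fun i => (h.ev i).smul z,
    fun i => (h.loc i).smul z⟩, (integral_smul z D).symm⟩
theorem IsInter.neg {K : Fk (Q + 1)} (h : IsInter Q α a C G K) : IsInter Q α a C G (-K) := by
  have h1 := h.smul (-1)
  rwa [norm_neg, norm_one, one_mul, neg_one_smul] at h1
/-- index set `ι ⊕ ι'` -/
theorem IsInter.add {K K' : Fk (Q + 1)} {G' : ℝ} (h : IsInter Q α a C G K)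
    (h' : IsInter Q α a C G' K') : IsInter Q α a C (G + G') (K + K') := by
  obtain ⟨ι, _, ν, x, D, h, rfl⟩ := h
  obtain ⟨ι', _, ν', x', D', h', rfl⟩ := h'
  have := h.sites.fin
  have := h'.sites.fin
  have el : MeasurableEmbedding (Sum.inl : ι → ι ⊕ ι') :=
    ⟨Sum.inl_injective, measurable_inl, fun _ hs => hs.inl_image⟩
  have er : MeasurableEmbedding (Sum.inr : ι' → ι ⊕ ι') :=
    ⟨Sum.inr_injective, measurable_inr, fun _ hs => hs.inr_image⟩
  have il : Integrable (Sum.elim D D') (ν.map (Sum.inl : ι → ι ⊕ ι')) :=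
    el.integrable_map_iff.2 h.int
  have ir : Integrable (Sum.elim D D') (ν'.map (Sum.inr : ι' → ι ⊕ ι')) :=
    er.integrable_map_iff.2 h'.int
  have hm : Measurable (Sum.elim x x') := h.sites.meas.sumElim h'.sites.meas
  refine ⟨ι ⊕ ι', inferInstance, ν.map Sum.inl + ν'.map Sum.inr, Sum.elim x x', Sum.elim D D',
    ⟨⟨inferInstance, hm, fun u r hr => ?_⟩, il.add_measure ir, fun i => ?_, fun i => ?_⟩, ?_⟩
  · have hs : MeasurableSet {i | dq Q (Sum.elim x x' i) u ≤ r} :=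
      measurableSet_le ((b61_cont Q u).measurable.comp hm) measurable_const
    rw [measureReal_add_apply, map_measureReal_apply measurable_inl hs,
      map_measureReal_apply measurable_inr hs, add_mul]
    exact add_le_add (h.sites.growth u r hr) (h'.sites.growth u r hr)
  · rcases i with i | i
    · exact h.ev i
    · exact h'.ev i
  · rcases i with i | i
    · exact h.loc i
    · exact h'.loc i
  · rw [integral_add_measure il ir, el.integral_map, er.integral_map]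
    rfl
theorem isInter_sum {ι : Type} [Fintype ι] {x : ι → S2} {D : ι → Fk (Q + 1)}
    (hG : ∀ u r, 0 ≤ r → ({i | dq Q (x i) u ≤ r} : Set ι).ncard ≤ G * (1 + r) ^ 2)
    (ev : ∀ i, Ev (D i)) (loc : ∀ i, IsL Q α a C (x i) (D i)) : IsInter Q α a C G (∑ i, D i) := by
  let : MeasurableSpace ι := ⊤
  have : MeasurableSingletonClass ι := ⟨fun _ => trivial⟩
  refine ⟨ι, ⊤, Measure.count, x, D, ⟨⟨inferInstance, measurable_from_top, fun u r hr => ?_⟩,
    Integrable.of_finite, ev, loc⟩, (integral_count D).symm⟩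
  refine le_trans (le_of_eq ?_) (hG u r hr)
  rw [measureReal_def, Measure.count_apply (Set.toFinite _).measurableSet,
    ← (Set.toFinite {i | dq Q (x i) u ≤ r}).cast_ncard_eq, ENat.toENNReal_coe,
    ENNReal.toReal_natCast]
theorem IsL.isInter (h : IsL Q α a C x A) (ev : Ev A) : IsInter Q α a C 1 A := by
  have h1 := isInter_sum (ι := Unit) (G := 1) (x := fun _ => x) (D := fun _ => A)
    (fun u r hr => by
      have h2 : ({i : Unit | dq Q x u ≤ r} : Set Unit).ncard ≤ 1 := by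
        simpa using Set.ncard_le_ncard (Set.subset_univ {i : Unit | dq Q x u ≤ r})
      have h3 : (({i : Unit | dq Q x u ≤ r} : Set Unit).ncard : ℝ) ≤ 1 := by exact_mod_cast h2
      nlinarith) (fun _ => ev) (fun _ => h)
  simpa using h1

theorem h9_int_cm {n : ℕ} {ι : Type} [MeasurableSpace ι] {ν : Measure ι} {D : ι → Fk n}
    (hD : Integrable D ν) (B : Fk n) :
    Integrable (fun i => cm (D i) B) ν ∧ Integrable (fun i => cm B (D i)) ν :=
  ⟨(hD.mul_const B).sub (hD.const_mul B), (hD.const_mul B).sub (hD.mul_const B)⟩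

theorem h9_div_pow {K a b t : ℝ} (hK : 0 ≤ K) (hb : 0 < b) (ht : 0 < t) (h : b ≤ t * a) (p : ℕ) :
    K / a ^ p ≤ K * t ^ p / b ^ p := by
  have ha : 0 < a := by
    by_contra hn
    have := mul_nonneg ht.le (neg_nonneg.2 (not_lt.1 hn))
    linarith
  rw [div_le_div_iff₀ (by positivity) (by positivity), mul_assoc, ← mul_pow]
  exact mul_le_mul_of_nonneg_left (pow_le_pow_left₀ hb.le h p) hK

theorem h9_wt1 (h0 : 0 < α) (h1 : α ≤ 1) (hb : 0 ≤ b) (hba : b ≤ a) (Q : ℕ) (x y w : S2) :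
    wt α (3 * a / 4) (dq Q x w) * wt α b (dq Q y w) ≤
      wt α (b / 2) (dq Q x y) * wt α (b / 2) (dq Q y w) := by
  have e1 : wt α b (dq Q y w) = wt α (b / 2) (dq Q w y) * wt α (b / 2) (dq Q y w) := by
    rw [dq_symm Q w y, ← wt_add, add_halves]
  have e2 : wt α (3 * a / 4) (dq Q x w) ≤ wt α (b / 2) (dq Q x w) :=
    wt_anti (by linarith) (dq_nonneg _ _ _)
  rw [e1, ← mul_assoc]
  refine mul_le_mul_of_nonneg_right ?_ (wt_pos _ _ _).le
  exact (mul_le_mul_of_nonneg_right e2 (wt_pos _ _ _).le).trans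
    (wt_mul_le h0 h1 (by linarith) Q x w y)

theorem h9_wt2 (h0 : 0 < α) (h1 : α ≤ 1) (hb : 0 ≤ b) (hba : b ≤ a / 4) (Q : ℕ) (x y w : S2) :
    wt α (3 * a / 8) (dq Q x w) * wt α b (dq Q y w) ≤
        wt α b (dq Q x y) * wt α (a / 8) (dq Q x w) ∧
      wt α (3 * a / 8) (dq Q x w) * wt α b (dq Q x y) ≤
        wt α b (dq Q y w) * wt α (a / 8) (dq Q x w) := by
  have e1 : wt α (3 * a / 8) (dq Q x w) * wt α (-b) (dq Q x w) ≤ wt α (a / 8) (dq Q x w) := by
    rw [← wt_add]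
    exact wt_anti (by linarith) (dq_nonneg _ _ _)
  have t1 := wt_tri h0 h1 hb Q x w y
  have t2 := wt_tri h0 h1 hb Q w x y
  rw [dq_symm Q w y] at t1 t2
  rw [dq_symm Q w x] at t2
  have p1 := (wt_pos α (3 * a / 8) (dq Q x w)).le
  constructor
  · refine (mul_le_mul_of_nonneg_left t1 p1).trans ?_
    rw [← mul_assoc, mul_comm]
    exact mul_le_mul_of_nonneg_left e1 (wt_pos _ _ _).le
  · refine (mul_le_mul_of_nonneg_left t2 p1).trans ?_
    rw [← mul_assoc, mul_comm]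
    exact mul_le_mul_of_nonneg_left e1 (wt_pos _ _ _).le

/-- M1 for each term: `wt (3a/4) (x i, w) wt b (y, w) ≤ wt (b/2) (x i, y) wt (b/2) (y, w)` gives
`‖cm (D i) A‖ ≤ K C c (wt (b/2) (x i, y) + wt (b/2) (x i, y'))`, then `int_wt` -/
theorem norm_cm_inter₂ (h0 : 0 < α) (h1 : α ≤ 1) : ∃ (K : ℝ) (p : ℕ), 1 ≤ K ∧
    ∀ (a b : ℝ), 0 < b → b ≤ a → a ≤ 1 → ∀ (Q : ℕ) (C G c : ℝ) (y y' : S2) (H A : Fk (Q + 1)),
      0 ≤ C → IsInter Q α a C G H →
      (∀ u, pf Q A u ≤ c * (wt α b (dq Q y u) + wt α b (dq Q y' u))) →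
      ‖cm H A‖ ≤ K / b ^ p * G * C * c := by
  obtain ⟨K1, p1, k1, m1⟩ := norm_cm_le_int h0 h1
  obtain ⟨K2, p2, k2, m2⟩ := int_wt_muq h0
  obtain ⟨K3, p3, k3, m3⟩ := int_wt h0
  refine ⟨K1 * (K2 * 2 ^ p2) * (2 * (K3 * 2 ^ p3)), p1 + p2 + p3, ?_, ?_⟩
  · have e2 : (1 : ℝ) ≤ 2 ^ p2 := one_le_pow₀ one_le_two
    have e3 : (1 : ℝ) ≤ 2 ^ p3 := one_le_pow₀ one_le_two
    exact one_le_mul_of_one_le_of_one_le (one_le_mul_of_one_le_of_one_le k1
      (one_le_mul_of_one_le_of_one_le k2 e2)) (one_le_mul_of_one_le_of_one_le one_le_two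
        (one_le_mul_of_one_le_of_one_le k3 e3))
  rintro a b b0 hba a1 Q C G c y y' H A hC ⟨ι, _, ν, x, D, hI, rfl⟩ hA
  have a0 : 0 < a := b0.trans_le hba
  have hG := sites_nonneg hI.sites
  have hc : 0 ≤ c := by
    have h := (pf_nonneg A y).trans (hA y)
    exact nonneg_of_mul_nonneg_left h (add_pos (wt_pos _ _ _) (wt_pos _ _ _))
  have d1 : K1 / a ^ p1 ≤ K1 / b ^ p1 := by
    simpa using h9_div_pow (t := 1) (by linarith : 0 ≤ K1) b0 one_pos (by linarith : b ≤ 1 * a) p1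
  have d2 : K2 / (b / 2) ^ p2 ≤ K2 * 2 ^ p2 / b ^ p2 :=
    h9_div_pow (by linarith) b0 two_pos (by linarith) p2
  have d3 : K3 / (b / 2) ^ p3 ≤ K3 * 2 ^ p3 / b ^ p3 :=
    h9_div_pow (by linarith) b0 two_pos (by linarith) p3
  set L2 := K2 * 2 ^ p2 / b ^ p2 with hL2
  set L3 := K3 * 2 ^ p3 / b ^ p3 with hL3
  have l2 : 0 ≤ L2 := by rw [hL2]; positivity
  have iw : ∀ z : S2, Integrable (fun w => wt α (b / 2) (dq Q z w)) (muq Q) := fun z =>
    integrable_dq (continuous_wt h0 _) Q z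
  have s1 : ∀ z : S2, ∫ w, wt α (3 * a / 4) (dq Q z w) * pf Q A w ∂muq Q ≤
      c * L2 * (wt α (b / 2) (dq Q z y) + wt α (b / 2) (dq Q z y')) := by
    intro z
    calc ∫ w, wt α (3 * a / 4) (dq Q z w) * pf Q A w ∂muq Q
        ≤ ∫ w, (c * wt α (b / 2) (dq Q z y) * wt α (b / 2) (dq Q y w) +
            c * wt α (b / 2) (dq Q z y') * wt α (b / 2) (dq Q y' w)) ∂muq Q := by
          refine integral_mono (integrable_mul_pf A (continuous_wt h0 _) z)
            (((iw y).const_mul _).add ((iw y').const_mul _)) fun w => ?_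
          have t1 := mul_le_mul_of_nonneg_left (h9_wt1 h0 h1 b0.le hba Q z y w) hc
          have t2 := mul_le_mul_of_nonneg_left (h9_wt1 h0 h1 b0.le hba Q z y' w) hc
          have t3 := mul_le_mul_of_nonneg_left (hA w) (wt_pos α (3 * a / 4) (dq Q z w)).le
          simp only
          linarith
      _ ≤ _ := by
          rw [integral_add ((iw y).const_mul _) ((iw y').const_mul _), integral_const_mul,
            integral_const_mul]
          have t1 := mul_le_mul_of_nonneg_left ((m2 (b / 2) (by linarith) (by linarith) Q y).trans d2)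
            (mul_nonneg hc (wt_pos α (b / 2) (dq Q z y)).le)
          have t2 := mul_le_mul_of_nonneg_left
            ((m2 (b / 2) (by linarith) (by linarith) Q y').trans d2)
            (mul_nonneg hc (wt_pos α (b / 2) (dq Q z y')).le)
          linarith
  have is : ∀ z : S2, Integrable (fun i => wt α (b / 2) (dq Q (x i) z)) ν := fun z =>
    sites_integrable hI.sites (continuous_wt h0 _) z
  have s3 : ∀ z : S2, ∫ i, wt α (b / 2) (dq Q (x i) z) ∂ν ≤ G * L3 := fun z =>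
    (m3 (b / 2) (by linarith) (by linarith) Q G ι ν x hI.sites z).trans
      (mul_le_mul_of_nonneg_left d3 hG)
  have k0 : 0 ≤ K1 / b ^ p1 * C := by
    have : 0 ≤ K1 := by linarith
    positivity
  rw [Loc.cm_integral_left hI.int]
  calc ‖∫ i, cm (D i) A ∂ν‖
      ≤ ∫ i, K1 / b ^ p1 * C * (c * L2) *
          (wt α (b / 2) (dq Q (x i) y) + wt α (b / 2) (dq Q (x i) y')) ∂ν := by
        refine norm_integral_le_of_norm_le (((is y).add (is y')).const_mul _)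
          (Filter.Eventually.of_forall fun i => ?_)
        refine (m1 a a0 a1 Q C (x i) (D i) A (Or.inl (hI.ev i)) (hI.loc i).2).trans ?_
        rw [mul_assoc (K1 / b ^ p1 * C)]
        exact mul_le_mul (mul_le_mul_of_nonneg_right d1 hC) (s1 (x i))
          (integral_nonneg fun w => mul_nonneg (wt_pos _ _ _).le (pf_nonneg A w)) k0
    _ ≤ K1 / b ^ p1 * C * (c * L2) * (G * L3 + G * L3) := by
        rw [integral_const_mul, integral_add (is y) (is y')]
        exact mul_le_mul_of_nonneg_left (add_le_add (s3 y) (s3 y'))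
          (mul_nonneg k0 (mul_nonneg hc l2))
    _ = _ := by
        rw [hL2, hL3, pow_add, pow_add]
        field_simp
        ring

theorem norm_cm_inter (h0 : 0 < α) (h1 : α ≤ 1) : ∃ (K : ℝ) (p : ℕ), 1 ≤ K ∧
    ∀ (a b : ℝ), 0 < b → b ≤ a → a ≤ 1 → ∀ (Q : ℕ) (C G c : ℝ) (y : S2) (H A : Fk (Q + 1)),
      0 ≤ C → IsInter Q α a C G H → (∀ u, pf Q A u ≤ c * wt α b (dq Q y u)) →
      ‖cm H A‖ ≤ K / b ^ p * G * C * c := by
  obtain ⟨K, p, hK, h⟩ := norm_cm_inter₂ h0 h1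
  refine ⟨K, p, hK, fun a b b0 hba a1 Q C G c y H A hC hH hA =>
    h a b b0 hba a1 Q C G c y y H A hC hH fun u => (hA u).trans ?_⟩
  have hc : 0 ≤ c := nonneg_of_mul_nonneg_left ((pf_nonneg A y).trans (hA y)) (wt_pos _ _ _)
  exact mul_le_mul_of_nonneg_left (le_add_of_nonneg_right (wt_pos _ _ _).le) hc

/-- KERNEL BOUND for Lieb-Robinson: M2 for each term, `wt_tri` twice, rates `a / 8` remain -/
theorem kernel_inter (h0 : 0 < α) (h1 : α ≤ 1) : ∃ (K : ℝ) (p : ℕ), 1 ≤ K ∧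
    ∀ (a b : ℝ), 0 < a → a ≤ 1 → 0 ≤ b → b ≤ a / 4 → ∀ (Q : ℕ) (C G c : ℝ) (y : S2)
      (H A : Fk (Q + 1)), 0 ≤ C → IsInter Q α a C G H →
      (∀ u, pf Q A u ≤ c * wt α b (dq Q y u)) → ∀ u,
      ‖cm A (cm H (dA (coh Q u)))‖ + ‖cm A (cm H (star (dA (coh Q u))))‖ ≤
        K / a ^ p * G * C * c * wt α b (dq Q y u) := by
  obtain ⟨K1, p1, k1, m1⟩ := norm_cm_cm_le_int h0 h1
  obtain ⟨K2, p2, k2, m2⟩ := int_wt_muq h0
  obtain ⟨K3, p3, k3, m3⟩ := int_wt h0
  refine ⟨K1 * (K2 * 8 ^ p2) * (K3 * 8 ^ p3), p1 + p2 + p3, ?_, ?_⟩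
  · have e2 : (1 : ℝ) ≤ 8 ^ p2 := one_le_pow₀ (by norm_num)
    have e3 : (1 : ℝ) ≤ 8 ^ p3 := one_le_pow₀ (by norm_num)
    exact one_le_mul_of_one_le_of_one_le (one_le_mul_of_one_le_of_one_le k1
      (one_le_mul_of_one_le_of_one_le k2 e2)) (one_le_mul_of_one_le_of_one_le k3 e3)
  rintro a b a0 a1 b0 hba Q C G c y H A hC ⟨ι, _, ν, x, D, hI, rfl⟩ hA u
  have hG := sites_nonneg hI.sites
  have hc : 0 ≤ c := nonneg_of_mul_nonneg_left ((pf_nonneg A y).trans (hA y)) (wt_pos _ _ _)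
  have d2 : K2 / (a / 8) ^ p2 ≤ K2 * 8 ^ p2 / a ^ p2 :=
    h9_div_pow (by linarith) a0 (by norm_num) (by linarith) p2
  have d3 : K3 / (a / 8) ^ p3 ≤ K3 * 8 ^ p3 / a ^ p3 :=
    h9_div_pow (by linarith) a0 (by norm_num) (by linarith) p3
  set L2 := K2 * 8 ^ p2 / a ^ p2 with hL2
  set L3 := K3 * 8 ^ p3 / a ^ p3 with hL3
  have l2 : 0 ≤ L2 := by rw [hL2]; positivity
  have iw : ∀ z : S2, Integrable (fun w => wt α (a / 8) (dq Q z w)) (muq Q) := fun z =>
    integrable_dq (continuous_wt h0 _) Q z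
  have s1 : ∀ z : S2, ∫ w, wt α (3 * a / 8) (dq Q z w) * pf Q A w ∂muq Q ≤
      c * wt α b (dq Q z y) * L2 := by
    intro z
    calc ∫ w, wt α (3 * a / 8) (dq Q z w) * pf Q A w ∂muq Q
        ≤ ∫ w, c * wt α b (dq Q z y) * wt α (a / 8) (dq Q z w) ∂muq Q := by
          refine integral_mono (integrable_mul_pf A (continuous_wt h0 _) z)
            ((iw z).const_mul _) fun w => ?_
          have t1 := mul_le_mul_of_nonneg_left (h9_wt2 h0 h1 b0 hba Q z y w).1 hc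
          have t3 := mul_le_mul_of_nonneg_left (hA w) (wt_pos α (3 * a / 8) (dq Q z w)).le
          simp only
          linarith
      _ ≤ _ := by
          rw [integral_const_mul]
          exact mul_le_mul_of_nonneg_left ((m2 (a / 8) (by linarith) (by linarith) Q z).trans d2)
            (mul_nonneg hc (wt_pos _ _ _).le)
  have is : Integrable (fun i => wt α (a / 8) (dq Q (x i) u)) ν :=
    sites_integrable hI.sites (continuous_wt h0 _) u
  have s3 : ∫ i, wt α (a / 8) (dq Q (x i) u) ∂ν ≤ G * L3 :=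
    (m3 (a / 8) (by linarith) (by linarith) Q G ι ν x hI.sites u).trans
      (mul_le_mul_of_nonneg_left d3 hG)
  have k0 : 0 ≤ K1 / a ^ p1 * C := by
    have : 0 ≤ K1 := by linarith
    positivity
  have j1 := (h9_int_cm hI.int (dA (coh Q u))).1
  have j2 := (h9_int_cm hI.int (star (dA (coh Q u)))).1
  have n1 := (h9_int_cm j1 A).2.norm
  have n2 := (h9_int_cm j2 A).2.norm
  rw [Loc.cm_integral_left hI.int, Loc.cm_integral_left hI.int, Loc.cm_integral_right j1,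
    Loc.cm_integral_right j2]
  calc ‖∫ i, cm A (cm (D i) (dA (coh Q u))) ∂ν‖ + ‖∫ i, cm A (cm (D i) (star (dA (coh Q u)))) ∂ν‖
      ≤ ∫ i, (‖cm A (cm (D i) (dA (coh Q u)))‖ + ‖cm A (cm (D i) (star (dA (coh Q u))))‖) ∂ν := by
        rw [integral_add n1 n2]
        exact add_le_add (norm_integral_le_integral_norm _) (norm_integral_le_integral_norm _)
    _ ≤ ∫ i, K1 / a ^ p1 * C * (c * L2 * wt α b (dq Q y u)) * wt α (a / 8) (dq Q (x i) u) ∂ν := by
        refine integral_mono (n1.add n2) (is.const_mul _) fun i => ?_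
        refine (m1 a a0 a1 Q C (x i) u (D i) A (hI.ev i) (hI.loc i).2).trans ?_
        have t1 := mul_le_mul_of_nonneg_left (s1 (x i)) (wt_pos α (3 * a / 8) (dq Q (x i) u)).le
        have t2 := mul_le_mul_of_nonneg_left (h9_wt2 h0 h1 b0 hba Q (x i) y u).2 (mul_nonneg hc l2)
        show _ ≤ K1 / a ^ p1 * C * (c * L2 * wt α b (dq Q y u)) * wt α (a / 8) (dq Q (x i) u)
        rw [mul_assoc (K1 / a ^ p1 * C), mul_assoc (K1 / a ^ p1 * C)]
        exact mul_le_mul_of_nonneg_left (by linarith) k0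
    _ ≤ K1 / a ^ p1 * C * (c * L2 * wt α b (dq Q y u)) * (G * L3) := by
        rw [integral_const_mul]
        exact mul_le_mul_of_nonneg_left s3
          (mul_nonneg k0 (mul_nonneg (mul_nonneg hc l2) (wt_pos _ _ _).le))
    _ = _ := by
        rw [hL2, hL3, pow_add, pow_add]
        field_simp

theorem h30_ellY {n : ℕ} (A e : Fk n) (he : ‖e‖ ≤ 1) (v : Fin n → ℂ) :
    ell (A * e - e * (par n * A * par n)) v ≤ 2 * ell A v + 2 * ‖A‖ * ell e v := by
  have h1 := Loc.ell_sub (A * e) (e * (par n * A * par n)) v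
  have h2 := Loc.ell_mul A e v
  have h3 := Loc.ell_mul e (par n * A * par n) v
  rw [Loc.ell_par_conj, Loc.norm_mul_par, Loc.norm_par_mul] at h3
  have h4 := mul_le_of_le_one_right (Loc.ell_nonneg A v) he
  have h5 := mul_le_of_le_one_left (Loc.ell_nonneg A v) he
  linarith

theorem h30_Y1 {n : ℕ} (A : Fk n) (k : Fin n → ℂ) :
    cm A (dA k) * par n = A * cA k - cA k * (par n * A * par n) := by
  unfold cm dA
  rw [sub_mul, mul_assoc, mul_assoc, Loc.par_mul_par, mul_one]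
  simp only [mul_assoc]

theorem h30_Y2 {n : ℕ} (A : Fk n) (k : Fin n → ℂ) :
    cm A (star (dA k)) * par n = -(A * star (cA k) - star (cA k) * (par n * A * par n)) := by
  unfold cm
  rw [Loc.a2_star_dA, Loc.par_mul_star_cA, sub_mul, mul_neg, neg_mul, mul_assoc, mul_assoc,
    Loc.par_mul_par, mul_one]
  noncomm_ring

theorem h30_cm_par {n : ℕ} {H : Fk n} (hH : Ev H) (X : Fk n) :
    ‖cm H (X * par n)‖ = ‖cm H X‖ := by
  have h : par n * H = H * par n := hH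
  have e : cm H (X * par n) = cm H X * par n := by
    unfold cm
    rw [mul_assoc X, h]
    noncomm_ring
  rw [e, Loc.norm_mul_par]

theorem h30_jac {n : ℕ} (H A d : Fk n) :
    ‖cm (cm H A) d‖ ≤ ‖cm H (cm A d)‖ + ‖cm A (cm H d)‖ := by
  have e : cm (cm H A) d = cm H (cm A d) - cm A (cm H d) := by
    unfold cm
    noncomm_ring
  rw [e]
  exact norm_sub_le _ _

theorem h30_pf (h0 : 0 < α) (h1 : α ≤ 1) (b0 : 0 ≤ b) (b1 : b ≤ 1) (hA : IsL Q α b C' y A) (u : S2)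
    {Y : Fk (Q + 1)} (hY : ‖Y‖ ≤ pf Q A u)
    (hY' : ∀ w, pf Q Y w ≤ 2 * pf Q A w + 2 * ‖A‖ * ‖star (coh Q u) ⬝ᵥ coh Q w‖) (w : S2) :
    pf Q Y w ≤ 7 * C' * wt α (b / 2) (dq Q y u) *
      (wt α (b / 2) (dq Q y w) + wt α (b / 2) (dq Q u w)) := by
  have hC : 0 ≤ C' := (norm_nonneg _).trans hA.1
  have e : ∀ r, wt α b r = wt α (b / 2) r ^ 2 := fun r => by
    rw [sq, ← wt_add, add_halves]
  have o1 : ‖star (coh Q u) ⬝ᵥ coh Q w‖ ≤ 5 * wt α b (dq Q u w) := by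
    have h2 := norm_orN_dot_coh Q u w 0
    rw [orN_zero] at h2
    have h3 := gauss_wt (r := dq Q u w) (s := Real.sqrt (0 : ℕ)) h0 h1 b0 b1 (dq_nonneg Q u w)
      (Real.sqrt_nonneg _)
    refine h2.trans (h3.trans_eq ?_)
    rw [Nat.cast_zero, Real.sqrt_zero, wt_zero h0, one_mul]
  have p1 : pf Q Y w ≤ 4 * (C' * wt α (b / 2) (dq Q y u) ^ 2) := by
    have h2 := Loc.ell_le Y (coh Q w)
    rw [nv_coh, mul_one] at h2
    have h3 := hY.trans (hA.2 u)
    rw [e] at h3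
    unfold pf
    linarith
  have p2 : pf Q Y w ≤ 10 * (C' * (wt α (b / 2) (dq Q y w) ^ 2 + wt α (b / 2) (dq Q u w) ^ 2)) := by
    have h2 := hA.2 w
    have h3 := mul_le_mul hA.1 o1 (norm_nonneg _) hC
    rw [e] at h2 h3
    have h4 := mul_nonneg hC (sq_nonneg (wt α (b / 2) (dq Q y w)))
    have h5 := hY' w
    nlinarith
  have q0 := wt_pos α (b / 2) (dq Q y u)
  have q1 := wt_pos α (b / 2) (dq Q y w)
  have q2 := wt_pos α (b / 2) (dq Q u w)
  generalize wt α (b / 2) (dq Q y u) = p at *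
  generalize wt α (b / 2) (dq Q y w) = q at *
  generalize wt α (b / 2) (dq Q u w) = r at *
  have P0 : 0 ≤ pf Q Y w := Loc.ell_nonneg _ _
  refine (pow_le_pow_iff_left₀ P0 (by positivity) two_ne_zero).1 ?_
  have h6 := mul_le_mul p1 p2 P0 (by positivity)
  have h7 : 0 ≤ C' ^ 2 * p ^ 2 * (q * r) := by positivity
  have h8 : 0 ≤ C' ^ 2 * p ^ 2 * (q ^ 2 + r ^ 2) := by positivity
  nlinarith

theorem h30_div {K b : ℝ} (hK : 0 ≤ K) (b0 : 0 < b) (b1 : b ≤ 1) {p q : ℕ} (h : p ≤ q) :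
    K / b ^ p ≤ K / b ^ q :=
  div_le_div_of_nonneg_left hK (pow_pos b0 _) (pow_le_pow_of_le_one b0.le b1 h)

/-- Jacobi: `[[H,A],d] = [H,[A,d]] - [A,[H,d]]`; `Y = [A, d] θ = A c - c θ A θ` has
`pf Y w ≤ min (4 ‖Y‖) (2 pf A w + 2 ‖A‖ |⟨k_u, k_w⟩|)`, and `‖[H, [A,d]]‖ = ‖[H, Y]‖`;
take the geometric mean and apply `norm_cm_inter₂` with the centres `y`, `u` -/
theorem isL_cm_inter (h0 : 0 < α) (h1 : α ≤ 1) : ∃ (K : ℝ) (p : ℕ), 1 ≤ K ∧
    ∀ (a b : ℝ), a ≤ 1 → 0 < b → b ≤ a / 4 → ∀ (Q : ℕ) (C G C' : ℝ) (y : S2)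
      (H A : Fk (Q + 1)), 0 ≤ C → IsInter Q α a C G H → IsL Q α b C' y A →
      IsL Q α (b / 4) (K / b ^ p * G * C * C') y (cm H A) := by
  obtain ⟨K1, p1, hK1, H1⟩ := norm_cm_inter₂ h0 h1
  obtain ⟨K2, p2, hK2, H2⟩ := kernel_inter h0 h1
  obtain ⟨K3, p3, hK3, H3⟩ := norm_cm_inter h0 h1
  have hK1' : 0 ≤ 14 * (K1 * 2 ^ p1) := by positivity
  refine ⟨14 * (K1 * 2 ^ p1) + K2 + K3, p1 + p2 + p3, by linarith, ?_⟩
  intro a b a1 b0 hb Q C G C' y H A hC hH hA
  have hC' : 0 ≤ C' := (norm_nonneg _).trans hA.1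
  have hG : 0 ≤ G := hH.nonneg
  have b1 : b ≤ 1 := by linarith
  have hGC : 0 ≤ G * C * C' := by positivity
  have d1 := h30_div hK1' b0 b1 (show p1 ≤ p1 + p2 + p3 by omega)
  have d2 := h30_div (K := K2) (by linarith) b0 b1 (show p2 ≤ p1 + p2 + p3 by omega)
  have d3 := h30_div (K := K3) (by linarith) b0 b1 (show p3 ≤ p1 + p2 + p3 by omega)
  have n1 : 0 ≤ 14 * (K1 * 2 ^ p1) / b ^ (p1 + p2 + p3) := by positivity
  have n2 : 0 ≤ K2 / b ^ (p1 + p2 + p3) := by positivity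
  have n3 : 0 ≤ K3 / b ^ (p1 + p2 + p3) := by positivity
  have eK : (14 * (K1 * 2 ^ p1) + K2 + K3) / b ^ (p1 + p2 + p3) * G * C * C' =
      (14 * (K1 * 2 ^ p1) / b ^ (p1 + p2 + p3) + K2 / b ^ (p1 + p2 + p3) +
        K3 / b ^ (p1 + p2 + p3)) * (G * C * C') := by ring
  rw [eK]
  refine ⟨?_, fun u => ?_⟩
  · refine (H3 a b b0 (by linarith) a1 Q C G C' y H A hC hH hA.2).trans ?_
    rw [mul_assoc, mul_assoc, ← mul_assoc G]
    exact mul_le_mul_of_nonneg_right (by linarith) hGC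
  · have k2 := H2 a b (by linarith) a1 b0.le hb Q C G C' y H A hC hH hA.2 u
    have hc : ‖cA (coh Q u)‖ ≤ 1 := (Loc.norm_cA_le _).trans_eq (nv_coh Q u)
    have key : ∀ d : Fk (Q + 1), ‖cm A d‖ ≤ pf Q A u →
        (∀ w, pf Q (cm A d * par (Q + 1)) w ≤
          2 * pf Q A w + 2 * ‖A‖ * ‖star (coh Q u) ⬝ᵥ coh Q w‖) →
        ‖cm H (cm A d)‖ ≤ K1 / (b / 2) ^ p1 * G * C * (7 * C' * wt α (b / 2) (dq Q y u)) := by
      intro d hd hd'
      rw [← h30_cm_par hH.ev]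
      exact H1 a (b / 2) (by linarith) (by linarith) a1 Q C G _ y u H _ hC hH
        (h30_pf h0 h1 b0.le b1 hA u ((Loc.norm_mul_par _).trans_le hd) hd')
    have k1 := key (dA (coh Q u)) (le_add_of_nonneg_right (norm_nonneg _)) fun w => by
      rw [h30_Y1, ← Loc.ell_cA]
      exact h30_ellY A _ hc _
    have k1' := key (star (dA (coh Q u))) (le_add_of_nonneg_left (norm_nonneg _)) fun w => by
      rw [h30_Y2, ← Loc.ell_cA, ← Loc.ell_star (cA _), pf, ← neg_one_smul ℂ, Loc.ell_smul,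
        norm_neg, norm_one, one_mul]
      exact h30_ellY A _ (by rwa [norm_star]) _
    have j1 := h30_jac H A (dA (coh Q u))
    have j2 := h30_jac H A (star (dA (coh Q u)))
    have w1 : wt α (b / 2) (dq Q y u) ≤ wt α (b / 4) (dq Q y u) :=
      wt_anti (by linarith) (dq_nonneg Q y u)
    have w2 : wt α b (dq Q y u) ≤ wt α (b / 4) (dq Q y u) :=
      wt_anti (by linarith) (dq_nonneg Q y u)
    have w0 := wt_pos α (b / 4) (dq Q y u)
    have d2' : K2 / a ^ p2 ≤ K2 / b ^ p2 :=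
      div_le_div_of_nonneg_left (by linarith) (pow_pos b0 _)
        (pow_le_pow_left₀ b0.le (by linarith) _)
    have t1 : 2 * (K1 / (b / 2) ^ p1 * G * C * (7 * C' * wt α (b / 2) (dq Q y u))) ≤
        14 * (K1 * 2 ^ p1) / b ^ (p1 + p2 + p3) * (G * C * C') * wt α (b / 4) (dq Q y u) := by
      have e : 2 * (K1 / (b / 2) ^ p1 * G * C * (7 * C' * wt α (b / 2) (dq Q y u))) =
          14 * (K1 * 2 ^ p1) / b ^ p1 * (G * C * C') * wt α (b / 2) (dq Q y u) := by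
        rw [div_pow]
        field_simp
        ring
      rw [e]
      exact mul_le_mul (mul_le_mul_of_nonneg_right d1 hGC) w1 (wt_pos _ _ _).le (by positivity)
    have t2 : K2 / a ^ p2 * G * C * C' * wt α b (dq Q y u) ≤
        K2 / b ^ (p1 + p2 + p3) * (G * C * C') * wt α (b / 4) (dq Q y u) := by
      have e : K2 / a ^ p2 * G * C * C' = K2 / a ^ p2 * (G * C * C') := by ring
      rw [e]
      exact mul_le_mul (mul_le_mul_of_nonneg_right (d2'.trans d2) hGC) w2 (wt_pos _ _ _).le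
        (by positivity)
    have t3 : 0 ≤ K3 / b ^ (p1 + p2 + p3) * (G * C * C') * wt α (b / 4) (dq Q y u) := by positivity
    unfold pf ell
    linarith

end Crest.Agent.R340.Ls
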