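import Mathlib

/-! # Row 340, module PIN: the smoothed weights `dtB` (tangent line of `-log (j+1) / 2`) -/

set_option autoImplicit false

namespace Crest.Agent.R340.Pin

open Real

/-- `1 / x` for `x ≥ B`, the exponential tangent to it for `x ≤ B` -/
noncomputable def uB (B x : ℝ) : ℝ := if x ≤ B then exp (1 - x / B) / B else 1 / x

/-- the smoothed weights -/
noncomputable def dtB (B : ℝ) (j : ℕ) : ℝ := √(uB B (j + 1))

/-- the central value of `dtB i * dtB j`, `i + j = b` -/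
noncomputable def mB (B : ℝ) (b : ℕ) : ℝ := uB B ((b + 2) / 2)

/-- the ratio of the geometric part -/
noncomputable def tauB (B : ℝ) : ℝ := exp (-(1 / (2 * B)))

/-- the amplitude of the geometric part -/
noncomputable def ampB (B : ℝ) : ℝ := √(exp (1 - 1 / B) / B)

variable {B x y : ℝ}

theorem uB_le (h : x ≤ B) : uB B x = exp (1 - x / B) / B := if_pos h

theorem uB_ge (hB : 0 < B) (h : B ≤ x) : uB B x = 1 / x := by
  unfold uB
  split_ifs with h'
  · have : x = B := le_antisymm h' h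
    subst this
    rw [div_self hB.ne', sub_self, exp_zero]
  · rfl

theorem uB_pos (hB : 0 < B) (hx : 0 < x) : 0 < uB B x := by
  unfold uB
  split_ifs <;> positivity

theorem exp_le_inv (hB : 0 < B) (hx : 0 < x) : exp (1 - x / B) / B ≤ 1 / x := by
  have h := add_one_le_exp (x / B - 1)
  have e : exp (1 - x / B) * exp (x / B - 1) = 1 := by rw [← exp_add]; simp
  have hp := exp_pos (1 - x / B)
  rw [div_le_div_iff₀ hB hx]
  have h2 : exp (1 - x / B) * (x / B) ≤ 1 := by nlinarith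
  have h3 : exp (1 - x / B) * x = exp (1 - x / B) * (x / B) * B := by field_simp
  rw [h3]
  exact mul_le_mul_of_nonneg_right h2 hB.le

theorem uB_le_inv (hB : 0 < B) (hx : 0 < x) : uB B x ≤ 1 / x := by
  unfold uB
  split_ifs
  · exact exp_le_inv hB hx
  · exact le_rfl

theorem exp_le_uB (hB : 0 < B) (hx : 0 < x) : exp (1 - x / B) / B ≤ uB B x := by
  unfold uB
  split_ifs
  · exact le_rfl
  · exact exp_le_inv hB hx

theorem inv_le_uB (hB : 0 < B) (h : x ≤ B) : 1 / B ≤ uB B x := by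
  rw [uB_le h]
  refine div_le_div_of_nonneg_right (one_le_exp ?_) hB.le
  rw [sub_nonneg, div_le_one hB]
  exact h

private theorem cv_exp (B x y : ℝ) :
    exp (1 - x / B) / B * (exp (1 - y / B) / B) = (exp (1 - (x + y) / 2 / B) / B) ^ 2 := by
  rw [div_pow, ← exp_nat_mul, div_mul_div_comm, ← exp_add, sq]
  congr 2
  push_cast
  ring

private theorem cv_low (hB : 0 < B) (hx : 0 < x) (hxy : x ≤ y) :
    uB B ((x + y) / 2) ^ 2 ≤ uB B x * uB B y := by
  have hy : 0 < y := hx.trans_le hxy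
  rcases le_total ((x + y) / 2) B with hc | hc
  · rw [uB_le hc, ← cv_exp]
    exact mul_le_mul (exp_le_uB hB hx) (exp_le_uB hB hy) (by positivity) (uB_pos hB hx).le
  · rw [uB_ge hB hc, uB_ge hB (by linarith : B ≤ y)]
    rcases le_total x B with h | h
    · rw [uB_le h]
      have h1 := add_one_le_exp (1 - x / B)
      have h2 : (2 * B - x) / B ^ 2 ≤ exp (1 - x / B) / B := by
        rw [sq, ← div_div]
        refine div_le_div_of_nonneg_right (le_trans (le_of_eq ?_) h1) hB.le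
        field_simp
        ring
      refine le_trans ?_ (mul_le_mul_of_nonneg_right h2 (by positivity))
      rw [div_pow, div_mul_div_comm, div_le_div_iff₀ (by positivity) (by positivity)]
      obtain ⟨σ, rfl⟩ : ∃ σ, x = B - σ := ⟨B - x, by ring⟩
      obtain ⟨δ, rfl⟩ : ∃ δ, y = B + σ + δ := ⟨y - B - σ, by ring⟩
      have hσ : 0 ≤ σ := by linarith
      have hδ : 0 ≤ δ := by linarith
      have : 0 ≤ σ * δ * B := by positivity
      have : 0 ≤ (B + σ) * δ ^ 2 := by positivity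
      nlinarith
    · rw [uB_ge hB h, div_pow, div_mul_div_comm,
        div_le_div_iff₀ (by positivity) (by positivity)]
      nlinarith [sq_nonneg (x - y)]

private theorem cv_up (hB : 0 < B) (hx : 0 < x) (hxy : x ≤ y) :
    uB B x * uB B y * (x * y) ≤ uB B ((x + y) / 2) ^ 2 * ((x + y) / 2) ^ 2 := by
  have hy : 0 < y := hx.trans_le hxy
  rcases le_total ((x + y) / 2) B with hc | hc
  · have hxB : x ≤ B := by linarith
    rw [uB_le hc, ← cv_exp, uB_le hxB]
    rcases le_total y B with h | h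
    · rw [uB_le h]
      exact mul_le_mul_of_nonneg_left (by nlinarith [sq_nonneg (x - y)]) (by positivity)
    · rw [uB_ge hB h, mul_assoc, mul_assoc]
      refine mul_le_mul_of_nonneg_left ?_ (by positivity)
      have h1 := add_one_le_exp (1 - y / B)
      have h2 : (2 * B - y) / B ^ 2 ≤ exp (1 - y / B) / B := by
        rw [sq, ← div_div]
        refine div_le_div_of_nonneg_right (le_trans (le_of_eq ?_) h1) hB.le
        field_simp
        ring
      refine le_trans ?_ (mul_le_mul_of_nonneg_right h2 (by positivity))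
      have e : 1 / y * (x * y) = x := by field_simp
      rw [e, div_mul_eq_mul_div, le_div_iff₀ (by positivity)]
      obtain ⟨ε, rfl⟩ : ∃ ε, y = B + ε := ⟨y - B, by ring⟩
      obtain ⟨δ, rfl⟩ : ∃ δ, x = B - ε - δ := ⟨B - ε - x, by ring⟩
      have hε : 0 ≤ ε := by linarith
      have hδ : 0 ≤ δ := by linarith
      have : 0 ≤ ε * δ * B := by positivity
      have : 0 ≤ (B - ε) * δ ^ 2 := mul_nonneg (by linarith) (sq_nonneg _)
      nlinarith
  · rw [uB_ge hB hc, ← mul_pow, one_div_mul_cancel (by positivity), one_pow]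
    have h1 := uB_le_inv hB hx
    have h2 := uB_le_inv hB hy
    rw [le_div_iff₀ hx] at h1
    rw [le_div_iff₀ hy] at h2
    calc uB B x * uB B y * (x * y) = uB B x * x * (uB B y * y) := by ring
      _ ≤ 1 * 1 := mul_le_mul h1 h2 (mul_nonneg (uB_pos hB hy).le hy.le) zero_le_one
      _ = 1 := one_mul _

theorem uB_low (hB : 0 < B) (hx : 0 < x) (hy : 0 < y) :
    uB B ((x + y) / 2) ^ 2 ≤ uB B x * uB B y := by
  rcases le_total x y with h | h
  · exact cv_low hB hx h
  · rw [add_comm, mul_comm]; exact cv_low hB hy h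

theorem uB_up (hB : 0 < B) (hx : 0 < x) (hy : 0 < y) :
    uB B x * uB B y * (x * y) ≤ uB B ((x + y) / 2) ^ 2 * ((x + y) / 2) ^ 2 := by
  rcases le_total x y with h | h
  · exact cv_up hB hx h
  · rw [add_comm, mul_comm (uB B x), mul_comm x]; exact cv_up hB hy h

theorem dtB_pos (hB : 0 < B) (j : ℕ) : 0 < dtB B j := sqrt_pos.2 (uB_pos hB (by positivity))

theorem mB_pos (hB : 0 < B) (b : ℕ) : 0 < mB B b := uB_pos hB (by positivity)

theorem tauB_pos (B : ℝ) : 0 < tauB B := exp_pos _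

theorem tauB_le_one (hB : 0 < B) : tauB B ≤ 1 := exp_le_one_iff.2 (by
  have : 0 < 1 / (2 * B) := by positivity
  linarith)

theorem half_le_tauB (hB : 1 ≤ B) : 1 / 2 ≤ tauB B := by
  have h := add_one_le_exp (-(1 / (2 * B)))
  have : 1 / (2 * B) ≤ 1 / 2 := one_div_le_one_div_of_le (by norm_num) (by linarith)
  unfold tauB
  linarith

theorem ampB_pos (hB : 0 < B) : 0 < ampB B := sqrt_pos.2 (by positivity)

theorem geom_eq (hB : 0 < B) (j : ℕ) :
    ampB B * tauB B ^ j = √(exp (1 - ((j : ℝ) + 1) / B) / B) := by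
  have h := ampB_pos hB
  have h' := tauB_pos B
  symm
  rw [sqrt_eq_iff_mul_self_eq (by positivity) (by positivity)]
  have e : tauB B ^ j * tauB B ^ j = exp (-(j / B)) := by
    rw [tauB, ← exp_nat_mul, ← exp_add]
    congr 1
    field_simp
    ring
  symm
  calc ampB B * tauB B ^ j * (ampB B * tauB B ^ j)
      = ampB B * ampB B * (tauB B ^ j * tauB B ^ j) := by ring
    _ = exp (1 - 1 / B) / B * exp (-(j / B)) := by
      rw [e, ampB, mul_self_sqrt (by positivity)]
    _ = exp (1 - ((j : ℝ) + 1) / B) / B := by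
      rw [div_mul_eq_mul_div, ← exp_add]
      congr 2
      ring

/-- geometric below `B` -/
theorem dtB_of_le (hB : 0 < B) {j : ℕ} (h : (j : ℝ) + 1 ≤ B) : dtB B j = ampB B * tauB B ^ j := by
  rw [geom_eq hB, dtB, uB_le h]

/-- `(j + 1) ^ (-1/2)` above `B` -/
theorem dtB_of_ge (hB : 0 < B) {j : ℕ} (h : B ≤ (j : ℝ) + 1) : dtB B j = (√((j : ℝ) + 1))⁻¹ := by
  rw [dtB, uB_ge hB h, one_div, sqrt_inv]

theorem geom_le_dtB (hB : 0 < B) (j : ℕ) : ampB B * tauB B ^ j ≤ dtB B j := by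
  rw [geom_eq hB]
  exact sqrt_le_sqrt (exp_le_uB hB (by positivity))

theorem dtB_le (hB : 0 < B) (j : ℕ) : dtB B j ≤ (√((j : ℝ) + 1))⁻¹ := by
  rw [← sqrt_inv, ← one_div]
  exact sqrt_le_sqrt (uB_le_inv hB (by positivity))

theorem dtB_le_ampB (hB : 1 ≤ B) (j : ℕ) : dtB B j ≤ ampB B := by
  have hB0 : 0 < B := by linarith
  rcases le_total ((j : ℝ) + 1) B with h | h
  · rw [dtB_of_le hB0 h]
    exact mul_le_of_le_one_right (ampB_pos hB0).le
      (pow_le_one₀ (tauB_pos B).le (tauB_le_one hB0))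
  · refine sqrt_le_sqrt ?_
    rw [uB_ge hB0 h, ← uB_le hB]
    exact (one_div_le_one_div_of_le hB0 h).trans (inv_le_uB hB0 hB)

theorem ampB_le_one (hB : 0 < B) : ampB B ≤ 1 := by
  refine sqrt_le_one.2 ?_
  simpa using exp_le_inv hB one_pos

theorem inv_le_ampB (hB : 1 ≤ B) : (√B)⁻¹ ≤ ampB B := by
  rw [← sqrt_inv, ← one_div, ampB, ← uB_le hB]
  exact sqrt_le_sqrt (inv_le_uB (by linarith) hB)

/-- `(j + 1) ^ (-1/2) ≤ √B * dtB B j` -/
theorem le_mul_dtB (hB : 1 ≤ B) (j : ℕ) : (√((j : ℝ) + 1))⁻¹ ≤ √B * dtB B j := by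
  have hB0 : 0 < B := by linarith
  rcases le_total ((j : ℝ) + 1) B with h | h
  · have h1 : (√((j : ℝ) + 1))⁻¹ ≤ 1 :=
      inv_le_one_of_one_le₀ (one_le_sqrt.2 (by linarith [Nat.cast_nonneg (α := ℝ) j]))
    refine h1.trans ?_
    rw [dtB, ← sqrt_mul hB0.le, one_le_sqrt]
    have := inv_le_uB hB0 h
    rwa [div_le_iff₀' hB0] at this
  · rw [dtB_of_ge hB0 h]
    exact le_mul_of_one_le_left (by positivity) (one_le_sqrt.2 hB)

theorem mB_le (hB : 0 < B) (i j : ℕ) : mB B (i + j) ≤ dtB B i * dtB B j := by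
  rw [dtB, dtB, ← sqrt_mul (uB_pos hB (by positivity)).le]
  refine le_sqrt_of_sq_le ?_
  have := uB_low (x := (i : ℝ) + 1) (y := (j : ℝ) + 1) hB (by positivity) (by positivity)
  rw [mB]
  convert this using 3
  push_cast
  ring

theorem le_mB (hB : 0 < B) (i j : ℕ) : dtB B i * dtB B j ≤
    mB B (i + j) * (1 + ((j : ℝ) - i) ^ 2 / (8 * (((i : ℝ) + 1) * (j + 1)))) := by
  have hm := mB_pos hB (i + j)
  rw [dtB, dtB, ← sqrt_mul (uB_pos hB (by positivity)).le]
  refine sqrt_le_iff.2 ⟨by positivity, ?_⟩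
  have h := uB_up (x := (i : ℝ) + 1) (y := (j : ℝ) + 1) hB (by positivity) (by positivity)
  have e : mB B (i + j) = uB B (((i : ℝ) + 1 + (j + 1)) / 2) := by
    rw [mB]; congr 2; push_cast; ring
  rw [← e, ← le_div_iff₀ (by positivity)] at h
  refine h.trans ?_
  rw [mul_div_assoc, mul_pow]
  refine mul_le_mul_of_nonneg_left ?_ (by positivity)
  have e2 : (((i : ℝ) + 1 + (j + 1)) / 2) ^ 2 / (((i : ℝ) + 1) * (j + 1)) =
      1 + 2 * (((j : ℝ) - i) ^ 2 / (8 * (((i : ℝ) + 1) * (j + 1)))) := by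
    field_simp
    ring
  rw [e2]
  nlinarith [sq_nonneg (((j : ℝ) - i) ^ 2 / (8 * (((i : ℝ) + 1) * (j + 1))))]

theorem mB_eq (hB : 0 < B) {i j : ℕ} (h : (i : ℝ) + j + 1 ≤ B) :
    dtB B i * dtB B j = mB B (i + j) := by
  have hi : (0 : ℝ) ≤ i := Nat.cast_nonneg i
  have hj : (0 : ℝ) ≤ j := Nat.cast_nonneg j
  have e : mB B (i + j) = uB B (((i : ℝ) + 1 + (j + 1)) / 2) := by
    rw [mB]; congr 2; push_cast; ring
  rcases le_total (((i : ℝ) + 1 + (j + 1)) / 2) B with hc | hc
  · rw [e, dtB, dtB, ← sqrt_mul (uB_pos hB (by positivity)).le, uB_le (by linarith),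
      uB_le (by linarith : (j : ℝ) + 1 ≤ B), cv_exp, sqrt_sq (by positivity), uB_le hc]
  · have h0 : (i : ℝ) = 0 := by linarith
    have h1 : (j : ℝ) = 0 := by linarith
    rw [e, dtB, dtB, h0, h1, mul_self_sqrt (uB_pos hB (by positivity)).le]
    norm_num

/-- `mB B b ≥ min (1 / B) (2 / (b + 2))` -/
theorem mB_ge (hB : 1 ≤ B) (b : ℕ) : 2 / (B * ((b : ℝ) + 2)) ≤ mB B b := by
  have hB0 : 0 < B := by linarith
  have hb : (0 : ℝ) ≤ b := Nat.cast_nonneg b
  rw [mB]
  rcases le_total (((b : ℝ) + 2) / 2) B with h | h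
  · refine le_trans ?_ (inv_le_uB hB0 h)
    rw [div_le_div_iff₀ (by positivity) hB0]
    nlinarith
  · rw [uB_ge hB0 h, div_le_div_iff₀ (by positivity) (by positivity)]
    nlinarith

end Crest.Agent.R340.Pin
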