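import Crest.Agent.R340.AlShift

/-! # Row 340, module PIN: definitions -/

set_option autoImplicit false

namespace Crest.Agent.R340.Pn

open Matrix Crest.MathPhysics.Laughlin Crest.Agent.R340.Pin
open scoped Matrix.Norms.L2Operator MatrixOrder ComplexOrder ComplexConjugate

/-- gap of `K ≥ 0` above its kernel, in vector form -/
def GK {ι : Type} [Fintype ι] (K : Matrix ι ι ℂ) (g : ℝ) : Prop :=
  ∀ χ : ι → ℂ, ∃ z, K *ᵥ z = 0 ∧ g * nq (χ - z) ≤ qf K χ

/-- the penalty of the first `m` orbitals at the north pole -/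
noncomputable def nN (n m : ℕ) : Fk n :=
  ∑ k : Fin n, if (k : ℕ) < m then star (annC k) * annC k else 0

/-- `∑_{p < P} X_p^* X_p + ∑_{k < m} n_k + n(f)` -/
noncomputable def KX {n : ℕ} (P : ℕ) (X : ℕ → Fk n) (m : ℕ) (f : Fin n → ℂ) : Fk n :=
  ∑ p ∈ Finset.range P, star (X p) * X p + (nN n m + star (cC f) * cC f)

/-- second quantisation of a real diagonal matrix -/
noncomputable def GD {n : ℕ} (s : Fin n → ℝ) : Fk n := Gam (diagonal fun j => (s j : ℂ))

/-- the smoothed weights `((j+1)² + B)^(-1/4)`; `dd = sB 0` -/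
noncomputable def sB (B : ℝ) (j : ℕ) : ℝ := (((j : ℝ) + 1) ^ 2 + B) ^ (-(1 / 4) : ℝ)

/-- the value of `sB i * sB j` at the midpoint `i = j = (p+1)/2` -/
noncomputable def nuB (B : ℝ) (p : ℕ) : ℝ := ((((p : ℝ) + 3) / 2) ^ 2 + B) ^ (-(1 / 2) : ℝ)

/-- `dd = sB * eB` -/
noncomputable def eB (B : ℝ) (j : ℕ) : ℝ := dd j / sB B j

/-- `fo` at the north pole -/
noncomputable def fN (q m : ℕ) (u : ℂ × ℂ) (k : Fin (q + 1)) : ℂ :=
  if m ≤ (k : ℕ) then conj (((Real.sqrt (q.choose k) / Real.sqrt q ^ m : ℝ) : ℂ) *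
    (u.1 ^ (q - k) * u.2 ^ ((k : ℕ) - m))) else 0

end Crest.Agent.R340.Pn
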