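import Crest.Agent.R340.PnAbs

/-! # Row 340, module PIN: deformations of `KX` -/

set_option autoImplicit false

namespace Crest.Agent.R340.Pn

open Matrix Crest.MathPhysics.Laughlin Crest.Agent.R340.Pin
open scoped Matrix.Norms.L2Operator MatrixOrder ComplexOrder ComplexConjugate

variable {n P m : ℕ} {X X' : ℕ → Fk n} {f f' : Fin n → ℂ} {g : ℝ}

/-! ### part A -/

theorem nN_nonneg (n m : ℕ) : 0 ≤ nN n m := by
  refine Finset.sum_nonneg fun k _ => ?_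
  split_ifs
  · exact star_mul_self_nonneg _
  · exact le_rfl

theorem KX_nonneg (P : ℕ) (X : ℕ → Fk n) (m : ℕ) (f : Fin n → ℂ) : 0 ≤ KX P X m f := by
  exact add_nonneg (Finset.sum_nonneg fun p _ => star_mul_self_nonneg _)
    (add_nonneg (nN_nonneg n m) (star_mul_self_nonneg _))

theorem qf_KX (P : ℕ) (X : ℕ → Fk n) (m : ℕ) (f : Fin n → ℂ) (χ : Finset (Fin n) → ℂ) :
    qf (KX P X m f) χ = ∑ p ∈ Finset.range P, nq (X p *ᵥ χ) +
      ((∑ k : Fin n, if (k : ℕ) < m then nq (annC k *ᵥ χ) else 0) + nq (cC f *ᵥ χ)) := by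
  rw [KX, qf_add, qf_add, qf_sum, nN, qf_sum, qf_star_mul]
  congr 1
  · exact Finset.sum_congr rfl fun p _ => qf_star_mul _ _
  · congr 1
    refine Finset.sum_congr rfl fun k _ => ?_
    split_ifs
    · exact qf_star_mul _ _
    · simp [qf]

theorem KX_ker {z : Finset (Fin n) → ℂ} : KX P X m f *ᵥ z = 0 ↔
    (∀ p < P, X p *ᵥ z = 0) ∧ (∀ k : Fin n, (k : ℕ) < m → annC k *ᵥ z = 0) ∧ cC f *ᵥ z = 0 := by
  constructor
  · intro h
    have h0 : qf (KX P X m f) z = 0 := by simp [qf, h]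
    rw [qf_KX] at h0
    have a1 : ∀ p ∈ Finset.range P, 0 ≤ nq (X p *ᵥ z) := fun p _ => nq_nonneg _
    have a2 : ∀ k ∈ (Finset.univ : Finset (Fin n)),
        0 ≤ (if (k : ℕ) < m then nq (annC k *ᵥ z) else 0) := fun k _ => by
      split_ifs
      · exact nq_nonneg _
      · exact le_rfl
    have b1 := Finset.sum_nonneg a1
    have b2 := Finset.sum_nonneg a2
    have b3 := nq_nonneg (cC f *ᵥ z)
    refine ⟨fun p hp => nq_eq_zero ?_, fun k hk => nq_eq_zero ?_, nq_eq_zero (by linarith)⟩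
    · have := Finset.single_le_sum a1 (Finset.mem_range.2 hp)
      linarith
    · have := Finset.single_le_sum a2 (Finset.mem_univ k)
      rw [if_pos hk] at this
      linarith
  · rintro ⟨h1, h2, h3⟩
    refine ker_of_qf (KX_nonneg P X m f) (le_of_eq ?_)
    have e0 : nq (0 : Finset (Fin n) → ℂ) = 0 := by simp [nq]
    rw [qf_KX, h3, e0, Finset.sum_eq_zero, Finset.sum_eq_zero]
    · simp
    · intro k _
      split_ifs with hk
      · rw [h2 k hk, e0]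
      · rfl
    · intro p hp
      rw [h1 p (Finset.mem_range.1 hp), e0]

theorem GD_mul (s t : Fin n → ℝ) : GD s * GD t = GD fun j => s j * t j := by
  simp only [GD, ← Gam_mul, diagonal_mul_diagonal, Complex.ofReal_mul]

theorem GD_mul_inv {s : Fin n → ℝ} (hs : ∀ j, s j ≠ 0) :
    GD s * GD (fun j => (s j)⁻¹) = 1 ∧ GD (fun j => (s j)⁻¹) * GD s = 1 := by
  have e : GD (fun _ : Fin n => (1 : ℝ)) = 1 := by
    simp only [GD, Complex.ofReal_one, diagonal_one, Gam_one]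
  constructor
  · rw [GD_mul, ← e]
    congr 1
    funext j
    exact mul_inv_cancel₀ (hs j)
  · rw [GD_mul, ← e]
    congr 1
    funext j
    exact inv_mul_cancel₀ (hs j)

theorem annC_mul_GD (s : Fin n → ℝ) (j : Fin n) : annC j * GD s = (s j : ℂ) • (GD s * annC j) := by
  exact annC_mul_Gam_diag (fun j => (s j : ℂ)) j

theorem cC_mul_GD (s : Fin n → ℝ) (f : Fin n → ℂ) :
    cC f * GD s = GD s * cC fun j => (s j : ℂ) * f j := by
  simp only [cC, Finset.sum_mul, Finset.mul_sum, smul_mul_assoc, mul_smul_comm, annC_mul_GD,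
    smul_smul, map_mul, Complex.conj_ofReal, mul_comm]

/-- `Gam_diagonal` -/
theorem nq_GD_le {s : Fin n → ℝ} {Λ : ℝ} (h : ∀ S : Finset (Fin n), |∏ j ∈ S, s j| ≤ Λ)
    (v : Finset (Fin n) → ℂ) : nq (GD s *ᵥ v) ≤ Λ ^ 2 * nq v := by
  rw [GD, Gam_diagonal, nq_eq, nq_eq, Finset.mul_sum]
  refine Finset.sum_le_sum fun S _ => ?_
  rw [mulVec_diagonal, norm_mul, mul_pow]
  refine mul_le_mul_of_nonneg_right ?_ (sq_nonneg _)
  have e : ‖∏ j ∈ S, (s j : ℂ)‖ = |∏ j ∈ S, s j| := by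
    rw [← Complex.ofReal_prod, Complex.norm_real, Real.norm_eq_abs]
  rw [e]
  exact pow_le_pow_left₀ (abs_nonneg _) (h S) 2

theorem nq_cC_le (f : Fin n → ℂ) (v : Finset (Fin n) → ℂ) :
    nq (cC f *ᵥ v) ≤ (∑ j, ‖f j‖ ^ 2) * nq v := by
  refine (nq_mulVec_le _ _).trans (mul_le_mul_of_nonneg_right ?_ (nq_nonneg _))
  have h := norm_cC_le f
  have e : (star f ⬝ᵥ f).re = ∑ j, ‖f j‖ ^ 2 := nq_eq f
  rw [e] at h
  calc ‖cC f‖ ^ 2 ≤ Real.sqrt (∑ j, ‖f j‖ ^ 2) ^ 2 := pow_le_pow_left₀ (norm_nonneg _) h 2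
    _ = ∑ j, ‖f j‖ ^ 2 := Real.sq_sqrt (Finset.sum_nonneg fun j _ => sq_nonneg _)

/-! ### part B -/

/-- `gk_pert` with `Γ = GD s⁻¹` -/
theorem kx_pert (s : Fin n → ℝ) (hs : ∀ j, 0 < s j) (μ : ℕ → ℝ) (hμ : ∀ p, μ p ≠ 0) (t : ℝ)
    (hX : ∀ p, X p * GD s = (μ p : ℂ) • (GD s * X' p))
    (hf : ∀ j, f' j = ((t * s j : ℝ) : ℂ) * f j) {ε : ℝ}
    (hε : ∑ p ∈ Finset.range P, ‖X p - X' p‖ ^ 2 + ∑ j, ‖f j - f' j‖ ^ 2 ≤ ε) (hg : 0 ≤ g)
    (h : GK (KX P X m f) g) : GK (KX P X' m f') (g / 2 - ε) := by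
  obtain ⟨hGG', hG'G⟩ := GD_mul_inv (s := s) fun j => (hs j).ne'
  have inj : ∀ (c : ℂ) (v : Finset (Fin n) → ℂ), c ≠ 0 → c • (GD s *ᵥ v) = 0 → v = 0 := by
    intro c v hc hv
    have h1 := (smul_eq_zero.1 hv).resolve_left hc
    rw [← one_mulVec v, ← hG'G, ← mulVec_mulVec, h1, mulVec_zero]
  have a1 : 0 ≤ ∑ p ∈ Finset.range P, ‖X p - X' p‖ ^ 2 := by positivity
  have a2 : 0 ≤ ∑ j, ‖f j - f' j‖ ^ 2 := by positivity
  refine gk_pert (Γ := GD fun j => (s j)⁻¹) (KX_nonneg _ _ _ _) hg (by linarith) ?_ ?_ ?_ h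
  · intro v hv
    rw [← one_mulVec v, ← hGG', ← mulVec_mulVec, hv, mulVec_zero]
  · intro z hz
    obtain ⟨k1, k2, k3⟩ := KX_ker.1 hz
    set w := GD (fun j => (s j)⁻¹) *ᵥ z with hw
    have hzw : z = GD s *ᵥ w := by rw [hw, mulVec_mulVec, hGG', one_mulVec]
    refine KX_ker.2 ⟨fun p hp => ?_, fun k hk => ?_, ?_⟩
    · refine inj (μ p) _ (Complex.ofReal_ne_zero.2 (hμ p)) ?_
      rw [mulVec_mulVec, ← smul_mulVec, ← hX, ← mulVec_mulVec, ← hzw, k1 p hp]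
    · refine inj (s k) _ (Complex.ofReal_ne_zero.2 (hs k).ne') ?_
      rw [mulVec_mulVec, ← smul_mulVec, ← annC_mul_GD, ← mulVec_mulVec, ← hzw, k2 k hk]
    · have e : f' = (t : ℂ) • fun j => (s j : ℂ) * f j := by
        funext j
        rw [hf j, Pi.smul_apply, smul_eq_mul]
        push_cast
        ring
      have k4 : cC (fun j => (s j : ℂ) * f j) *ᵥ w = 0 := by
        refine inj 1 _ one_ne_zero ?_
        rw [one_smul, mulVec_mulVec, ← cC_mul_GD, ← mulVec_mulVec, ← hzw, k3]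
      rw [e, cC_smul, smul_mulVec, k4, smul_zero]
  · intro y
    rw [qf_KX, qf_KX]
    have hy := nq_nonneg y
    have b1 : ∑ p ∈ Finset.range P, nq (X p *ᵥ y) ≤ 2 * ∑ p ∈ Finset.range P, nq (X' p *ᵥ y) +
        2 * ((∑ p ∈ Finset.range P, ‖X p - X' p‖ ^ 2) * nq y) := by
      rw [Finset.sum_mul, Finset.mul_sum, Finset.mul_sum, ← Finset.sum_add_distrib]
      refine Finset.sum_le_sum fun p _ => ?_
      have e : X p *ᵥ y = X' p *ᵥ y + (X p - X' p) *ᵥ y := by rw [sub_mulVec]; abel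
      have := nq_add_le (X' p *ᵥ y) ((X p - X' p) *ᵥ y)
      rw [← e] at this
      linarith [nq_mulVec_le (X p - X' p) y]
    have b2 : nq (cC f *ᵥ y) ≤ 2 * nq (cC f' *ᵥ y) + 2 * ((∑ j, ‖f j - f' j‖ ^ 2) * nq y) := by
      have e : cC f *ᵥ y = cC f' *ᵥ y + cC (f - f') *ᵥ y := by
        rw [← add_mulVec, ← cC_add, add_sub_cancel]
      have := nq_add_le (cC f' *ᵥ y) (cC (f - f') *ᵥ y)
      rw [← e] at this
      have h2 := nq_cC_le (f - f') y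
      simp only [Pi.sub_apply] at h2
      linarith
    have b3 : 0 ≤ ∑ k : Fin n, if (k : ℕ) < m then nq (annC k *ᵥ y) else 0 :=
      Finset.sum_nonneg fun k _ => by split_ifs; exacts [nq_nonneg _, le_rfl]
    have b4 := mul_le_mul_of_nonneg_right hε hy
    rw [add_mul] at b4
    linarith

theorem s35_ker {A A' G G' : Fk n} {c : ℂ} (h : c • (A * G) = G * A') (h1 : G * G' = 1)
    (h2 : G' * G = 1) {z : Finset (Fin n) → ℂ} (hz : A *ᵥ z = 0) : A' *ᵥ (G' *ᵥ z) = 0 := by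
  have e : A' * G' = c • (G' * A) := by
    calc A' * G' = G' * (G * A') * G' := by rw [← mul_assoc, h2, one_mul]
      _ = c • (G' * A * (G * G')) := by
        rw [← h, Matrix.mul_smul, Matrix.smul_mul]
        simp only [mul_assoc]
      _ = c • (G' * A) := by rw [h1, mul_one]
  rw [mulVec_mulVec, e, smul_mulVec, ← mulVec_mulVec, hz, mulVec_zero, smul_zero]

theorem s35_nq {A A' G : Fk n} {c c₀ L : ℝ} (h : (c : ℂ) • (A * G) = G * A') (h0 : 0 < c₀)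
    (hc : c₀ ≤ c) (hG : ∀ v, nq (G *ᵥ v) ≤ L * nq v) (χ : Finset (Fin n) → ℂ) :
    nq (A *ᵥ (G *ᵥ χ)) ≤ L / c₀ ^ 2 * nq (A' *ᵥ χ) := by
  have e : c ^ 2 * nq (A *ᵥ (G *ᵥ χ)) = nq (G *ᵥ (A' *ᵥ χ)) := by
    rw [mulVec_mulVec, mulVec_mulVec, ← h, smul_mulVec, nq_smul, Complex.norm_real,
      Real.norm_eq_abs, sq_abs]
  rw [div_mul_eq_mul_div, le_div_iff₀ (by positivity), mul_comm]
  refine le_trans ?_ (e.le.trans (hG _))
  exact mul_le_mul_of_nonneg_right (pow_le_pow_left₀ h0.le hc 2) (nq_nonneg _)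

/-- `gk_sim` with `G = GD e`, `G' = GD e⁻¹`, `a = 1`, `c = Λ ^ 4 / μ₀ ^ 2`
(`1 ≤ ∏_{j ∈ S} e j ≤ Λ`, `e k ≤ Λ`) -/
theorem kx_sim (e : Fin n → ℝ) (he : ∀ j, 1 ≤ e j) {Λ : ℝ} (hΛ : ∏ j, e j ≤ Λ) (μ : ℕ → ℝ)
    {μ₀ t : ℝ} (h0 : 0 < μ₀) (h1 : μ₀ ≤ 1) (hμ : ∀ p, μ₀ ≤ μ p) (ht : μ₀ ≤ t)
    (hX : ∀ p, (μ p : ℂ) • (X p * GD e) = GD e * X' p)
    (hf : ∀ j, f' j = ((t * e j : ℝ) : ℂ) * f j) (hg : 0 ≤ g)
    (h : GK (KX P X m f) g) : GK (KX P X' m f') (g * μ₀ ^ 2 / Λ ^ 4) := by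
  have e0 : ∀ j, 0 < e j := fun j => one_pos.trans_le (he j)
  have hS1 : ∀ S : Finset (Fin n), 1 ≤ ∏ j ∈ S, e j := fun S => by
    simpa using Finset.prod_le_prod (s := S) (f := fun _ => (1 : ℝ)) (fun _ _ => zero_le_one)
      fun j _ => he j
  have hS : ∀ S : Finset (Fin n), ∏ j ∈ S, e j ≤ Λ := fun S =>
    (Finset.prod_le_prod_of_subset_of_one_le (Finset.subset_univ S) (fun j _ => (e0 j).le)
      fun j _ _ => he j).trans hΛ
  have hL : 1 ≤ Λ := (hS1 ∅).trans (hS ∅)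
  have hL0 : 0 < Λ := one_pos.trans_le hL
  have hG : ∀ v, nq (GD e *ᵥ v) ≤ Λ ^ 2 * nq v :=
    nq_GD_le fun S => by rw [abs_of_pos (one_pos.trans_le (hS1 S))]; exact hS S
  have hG' : ∀ v, nq (GD (fun j => (e j)⁻¹) *ᵥ v) ≤ 1 * nq v := fun v => by
    have := nq_GD_le (s := fun j => (e j)⁻¹) (Λ := 1) (fun S => by
      rw [Finset.prod_inv_distrib, abs_inv, abs_of_pos (one_pos.trans_le (hS1 S))]
      exact inv_le_one_of_one_le₀ (hS1 S)) v
    rwa [one_pow] at this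
  obtain ⟨i1, i2⟩ := GD_mul_inv fun j => (e0 j).ne'
  have r2 : ∀ k, (((e k)⁻¹ : ℝ) : ℂ) • (annC k * GD e) = GD e * annC k := fun k => by
    rw [annC_mul_GD, smul_smul, ← Complex.ofReal_mul, inv_mul_cancel₀ (e0 k).ne', Complex.ofReal_one,
      one_smul]
  have r3 : (t : ℂ) • (cC f * GD e) = GD e * cC f' := by
    have : f' = (t : ℂ) • fun j => (e j : ℂ) * f j := funext fun j => by
      rw [hf j, Pi.smul_apply, smul_eq_mul, Complex.ofReal_mul, mul_assoc]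
    rw [cC_mul_GD, this, cC_smul, Complex.conj_ofReal, Matrix.mul_smul]
  have c0 : 0 < μ₀ / Λ := by positivity
  have c1 : μ₀ / Λ ≤ μ₀ := div_le_self h0.le hL
  have c2 : ∀ k, μ₀ / Λ ≤ (e k)⁻¹ := fun k => by
    have : e k ≤ Λ := by simpa using hS {k}
    rw [← one_div]
    exact div_le_div₀ zero_le_one h1 (e0 k) this
  have key := gk_sim (K' := KX P X' m f') (c := Λ ^ 2 / (μ₀ / Λ) ^ 2) i2 (fun z hz => ?_) one_pos
    (by positivity) hg hG' (fun χ => ?_) h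
  · refine key.mono (le_of_eq ?_)
    field_simp
  · obtain ⟨a1, a2, a3⟩ := KX_ker.1 hz
    exact KX_ker.2 ⟨fun p hp => s35_ker (hX p) i1 i2 (a1 p hp),
      fun k hk => s35_ker (r2 k) i1 i2 (a2 k hk), s35_ker r3 i1 i2 a3⟩
  · rw [qf_KX, qf_KX, mul_add, mul_add, Finset.mul_sum, Finset.mul_sum]
    refine add_le_add (Finset.sum_le_sum fun p _ => s35_nq (hX p) c0 (c1.trans (hμ p)) hG χ)
      (add_le_add (Finset.sum_le_sum fun k _ => ?_) (s35_nq r3 c0 (c1.trans ht) hG χ))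
    split_ifs
    · exact s35_nq (r2 k) c0 (c2 k) hG χ
    · rw [mul_zero]

/-! ### part C -/

theorem kxC_one (n : ℕ) :
    shM n * (shM n)ᴴ = 1 - star (annC (0 : Fin (n + 1))) * annC 0 := by
  have h1 := annC_car (0 : Fin (n + 1)) 0
  rw [if_pos rfl] at h1
  rw [shM_mul_star, eq_sub_of_add_eq h1]

theorem kxC_zero (n : ℕ) : (shM n)ᴴ * star (annC (0 : Fin (n + 1))) = 0 := by
  rw [Matrix.star_eq_conjTranspose, ← conjTranspose_mul, annC_zero_mul_shM, conjTranspose_zero]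

theorem kxC_nq (v : Finset (Fin (n + 1)) → ℂ) :
    nq ((shM n)ᴴ *ᵥ v) = nq v - nq (annC 0 *ᵥ v) := by
  rw [nq_mulVec, conjTranspose_conjTranspose, kxC_one, qf_sub, qf_one, qf_star_mul]

theorem kxC_le (v : Finset (Fin (n + 1)) → ℂ) : nq ((shM n)ᴴ *ᵥ v) ≤ nq v := by
  rw [kxC_nq]
  exact sub_le_self _ (nq_nonneg _)

theorem kxC_gen {A : Fk n} {B : Fk (n + 1)} (h : B * shM n = shM n * A) :
    A * (shM n)ᴴ = (shM n)ᴴ * B - (shM n)ᴴ * (B * star (annC 0) * annC 0) := by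
  calc A * (shM n)ᴴ = (shM n)ᴴ * (shM n * A) * (shM n)ᴴ := by
        rw [← Matrix.mul_assoc, shM_star_mul, Matrix.one_mul]
    _ = (shM n)ᴴ * (B * (shM n * (shM n)ᴴ)) := by
        rw [← h, Matrix.mul_assoc, Matrix.mul_assoc]
    _ = _ := by rw [kxC_one, mul_sub, mul_one, Matrix.mul_sub, mul_assoc]

theorem kxC_comm {A : Fk n} {B : Fk (n + 1)} (h : B * shM n = shM n * A)
    (χ : Finset (Fin (n + 1)) → ℂ) :
    nq (A *ᵥ ((shM n)ᴴ *ᵥ χ)) ≤ 2 * nq (B *ᵥ χ) +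
      2 * (‖B * star (annC 0) - star (annC 0) * B‖ ^ 2 * nq (annC 0 *ᵥ χ)) := by
  have e : A * (shM n)ᴴ =
      (shM n)ᴴ * (B + -((B * star (annC 0) - star (annC 0) * B) * annC 0)) := by
    rw [kxC_gen h, ← sub_eq_add_neg, Matrix.mul_sub, sub_mul, Matrix.mul_sub, mul_assoc (star _),
      ← Matrix.mul_assoc _ (star _), kxC_zero, Matrix.zero_mul, sub_zero]
  rw [mulVec_mulVec, e, ← mulVec_mulVec]
  refine (kxC_le _).trans ?_
  rw [add_mulVec, ← neg_mul, ← mulVec_mulVec]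
  refine (nq_add_le _ _).trans (add_le_add le_rfl (mul_le_mul_of_nonneg_left ?_ zero_le_two))
  have := nq_mulVec_le (-(B * star (annC 0) - star (annC 0) * B)) (annC 0 *ᵥ χ)
  rwa [norm_neg] at this

theorem kxC_anti {A : Fk n} {B : Fk (n + 1)} (h : B * shM n = shM n * A)
    (ha : B * star (annC 0) + star (annC 0) * B = 0) (χ : Finset (Fin (n + 1)) → ℂ) :
    nq (A *ᵥ ((shM n)ᴴ *ᵥ χ)) ≤ nq (B *ᵥ χ) := by
  have e : A * (shM n)ᴴ = (shM n)ᴴ * B := by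
    rw [kxC_gen h, eq_neg_of_add_eq_zero_left ha, neg_mul, Matrix.mul_neg, mul_assoc (star _),
      ← Matrix.mul_assoc _ (star _), kxC_zero, Matrix.zero_mul, neg_zero, sub_zero]
  rw [mulVec_mulVec, e, ← mulVec_mulVec]
  exact kxC_le _

/-- `sh = shM n`, `χ₀ = shᴴ χ`, take `z` for `χ₀` and use `sh z`.
`χ = sh χ₀ + c₀^* c₀ χ` (`shM_mul_star`, `annC_car`), `nq (χ - sh z) = nq (χ₀ - z) + nq (c₀ χ)`.
`shᴴ c₀^* = 0`, so `X p χ₀ = shᴴ Y (p+2) χ - shᴴ [Y (p+2), c₀^*] c₀ χ`; in the same way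
`c_k χ₀ = shᴴ c_{k+1} χ` and `cC f χ₀ = shᴴ cC (cons 0 f) χ` (they anticommute with `c₀^*`);
`nq (shᴴ v) ≤ nq v`.  Hence `qf K χ₀ ≤ (2 + 2 C) qf K' χ`. -/
theorem kx_shift {Y : ℕ → Fk (n + 1)} {C : ℝ} (h1 : ∀ p, Y (p + 2) * shM n = shM n * X p)
    (h0 : ∀ p < 2, Y p * shM n = 0)
    (hc : ∑ p ∈ Finset.range P,
      ‖Y (p + 2) * star (annC 0) - star (annC 0) * Y (p + 2)‖ ^ 2 ≤ C) (hg : 0 < g)
    (h : GK (KX P X m f) g) :
    GK (KX (P + 2) Y (m + 1) (Fin.cons 0 f)) (g / (2 + 2 * C + g)) := by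
  intro χ
  obtain ⟨z, hz, hE⟩ := h ((shM n)ᴴ *ᵥ χ)
  obtain ⟨z1, z2, z3⟩ := KX_ker.1 hz
  have hf : cC (Fin.cons 0 f : Fin (n + 1) → ℂ) * shM n = shM n * cC f := by
    rw [cC_mul_shM]
    rfl
  have C0 : 0 ≤ C := (Finset.sum_nonneg fun p _ => sq_nonneg _).trans hc
  refine ⟨shM n *ᵥ z, KX_ker.2 ⟨fun p hp => ?_, fun k hk => ?_, ?_⟩, ?_⟩
  · rcases lt_or_ge p 2 with h2 | h2
    · rw [mulVec_mulVec, h0 p h2, zero_mulVec]
    · obtain ⟨p, rfl⟩ := Nat.exists_eq_add_of_le' h2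
      rw [mulVec_mulVec, h1, ← mulVec_mulVec, z1 p (by omega), mulVec_zero]
  · refine Fin.cases (fun _ => ?_) (fun k hk => ?_) k hk
    · rw [mulVec_mulVec, annC_zero_mul_shM, zero_mulVec]
    · rw [mulVec_mulVec, annC_succ_mul_shM, ← mulVec_mulVec,
        z2 k (by simpa using hk), mulVec_zero]
  · rw [mulVec_mulVec, hf, ← mulVec_mulVec, z3, mulVec_zero]
  have e1 : nq (χ - shM n *ᵥ z) = nq ((shM n)ᴴ *ᵥ χ - z) + nq (annC 0 *ᵥ χ) := by
    have := kxC_nq (χ - shM n *ᵥ z)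
    rw [mulVec_sub, mulVec_sub, mulVec_mulVec, mulVec_mulVec, shM_star_mul, annC_zero_mul_shM,
      one_mulVec, zero_mulVec, sub_zero] at this
    linarith
  have a0 := nq_nonneg (annC 0 *ᵥ χ)
  have b1 : ∑ p ∈ Finset.range P, nq (X p *ᵥ ((shM n)ᴴ *ᵥ χ)) ≤
      2 * ∑ p ∈ Finset.range P, nq (Y (p + 2) *ᵥ χ) + 2 * (C * nq (annC 0 *ᵥ χ)) := by
    refine (Finset.sum_le_sum fun p _ => kxC_comm (h1 p) χ).trans ?_
    rw [Finset.sum_add_distrib, ← Finset.mul_sum, ← Finset.mul_sum, ← Finset.sum_mul]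
    exact add_le_add le_rfl
      (mul_le_mul_of_nonneg_left (mul_le_mul_of_nonneg_right hc a0) zero_le_two)
  have b2 : (∑ k : Fin n, if (k : ℕ) < m then nq (annC k *ᵥ ((shM n)ᴴ *ᵥ χ)) else 0) ≤
      ∑ k : Fin n, if (k : ℕ) < m then nq (annC k.succ *ᵥ χ) else 0 := by
    refine Finset.sum_le_sum fun k _ => ?_
    split_ifs
    · refine kxC_anti (annC_succ_mul_shM k) ?_ χ
      rw [annC_car, if_neg (Fin.succ_ne_zero k)]
    · exact le_rfl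
  have b3 : nq (cC f *ᵥ ((shM n)ᴴ *ᵥ χ)) ≤ nq (cC (Fin.cons 0 f : Fin (n + 1) → ℂ) *ᵥ χ) := by
    refine kxC_anti hf ?_ χ
    rw [← cC_single, cC_car]
    simp
  have n1 : 0 ≤ ∑ p ∈ Finset.range P, nq (Y (p + 2) *ᵥ χ) :=
    Finset.sum_nonneg fun p _ => nq_nonneg _
  have n2 : 0 ≤ ∑ k : Fin n, if (k : ℕ) < m then nq (annC k.succ *ᵥ χ) else 0 :=
    Finset.sum_nonneg fun k _ => by
      split_ifs
      · exact nq_nonneg _
      · exact le_rfl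
  have n3 := nq_nonneg (cC (Fin.cons 0 f : Fin (n + 1) → ℂ) *ᵥ χ)
  have n4 := nq_nonneg (Y 0 *ᵥ χ)
  have n5 := nq_nonneg (Y (0 + 1) *ᵥ χ)
  rw [qf_KX] at hE
  rw [qf_KX, Finset.sum_range_succ', Finset.sum_range_succ', Fin.sum_univ_succ, e1,
    div_mul_eq_mul_div, div_le_iff₀ (by positivity)]
  simp only [Fin.val_zero, Fin.val_succ, Nat.add_lt_add_iff_right, Nat.zero_lt_succ, if_true,
    add_assoc, Nat.reduceAdd] at *
  have m1 := mul_nonneg C0 n1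
  have m2 := mul_nonneg C0 n2
  have m3 := mul_nonneg C0 n3
  have m4 := mul_nonneg C0 n4
  have m5 := mul_nonneg C0 n5
  have k1 := mul_nonneg hg.le n1
  have k2 := mul_nonneg hg.le n2
  have k3 := mul_nonneg hg.le n3
  have k4 := mul_nonneg hg.le n4
  have k5 := mul_nonneg hg.le n5
  nlinarith

end Crest.Agent.R340.Pn
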