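import Crest.Agent.R340.PinDefs
import Crest.Agent.R340.FiltGS

/-! # Row 340, PT: abstract pull-through and MOVE (linear algebra only) -/

set_option autoImplicit false

namespace Crest.Agent.R340.Pin

open Matrix MeasureTheory
open scoped Matrix.Norms.L2Operator MatrixOrder ComplexOrder ComplexConjugate

variable {n : Type} [Fintype n] [DecidableEq n]

/-- Top eigenvalue principle.  Hint: `v = 0` is trivial; otherwise `Filt.exists_GS` for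
`K = -(p * A * p)`, `Pi = p`, and `GS.le`; `qf (p * A * p) v = qf A v` on `ran p`. -/
theorem bnd_of_eig {p A : Matrix n n ℂ} (hp : IsStarProjection p) (hA : IsSelfAdjoint A) {l0 : ℝ}
    (h : ∀ (χ : n → ℂ) (l : ℝ), p *ᵥ χ = χ → nq χ = 1 → p *ᵥ (A *ᵥ χ) = (l : ℂ) • χ → l ≤ l0) :
    ∀ v, p *ᵥ v = v → qf A v ≤ l0 * nq v := by
  intro v hv
  by_cases h0 : v = 0
  · subst h0
    simp [qf, nq]
  have hpp : p * p = p := hp.isIdempotentElem.eq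
  have hK : IsSelfAdjoint (-(p * A * p)) := by
    refine IsSelfAdjoint.neg ?_
    rw [IsSelfAdjoint, star_mul, star_mul, hp.isSelfAdjoint.star_eq, hA.star_eq, mul_assoc]
  have hc : Commute p (-(p * A * p)) := by
    refine Commute.neg_right ?_
    show p * (p * A * p) = p * A * p * p
    rw [← mul_assoc, ← mul_assoc, hpp, mul_assoc (p * A), hpp]
  obtain ⟨ψ, E, hG⟩ := Filt.exists_GS hK hp hc hv h0
  have h1 := hG.le hK le_rfl hv
  have hE : -E ≤ l0 := by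
    refine h ψ (-E) hG.sec (by rw [nq, hG.norm]; simp) ?_
    have h2 := hG.eig
    rw [neg_mulVec, ← mulVec_mulVec, ← mulVec_mulVec, hG.sec] at h2
    rw [Complex.ofReal_neg, neg_smul, ← h2, neg_neg]
  have h3 : (star v ⬝ᵥ (-(p * A * p)) *ᵥ v).re = -qf A v := by
    rw [neg_mulVec, ← mulVec_mulVec, ← mulVec_mulVec, hv, dotProduct_neg, Complex.neg_re,
      Filt.ga_sa_dot hp.isSelfAdjoint, hv, qf]
  rw [h3] at h1
  have h4 : 0 ≤ nq v := Filt.ga_re_nonneg v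
  have h5 : (star v ⬝ᵥ v).re = nq v := rfl
  rw [h5] at h1
  nlinarith

omit [DecidableEq n] in
theorem h40_nq (v : n → ℂ) : nq v = ‖(WithLp.toLp 2 v : EuclideanSpace ℂ n)‖ ^ 2 := by
  rw [nq, ← inner_self_eq_norm_sq (𝕜 := ℂ), EuclideanSpace.inner_toLp_toLp, dotProduct_comm]
  rfl

omit [DecidableEq n] in
theorem h40_cs (u w : n → ℂ) : |(star u ⬝ᵥ w).re| ≤
    ‖(WithLp.toLp 2 u : EuclideanSpace ℂ n)‖ * ‖(WithLp.toLp 2 w : EuclideanSpace ℂ n)‖ := by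
  refine le_trans (Complex.abs_re_le_norm _) ?_
  rw [dotProduct_comm, ← EuclideanSpace.inner_toLp_toLp]
  exact norm_inner_le_norm _ _

theorem h40_op (B : Matrix n n ℂ) (x : n → ℂ) :
    ‖(WithLp.toLp 2 (B *ᵥ x) : EuclideanSpace ℂ n)‖ ≤
      ‖B‖ * ‖(WithLp.toLp 2 x : EuclideanSpace ℂ n)‖ :=
  Matrix.l2_opNorm_mulVec B (WithLp.toLp 2 x)

/-- MOVE.  Hint: `bnd_of_eig` with `p = s * Pa`.  For the eigenvector `χ` (eigenvalue `l`):
`Pa A χ = l χ`, `P A χ = A χ`, `η = Pb χ = πb χ`, `1/2 ≤ |η| ≤ 1`,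
`A η = Pb A χ + [A, πb] χ`, `A χ = l χ + [A, πa] χ`, `⟨η, χ⟩ = |η|²`, so
`l |η|² ≤ qf A η + 2 ε |η| ≤ lam |η|² + 4 ε |η|²`.  Work in `EuclideanSpace` norms
(`F2.en`-like: `‖toLp 2 (B *ᵥ x)‖ ≤ ‖B‖ ‖toLp 2 x‖` is `Matrix.l2_opNorm_mulVec`). -/
theorem move_abs {s P Pa Pb πa πb A : Matrix n n ℂ} (hs : IsStarProjection s)
    (hPa : IsStarProjection Pa) (hPb : IsStarProjection Pb)
    (ea : πa * P = Pa) (eb : πb * P = Pb) (la : P * Pa = Pa)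
    (hA : IsSelfAdjoint A) (cA : Commute P A) (sA : Commute s A) (sa : Commute s Pa)
    (sb : Commute s Pb) (hab : ‖Pb * Pa - Pa‖ ≤ 1 / 2) {ε lam : ℝ}
    (ha : ‖A * πa - πa * A‖ ≤ ε) (hb : ‖A * πb - πb * A‖ ≤ ε)
    (h : ∀ v, s *ᵥ v = v → Pb *ᵥ v = v → qf A v ≤ lam * nq v) :
    ∀ v, s *ᵥ v = v → Pa *ᵥ v = v → qf A v ≤ (lam + 4 * ε) * nq v := by
  intro v hsv hav
  have hp : IsStarProjection (s * Pa) := hs.mul hPa sa
  refine bnd_of_eig hp hA ?_ v (by rw [← mulVec_mulVec, hav, hsv])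
  intro χ l hχ hn he
  have hss : s * s = s := hs.isIdempotentElem.eq
  have haa : Pa * Pa = Pa := hPa.isIdempotentElem.eq
  have hbb : Pb * Pb = Pb := hPb.isIdempotentElem.eq
  have hε : 0 ≤ ε := le_trans (norm_nonneg _) ha
  have sχ : s *ᵥ χ = χ := by
    conv_lhs => rw [← hχ]
    rw [mulVec_mulVec, ← mul_assoc, hss, hχ]
  have aχ : Pa *ᵥ χ = χ := by
    conv_lhs => rw [← hχ]
    rw [mulVec_mulVec, sa.eq, ← mul_assoc, haa, ← sa.eq, hχ]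
  have sAχ : s *ᵥ (A *ᵥ χ) = A *ᵥ χ := by
    rw [mulVec_mulVec, sA.eq, ← mulVec_mulVec, sχ]
  have aAχ : Pa *ᵥ (A *ᵥ χ) = (l : ℂ) • χ := by
    rw [← he, sa.eq, ← mulVec_mulVec, sAχ]
  have Pχ : P *ᵥ χ = χ := by
    conv_lhs => rw [← aχ]
    rw [mulVec_mulVec, la, aχ]
  have PAχ : P *ᵥ (A *ᵥ χ) = A *ᵥ χ := by
    rw [mulVec_mulVec, cA.eq, ← mulVec_mulVec, Pχ]
  have πaχ : πa *ᵥ χ = χ := by
    conv_lhs => rw [← Pχ]
    rw [mulVec_mulVec, ea, aχ]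
  have πaA : πa *ᵥ (A *ᵥ χ) = (l : ℂ) • χ := by
    rw [← PAχ, mulVec_mulVec, ea, aAχ]
  have Aχ : A *ᵥ χ = (l : ℂ) • χ + (A * πa - πa * A) *ᵥ χ := by
    rw [sub_mulVec, ← mulVec_mulVec, ← mulVec_mulVec, πaχ, πaA]
    abel
  set η := Pb *ᵥ χ with hη
  have πbχ : πb *ᵥ χ = η := by
    conv_lhs => rw [← Pχ]
    rw [mulVec_mulVec, eb]
  have πbA : πb *ᵥ (A *ᵥ χ) = Pb *ᵥ (A *ᵥ χ) := by
    conv_lhs => rw [← PAχ]
    rw [mulVec_mulVec, eb]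
  have Aη : A *ᵥ η = (l : ℂ) • η + Pb *ᵥ ((A * πa - πa * A) *ᵥ χ) + (A * πb - πb * A) *ᵥ χ := by
    have e1 : (A * πb - πb * A) *ᵥ χ = A *ᵥ η - Pb *ᵥ (A *ᵥ χ) := by
      rw [sub_mulVec, ← mulVec_mulVec, ← mulVec_mulVec, πbχ, πbA]
    have e2 : Pb *ᵥ (A *ᵥ χ) = (l : ℂ) • η + Pb *ᵥ ((A * πa - πa * A) *ᵥ χ) := by
      conv_lhs => rw [Aχ]
      rw [mulVec_add, mulVec_smul]
    rw [e1, e2]
    abel
  have bη : Pb *ᵥ η = η := by rw [hη, mulVec_mulVec, hbb]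
  have sη : s *ᵥ η = η := by rw [hη, mulVec_mulVec, sb.eq, ← mulVec_mulVec, sχ]
  have h1 := h η sη bη
  have nχ : ‖(WithLp.toLp 2 χ : EuclideanSpace ℂ n)‖ = 1 := by
    have := h40_nq χ
    rw [hn] at this
    nlinarith [norm_nonneg (WithLp.toLp 2 χ : EuclideanSpace ℂ n)]
  set t := ‖(WithLp.toLp 2 η : EuclideanSpace ℂ n)‖ with ht
  have nη : nq η = t ^ 2 := h40_nq η
  have hlow : 1 / 2 ≤ t := by
    have e1 : (Pb * Pa - Pa) *ᵥ χ = η - χ := by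
      rw [sub_mulVec, ← mulVec_mulVec, aχ]
    have e2 := h40_op (Pb * Pa - Pa) χ
    rw [e1, nχ, mul_one, WithLp.toLp_sub] at e2
    have e3 := norm_sub_norm_le (WithLp.toLp 2 χ : EuclideanSpace ℂ n) (WithLp.toLp 2 η)
    rw [norm_sub_rev, nχ] at e3
    linarith
  have b1 : |(star η ⬝ᵥ Pb *ᵥ ((A * πa - πa * A) *ᵥ χ)).re| ≤ t * ε := by
    rw [Filt.ga_sa_dot hPb.isSelfAdjoint, bη]
    refine (h40_cs _ _).trans (mul_le_mul_of_nonneg_left ?_ (norm_nonneg _))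
    have := h40_op (A * πa - πa * A) χ
    rw [nχ, mul_one] at this
    exact this.trans ha
  have b2 : |(star η ⬝ᵥ (A * πb - πb * A) *ᵥ χ).re| ≤ t * ε := by
    refine (h40_cs _ _).trans (mul_le_mul_of_nonneg_left ?_ (norm_nonneg _))
    have := h40_op (A * πb - πb * A) χ
    rw [nχ, mul_one] at this
    exact this.trans hb
  have q1 : qf A η = l * t ^ 2 + (star η ⬝ᵥ Pb *ᵥ ((A * πa - πa * A) *ᵥ χ)).re +
      (star η ⬝ᵥ (A * πb - πb * A) *ᵥ χ).re := by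
    rw [qf, Aη, dotProduct_add, dotProduct_add, dotProduct_smul, Complex.add_re, Complex.add_re,
      smul_eq_mul, Complex.re_ofReal_mul, ← nη, nq]
  rw [q1, nη] at h1
  have b1' := (abs_le.1 b1).1
  have b2' := (abs_le.1 b2).1
  have ht0 : 0 < t ^ 2 := by positivity
  have key : l * t ^ 2 ≤ (lam + 4 * ε) * t ^ 2 := by
    nlinarith [mul_nonneg hε (mul_nonneg (by linarith : (0 : ℝ) ≤ t) (by linarith : 0 ≤ 2 * t - 1))]
  exact le_of_mul_le_mul_right key ht0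

end Crest.Agent.R340.Pin
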