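import Crest.Agent.R340.PtAbs

/-! # Row 340, PT: abstract pull-through -/

set_option autoImplicit false

namespace Crest.Agent.R340.Pin

open Matrix MeasureTheory
open scoped Matrix.Norms.L2Operator MatrixOrder ComplexOrder ComplexConjugate

variable {n : Type} [Fintype n] [DecidableEq n]

omit [DecidableEq n] in
theorem h75_nq_nonneg (v : n → ℂ) : 0 ≤ nq v :=
  (Complex.nonneg_iff.1 (dotProduct_star_self_nonneg v)).1

omit [DecidableEq n] in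
theorem h75_re_le (u y : n → ℂ) : (star u ⬝ᵥ y).re ≤ nq u / 2 + nq y / 2 := by
  have h := h75_nq_nonneg (u - y)
  have e : (star y ⬝ᵥ u).re = (star u ⬝ᵥ y).re := by
    rw [star_dotProduct, Complex.star_def, Complex.conj_re]
  simp only [nq, star_sub, sub_dotProduct, dotProduct_sub, Complex.sub_re] at h ⊢
  linarith

theorem h75_int {W : Type} [MeasurableSpace W] (μ : Measure W) [IsFiniteMeasure μ]
    {Pw : W → Matrix n n ℂ} (hPw : ∀ w, IsStarProjection (Pw w)) (mPw : AEStronglyMeasurable Pw μ)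
    {F : Matrix n n ℂ → ℝ} (hF : Continuous F) : Integrable (fun w => F (Pw w)) μ := by
  have : ProperSpace (Matrix n n ℂ) := FiniteDimensional.proper ℂ _
  obtain ⟨B, hB⟩ := (isCompact_closedBall (0 : Matrix n n ℂ) 1).exists_bound_of_continuousOn
    hF.continuousOn
  exact Integrable.of_bound (hF.comp_aestronglyMeasurable mPw) B
    (Filter.Eventually.of_forall fun w => hB _ (mem_closedBall_zero_iff.2 (hPw w).norm_le))

/-- PULL-THROUGH.  Hint: `bnd_of_eig` with `p = s * P`; the eigenvector has `A χ = l χ` (`p`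
commutes with `A`), `s χ = χ`, `P χ = χ`.  With `u = Pw w χ`, `Y = Pw w A χ - Pw w A u`:
`l * nq u = Re ⟨u, A χ⟩ = qf A u + Re ⟨u, Y⟩ ≤ lam * nq u + nq u / 2 + nq Y / 2`
(`s u = u`, `Pw w u = u`).  Integrate (both functions of `w` are continuous images of `Pw w`,
bounded, `μ` finite): `l G ≤ (lam + 1/2) G + K c / 2`, `0 < c ≤ G`. -/
theorem pull_abs {W : Type} [MeasurableSpace W] (μ : Measure W) [IsFiniteMeasure μ]
    {s P A : Matrix n n ℂ} {Pw : W → Matrix n n ℂ} (hs : IsStarProjection s)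
    (hP : IsStarProjection P) (hPw : ∀ w, IsStarProjection (Pw w))
    (mPw : AEStronglyMeasurable Pw μ) (sP : Commute s P) (sPw : ∀ w, Commute s (Pw w))
    (hA : IsSelfAdjoint A) (sA : Commute s A) (cA : Commute P A) {lam c K : ℝ} (hc : 0 < c)
    (hK : 0 ≤ K)
    (h : ∀ w v, s *ᵥ v = v → Pw w *ᵥ v = v → qf A v ≤ lam * nq v)
    (hF : ∀ v, s *ᵥ v = v → P *ᵥ v = v → c * nq v ≤ ∫ w, nq (Pw w *ᵥ v) ∂μ)
    (hC : ∀ v, s *ᵥ v = v → P *ᵥ v = v →
      ∫ w, nq (Pw w *ᵥ (A *ᵥ v) - Pw w *ᵥ (A *ᵥ (Pw w *ᵥ v))) ∂μ ≤ K * c * nq v) :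
    ∀ v, s *ᵥ v = v → P *ᵥ v = v → qf A v ≤ (lam + 1 + K) * nq v := by
  intro v hv hv'
  refine bnd_of_eig (hs.mul hP sP) hA (fun χ l h1 h2 h3 => ?_) v
    (by rw [← mulVec_mulVec, hv', hv])
  have s1 : s *ᵥ χ = χ := by
    conv_lhs => rw [← h1, mulVec_mulVec, ← mul_assoc, hs.isIdempotentElem.eq, h1]
  have s2 : P *ᵥ χ = χ := by
    conv_lhs => rw [← h1, mulVec_mulVec, sP.eq, ← mul_assoc, hP.isIdempotentElem.eq, ← sP.eq, h1]
  have s3 : A *ᵥ χ = (l : ℂ) • χ := by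
    rw [← h3, mulVec_mulVec, (sA.mul_left cA).eq, ← mulVec_mulVec, h1]
  by_contra hl
  have hl' : 0 < l - lam - 1 / 2 := by linarith
  have key : ∀ w, (l - lam - 1 / 2) * nq (Pw w *ᵥ χ) ≤
      (1 / 2) * nq (Pw w *ᵥ (A *ᵥ χ) - Pw w *ᵥ (A *ᵥ (Pw w *ᵥ χ))) := fun w => by
    have u1 : s *ᵥ (Pw w *ᵥ χ) = Pw w *ᵥ χ := by
      rw [mulVec_mulVec, (sPw w).eq, ← mulVec_mulVec, s1]
    have u2 : Pw w *ᵥ (Pw w *ᵥ χ) = Pw w *ᵥ χ := by
      rw [mulVec_mulVec, (hPw w).isIdempotentElem.eq]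
    have k1 := h w _ u1 u2
    have k2 := h75_re_le (Pw w *ᵥ χ) (Pw w *ᵥ (A *ᵥ χ) - Pw w *ᵥ (A *ᵥ (Pw w *ᵥ χ)))
    have k3 : star (Pw w *ᵥ χ) ⬝ᵥ Pw w *ᵥ (A *ᵥ (Pw w *ᵥ χ)) =
        star (Pw w *ᵥ χ) ⬝ᵥ A *ᵥ (Pw w *ᵥ χ) := by
      have e : (Pw w)ᴴ = Pw w := (hPw w).isSelfAdjoint.star_eq
      rw [dotProduct_mulVec, ← e, ← star_mulVec, e, u2]
    have k4 : (star (Pw w *ᵥ χ) ⬝ᵥ (Pw w *ᵥ (A *ᵥ χ) - Pw w *ᵥ (A *ᵥ (Pw w *ᵥ χ)))).re =
        l * nq (Pw w *ᵥ χ) - qf A (Pw w *ᵥ χ) := by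
      rw [dotProduct_sub, k3, s3, mulVec_smul, dotProduct_smul, Complex.sub_re, smul_eq_mul,
        Complex.re_ofReal_mul, nq, qf]
    rw [k4] at k2
    linarith
  have hi : Integrable (fun w => nq (Pw w *ᵥ (A *ᵥ χ) - Pw w *ᵥ (A *ᵥ (Pw w *ᵥ χ)))) μ := by
    have c1 : Continuous fun M : Matrix n n ℂ => M *ᵥ (A *ᵥ χ) - M *ᵥ (A *ᵥ (M *ᵥ χ)) :=
      (continuous_id.matrix_mulVec continuous_const).sub (continuous_id.matrix_mulVec
        (continuous_const.matrix_mulVec (continuous_id.matrix_mulVec continuous_const)))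
    exact h75_int μ hPw mPw (F := fun M => nq (M *ᵥ (A *ᵥ χ) - M *ᵥ (A *ᵥ (M *ᵥ χ))))
      (Complex.continuous_re.comp (c1.star.dotProduct c1))
  have k5 := integral_mono_of_nonneg
    (Filter.Eventually.of_forall fun w => mul_nonneg hl'.le (h75_nq_nonneg (Pw w *ᵥ χ)))
    (hi.const_mul (1 / 2)) (Filter.Eventually.of_forall key)
  rw [integral_const_mul, integral_const_mul] at k5
  have k6 := hF χ s1 s2
  have k7 := hC χ s1 s2
  rw [h2, mul_one] at k6 k7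
  have k8 := mul_le_mul_of_nonneg_left k6 hl'.le
  have k9 : (l - lam - 1 / 2) * c ≤ (K / 2) * c := by linarith
  have k10 := le_of_mul_le_mul_right k9 hc
  linarith

end Crest.Agent.R340.Pin
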