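import Crest.Agent.R340.IfKD
import Crest.Agent.R340.KdAlg
import Crest.Agent.R340.FwBasic
import Crest.Agent.R340.PtGeo

/-! # Row 340, PT: the filter and the detectors at a fixed set of pins -/

set_option autoImplicit false

namespace Crest.Agent.R340.Pin

open Matrix MeasureTheory Crest.MathPhysics.Laughlin
open scoped Matrix.Norms.L2Operator MatrixOrder ComplexOrder ComplexConjugate

/-- `Φ` = filter of the parent Hamiltonian of `PD Q T`, `π w` = detector of one more pin -/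
structure Bar (Q : ℕ) (α a β b K : ℝ) (T : Multiset S2) (Φ : Fk (Q + 1) →L[ℂ] Fk (Q + 1))
    (π : S2 → Fk (Q + 1)) : Prop where
  comm : ∀ A, Commute (PD Q T) (Φ A)
  eq : ∀ A, Φ A * PD Q T = PD Q T * A * PD Q T
  sa : ∀ A, IsSelfAdjoint A → IsSelfAdjoint (Φ A)
  nc : ∀ A, NC A → NC (Φ A)
  ql : ∀ C x A, QL Q α a C x A → QL Q β b (K * C) x (Φ A)
  pi : ∀ w, π w * PD Q T = PD Q (w ::ₘ T)
  pinc : ∀ w, NC (π w)
  loc : ∀ C x w A, NL Q α a C x A →
    QL Q β b (K * C * wt β b (dq Q x w)) w (Φ A * π w - π w * Φ A)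

/-! ### part A -/

/-- Hint: `kd_parent`, `kd_pi` with `S = 0` (`AdmS Q R 0`, `AdmS Q R (w ::ₘ 0)` are trivial;
`AdmT.mono` for the largest `R₀`), `Filt.exists_filt` for the gap `g`, `exists_filt2_clm`,
`Parent.toGap`, `filt_ann` (KdAlg), `LocHam.weaken` to `(α, min a a_K)`, `QL.weaken`, `filt_QL`,
then `comm_QL` at exponent `α / 2` (`NC.ev`), weaken both to one rate `b`. -/
theorem exists_bar {α a : ℝ} (h0 : 0 < α) (h1 : α ≤ 1 / 2) (ha : 0 < a) :
    ∃ (R₀ b K : ℝ) (Q₀ : ℕ), 0 < b ∧ 0 ≤ K ∧ ∀ Q, Q₀ ≤ Q → ∀ T, AdmT Q R₀ T →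
      ∃ Φ π, Bar Q α a (α / 2) b K T Φ π := by
  obtain ⟨R₁, g, a₁, C₁, G₁, Q₁, hg, ha₁, HK⟩ := kd_parent
  obtain ⟨R₂, a₂, C₂, Q₂, ha₂, Hπ⟩ := kd_pi
  obtain ⟨Cf, cf, hCf, hcf, Hf⟩ := Filt.exists_filt
  obtain ⟨w, W, hf, -, -, hd, -⟩ := Hf g hg
  have hβ : 0 < α / 2 := half_pos h0
  obtain ⟨a₃, K₃, ha₃, hK₃, H3⟩ := filt_QL (α := α) (a := min a a₁) (C := Real.exp a₁ * C₁)
    (G := G₁) (Cw := g * Cf) (cw := cf * Real.sqrt g) h0 (by linarith) (lt_min ha ha₁)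
    (mul_pos hcf (Real.sqrt_pos.2 hg))
  obtain ⟨a₅, K₅, ha₅, hK₅, H5⟩ := comm_QL (α := α / 2) (a := min a₃ a₂) hβ (by linarith)
    (lt_min ha₃ ha₂)
  have hb : 0 < min a₃ a₅ := lt_min ha₃ ha₅
  set k₁ : ℝ := Real.exp a₃ * (K₃ * Real.exp a) with hk₁
  set k₂ : ℝ := Real.exp a₅ * (K₅ * k₁ * (Real.exp a₂ * |C₂|)) with hk₂
  have k1 : 0 ≤ k₁ := by positivity
  have k2 : 0 ≤ k₂ := by positivity
  refine ⟨max R₁ R₂, min a₃ a₅, k₁ + k₂, max (max Q₁ Q₂) 1, hb, add_nonneg k1 k2,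
    fun Q hQ T hT => ?_⟩
  have hQ1 : 1 ≤ Q := (le_max_right _ _).trans hQ
  have hQ' : max Q₁ Q₂ ≤ Q := (le_max_left _ _).trans hQ
  obtain ⟨K, hK, hP⟩ := HK Q ((le_max_left _ _).trans hQ') T 0 (hT.mono (le_max_left _ _) le_rfl)
    ⟨fun _ h => absurd h (Multiset.notMem_zero _), Multiset.nodup_zero⟩
  rw [add_zero] at hP
  have hπ := fun x : S2 => Hπ Q ((le_max_right _ _).trans hQ') T 0 x
    (hT.mono (le_max_right _ _) le_rfl)
    ⟨fun u hu v hv huv => absurd (by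
      rw [Multiset.cons_zero, Multiset.mem_singleton] at hu hv
      rw [hu, hv]) huv, by simp⟩
  simp only [add_zero] at hπ
  choose π hπ1 hπ2 hπ3 hπ4 using hπ
  obtain ⟨Φ, hΦ'⟩ := Filt.exists_filt2_clm hf.int_w hK.sa hK.sa
  have hΦ : ∀ A, Φ A = Filt.filt w K A := hΦ'
  have hann := fun A => Kd.filt_ann hf le_rfl (hP.toGap (PD_proj Q T)) hP.kill A
  have hK' := hK.weaken (α' := α) (a' := min a a₁) h0 h1 (lt_min ha ha₁).le (min_le_right _ _)
    le_rfl le_rfl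
  have hq : ∀ C x A, QL Q α a C x A → QL Q (α / 2) a₃ (K₃ * (Real.exp a * C)) x (Φ A) := by
    intro C x A hA
    rw [hΦ]
    exact (H3 Q hQ1 K hK' w hf.int_w hd _ x A).1
      (hA.weaken h0 le_rfl (lt_min ha ha₁).le (min_le_left _ _))
  have hnc : ∀ A, NC A → NC (Φ A) := fun A hA => by rw [hΦ]; exact hK.nc.filt hA w
  refine ⟨Φ, π, fun A => by rw [hΦ]; exact (hann A).1, fun A => by rw [hΦ]; exact (hann A).2,
    fun A hA => by rw [hΦ]; exact Filt.filt_sa hf.real_w hK.sa hA, hnc, fun C x A hA => ?_, hπ3,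
    fun x => (hπ1 x).1, fun C x u A hA => ?_⟩
  · have hC : 0 ≤ C := (norm_nonneg _).trans hA.1
    refine ((hq C x A hA).weaken hβ le_rfl hb.le (min_le_left _ _)).mono ?_
    have := mul_nonneg k2 hC
    rw [add_mul, hk₁]
    linarith
  · have hC : 0 ≤ C := (norm_nonneg _).trans hA.2.1
    have e1 := (hq C x A hA.2).weaken hβ le_rfl (lt_min ha₃ ha₂).le (min_le_left _ _)
    have e2 := ((hπ1 u).2.mono (le_abs_self C₂)).weaken hβ (by linarith) (lt_min ha₃ ha₂).le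
      (min_le_right _ _)
    have e3 := ((H5 Q hQ1 _ _ x u (Φ A) (π u) (hnc A hA.1).ev e1).1 e2).2
    refine (e3.weaken hβ le_rfl hb.le (min_le_right _ _)).mono ?_
    have hw : wt (α / 2) a₅ (dq Q x u) ≤ wt (α / 2) (min a₃ a₅) (dq Q x u) :=
      Real.exp_le_exp.2 (neg_le_neg (mul_le_mul_of_nonneg_right (min_le_right _ _)
        (Real.rpow_nonneg (dq_nonneg Q x u) _)))
    have hw0 := (wt_pos (α / 2) a₅ (dq Q x u)).le
    calc _ = k₂ * C * wt (α / 2) a₅ (dq Q x u) := by rw [hk₂, hk₁]; ring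
      _ ≤ (k₁ + k₂) * C * wt (α / 2) (min a₃ a₅) (dq Q x u) :=
        mul_le_mul (mul_le_mul_of_nonneg_right (le_add_of_nonneg_left k1) hC) hw hw0
          (mul_nonneg (add_nonneg k1 k2) hC)

/-! ### part B -/

variable {Q N : ℕ} {α a β b C G K lam lam' : ℝ} {T D : Multiset S2} {A B : Fk (Q + 1)}
  {Φ : Fk (Q + 1) →L[ℂ] Fk (Q + 1)} {π : S2 → Fk (Q + 1)}
  {ι : Type} [MeasurableSpace ι] {ν : Measure ι} {x : ι → S2} {M : ι → Fk (Q + 1)}

theorem nq_nonneg' {n : Type} [Fintype n] (v : n → ℂ) : 0 ≤ nq v := by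

  unfold nq
  exact (Complex.nonneg_iff.1 (dotProduct_star_self_nonneg v)).1

theorem Bnd.mono (h : Bnd Q D N A lam) (hl : lam ≤ lam') : Bnd Q D N A lam' := by

  intro v hv
  exact (h v hv).trans (mul_le_mul_of_nonneg_right hl (nq_nonneg' v))

/-- `Filt.abs_re_dot_le` -/
theorem Bnd.of_norm (h : Bnd Q D N A lam) {ε : ℝ} (hn : ‖B - A‖ ≤ ε) :
    Bnd Q D N B (lam + ε) := by

  intro v hv
  have h1 := h v hv
  have h2 := (le_abs_self _).trans (Filt.abs_re_dot_le (B - A) v)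
  have h3 := mul_le_mul_of_nonneg_right hn (nq_nonneg' v)
  rw [sub_mulVec, dotProduct_sub, Complex.sub_re] at h2
  unfold qf nq at *
  linarith

theorem bnd_iff : Bnd Q D N A lam ↔
    ∀ v, secP (Q + 1) N *ᵥ v = v → PD Q D *ᵥ v = v → qf A v ≤ lam * nq v := by

  simp only [Bnd, InZ, PD_mulVec_iff, and_imp]

theorem Bar.qf_eq (h : Bar Q α a β b K T Φ π) (A : Fk (Q + 1)) {v : FV Q}
    (hv : PD Q T *ᵥ v = v) : qf (Φ A) v = qf A v := by

  have hs : star v ᵥ* PD Q T = star v := by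
    have h1 := congrArg star hv
    rw [star_mulVec, ← star_eq_conjTranspose, (PD_proj Q T).isSelfAdjoint.star_eq] at h1
    exact h1
  unfold qf
  have e : Φ A *ᵥ v = PD Q T *ᵥ (A *ᵥ v) := by
    conv_lhs => rw [← hv]
    rw [mulVec_mulVec, h.eq, ← mulVec_mulVec, ← mulVec_mulVec, hv]
  rw [e, dotProduct_mulVec, hs]

theorem Bar.bnd_iff (h : Bar Q α a β b K T Φ π) (hD : T ≤ D) :
    Bnd Q D N (Φ A) lam ↔ Bnd Q D N A lam := by

  refine forall_congr' fun v => imp_congr_right fun hv => ?_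
  rw [h.qf_eq A (PD_mulVec_iff.2 (ZD_anti hD hv.2))]

theorem SInter.sa' (h : SInter Q α a C G ν x M) : IsSelfAdjoint (∫ i, M i ∂ν) := by

  exact Fw.cC_sa h.sa

theorem SInter.nc' (h : SInter Q α a C G ν x M) : NC (∫ i, M i ∂ν) := by

  exact Fw.cC_num h.int fun i => (h.loc i).1

theorem Sites.restrict (h : Sites Q G ν x) (s : Set ι) : Sites Q G (ν.restrict s) x := by
  haveI := h.fin
  exact ⟨inferInstance, h.meas, fun u r hr => le_trans
    (ENNReal.toReal_mono (measure_ne_top _ _) (Measure.restrict_apply_le _ _)) (h.growth u r hr)⟩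

theorem SInter.restrict (h : SInter Q α a C G ν x M) (s : Set ι) :
    SInter Q α a C G (ν.restrict s) x M := by
  exact ⟨h.sites.restrict s, h.int.restrict, h.sa, h.loc⟩

theorem SInter.norm_le (h : SInter Q α a C G ν x M) (s : Set ι) :
    ‖∫ i in s, M i ∂ν‖ ≤ C * ν.real s := by
  haveI := h.sites.fin
  exact norm_setIntegral_le_of_norm_le_const (measure_lt_top _ _) fun i _ => (h.loc i).2.1

theorem Sites.integrable_wt (h : Sites Q G ν x) (hb : 0 ≤ b) (β : ℝ) (w : S2) :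
    Integrable (fun i => wt β b (dq Q (x i) w)) ν := by
  haveI := h.fin
  have hm : Measurable fun i => dq Q (x i) w :=
    ((continuous_dq Q).comp (continuous_id.prodMk continuous_const)).measurable.comp h.meas
  refine Integrable.of_bound ?_ 1 (Filter.Eventually.of_forall fun i => ?_)
  · exact (Real.measurable_exp.comp ((hm.pow_const β).const_mul b).neg).aestronglyMeasurable
  · rw [Real.norm_of_nonneg (wt_pos _ _ _).le]
    exact Real.exp_le_one_iff.2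
      (neg_nonpos.2 (mul_nonneg hb (Real.rpow_nonneg (dq_nonneg _ _ _) _)))

/-- `ContinuousLinearMap.integral_comp_comm` for `A ↦ Φ A * π w - π w * Φ A`,
`norm_integral_le_of_norm_le`, `Fw.loc_integral_le` -/
theorem Bar.int (h : Bar Q α a β b K T Φ π) (hb : 0 ≤ b) (hM : SInter Q α a C G ν x M) (w : S2) :
    NL Q β b (K * C * ∫ i, wt β b (dq Q (x i) w) ∂ν) w
      (Φ (∫ i, M i ∂ν) * π w - π w * Φ (∫ i, M i ∂ν)) := by
  let L : Fk (Q + 1) →L[ℂ] Fk (Q + 1) :=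
    ((ContinuousLinearMap.mul ℂ (Fk (Q + 1))).flip (π w) -
      ContinuousLinearMap.mul ℂ (Fk (Q + 1)) (π w)).comp Φ
  have hL : ∀ A, L A = Φ A * π w - π w * Φ A := fun A => rfl
  have hi : Integrable (fun i => L (M i)) ν := L.integrable_comp hM.int
  have hw := hM.sites.integrable_wt hb β w
  have hq : ∀ i, QL Q β b (K * C * wt β b (dq Q (x i) w)) w (L (M i)) := fun i =>
    h.loc C (x i) w (M i) (hM.loc i)
  have hn : ∀ i, NC (L (M i)) := fun i => by
    have h1 : Commute (numC (Q + 1)) (Φ (M i)) := h.nc _ (hM.loc i).1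
    have h2 : Commute (numC (Q + 1)) (π w) := h.pinc w
    exact (h1.mul_right h2).sub_right (h2.mul_right h1)
  rw [← hL, ← L.integral_comp_comm hM.int]
  refine ⟨Fw.cC_num hi hn, ?_, fun y => ?_⟩
  · rw [← integral_const_mul]
    exact norm_integral_le_of_norm_le (hw.const_mul _)
      (Filter.Eventually.of_forall fun i => (hq i).1)
  · rw [← integral_const_mul, ← integral_mul_const]
    exact Fw.loc_integral_le hi (fun i => (hq i).2 y) ((hw.const_mul _).mul_const _)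

/-! ### part C -/

theorem pd_lip : ∃ (R₀ L : ℝ) (Q₀ : ℕ), 0 < L ∧ ∀ Q, Q₀ ≤ Q → ∀ (T : Multiset S2) (w w' : S2),
    AdmT Q R₀ T → dq Q w w' ≤ 1 →
      ‖PD Q (w' ::ₘ T) * PD Q (w ::ₘ T) - PD Q (w ::ₘ T)‖ ≤ L * dq Q w w' :=
  kd_lip

theorem h17_proj_sub {n : ℕ} {P P' : Fk n} (s1 : IsSelfAdjoint P) (s2 : IsSelfAdjoint P') :
    ‖P' - P‖ ≤ ‖P' * P - P‖ + ‖P * P' - P'‖ := by
  have h2 : ‖P * P' - P'‖ = ‖P' - P' * P‖ := by
    rw [← norm_star, star_sub, star_mul, s1.star_eq, s2.star_eq, norm_sub_rev]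
  have h3 := norm_add_le (P' - P' * P) (P' * P - P)
  rw [sub_add_sub_cancel] at h3
  linarith

theorem h17_cont {E : Type} [SeminormedAddCommGroup E] {Q : ℕ} {F : S2 → E} {L : ℝ}
    (h : ∀ w w', dq Q w w' ≤ 1 → ‖F w' - F w‖ ≤ L * dq Q w w') : Continuous F := by
  refine continuous_iff_continuousAt.2 fun w => ?_
  have hc : Continuous fun w' : S2 => dq Q w w' := by
    have := (continuous_dq Q).comp (Continuous.prodMk_right w)
    exact this
  have ht : Filter.Tendsto (fun w' : S2 => dq Q w w') (nhds w) (nhds 0) := by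
    have := hc.tendsto w
    rwa [dq_self] at this
  refine tendsto_iff_norm_sub_tendsto_zero.2 (squeeze_zero' (g := fun w' => L * dq Q w w')
    (Filter.Eventually.of_forall fun _ => norm_nonneg _) ?_ ?_)
  · filter_upwards [ht.eventually (Iic_mem_nhds one_pos)] with w' hw using h w w' hw
  · have := ht.const_mul L
    rwa [mul_zero] at this

/-- `‖P - P'‖ ≤ ‖P' P - P‖ + ‖star (P P' - P')‖ ≤ 2 L dq w w'` near `w`, `continuous_dq` -/
theorem pd_cont : ∃ (R₀ : ℝ) (Q₀ : ℕ), ∀ Q, Q₀ ≤ Q → ∀ T : Multiset S2, AdmT Q R₀ T →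
    Continuous fun w : S2 => PD Q (w ::ₘ T) := by
  obtain ⟨R₀, L, Q₀, -, h⟩ := pd_lip
  refine ⟨R₀, Q₀, fun Q hQ T hT => h17_cont (Q := Q) (L := 2 * L) fun w w' hd => ?_⟩
  have h1 := h Q hQ T w w' hT hd
  have h2 := h Q hQ T w' w hT (by rwa [dq_symm])
  rw [dq_symm Q w' w] at h2
  have h3 := h17_proj_sub (P := PD Q (w ::ₘ T)) (P' := PD Q (w' ::ₘ T))
    (projOf_proj _).isSelfAdjoint (projOf_proj _).isSelfAdjoint
  linarith

end Crest.Agent.R340.Pin
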