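import Crest.Agent.R340.PtBar
import Crest.Agent.R340.PtAbs2
import Crest.Agent.R340.IfF2

/-! # Row 340, PT: pull-through -/

set_option autoImplicit false

namespace Crest.Agent.R340.Pin

open Matrix MeasureTheory Crest.MathPhysics.Laughlin
open scoped Matrix.Norms.L2Operator MatrixOrder ComplexOrder ComplexConjugate

theorem h52_nq_neg {n : Type} [Fintype n] (v : n → ℂ) : nq (-v) = nq v := by
  simp only [nq, star_neg, neg_dotProduct, dotProduct_neg, neg_neg]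

theorem h52_cross {n : Type} [Fintype n] [DecidableEq n] {P Pw π A : Matrix n n ℂ}
    (hPw : IsStarProjection Pw) (e : π * P = Pw) (c : Commute P A) {v : n → ℂ}
    (hv : P *ᵥ v = v) :
    Pw *ᵥ (A *ᵥ v) - Pw *ᵥ (A *ᵥ (Pw *ᵥ v)) = -((Pw * (A * π - π * A)) *ᵥ v) := by
  have h1 : π *ᵥ v = Pw *ᵥ v := by rw [← e, ← mulVec_mulVec, hv]
  have h2 : P *ᵥ (A *ᵥ v) = A *ᵥ v := by
    rw [mulVec_mulVec, c.eq, ← mulVec_mulVec, hv]
  have h3 : π *ᵥ (A *ᵥ v) = Pw *ᵥ (A *ᵥ v) := by rw [← e, ← mulVec_mulVec, h2]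
  have h4 : Pw *ᵥ (Pw *ᵥ (A *ᵥ v)) = Pw *ᵥ (A *ᵥ v) := by
    rw [mulVec_mulVec, hPw.isIdempotentElem.eq]
  rw [← mulVec_mulVec, sub_mulVec, mulVec_sub, ← mulVec_mulVec, ← mulVec_mulVec, h1, h3, h4,
    neg_sub]

theorem pull_main {α a : ℝ} (G : ℝ) (h0 : 0 < α) (h1 : α ≤ 1 / 2) (ha : 0 < a) :
    ∃ (R₀ K : ℝ) (Q₀ : ℕ), 0 ≤ K ∧ ∀ Q, Q₀ ≤ Q → ∀ T : Multiset S2, AdmS Q R₀ T →
      ∀ (ι : Type) [MeasurableSpace ι] (ν : Measure ι) (x : ι → S2)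
        (M : ι → Fk (Q + 1)), SInter Q α a 1 G ν x M →
        ∀ (N : ℕ) (lam : ℝ), 1 ≤ N → 0 < nfree Q T N →
          (∀ w, Bnd Q (w ::ₘ T) N (∫ i, M i ∂ν) lam) → Bnd Q T N (∫ i, M i ∂ν) (lam + K) := by
  obtain ⟨R1, b, K1, Q1, hb, hK1, hbar⟩ := exists_bar h0 h1 ha
  obtain ⟨G2, c, R2, Q2, hc, hF2⟩ := f2_main
  have h2 : 0 < α / 2 := by linarith
  obtain ⟨R3, C3, Q3, hC3, hcnt⟩ := cnt_int (α := α / 2) (a := b) G2 h2 (by linarith) hb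
  obtain ⟨R4, Q4, hcont⟩ := pd_cont
  obtain ⟨V, hV, hvol⟩ := sites_vol (α := α / 2) (a := b) h2 hb
  set B : ℝ := K1 * 1 * (V * G) with hB
  refine ⟨max (max R1 R2) (max R3 R4), 1 + C3 * B ^ 2 / c, max (max Q1 Q2) (max Q3 Q4),
    by positivity, fun Q hQ T hT ι _ ν x M hM N lam hN hn hw => ?_⟩
  simp only [max_le_iff] at hQ
  obtain ⟨⟨q1, q2⟩, q3, q4⟩ := hQ
  have t1 : AdmT Q R1 T := hT.toAdmT.mono (le_max_of_le_left (le_max_left _ _)) le_rfl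
  have t2 : AdmS Q R2 T := hT.mono (le_max_of_le_left (le_max_right _ _)) le_rfl
  have t3 : AdmT Q R3 T := hT.toAdmT.mono (le_max_of_le_right (le_max_left _ _)) le_rfl
  have t4 : AdmT Q R4 T := hT.toAdmT.mono (le_max_of_le_right (le_max_right _ _)) le_rfl
  obtain ⟨Φ, π, hΦ⟩ := hbar Q q1 T t1
  obtain ⟨κ, _, μ, y, hy, -, -, hF⟩ := hF2 Q q2 T t2
  have := hy.fin
  set A := Φ (∫ i, M i ∂ν) with hA
  have hAn : NC A := hΦ.nc _ hM.nc'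
  have hX : ∀ w, NL Q (α / 2) b B w (A * π w - π w * A) := fun w => by
    obtain ⟨k1, k2⟩ := hΦ.int hb.le hM w
    refine ⟨k1, k2.mono ?_⟩
    exact mul_le_mul_of_nonneg_left (hvol Q G ι ν x hM.sites w).2 (by positivity)
  rw [← hΦ.bnd_iff le_rfl, bnd_iff, ← add_assoc]
  refine pull_abs μ (s := secP (Q + 1) N) (P := PD Q T) (Pw := fun i => PD Q (y i ::ₘ T))
    (c := c * nfree Q T N) (secP_proj _ _) (PD_proj _ _) (fun i => PD_proj _ _)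
    ((hcont Q q4 T t4).comp_aestronglyMeasurable hy.meas.aestronglyMeasurable)
    (commute_secP (PD_nc Q T) N) (fun i => commute_secP (PD_nc Q _) N) (hΦ.sa _ hM.sa')
    (commute_secP hAn N) (hΦ.comm _) (mul_pos hc hn) (by positivity) (fun i => ?_)
    (fun v s1 s2 => hF N v hN ⟨s1, PD_mulVec_iff.1 s2⟩) (fun v s1 s2 => ?_)
  · exact bnd_iff.1 ((hΦ.bnd_iff (Multiset.le_cons_self T (y i))).2 (hw (y i)))
  · have k := hcnt Q q3 T t3 N v hN ⟨s1, PD_mulVec_iff.1 s2⟩ κ μ y hy B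
      (fun i => nq (PD Q (y i ::ₘ T) *ᵥ (A *ᵥ v) -
        PD Q (y i ::ₘ T) *ᵥ (A *ᵥ (PD Q (y i ::ₘ T) *ᵥ v))))
      (Filter.Eventually.of_forall fun i => ⟨_, hX (y i), by
        rw [h52_cross (PD_proj _ _) (hΦ.pi (y i)) (hΦ.comm _) s2, h52_nq_neg]⟩)
    refine k.trans (le_of_eq ?_)
    field_simp

end Crest.Agent.R340.Pin
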