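import Crest.Agent.R340.PtMove
import Crest.Agent.R340.PtPull

/-! # Row 340, PT: reduction of (Q) to fully pinned states -/

set_option autoImplicit false

namespace Crest.Agent.R340.Pin

open Matrix MeasureTheory Crest.MathPhysics.Laughlin
open scoped Matrix.Norms.L2Operator MatrixOrder ComplexOrder ComplexConjugate

section aux

variable {Q : ℕ} {α a G R : ℝ} {ι : Type} [MeasurableSpace ι] {ν : Measure ι} {x : ι → S2}
  {M : ι → Fk (Q + 1)}

/-- discarding the terms near one more pin -/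
theorem h52_discard (hM : SInter Q α a 1 G ν x M) (hR : 0 ≤ R) (e : S2) (T : Multiset S2) :
    ‖(∫ i in x ⁻¹' Fr Q R T, M i ∂ν) - ∫ i in x ⁻¹' Fr Q R (e ::ₘ T), M i ∂ν‖ ≤
      G * (1 + R) ^ 2 := by
  have := hM.sites.fin
  have m1 : MeasurableSet (x ⁻¹' Fr Q R (e ::ₘ T)) := hM.sites.meas (measurableSet_Fr _ _ _)
  have hs : x ⁻¹' Fr Q R (e ::ₘ T) ⊆ x ⁻¹' Fr Q R T := by
    rw [Fr_cons]; exact Set.preimage_mono Set.inter_subset_left
  rw [← setIntegral_sdiff m1 hM.int.integrableOn hs]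
  refine (hM.norm_le _).trans ?_
  rw [one_mul]
  refine (measureReal_mono ?_ (measure_ne_top _ _)).trans (hM.sites.growth e R hR)
  intro i hi
  have h1 : x i ∈ Fr Q R T := hi.1
  have h2 : ¬ x i ∈ Fr Q R (e ::ₘ T) := hi.2
  rw [Fr_cons] at h2
  have h3 : ¬ R ≤ dq Q e (x i) := fun h => h2 ⟨h1, h⟩
  show dq Q (x i) e ≤ R
  rw [dq_symm]
  exact (not_le.1 h3).le

theorem h52_discard_all (hM : SInter Q α a 1 G ν x M) (hR : 0 ≤ R) (T : Multiset S2) :
    ‖(∫ i in x ⁻¹' Fr Q R T, M i ∂ν) - ∫ i, M i ∂ν‖ ≤ G * (1 + R) ^ 2 * T.card := by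
  induction T using Multiset.induction_on with
  | empty => simp [Fr_zero]
  | cons e T ih =>
    have h1 := h52_discard hM hR e T
    rw [norm_sub_rev] at h1
    have h2 := norm_sub_le_norm_sub_add_norm_sub (∫ i in x ⁻¹' Fr Q R (e ::ₘ T), M i ∂ν)
      (∫ i in x ⁻¹' Fr Q R T, M i ∂ν) (∫ i, M i ∂ν)
    rw [Multiset.card_cons]
    push_cast
    linarith

end aux

theorem pt_main {α a : ℝ} (G : ℝ) (h0 : 0 < α) (h1 : α ≤ 1 / 2) (ha : 0 < a) :
    ∃ R₀ : ℝ, 1 ≤ R₀ ∧ ∀ R, R₀ ≤ R → ∃ (K : ℝ) (Q₀ : ℕ), 0 ≤ K ∧ ∀ Q, Q₀ ≤ Q →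
      ∀ (ι : Type) [MeasurableSpace ι] (ν : Measure ι) (x : ι → S2)
        (M : ι → Fk (Q + 1)), SInter Q α a 1 G ν x M →
        ∀ (N n : ℕ) (lam : ℝ), 1 ≤ N → nfree Q 0 N = n → 32 * R ^ 2 * n < Q →
          (∀ T : Multiset S2, AdmS Q R T → T.card = n → Bnd Q T N (∫ i, M i ∂ν) lam) →
            Bnd Q 0 N (∫ i, M i ∂ν) (lam + K * n) := by
  obtain ⟨R1, K1, Q1, hK1, hmove⟩ := move_path G h0 h1 ha
  obtain ⟨R2, K2, Q2, hK2, hpull⟩ := pull_main G h0 h1 ha
  refine ⟨max 1 (max R1 R2), le_max_left _ _, fun R hR => ?_⟩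
  simp only [max_le_iff] at hR
  obtain ⟨r0, r1, r2⟩ := hR
  have hR0 : 0 < R := by linarith
  set D : ℝ := |G| * (1 + R) ^ 2 with hD
  have hD0 : 0 ≤ D := by positivity
  have hGD : G * (1 + R) ^ 2 ≤ D := mul_le_mul_of_nonneg_right (le_abs_self G) (by positivity)
  refine ⟨D + (D + K1 + K2), max 1 (max Q1 Q2), by positivity,
    fun Q hQ ι _ ν x M hM N n lam hN hn hsmall hT => ?_⟩
  simp only [max_le_iff] at hQ
  obtain ⟨q0, q1, q2⟩ := hQ
  have key : ∀ j : ℕ, ∀ T : Multiset S2, AdmS Q R T → T.card + j = n →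
      Bnd Q T N (∫ i in x ⁻¹' Fr Q R T, M i ∂ν) (lam + D * n + (D + K1 + K2) * j) := by
    intro j
    induction j with
    | zero =>
      intro T h1 h2
      rw [add_zero] at h2
      refine ((hT T h1 h2).of_norm (h52_discard_all hM hR0.le T)).mono ?_
      rw [h2]
      have : G * (1 + R) ^ 2 * n ≤ D * n := mul_le_mul_of_nonneg_right hGD (Nat.cast_nonneg n)
      push_cast
      linarith
    | succ j ih =>
      intro T h1 h2
      have hM' := hM.restrict (x ⁻¹' Fr Q R T)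
      have hae : ∀ᵐ i ∂ν.restrict (x ⁻¹' Fr Q R T), x i ∈ Fr Q R T :=
        ae_restrict_mem (hM.sites.meas (measurableSet_Fr Q R T))
      have hcard : (T.card : ℝ) + (j + 1) = n := by exact_mod_cast h2
      have hj : (0 : ℝ) ≤ j := Nat.cast_nonneg j
      have hfree : 32 * R ^ 2 * T.card < Q :=
        lt_of_le_of_lt (mul_le_mul_of_nonneg_left (by linarith) (by positivity)) hsmall
      have hnf : 0 < nfree Q T N := by
        have : nfree Q T N = nfree Q 0 N - T.card := by simp [nfree]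
        rw [this, hn]
        linarith
      have b1 : ∀ e ∈ Fr Q R T, Bnd Q (e ::ₘ T) N (∫ i in x ⁻¹' Fr Q R T, M i ∂ν)
          (lam + D * n + (D + K1 + K2) * j + D) := fun e he =>
        (ih (e ::ₘ T) (h1.cons_Fr hR0 he) (by rw [Multiset.card_cons]; omega)).of_norm
          ((h52_discard hM hR0.le e T).trans hGD)
      have b2 := fun w => hmove Q q1 T (h1.toAdmT.mono r1 le_rfl) (Fr Q R T) ι _ x M hM' hae N _
        b1 w (exists_free q0 hfree w)
      refine (hpull Q q2 T (h1.mono r2 le_rfl) ι _ x M hM' N _ hN hnf b2).mono (le_of_eq ?_)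
      push_cast
      ring
  have h0' : AdmS Q R 0 := ⟨fun a h => absurd h (Multiset.notMem_zero a), Multiset.nodup_zero⟩
  have := key n 0 h0' (by simp)
  rw [Fr_zero, Set.preimage_univ, Measure.restrict_univ] at this
  refine this.mono (le_of_eq ?_)
  ring

end Crest.Agent.R340.Pin
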