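import Crest.Agent.R340.PinDefs

/-! # Row 340, PT: the meridian through a point -/

set_option autoImplicit false

namespace Crest.Agent.R340.Pin

open Crest.MathPhysics.Laughlin

theorem m35_norm {x e : EuclideanSpace ℝ (Fin 3)} (hx : ‖x‖ = 1) (he : ‖e‖ = 1)
    (h : inner ℝ x e = 0) (p q : ℝ) : ‖p • x + q • e‖ ^ 2 = p ^ 2 + q ^ 2 := by
  rw [norm_add_sq_real, inner_smul_left, inner_smul_right, h, norm_smul, norm_smul, hx, he]
  simp

theorem m35_dist {x e : EuclideanSpace ℝ (Fin 3)} (hx : ‖x‖ = 1) (he : ‖e‖ = 1)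
    (h : inner ℝ x e = 0) (a b : ℝ) :
    ‖(Real.cos (2 * a) • x + Real.sin (2 * a) • e) - (Real.cos (2 * b) • x + Real.sin (2 * b) • e)‖ =
      2 * |Real.sin (a - b)| := by
  have e1 : (Real.cos (2 * a) • x + Real.sin (2 * a) • e) -
      (Real.cos (2 * b) • x + Real.sin (2 * b) • e) =
      (Real.cos (2 * a) - Real.cos (2 * b)) • x + (Real.sin (2 * a) - Real.sin (2 * b)) • e := by
    rw [sub_smul, sub_smul]
    abel
  refine (sq_eq_sq₀ (norm_nonneg _) (by positivity)).1 ?_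
  rw [e1, m35_norm hx he h, mul_pow, sq_abs]
  have h1 := Real.cos_sub (2 * a) (2 * b)
  have h2 := Real.cos_two_mul (a - b)
  have h3 := Real.sin_sq_add_cos_sq (a - b)
  have h4 := Real.sin_sq_add_cos_sq (2 * a)
  have h5 := Real.sin_sq_add_cos_sq (2 * b)
  rw [show 2 * (a - b) = 2 * a - 2 * b by ring] at h2
  linarith

theorem m35_perp {x b : EuclideanSpace ℝ (Fin 3)} (hx : ‖x‖ = 1) (hb : ‖b‖ = 1) :
    ∃ (e : EuclideanSpace ℝ (Fin 3)) (θ : ℝ), ‖e‖ = 1 ∧ inner ℝ x e = 0 ∧ 0 ≤ θ ∧ θ ≤ Real.pi ∧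
      Real.cos θ • x + Real.sin θ • e = b := by
  set c : ℝ := inner ℝ x b with hc
  have hc1 : |c| ≤ 1 := by simpa [hx, hb] using abs_real_inner_le_norm x b
  have hu : inner ℝ x (b - c • x) = 0 := by
    rw [inner_sub_right, inner_smul_right, real_inner_self_eq_norm_sq, hx]
    ring
  have hn : ‖b - c • x‖ = √(1 - c ^ 2) := by
    rw [← Real.sqrt_sq (norm_nonneg (b - c • x)), norm_sub_sq_real, inner_smul_right,
      real_inner_comm, ← hc, norm_smul, hx, hb, Real.norm_eq_abs, mul_one, sq_abs]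
    congr 1
    ring
  obtain ⟨v, hv0, hv1, hv2⟩ : ∃ v : EuclideanSpace ℝ (Fin 3), v ≠ 0 ∧ inner ℝ x v = 0 ∧
      ‖b - c • x‖ • (‖v‖⁻¹ • v) = b - c • x := by
    by_cases h : b - c • x = 0
    · by_cases h0 : x 0 = 0
      · refine ⟨EuclideanSpace.single 0 1, fun h1 => ?_, ?_, by rw [h]; simp⟩
        · simpa using congrArg (fun z : EuclideanSpace ℝ (Fin 3) => z 0) h1
        · simp [EuclideanSpace.inner_single_right, h0]
      · refine ⟨!₂[-x 1, x 0, 0], fun h1 => h0 ?_, ?_, by rw [h]; simp⟩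
        · simpa using congrArg (fun z : EuclideanSpace ℝ (Fin 3) => z 1) h1
        · simp [PiLp.inner_apply, Fin.sum_univ_three, mul_comm]
    · refine ⟨b - c • x, h, hu, ?_⟩
      rw [smul_smul, mul_inv_cancel₀ (norm_ne_zero_iff.2 h), one_smul]
  refine ⟨‖v‖⁻¹ • v, Real.arccos c, norm_smul_inv_norm hv0, by rw [inner_smul_right, hv1, mul_zero],
    Real.arccos_nonneg c, Real.arccos_le_pi c, ?_⟩
  rw [Real.cos_arccos (abs_le.1 hc1).1 (abs_le.1 hc1).2, Real.sin_arccos, ← hn, hv2]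
  abel

/-- The meridian from `x` through `b` to the antipode `y = -x` (the same `y` for every `b`).
`b = cos θ₀ x + sin θ₀ e`, `e ⊥ x` a unit vector, `γ s = cos (2 s / √Q) x + sin (2 s / √Q) e`,
`L = π √Q / 2`, `dq (γ s) (γ t) = √Q |sin ((s - t) / √Q)|`. -/
theorem exists_meridian {Q : ℕ} (hQ : 1 ≤ Q) (x : S2) : ∃ y : S2, ∀ b : S2,
    ∃ (γ : ℝ → S2) (s₀ L : ℝ), 0 ≤ s₀ ∧ s₀ ≤ L ∧ γ s₀ = b ∧ γ L = y ∧
      (∀ s t, dq Q (γ s) (γ t) ≤ |s - t|) ∧
      ∀ s, s₀ ≤ s → s ≤ L → dq Q x b ≤ dq Q x (γ s) ∧ s / 2 ≤ dq Q x (γ s) := by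
  have hπ := Real.pi_pos
  have hq : 0 < √(Q : ℝ) := Real.sqrt_pos.2 (by exact_mod_cast hQ)
  have hx : ‖(x : EuclideanSpace ℝ (Fin 3))‖ = 1 := norm_eq_of_mem_sphere x
  refine ⟨-x, fun b => ?_⟩
  obtain ⟨e, θ, he, hxe, t0, t1, hb⟩ := m35_perp hx (norm_eq_of_mem_sphere b)
  let γ : ℝ → S2 := fun s => ⟨Real.cos (2 * (s / √(Q : ℝ))) • (x : EuclideanSpace ℝ (Fin 3)) +
    Real.sin (2 * (s / √(Q : ℝ))) • e, mem_sphere_zero_iff_norm.2 (by
      refine (sq_eq_sq₀ (norm_nonneg _) zero_le_one).1 ?_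
      rw [m35_norm hx he hxe, Real.cos_sq_add_sin_sq, one_pow])⟩
  have hd : ∀ s t, dq Q (γ s) (γ t) = √(Q : ℝ) * |Real.sin ((s - t) / √(Q : ℝ))| := fun s t => by
    simp only [dq, γ]
    rw [m35_dist hx he hxe, ← sub_div]
    ring
  have g0 : γ 0 = x := Subtype.ext (by simp [γ])
  have gb : γ (θ * √(Q : ℝ) / 2) = b := Subtype.ext (by
    have : 2 * (θ * √(Q : ℝ) / 2 / √(Q : ℝ)) = θ := by field_simp
    simp only [γ, this]
    exact hb)
  have gL : γ (Real.pi * √(Q : ℝ) / 2) = -x := Subtype.ext (by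
    have : 2 * (Real.pi * √(Q : ℝ) / 2 / √(Q : ℝ)) = Real.pi := by field_simp
    simp only [γ, this]
    simp)
  have hr : ∀ s, s ≤ Real.pi * √(Q : ℝ) / 2 → s / √(Q : ℝ) ≤ Real.pi / 2 := fun s hs => by
    rw [div_le_iff₀ hq]
    linarith
  have hd0 : ∀ s, 0 ≤ s → s ≤ Real.pi * √(Q : ℝ) / 2 →
      dq Q x (γ s) = √(Q : ℝ) * Real.sin (s / √(Q : ℝ)) := fun s h0 h1 => by
    have := hd 0 s
    rw [g0, zero_sub, neg_div, Real.sin_neg, abs_neg, abs_of_nonneg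
      (Real.sin_nonneg_of_nonneg_of_le_pi (by positivity) (by linarith [hr s h1]))] at this
    exact this
  have s0 : 0 ≤ θ * √(Q : ℝ) / 2 := by positivity
  refine ⟨γ, θ * √(Q : ℝ) / 2, Real.pi * √(Q : ℝ) / 2, s0, by gcongr, gb, gL, fun s t => ?_,
    fun s h0 h1 => ⟨?_, ?_⟩⟩
  · rw [hd]
    refine (mul_le_mul_of_nonneg_left Real.abs_sin_le_abs hq.le).trans (le_of_eq ?_)
    rw [abs_div, abs_of_pos hq]
    field_simp
  · rw [← gb, hd0 _ s0 (h0.trans h1), hd0 s (s0.trans h0) h1]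
    refine mul_le_mul_of_nonneg_left (Real.sin_le_sin_of_le_of_le_pi_div_two ?_ (hr s h1) ?_) hq.le
    · have : 0 ≤ θ * √(Q : ℝ) / 2 / √(Q : ℝ) := by positivity
      linarith
    · gcongr
  · have hs := s0.trans h0
    rw [hd0 s hs h1]
    refine le_trans ?_ (mul_le_mul_of_nonneg_left (Real.mul_le_sin (by positivity) (hr s h1)) hq.le)
    have : √(Q : ℝ) * (2 / Real.pi * (s / √(Q : ℝ))) = 2 * s / Real.pi := by field_simp
    rw [this, div_le_div_iff₀ two_pos hπ]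
    nlinarith [Real.pi_le_four]

end Crest.Agent.R340.Pin
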