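import Crest.Agent.R340.PtBar
import Crest.Agent.R340.PtAbs

/-! # Row 340, PT: MOVE -/

set_option autoImplicit false

namespace Crest.Agent.R340.Pin

open Matrix MeasureTheory Crest.MathPhysics.Laughlin
open scoped Matrix.Norms.L2Operator MatrixOrder ComplexOrder ComplexConjugate

/-! ### part A -/

/-- `move_abs` with `s = secP`, `P = PD T`, `A ↦ Φ A`, `Bar.bnd_iff`, `bnd_iff` -/
theorem Bar.move {Q N : ℕ} {α a β b K lam ε : ℝ} {T : Multiset S2} {A : Fk (Q + 1)}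
    {Φ : Fk (Q + 1) →L[ℂ] Fk (Q + 1)} {π : S2 → Fk (Q + 1)} (h : Bar Q α a β b K T Φ π)
    (hA : IsSelfAdjoint A) (hN : NC A) {w w' : S2}
    (hab : ‖PD Q (w' ::ₘ T) * PD Q (w ::ₘ T) - PD Q (w ::ₘ T)‖ ≤ 1 / 2)
    (e1 : ‖Φ A * π w - π w * Φ A‖ ≤ ε) (e2 : ‖Φ A * π w' - π w' * Φ A‖ ≤ ε)
    (hB : Bnd Q (w' ::ₘ T) N A lam) : Bnd Q (w ::ₘ T) N A (lam + 4 * ε) := by
  rw [← h.bnd_iff (Multiset.le_cons_self T w')] at hB
  rw [← h.bnd_iff (Multiset.le_cons_self T w), Pin.bnd_iff]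
  exact move_abs (secP_proj _ N) (PD_proj Q _) (PD_proj Q _) (h.pi w) (h.pi w')
    (PD_mul_of_le (Multiset.le_cons_self T w)).1 (h.sa A hA) (h.comm A)
    (commute_secP (h.nc A hN) N) (commute_secP (PD_nc Q _) N) (commute_secP (PD_nc Q _) N) hab
    e1 e2 (Pin.bnd_iff.1 hB)

theorem h83_half {L d : ℝ} (hL : 0 < L) (hd : d ≤ min 1 (1 / (2 * L))) : L * d ≤ 1 / 2 := by
  have h := mul_le_mul_of_nonneg_left (hd.trans (min_le_right _ _)) hL.le
  rwa [show L * (1 / (2 * L)) = 1 / 2 by field_simp] at h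

/-- one step, one local operator (`exists_bar`, `pd_lip` with `δ = min 1 (1 / (2 L))`) -/
theorem move_one {α a : ℝ} (h0 : 0 < α) (h1 : α ≤ 1 / 2) (ha : 0 < a) :
    ∃ (R₀ δ b K : ℝ) (Q₀ : ℕ), 0 < δ ∧ δ ≤ 1 ∧ 0 < b ∧ 0 ≤ K ∧ ∀ Q, Q₀ ≤ Q →
      ∀ (T : Multiset S2) (w w' : S2), AdmT Q R₀ T → dq Q w w' ≤ δ →
        ∀ (C : ℝ) (x : S2) (A : Fk (Q + 1)), IsSelfAdjoint A → NL Q α a C x A →
          ∀ (N : ℕ) (lam ε : ℝ), wt (α / 2) b (dq Q x w) ≤ ε → wt (α / 2) b (dq Q x w') ≤ ε →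
            Bnd Q (w' ::ₘ T) N A lam → Bnd Q (w ::ₘ T) N A (lam + K * C * ε) := by
  obtain ⟨R₁, b, K, Q₁, hb, hK, hbar⟩ := exists_bar h0 h1 ha
  obtain ⟨R₂, L, Q₂, hL, hlip⟩ := pd_lip
  refine ⟨max R₁ R₂, min 1 (1 / (2 * L)), b, 4 * K, max Q₁ Q₂, lt_min one_pos (by positivity),
    min_le_left _ _, hb, by positivity, ?_⟩
  intro Q hQ T w w' hT hd C x A hA hNL N lam ε h2 h3 hB
  obtain ⟨Φ, π, h⟩ := hbar Q ((le_max_left _ _).trans hQ) T (hT.mono (le_max_left _ _) le_rfl)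
  have hab := (hlip Q ((le_max_right _ _).trans hQ) T w w' (hT.mono (le_max_right _ _) le_rfl)
    (hd.trans (min_le_left _ _))).trans (h83_half hL hd)
  have hC : 0 ≤ K * C := mul_nonneg hK ((norm_nonneg A).trans hNL.2.1)
  have k := h.move hA hNL.1 hab (ε := K * C * ε)
    ((h.loc C x w A hNL).1.trans (mul_le_mul_of_nonneg_left h2 hC))
    ((h.loc C x w' A hNL).1.trans (mul_le_mul_of_nonneg_left h3 hC)) hB
  exact k.mono (le_of_eq (by ring))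

/-- one step, an interaction (`Bar.int`) -/
theorem move_step {α a : ℝ} (h0 : 0 < α) (h1 : α ≤ 1 / 2) (ha : 0 < a) :
    ∃ (R₀ δ b K : ℝ) (Q₀ : ℕ), 0 < δ ∧ δ ≤ 1 ∧ 0 < b ∧ 0 ≤ K ∧ ∀ Q, Q₀ ≤ Q →
      ∀ (T : Multiset S2) (w w' : S2), AdmT Q R₀ T → dq Q w w' ≤ δ →
        ∀ (G : ℝ) (ι : Type) [MeasurableSpace ι] (ν : Measure ι) (x : ι → S2)
          (M : ι → Fk (Q + 1)), SInter Q α a 1 G ν x M → ∀ (N : ℕ) (lam ε : ℝ),
          ∫ i, wt (α / 2) b (dq Q (x i) w) ∂ν ≤ ε → ∫ i, wt (α / 2) b (dq Q (x i) w') ∂ν ≤ ε →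
            Bnd Q (w' ::ₘ T) N (∫ i, M i ∂ν) lam →
              Bnd Q (w ::ₘ T) N (∫ i, M i ∂ν) (lam + K * ε) := by
  obtain ⟨R₁, b, K, Q₁, hb, hK, hbar⟩ := exists_bar h0 h1 ha
  obtain ⟨R₂, L, Q₂, hL, hlip⟩ := pd_lip
  refine ⟨max R₁ R₂, min 1 (1 / (2 * L)), b, 4 * K, max Q₁ Q₂, lt_min one_pos (by positivity),
    min_le_left _ _, hb, by positivity, ?_⟩
  intro Q hQ T w w' hT hd G ι _ ν x M hM N lam ε h2 h3 hB
  obtain ⟨Φ, π, h⟩ := hbar Q ((le_max_left _ _).trans hQ) T (hT.mono (le_max_left _ _) le_rfl)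
  have hab := (hlip Q ((le_max_right _ _).trans hQ) T w w' (hT.mono (le_max_right _ _) le_rfl)
    (hd.trans (min_le_left _ _))).trans (h83_half hL hd)
  have hC : 0 ≤ K * 1 := by positivity
  have k := h.move hM.sa' hM.nc' hab (ε := K * 1 * ε)
    ((h.int hb.le hM w).2.1.trans (mul_le_mul_of_nonneg_left h2 hC))
    ((h.int hb.le hM w').2.1.trans (mul_le_mul_of_nonneg_left h3 hC)) hB
  exact k.mono (le_of_eq (by ring))

/-! ### part B -/

/-- sites in `F`, all of `F` at distance `≥ r` from `p` (`wt_split`, `wt_anti`, `sites_vol`) -/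
theorem int_wt_far {β b : ℝ} (hβ : 0 < β) (hb : 0 < b) : ∃ V, 0 ≤ V ∧ ∀ (Q : ℕ) (G : ℝ) (ι : Type)
    [MeasurableSpace ι] (ν : Measure ι) (x : ι → S2), Sites Q G ν x → ∀ (p : S2) (r : ℝ), 0 ≤ r →
      (∀ᵐ i ∂ν, r ≤ dq Q (x i) p) →
        ∫ i, wt β b (dq Q (x i) p) ∂ν ≤ V * |G| * wt β (b / 2) r := by
  obtain ⟨V, hV, h⟩ := sites_vol hβ (half_pos hb)
  refine ⟨V, hV, fun Q G ι _ ν x hS p r hr hfar => ?_⟩
  obtain ⟨hi, hle⟩ := h Q G ι ν x hS p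
  have h1 : ∫ i, wt β b (dq Q (x i) p) ∂ν ≤
      ∫ i, wt β (b / 2) (dq Q (x i) p) * wt β (b / 2) r ∂ν := by
    refine integral_mono_of_nonneg (Filter.Eventually.of_forall fun i => (wt_pos _ _ _).le)
      (hi.mul_const _) ?_
    filter_upwards [hfar] with i hi'
    rw [wt_split β b]
    exact mul_le_mul_of_nonneg_left (wt_anti hβ.le (half_pos hb).le hr hi') (wt_pos _ _ _).le
  rw [integral_mul_const] at h1
  refine h1.trans (mul_le_mul_of_nonneg_right (hle.trans ?_) (wt_pos _ _ _).le)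
  exact mul_le_mul_of_nonneg_left (le_abs_self G) hV

/-- The abstract path induction.  `B p l` = bound `l` with the moving pin at `p`, `c r` = cost of
a step at distance `≥ r` from `F`.  Hint: by induction on `k`: if some `e ∈ F` has
`dq p e ≤ min (k δ / 4) (√Q / 4)` then `B p (lam + ∑ j < k, c' j)`, `c' j = c (max 0 (j δ / 4 - δ))`.
Step `k + 1`: if some `e ∈ F` has `dq p e ≤ k δ / 4`, use the better of the two witnesses;
otherwise all of `F` is at distance `> k δ / 4` from `p`; `geo_step` gives `p'`, all of `F` is at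
distance `≥ k δ / 4 - δ` from `p'` (`dq_tri`). -/
theorem path_ind {Q : ℕ} (hQ : 1 ≤ Q) {δ lam : ℝ} (hδ : 0 < δ) (F : Set S2) (B : S2 → ℝ → Prop)
    (c : ℝ → ℝ) (c0 : ∀ r, 0 ≤ c r) (mono : ∀ p l l', B p l → l ≤ l' → B p l')
    (step : ∀ p p' l r, 0 ≤ r → dq Q p p' ≤ δ → (∀ e ∈ F, r ≤ dq Q e p) →
      (∀ e ∈ F, r ≤ dq Q e p') → B p' l → B p (l + c r))
    (base : ∀ e ∈ F, B e lam) (k : ℕ) : ∀ p, (∃ e ∈ F, dq Q p e ≤ min (k * (δ / 4))
      (Real.sqrt Q / 4)) → B p (lam + ∑ j ∈ Finset.range k, c (max 0 (j * (δ / 4) - δ))) := by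
  induction k with
  | zero =>
    rintro p ⟨e, he, h⟩
    have h0 : dq Q p e ≤ 0 := by simpa using h.trans (min_le_left _ _)
    rw [eq_of_dq_le hQ h0]
    simpa using base e he
  | succ k ih =>
    rintro p ⟨e, he, h⟩
    have h1 : dq Q p e ≤ (k + 1 : ℝ) * (δ / 4) := by
      have := h.trans (min_le_left _ _)
      rwa [Nat.cast_succ] at this
    have h2 : dq Q p e ≤ Real.sqrt Q / 4 := h.trans (min_le_right _ _)
    rw [Finset.sum_range_succ, ← add_assoc]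
    by_cases hc : ∃ e' ∈ F, dq Q p e' ≤ k * (δ / 4)
    · obtain ⟨e', he', h'⟩ := hc
      refine mono p _ _ (ih p ?_) (le_add_of_nonneg_right (c0 _))
      rcases le_total (dq Q p e') (dq Q p e) with h3 | h3
      · exact ⟨e', he', le_min h' (h3.trans h2)⟩
      · exact ⟨e, he, le_min (h3.trans h') h2⟩
    · have hfar : ∀ e' ∈ F, k * (δ / 4) < dq Q p e' := fun e' he' =>
        lt_of_not_ge fun h' => hc ⟨e', he', h'⟩
      obtain ⟨p', hp1, hp2⟩ := geo_step hQ hδ p e h2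
      have hk : (0 : ℝ) ≤ k * (δ / 4) := by positivity
      have hs : (0 : ℝ) ≤ Real.sqrt Q / 4 := by positivity
      refine step p p' _ _ (le_max_left _ _) hp1 (fun e' he' => ?_) (fun e' he' => ?_)
        (ih p' ⟨e, he, hp2.trans (max_le (le_min hk hs) (le_min (by linarith) (by linarith)))⟩)
      · refine max_le (dq_nonneg _ _ _) ?_
        rw [dq_symm]
        linarith [hfar e' he']
      · refine max_le (dq_nonneg _ _ _) ?_
        rw [dq_symm]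
        linarith [hfar e' he', dq_tri Q p p' e']

/-- Hint: `path_ind` with `c r = K * (V * |G| * wt (α / 2) (b / 2) r)`, `k` large (`exists_nat_ge`);
`∑ j < k, wt (max 0 (j δ / 4 - δ)) ≤ 4 + S` (first four terms `≤ 1`, `Finset.sum_range_add`-shift
`j = i + 4` gives `i δ / 4`, `sum_wt_le`). -/
theorem move_path {α a : ℝ} (G : ℝ) (h0 : 0 < α) (h1 : α ≤ 1 / 2) (ha : 0 < a) :
    ∃ (R₀ K : ℝ) (Q₀ : ℕ), 0 ≤ K ∧ ∀ Q, Q₀ ≤ Q → ∀ T : Multiset S2, AdmT Q R₀ T →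
      ∀ (F : Set S2) (ι : Type) [MeasurableSpace ι] (ν : Measure ι) (x : ι → S2)
        (M : ι → Fk (Q + 1)), SInter Q α a 1 G ν x M → (∀ᵐ i ∂ν, x i ∈ F) →
        ∀ (N : ℕ) (lam : ℝ), (∀ e ∈ F, Bnd Q (e ::ₘ T) N (∫ i, M i ∂ν) lam) →
          ∀ w, (∃ e ∈ F, dq Q w e ≤ Real.sqrt Q / 4) →
            Bnd Q (w ::ₘ T) N (∫ i, M i ∂ν) (lam + K) := by
  obtain ⟨R₀, δ, b, K, Q₀, hδ, -, hb, hK, hstep⟩ := move_step h0 h1 ha
  obtain ⟨V, hV, hfar⟩ := int_wt_far (β := α / 2) (by positivity) hb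
  obtain ⟨S, hS, hsum⟩ := sum_wt_le (β := α / 2) (b := b / 2) (δ := δ / 4) (by positivity)
    (by positivity) (by positivity)
  have hA : 0 ≤ K * (V * |G|) := by positivity
  refine ⟨R₀, K * (V * |G|) * (4 + S), max Q₀ 1, by positivity, ?_⟩
  intro Q hQ T hT F ι _ ν x M hM hF N lam hbase w ⟨e, he, hwe⟩
  obtain ⟨k, hk⟩ := exists_nat_ge (Real.sqrt Q / 4 / (δ / 4))
  rw [div_le_iff₀ (by positivity)] at hk
  have key := path_ind (le_of_max_le_right hQ) hδ F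
    (fun p l => Bnd Q (p ::ₘ T) N (∫ i, M i ∂ν) l) (lam := lam)
    (fun r => K * (V * |G| * wt (α / 2) (b / 2) r))
    (fun r => mul_nonneg hK (mul_nonneg (by positivity) (wt_pos _ _ _).le))
    (fun _ _ _ h hl => h.mono hl)
    (fun p p' l r hr hpp h1 h2 hB => hstep Q (le_of_max_le_left hQ) T p p' hT hpp G ι ν x M hM N l _
      (hfar Q G ι ν x hM.sites p r hr (hF.mono fun i hi => h1 _ hi))
      (hfar Q G ι ν x hM.sites p' r hr (hF.mono fun i hi => h2 _ hi)) hB)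
    hbase (4 + k) w ⟨e, he, le_min (by push_cast; nlinarith) hwe⟩
  refine key.mono (add_le_add le_rfl ?_)
  simp only [← mul_assoc]
  rw [← Finset.mul_sum, mul_assoc K]
  refine mul_le_mul_of_nonneg_left ?_ hA
  rw [Finset.sum_range_add]
  refine add_le_add ?_ (le_trans (le_of_eq (Finset.sum_congr rfl fun j _ => ?_)) (hsum k))
  · refine (Finset.sum_le_card_nsmul _ _ 1 fun j _ => ?_).trans (by simp)
    exact Real.exp_le_one_iff.2 (neg_nonpos.2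
      (mul_nonneg (by positivity) (Real.rpow_nonneg (le_max_left _ _) _)))
  · rw [show ((4 + j : ℕ) : ℝ) * (δ / 4) - δ = j * (δ / 4) by push_cast; ring,
      max_eq_right (by positivity)]

end Crest.Agent.R340.Pin
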