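import Crest.Agent.R340.SelfIter
import Crest.Agent.R340.CFock
import Crest.Agent.R340.Main
import Crest.Agent.R340.CBridge

/-! # SELF: the Laughlin system -/

set_option autoImplicit false

namespace Crest.Agent.R340.Self

open Matrix
open scoped Matrix.Norms.L2Operator MatrixOrder ComplexOrder

theorem h11_dotT {ι : Type*} [Fintype ι] (A : Matrix ι ι ℝ) (u v : ι → ℝ) :
    u ⬝ᵥ (Aᵀ *ᵥ v) = (A *ᵥ u) ⬝ᵥ v := by
  rw [Matrix.mulVec_transpose, dotProduct_comm, ← Matrix.dotProduct_mulVec, dotProduct_comm]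

theorem h11_HT (Q : ℕ) : (Hf Q)ᵀ = Hf Q := by
  simp only [Hf, transpose_sum, transpose_mul, transpose_transpose]

theorem h11_Hf_nonneg (Q : ℕ) (u : Finset (Fin (Q + 1)) → ℝ) : 0 ≤ u ⬝ᵥ (Hf Q *ᵥ u) := by
  rw [Hf, Matrix.sum_mulVec, dotProduct_sum]
  refine Finset.sum_nonneg fun p _ => ?_
  rw [← mulVec_mulVec, h11_dotT]
  exact Finset.sum_nonneg fun i _ => mul_self_nonneg _

theorem h11_ann_zero {n : ℕ} (j : Fin n) : annC j * secP n 0 = 0 := by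
  ext S T
  rw [secP, Matrix.mul_diagonal, Matrix.zero_apply]
  by_cases hT : T.card = 0
  · obtain rfl := Finset.card_eq_zero.1 hT
    simp [annC, cx, ann, (Finset.insert_ne_empty _ _).symm]
  · rw [if_neg hT, mul_zero]

theorem cert_of_fockGap0 {Q : ℕ} {γ : ℝ} (h : FockGap0 Q γ) :
    γ • HC Q + ∑ p, star (BC Q p) * HC Q * BC Q p ≤ HC Q * HC Q := by
  have hs : IsSelfAdjoint (HC Q * HC Q) := by
    rw [IsSelfAdjoint, star_mul, (HC_sa Q).star_eq]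
  have hs' : IsSelfAdjoint (∑ p, star (BC Q p) * HC Q * BC Q p) := by
    rw [IsSelfAdjoint, star_sum]
    refine Finset.sum_congr rfl fun p _ => ?_
    rw [star_mul, star_mul, star_star, (HC_sa Q).star_eq, mul_assoc]
  refine (Filt.le_iff_re_dot ((Filt.ga_real_smul_sa (HC_sa Q) γ).add hs') hs).2 fun φ => ?_
  have e : ∀ u : Finset (Fin (Q + 1)) → ℝ,
      u ⬝ᵥ ((Hf Q * Hf Q) *ᵥ u) = (Hf Q *ᵥ u) ⬝ᵥ (Hf Q *ᵥ u) := fun u => by
    rw [← h11_dotT, h11_HT, mulVec_mulVec]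
  have e2 : ∀ u : Finset (Fin (Q + 1)) → ℝ,
      u ⬝ᵥ ((∑ p, (Bop Q p)ᵀ * Hf Q * Bop Q p) *ᵥ u) =
        ∑ p, (Bop Q p *ᵥ u) ⬝ᵥ (Hf Q *ᵥ (Bop Q p *ᵥ u)) := fun u => by
    rw [Matrix.sum_mulVec, dotProduct_sum]
    refine Finset.sum_congr rfl fun p _ => ?_
    rw [← mulVec_mulVec, ← mulVec_mulVec, h11_dotT]
  have e3 : ∑ p, star (BC Q p) * HC Q * BC Q p = cx (∑ p, (Bop Q p)ᵀ * Hf Q * Bop Q p) := by
    rw [cx_sum]
    refine Finset.sum_congr rfl fun p _ => ?_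
    rw [cx_mul, cx_mul, cx_transpose]
    rfl
  rw [e3, add_mulVec, dotProduct_add, Complex.add_re, Filt.ga_re_smul, HC, ← cx_mul,
    re_dot_map (cx (Hf Q)) (Hf Q) (fun _ _ => rfl),
    re_dot_map (cx (Hf Q * Hf Q)) (Hf Q * Hf Q) (fun _ _ => rfl),
    re_dot_map (cx (∑ p, (Bop Q p)ᵀ * Hf Q * Bop Q p)) _ (fun _ _ => rfl), e, e, e2, e2, mul_add]
  linarith [h (fun i => (φ i).re), h (fun i => (φ i).im)]

theorem fockGap_of_fockGap0 {Q : ℕ} {γ : ℝ} (h : FockGap0 Q γ) : FockGap Q γ := by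
  intro Φ
  exact le_trans (le_add_of_nonneg_right (Finset.sum_nonneg fun p _ => h11_Hf_nonneg Q _)) (h Φ)

theorem sys_of_fockGap0 {Q : ℕ} {γ : ℝ} (hγ : 0 < γ) (h : FockGap0 Q γ) :
    Sys (BC Q) (HC Q) (secP (Q + 1)) γ := by
  refine ⟨hγ, HC_eq Q, cert_of_fockGap0 h, secP_proj _, fun N p => ?_, fun N p hN => ?_⟩
  · rw [BC_eq, Finset.mul_sum, Finset.sum_mul]
    refine Finset.sum_congr rfl fun i _ => ?_
    rw [Finset.mul_sum, Finset.sum_mul]
    refine Finset.sum_congr rfl fun j _ => ?_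
    rw [mul_smul_comm, smul_mul_assoc, ← mul_assoc, secP_mul_annC, mul_assoc, secP_mul_annC,
      mul_assoc]
  · rw [BC_eq, Finset.sum_mul]
    refine Finset.sum_eq_zero fun i _ => ?_
    rw [Finset.sum_mul]
    refine Finset.sum_eq_zero fun j _ => ?_
    rw [smul_mul_assoc, mul_assoc]
    obtain rfl | rfl : N = 0 ∨ N = 0 + 1 := by omega
    · rw [h11_ann_zero, mul_zero, smul_zero]
    · rw [← secP_mul_annC, ← mul_assoc, h11_ann_zero, zero_mul, smul_zero]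

theorem obs_of_numC {n : ℕ} {M : Fk n} (hM : IsSelfAdjoint M) (h : Commute (numC n) M) :
    Obs (secP n) M := ⟨hM, fun N => commute_secP h N⟩

end Crest.Agent.R340.Self
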