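import Crest.Agent.R340.FwFinal
import Crest.Agent.R340.SelfFock
import Crest.Agent.R340.GeoPair

/-!
# Row 340, module SELF-INST: definitions

The classes of `Self.Classes` are the integrals of `Fw.QL` families with rate `a / 4 ^ k`.
-/

set_option autoImplicit false

namespace Crest.Agent.R340.Si

open MeasureTheory Matrix Crest.Agent.R340.Filt Crest.Agent.R340.Fw Crest.MathPhysics.Laughlin
open scoped Matrix.Norms.L2Operator MatrixOrder ComplexOrder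

section generic

variable {𝔄 : Type} [CStarAlgebra 𝔄] {X : Type}

/-- Lieb-Robinson bound for the fields themselves (anticommutators) -/
def LRo (c : X → 𝔄) (d : X → X → ℝ) (K : 𝔄) (v : ℝ) : Prop :=
  ∀ (y : X) (t : ℝ) (z : X), gloc c (tau K t (c y)) z ≤ v * Real.exp (v * |t| - d y z)

variable [MeasurableSpace X]

/-- the pair field `B y` -/
structure Pair (K1 : ℝ) (μ : Measure X) (d : X → X → ℝ) (c B : X → 𝔄) (Nn : 𝔄) : Prop where
  meas : StronglyMeasurable B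
  el : ∀ y, EL c d (B y) y K1
  comm : ∀ y A, ‖B y * A - A * B y‖ ≤
    K1 * (loc c A y + ∫ u, Real.exp (-d y u) * loc c A u ∂μ)
  num : ∀ y, Nn * B y = B y * Nn - (2 : ℂ) • B y
  nsa : IsSelfAdjoint Nn

/-- a family of quasi-local observables, rate `a`, size `K` -/
structure Fam (μ : Measure X) (d : X → X → ℝ) (c : X → 𝔄) (Nn : 𝔄) (a K : ℝ) (M : X → 𝔄) :
    Prop where
  int : Integrable M μ
  sa : ∀ x, IsSelfAdjoint (M x)
  num : ∀ x, Commute Nn (M x)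
  ql : ∀ x, QL c d (M x) x a K

end generic

/-- property (Q) for families of rate `a` and size one, with constant `q` -/
def QB {n X : Type} [Fintype n] [DecidableEq n] [MeasurableSpace X] (μ : Measure X)
    (d : X → X → ℝ) (c : X → Matrix n n ℂ) (Nn H : Matrix n n ℂ) (Pi : ℕ → Matrix n n ℂ)
    (N₀ : ℕ) (ψ : n → ℂ) (a q : ℝ) : Prop :=
  ∀ M : X → Matrix n n ℂ, Fam μ d c Nn a 1 M → (∀ x, M x *ᵥ ψ = 0) →
    Self.QBound H Pi N₀ (∫ x, M x ∂μ) q

/-- admissible growth of a constant as the rate tends to zero (`A / a ^ p` is fine) -/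
def Tame (f : ℝ → ℝ) : Prop :=
  ∀ a : ℝ, 0 < a → a ≤ 1 → ∃ D : ℝ, 0 ≤ D ∧ ∀ k : ℕ, f (a / 4 ^ k) ≤ Real.exp (D * (3 / 2) ^ k)

/-- needed from LOC -/
def LRoOut : Prop :=
  ∃ (v : ℝ) (Q₀ : ℕ), 1 ≤ v ∧ ∀ Q, Q₀ ≤ Q → LRo (ca Q) (dq Q) (HC Q) v

/-- needed from PT: property (Q); `N` may be assumed large, depending on the rate -/
def QOut : Prop :=
  ∃ cq : ℝ → ℝ, Tame cq ∧ ∀ a : ℝ, 0 < a → a ≤ 1 → ∀ N : ℕ, 2 ≤ N → cq a ≤ N →
    ∀ ψ, secP (3 * (N - 1) + 1) N *ᵥ ψ = ψ → star ψ ⬝ᵥ ψ = 1 → HC (3 * (N - 1)) *ᵥ ψ = 0 →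
      QB (muq (3 * (N - 1))) (dq (3 * (N - 1))) (ca (3 * (N - 1))) (numC (3 * (N - 1) + 1))
        (HC (3 * (N - 1))) (secP (3 * (N - 1) + 1)) N ψ a (cq a)

section aux

variable {n X : Type} [Fintype n] [DecidableEq n] [MeasurableSpace X] {μ : Measure X}
  {M : X → Matrix n n ℂ} {H A : Matrix n n ℂ} {Pi : ℕ → Matrix n n ℂ} {N₀ : ℕ} {ψ : n → ℂ}

theorem int_kill (hM : Integrable M μ) (h : ∀ x, M x *ᵥ ψ = 0) : (∫ x, M x ∂μ) *ᵥ ψ = 0 := by
  have h1 := (decC_app ψ).integral_comp_comm hM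
  have h2 : ∀ Y : Matrix n n ℂ, decC_app ψ Y = Y *ᵥ ψ := fun _ => rfl
  simp only [h2, h, integral_zero] at h1
  exact h1.symm

theorem qb_mono {s s' : ℝ} (h : Self.QBound H Pi N₀ A s) (hs : s ≤ s') :
    Self.QBound H Pi N₀ A s' := fun N hN φ h1 h2 =>
  (h N hN φ h1 h2).trans (mul_le_mul_of_nonneg_right (mul_le_mul_of_nonneg_right hs
    (sub_nonneg.2 (Nat.cast_le.2 hN))) (Self.nsq_nonneg φ))

end aux

end Crest.Agent.R340.Si
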