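import Crest.Agent.R340.IfPT
import Crest.Agent.R340.SiDefs
import Crest.Agent.R340.GeoSU2

/-! # Row 340, PT: property (Q) in the form used by SELF -/

set_option autoImplicit false

namespace Crest.Agent.R340.Pin

open Matrix MeasureTheory Crest.MathPhysics.Laughlin
open scoped Matrix.Norms.L2Operator MatrixOrder ComplexOrder ComplexConjugate

/-- `exp (-a √r) ≤ exp (a^(-1/4)) exp (-r^(1/10))`: with `t = r^(1/10)`, `t - a t⁵ ≤ a^(-1/4)` -/
theorem wt_tame {a r : ℝ} (ha : 0 < a) (hr : 0 ≤ r) :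
    wt (1 / 2) a r ≤ Real.exp (a ^ (-(1 / 4) : ℝ)) * wt (1 / 10) 1 r := by
  unfold wt
  rw [← Real.exp_add, Real.exp_le_exp, one_mul]
  have e1 : r ^ (1 / 2 : ℝ) = (r ^ (1 / 10 : ℝ)) ^ 5 := by
    rw [← Real.rpow_natCast, ← Real.rpow_mul hr]
    norm_num
  have e2 : a * (a ^ (-(1 / 4) : ℝ)) ^ 4 = 1 := by
    rw [← Real.rpow_natCast, ← Real.rpow_mul ha.le,
      show (-(1 / 4) : ℝ) * ((4 : ℕ) : ℝ) = -1 by norm_num, Real.rpow_neg_one, mul_inv_cancel₀ ha.ne']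
  have hb : 0 ≤ a ^ (-(1 / 4) : ℝ) := Real.rpow_nonneg ha.le _
  have ht : 0 ≤ r ^ (1 / 10 : ℝ) := Real.rpow_nonneg hr _
  rw [e1]
  generalize r ^ (1 / 10 : ℝ) = t at *
  generalize a ^ (-(1 / 4) : ℝ) = b at *
  rcases le_total t b with h | h
  · have : 0 ≤ a * t ^ 5 := by positivity
    linarith
  · have h1 : a * b ^ 4 ≤ a * t ^ 4 := mul_le_mul_of_nonneg_left (pow_le_pow_left₀ hb h 4) ha.le
    have h2 : a * b ^ 4 * t ≤ a * t ^ 4 * t := mul_le_mul_of_nonneg_right h1 ht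
    rw [e2] at h2
    have h3 : a * t ^ 4 * t = a * t ^ 5 := by ring
    linarith

/-- `(a / 4 ^ k) ^ (-1/4) = a ^ (-1/4) √2 ^ k`, `√2 ≤ 3/2` -/
theorem tame_exp {C : ℝ} (hC : 1 ≤ C) : Si.Tame fun a => C * Real.exp (a ^ (-(1 / 4) : ℝ)) := by
  intro a ha _
  have hb : 0 ≤ a ^ (-(1 / 4) : ℝ) := Real.rpow_nonneg ha.le _
  have hl : 0 ≤ Real.log C := Real.log_nonneg hC
  refine ⟨Real.log C + a ^ (-(1 / 4) : ℝ), add_nonneg hl hb, fun k => ?_⟩
  have h1 : ((4 : ℝ) ^ k) ^ (1 / 4 : ℝ) ≤ (3 / 2) ^ k := by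
    have h2 : (4 : ℝ) ^ k ≤ ((3 / 2) ^ k) ^ 4 := by
      rw [← pow_mul, mul_comm, pow_mul]
      exact pow_le_pow_left₀ (by norm_num) (by norm_num) k
    refine (Real.rpow_le_rpow (by positivity) h2 (by norm_num)).trans (le_of_eq ?_)
    rw [show (1 / 4 : ℝ) = ((4 : ℕ) : ℝ)⁻¹ by norm_num]
    exact Real.pow_rpow_inv_natCast (by positivity) (by norm_num)
  have h3 : (a / 4 ^ k) ^ (-(1 / 4) : ℝ) ≤ a ^ (-(1 / 4) : ℝ) * (3 / 2) ^ k := by
    rw [Real.div_rpow ha.le (by positivity), Real.rpow_neg (x := 4 ^ k) (by positivity),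
      div_inv_eq_mul]
    exact mul_le_mul_of_nonneg_left h1 hb
  have h4 : (1 : ℝ) ≤ (3 / 2) ^ k := one_le_pow₀ (by norm_num)
  have h5 : Real.log C ≤ Real.log C * (3 / 2) ^ k := le_mul_of_one_le_right hl h4
  calc C * Real.exp ((a / 4 ^ k) ^ (-(1 / 4) : ℝ))
      = Real.exp (Real.log C + (a / 4 ^ k) ^ (-(1 / 4) : ℝ)) := by
        rw [Real.exp_add, Real.exp_log (one_pos.trans_le hC)]
    _ ≤ _ := Real.exp_le_exp.2 (by rw [add_mul]; linarith)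

/-- `q_main` with `α = 1/10`, `a = 1`, `G = 2` (`pin_sites_muq`), applied to the family
`exp (-a^(-1/4)) • M x`; `cq a = max 1 (max C N₁) * exp (a^(-1/4))`. -/
theorem qOut : Si.QOut := by
  obtain ⟨C, N₁, hC, hq⟩ := q_main (α := 1 / 10) (a := 1) 2 (by norm_num) (by norm_num) one_pos
  refine ⟨fun a => max 1 (max C N₁) * Real.exp (a ^ (-(1 / 4) : ℝ)), tame_exp (le_max_left _ _), ?_⟩
  intro a ha _ N hN hcq ψ hs hn hH M hM hk N' hN' φ h1 h2
  have hE1 : 1 ≤ Real.exp (a ^ (-(1 / 4) : ℝ)) := Real.one_le_exp (Real.rpow_nonneg ha.le _)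
  have hw := fun r hr => wt_tame (r := r) ha hr
  simp only at hcq ⊢
  generalize Real.exp (a ^ (-(1 / 4) : ℝ)) = E at *
  have hE : 0 < E := one_pos.trans_le hE1
  have hK : (0 : ℝ) ≤ max 1 (max C N₁) := zero_le_one.trans (le_max_left _ _)
  have hN₁ : N₁ ≤ N := by
    have : (N₁ : ℝ) ≤ N := (((le_max_right C _).trans (le_max_right 1 _)).trans
      (le_mul_of_one_le_right hK hE1)).trans hcq
    exact_mod_cast this
  have hS : SInter (3 * (N - 1)) (1 / 10) 1 1 2 (muq (3 * (N - 1))) id fun x => E⁻¹ • M x := by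
    refine ⟨pin_sites_muq (by omega), hM.int.smul E⁻¹,
      fun x => (IsSelfAdjoint.all E⁻¹).smul (hM.sa x), fun x => ⟨(hM.num x).smul_right _, ?_, ?_⟩⟩
    · rw [norm_smul, Real.norm_of_nonneg (inv_nonneg.2 hE.le)]
      exact mul_le_one₀ (inv_le_one_of_one_le₀ hE1) (norm_nonneg _) (hM.ql x).1
    · intro y
      have h3 := ((pinQL_half x a 1).2 (hM.ql x)).2 y
      have h4 := hw _ (dq_nonneg (3 * (N - 1)) x y)
      have h5 : Fw.loc (ca (3 * (N - 1))) (E⁻¹ • M x) y =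
          E⁻¹ * Fw.loc (ca (3 * (N - 1))) (M x) y := by
        rw [← Complex.coe_smul, Fw.loc_smul, Complex.norm_real,
          Real.norm_of_nonneg (inv_nonneg.2 hE.le)]
      rw [h5, inv_mul_le_iff₀ hE, one_mul]
      rw [one_mul] at h3
      exact h3.trans h4
  have h6 := hq N hN₁ ψ ⟨hs, mem_ZD_zero.2 hH⟩ (by rw [nq, hn]; rfl) S2 _ _ _ hS
    (fun x => by rw [qf, smul_mulVec, hk x]; simp) N' hN' φ ⟨h1, mem_ZD_zero.2 h2⟩
  rw [integral_smul] at h6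
  have h7 : Self.qf (E⁻¹ • ∫ x, M x ∂muq (3 * (N - 1))) φ ≤ C * ((N : ℝ) - N') * Self.nsq φ := h6
  rw [Self.qf_smul, inv_mul_le_iff₀ hE] at h7
  refine h7.trans ?_
  have h8 : 0 ≤ ((N : ℝ) - N') * Self.nsq φ :=
    mul_nonneg (sub_nonneg.2 (Nat.cast_le.2 hN')) (Self.nsq_nonneg φ)
  have h9 : C * E ≤ max 1 (max C N₁) * E :=
    mul_le_mul_of_nonneg_right ((le_max_left C _).trans (le_max_right 1 _)) hE.le
  calc _ = C * E * (((N : ℝ) - N') * Self.nsq φ) := by ring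
    _ ≤ _ := by rw [mul_assoc _ ((N : ℝ) - N')]; exact mul_le_mul_of_nonneg_right h9 h8

end Crest.Agent.R340.Pin
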