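import Crest.Agent.R340.PtBar

/-! # Row 340, PT: small facts on quadratic forms -/

set_option autoImplicit false

namespace Crest.Agent.R340.Pin

open Matrix MeasureTheory Crest.MathPhysics.Laughlin
open scoped Matrix.Norms.L2Operator MatrixOrder ComplexOrder ComplexConjugate

theorem fl_re_le {n : Type} [Fintype n] [DecidableEq n] (E : Matrix n n ℂ) (η u : n → ℂ) :
    (star η ⬝ᵥ E *ᵥ u).re ≤ ‖E‖ * ((nq η + nq u) / 2) := by
  have h1 : star η ⬝ᵥ E *ᵥ u =
      inner ℂ (WithLp.toLp 2 η : EuclideanSpace ℂ n) (WithLp.toLp 2 (E *ᵥ u)) := by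
    rw [EuclideanSpace.inner_toLp_toLp, dotProduct_comm]
  have h2 : ∀ φ : n → ℂ, nq φ = ‖(WithLp.toLp 2 φ : EuclideanSpace ℂ n)‖ ^ 2 := fun φ => by
    unfold nq
    rw [← inner_self_eq_norm_sq (𝕜 := ℂ), EuclideanSpace.inner_toLp_toLp, dotProduct_comm]
    rfl
  have h3 : ‖(WithLp.toLp 2 (E *ᵥ u) : EuclideanSpace ℂ n)‖ ≤
      ‖E‖ * ‖(WithLp.toLp 2 u : EuclideanSpace ℂ n)‖ :=
    Matrix.l2_opNorm_mulVec E (WithLp.toLp 2 u)
  have h4 := (Complex.re_le_norm _).trans (norm_inner_le_norm (𝕜 := ℂ)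
    (WithLp.toLp 2 η : EuclideanSpace ℂ n) (WithLp.toLp 2 (E *ᵥ u)))
  rw [h1, h2, h2]
  refine h4.trans ?_
  have h5 := mul_le_mul_of_nonneg_left h3 (norm_nonneg (WithLp.toLp 2 η : EuclideanSpace ℂ n))
  have h6 := mul_nonneg (norm_nonneg E) (sq_nonneg
    (‖(WithLp.toLp 2 η : EuclideanSpace ℂ n)‖ - ‖(WithLp.toLp 2 u : EuclideanSpace ℂ n)‖))
  nlinarith

theorem fl_self {n : Type} [Fintype n] (u : n → ℂ) : star u ⬝ᵥ u = (nq u : ℂ) := by
  have h := Complex.nonneg_iff.1 (dotProduct_star_self_nonneg u)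
  exact Complex.ext rfl (by simpa using h.2.symm)

theorem fl_nq_pos {n : Type} [Fintype n] {u : n → ℂ} (h : u ≠ 0) : 0 < nq u := by
  refine lt_of_le_of_ne (nq_nonneg' u) fun h0 => h ?_
  have h1 := fl_self u
  rw [← h0, Complex.ofReal_zero] at h1
  exact dotProduct_star_self_eq_zero.1 h1

theorem fl_smul {n : Type} [Fintype n] (A : Matrix n n ℂ) (z : ℂ) (u : n → ℂ) :
    qf A (z • u) = ‖z‖ ^ 2 * qf A u ∧ nq (z • u) = ‖z‖ ^ 2 * nq u := by
  have hz : star z * z = ((‖z‖ ^ 2 : ℝ) : ℂ) := by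
    rw [Complex.star_def, mul_comm, Complex.mul_conj, Complex.normSq_eq_norm_sq]
  unfold qf nq
  rw [star_smul, mulVec_smul, smul_dotProduct, smul_dotProduct, dotProduct_smul, dotProduct_smul,
    smul_smul, smul_smul, hz, smul_eq_mul, smul_eq_mul, Complex.re_ofReal_mul,
    Complex.re_ofReal_mul]
  exact ⟨rfl, rfl⟩

theorem fl_proj {n : Type} [Fintype n] [DecidableEq n] {P : Matrix n n ℂ} (hP : IsStarProjection P)
    {u : n → ℂ} (h : P *ᵥ u = u) (w : n → ℂ) : star u ⬝ᵥ P *ᵥ w = star u ⬝ᵥ w := by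
  have h1 : Pᴴ = P := hP.isSelfAdjoint.star_eq
  rw [dotProduct_mulVec, ← h1, ← star_mulVec, h]

/-- a bound on a spanning vector -/
theorem Bnd.of_span {Q N : ℕ} {D : Multiset S2} {A : Fk (Q + 1)} {lam : ℝ} {u : FV Q}
    (hu : InZ Q D N u) (h0 : u ≠ 0) (hn : nfree Q D N = 0) (h : qf A u ≤ lam * nq u) :
    Bnd Q D N A lam := by
  intro v hv
  obtain ⟨z, rfl⟩ := hu.unique hv hn h0
  rw [(fl_smul A z u).1, (fl_smul A z u).2]
  have := mul_le_mul_of_nonneg_left h (sq_nonneg ‖z‖)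
  linarith

/-- the quadratic form as a continuous linear functional of the operator -/
noncomputable def qfL {n : Type} [Fintype n] [DecidableEq n] (v : n → ℂ) :
    Matrix n n ℂ →L[ℝ] ℝ :=
  LinearMap.toContinuousLinearMap
    { toFun := fun A => qf A v
      map_add' := fun A B => by
        unfold qf
        rw [add_mulVec, dotProduct_add, Complex.add_re]
      map_smul' := fun r A => Filt.ga_re_smul r A v }

theorem qf_integral {n : Type} [Fintype n] [DecidableEq n] {ι : Type} [MeasurableSpace ι]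
    {ν : Measure ι} {M : ι → Matrix n n ℂ} (hM : Integrable M ν) (v : n → ℂ) :
    Integrable (fun i => qf (M i) v) ν ∧ qf (∫ i, M i ∂ν) v = ∫ i, qf (M i) v ∂ν :=
  ⟨(qfL v).integrable_comp hM, ((qfL v).integral_comp_comm hM).symm⟩

end Crest.Agent.R340.Pin
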