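import Crest.Agent.R340.SelfDefs
import Crest.Agent.R340.FiltFun

/-! # SELF: one step of the self-bounding argument -/

set_option autoImplicit false

namespace Crest.Agent.R340.Self

open Matrix Filt
open scoped Matrix.Norms.L2Operator MatrixOrder ComplexOrder

variable {n ι : Type} [Fintype n] [DecidableEq n] [Fintype ι] {B : ι → Matrix n n ℂ}
  {H M Y : Matrix n n ℂ} {Pi : ℕ → Matrix n n ℂ} {γ γf : ℝ} {N₀ : ℕ} {w W : ℝ → ℂ}

/-! ### part A: elementary facts -/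

theorem nsq_nonneg (φ : n → ℂ) : 0 ≤ nsq φ :=
  (Complex.nonneg_iff.1 (dotProduct_star_self_nonneg φ)).1

theorem qf_add (A A' : Matrix n n ℂ) (φ : n → ℂ) : qf (A + A') φ = qf A φ + qf A' φ := by
  simp only [qf, add_mulVec, dotProduct_add, Complex.add_re]

theorem qf_sub (A A' : Matrix n n ℂ) (φ : n → ℂ) : qf (A - A') φ = qf A φ - qf A' φ := by
  simp only [qf, sub_mulVec, dotProduct_sub, Complex.sub_re]

theorem qf_smul (a : ℝ) (A : Matrix n n ℂ) (φ : n → ℂ) : qf (a • A) φ = a * qf A φ := by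
  rw [qf, qf, smul_mulVec, dotProduct_smul, Complex.smul_re, smul_eq_mul]

theorem qf_sum (A : ι → Matrix n n ℂ) (φ : n → ℂ) : qf (∑ p, A p) φ = ∑ p, qf (A p) φ := by
  simp only [qf, sum_mulVec, dotProduct_sum, Complex.re_sum]

theorem qf_conj (A X : Matrix n n ℂ) (φ : n → ℂ) : qf (star X * A * X) φ = qf A (X *ᵥ φ) := by
  rw [qf, qf, g71_adj, mulVec_mulVec, mulVec_mulVec]

theorem qf_star_mul (X : Matrix n n ℂ) (φ : n → ℂ) : qf (star X * X) φ = nsq (X *ᵥ φ) := by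
  rw [qf, nsq, g71_adj, mulVec_mulVec]

theorem nsq_eq_zero {φ : n → ℂ} (h : nsq φ = 0) : φ = 0 :=
  dotProduct_star_self_eq_zero.1
    (Complex.ext h (Complex.nonneg_iff.1 (dotProduct_star_self_nonneg φ)).2.symm)

theorem h19_nsq_eq (φ : n → ℂ) : nsq φ = ∑ i, ‖φ i‖ ^ 2 := by
  simp only [nsq, dotProduct, Pi.star_apply, Complex.re_sum, Complex.star_def, Complex.conj_mul',
    ← Complex.ofReal_pow, Complex.ofReal_re]

/-- Cauchy-Schwarz for families of vectors -/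
theorem abs_sum_dot_le (u v : ι → n → ℂ) :
    ‖∑ p, star (u p) ⬝ᵥ v p‖ ≤ Real.sqrt (∑ p, nsq (u p)) * Real.sqrt (∑ p, nsq (v p)) := by
  have h := Real.sum_mul_le_sqrt_mul_sqrt (Finset.univ : Finset (ι × n))
    (fun q => ‖u q.1 q.2‖) (fun q => ‖v q.1 q.2‖)
  simp only [Fintype.sum_prod_type] at h
  simp only [h19_nsq_eq]
  refine le_trans ?_ h
  refine (norm_sum_le _ _).trans (Finset.sum_le_sum fun p _ => ?_)
  refine (norm_sum_le _ _).trans (Finset.sum_le_sum fun i _ => ?_)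
  rw [norm_mul, Pi.star_apply, norm_star]

theorem qf_sqc (M : Matrix n n ℂ) (φ : n → ℂ) :
    qf (sqc B M) φ = ∑ p, nsq ((B p * M - M * B p) *ᵥ φ) := by
  simp only [sqc, qf_sum, qf_star_mul]

theorem Sys.qf_H (h : Sys B H Pi γ) (φ : n → ℂ) : qf H φ = ∑ p, nsq (B p *ᵥ φ) := by
  rw [h.H_eq]
  simp only [qf_sum, qf_star_mul]

theorem Sys.qf_nonneg (h : Sys B H Pi γ) (φ : n → ℂ) : 0 ≤ qf H φ := by
  rw [h.qf_H]
  exact Finset.sum_nonneg fun p _ => nsq_nonneg _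

theorem Sys.nonneg (h : Sys B H Pi γ) : 0 ≤ H := by
  rw [h.H_eq]
  exact Finset.sum_nonneg fun p _ => star_mul_self_nonneg _

theorem Sys.sa (h : Sys B H Pi γ) : IsSelfAdjoint H :=
  IsSelfAdjoint.of_nonneg h.nonneg

theorem Sys.sq (h : Sys B H Pi γ) : γ • H ≤ H * H :=
  (le_add_of_nonneg_right
    (Finset.sum_nonneg fun p _ => star_left_conjugate_nonneg h.nonneg (B p))).trans h.cert

theorem h19_B_zero (h : Sys B H Pi γ) {φ : n → ℂ} (h0 : qf H φ = 0) (p : ι) : B p *ᵥ φ = 0 := by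
  rw [h.qf_H, Finset.sum_eq_zero_iff_of_nonneg fun p _ => nsq_nonneg _] at h0
  exact nsq_eq_zero (h0 p (Finset.mem_univ p))

theorem Sys.ker_iff (h : Sys B H Pi γ) (φ : n → ℂ) : H *ᵥ φ = 0 ↔ ∀ p, B p *ᵥ φ = 0 := by
  constructor
  · intro h0
    exact h19_B_zero h (by rw [qf, h0, dotProduct_zero, Complex.zero_re])
  · intro h0
    rw [h.H_eq, sum_mulVec]
    exact Finset.sum_eq_zero fun p _ => by rw [← mulVec_mulVec, h0, mulVec_zero]

theorem Sys.ker_of_qf (h : Sys B H Pi γ) {φ : n → ℂ} (h0 : qf H φ = 0) : H *ᵥ φ = 0 :=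
  (h.ker_iff φ).2 (h19_B_zero h h0)

theorem h19_comm {Z : ι → Matrix n n ℂ} (hP : ∀ N, IsSelfAdjoint (Pi N))
    (lower : ∀ N p, Pi N * Z p = Z p * Pi (N + 2)) (bot : ∀ N p, N < 2 → Z p * Pi N = 0) (N : ℕ) :
    Commute (Pi N) (∑ p, star (Z p) * Z p) := by
  refine Commute.sum_right _ _ _ fun p _ => ?_
  rcases lt_or_ge N 2 with hN | hN
  · have h1 := bot N p hN
    have h2 : Pi N * star (Z p) = 0 := by
      have := congrArg star h1
      rwa [star_mul, (hP N).star_eq, star_zero] at this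
    rw [Commute, SemiconjBy, ← mul_assoc, h2, zero_mul, mul_assoc, h1, mul_zero]
  · obtain ⟨K, rfl⟩ := Nat.exists_eq_add_of_le' hN
    have h1 := lower K p
    have h2 : star (Z p) * Pi K = Pi (K + 2) * star (Z p) := by
      have := congrArg star h1
      rwa [star_mul, star_mul, (hP K).star_eq, (hP (K + 2)).star_eq] at this
    rw [Commute, SemiconjBy, ← mul_assoc, ← h2, mul_assoc, h1, mul_assoc]

theorem Sys.comm (h : Sys B H Pi γ) (N : ℕ) : Commute (Pi N) H := by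
  rw [h.H_eq]
  exact h19_comm (fun N => (h.proj N).isSelfAdjoint) h.lower h.bot N

theorem Obs.smul (hM : Obs Pi M) (a : ℝ) : Obs Pi (a • M) :=
  ⟨ga_real_smul_sa hM.sa a, fun N => (hM.comm N).smul_right a⟩

theorem Obs.sqc (h : Sys B H Pi γ) (hM : Obs Pi M) : Obs Pi (sqc B M) := by
  refine ⟨IsSelfAdjoint.of_nonneg (Finset.sum_nonneg fun p _ => star_mul_self_nonneg _),
    h19_comm (fun N => (h.proj N).isSelfAdjoint) (fun N p => ?_) (fun N p hN => ?_)⟩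
  · rw [mul_sub, sub_mul, ← mul_assoc, h.lower, mul_assoc, (hM.comm (N + 2)).eq, ← mul_assoc,
      ← mul_assoc, (hM.comm N).eq, mul_assoc M, h.lower, ← mul_assoc]
  · rw [sub_mul, mul_assoc, ← (hM.comm N).eq, ← mul_assoc, h.bot N p hN, zero_mul, mul_assoc,
      h.bot N p hN, mul_zero, sub_zero]

theorem Obs.filt (h : Sys B H Pi γ) (hM : Obs Pi M) (iw : MeasureTheory.Integrable w)
    (rw : ∀ t, (starRingEnd ℂ) (w t) = w t) : Obs Pi (filt w H M) :=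
  ⟨filt_sa rw h.sa hM.sa, fun N => commute_filt iw h.sa (h.comm N) (hM.comm N)⟩

/-! ### part B: the pairing inequality and the induction over sectors -/

/-- pair the eigenvalue equation with `H χ` -/
theorem pairing (h : Sys B H Pi γ) {R lam : ℝ} (hR : 0 ≤ R) {χ : n → ℂ}
    (he : (M - R • H) *ᵥ χ = (lam : ℂ) • χ) :
    lam * qf H χ ≤ ∑ p, qf (M - R • H) (B p *ᵥ χ) +
      Real.sqrt (qf H χ) * Real.sqrt (qf (sqc B M) χ) - R * γ * qf H χ := by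
  have hc : γ * qf H χ + ∑ p, qf H (B p *ᵥ χ) ≤ qf (H * H) χ := by
    have h1 : 0 ≤ qf (H * H - (γ • H + ∑ p, star (B p) * H * B p)) χ :=
      (Matrix.le_iff.mp h.cert).re_dotProduct_nonneg χ
    rw [qf_sub, qf_add, qf_smul, qf_sum] at h1
    simp only [qf_conj] at h1
    linarith
  have h1 : (star χ ⬝ᵥ H *ᵥ ((M - R • H) *ᵥ χ)).re = lam * qf H χ := by
    rw [he, mulVec_smul, dotProduct_smul, smul_eq_mul, Complex.re_ofReal_mul, qf]
  have h2 : (star χ ⬝ᵥ H *ᵥ ((M - R • H) *ᵥ χ)).re =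
      (star χ ⬝ᵥ H *ᵥ (M *ᵥ χ)).re - R * qf (H * H) χ := by
    rw [← qf_smul, qf, sub_mulVec, mulVec_sub, dotProduct_sub, Complex.sub_re, mulVec_mulVec χ H (R • H),
      mul_smul_comm]
  have h3 : star χ ⬝ᵥ H *ᵥ (M *ᵥ χ) = ∑ p, star (B p *ᵥ χ) ⬝ᵥ M *ᵥ (B p *ᵥ χ) +
      ∑ p, star (B p *ᵥ χ) ⬝ᵥ (B p * M - M * B p) *ᵥ χ := by
    rw [← Finset.sum_add_distrib, h.H_eq, sum_mulVec, dotProduct_sum]
    refine Finset.sum_congr rfl fun p _ => ?_
    rw [← mulVec_mulVec, ← g71_adj, sub_mulVec, dotProduct_sub, ← mulVec_mulVec, ← mulVec_mulVec]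
    ring
  have h4 := (Complex.re_le_norm _).trans
    (abs_sum_dot_le (fun p => B p *ᵥ χ) fun p => (B p * M - M * B p) *ᵥ χ)
  rw [← h.qf_H, ← qf_sqc] at h4
  have h5 : ∑ p, qf (M - R • H) (B p *ᵥ χ) =
      (∑ p, star (B p *ᵥ χ) ⬝ᵥ M *ᵥ (B p *ᵥ χ)).re - R * ∑ p, qf H (B p *ᵥ χ) := by
    simp only [qf_sub, qf_smul, Finset.sum_sub_distrib, ← Finset.mul_sum]
    rw [Complex.re_sum]
    rfl
  rw [h3, Complex.add_re] at h2
  have h6 := mul_le_mul_of_nonneg_left hc hR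
  rw [h5]
  linarith

theorem sector_step (h : Sys B H Pi γ) (hM : Obs Pi M) {R R' c : ℝ} (hR' : 0 ≤ R') (hc : 0 ≤ c)
    (hq : QBound H Pi N₀ M c) (hs : Rel H Pi N₀ (sqc B M) R' 0)
    (hR : (2 * c + Real.sqrt R') / γ ≤ R) : Rel H Pi N₀ M R c := by
  have hγ := h.pos
  have hsq := Real.sqrt_nonneg R'
  have hR0 : 0 ≤ R := le_trans (by positivity) hR
  rw [div_le_iff₀ hγ] at hR
  intro N
  induction N using Nat.strong_induction_on with
  | _ N ih =>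
  intro hN φ hφ
  by_cases h0 : φ = 0
  · simp [h0, qf, nsq]
  have hK : IsSelfAdjoint (R • H - M) := (ga_real_smul_sa h.sa R).sub hM.sa
  obtain ⟨χ, E, hG⟩ := exists_GS hK (h.proj N) (((h.comm N).smul_right R).sub_right (hM.comm N)) hφ h0
  have h1 : E * nsq φ ≤ qf (R • H - M) φ := hG.le hK le_rfl hφ
  rw [qf_sub, qf_smul] at h1
  have hn : nsq χ = 1 := by rw [nsq, hG.norm, Complex.one_re]
  have he : (M - R • H) *ᵥ χ = ((-E : ℝ) : ℂ) • χ := by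
    rw [← neg_sub, neg_mulVec, hG.eig, Complex.ofReal_neg, neg_smul]
  suffices key : -E ≤ c * ((N₀ : ℝ) - N) by
    have := mul_le_mul_of_nonneg_right key (nsq_nonneg φ)
    linarith
  by_cases hz : H *ᵥ χ = 0
  · have h2 := hq N hN χ hG.sec hz
    have h3 : qf (M - R • H) χ = -E := by
      rw [qf, he, dotProduct_smul, hG.norm, smul_eq_mul, mul_one, Complex.ofReal_re]
    have h4 : qf H χ = 0 := by rw [qf, hz, dotProduct_zero, Complex.zero_re]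
    rw [qf_sub, qf_smul, h4] at h3
    rw [hn] at h2
    linarith
  have hpos : 0 < qf H χ := (h.qf_nonneg χ).lt_of_ne' fun e => hz (h.ker_of_qf e)
  obtain ⟨N', rfl⟩ : ∃ N', N = N' + 2 := by
    refine ⟨N - 2, (Nat.sub_add_cancel (not_lt.mp fun hlt => hz ?_)).symm⟩
    refine (h.ker_iff χ).mpr fun p => ?_
    rw [← hG.sec, mulVec_mulVec, h.bot N p hlt, zero_mulVec]
  have h2 : ∑ p, qf (M - R • H) (B p *ᵥ χ) ≤ c * ((N₀ : ℝ) - N') * qf H χ := by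
    rw [h.qf_H, Finset.mul_sum]
    refine Finset.sum_le_sum fun p _ => ?_
    have := ih N' (by omega) (by omega) (B p *ᵥ χ) (by
      rw [mulVec_mulVec, h.lower, ← mulVec_mulVec, hG.sec])
    rw [qf_sub, qf_smul]
    linarith
  have h3 : Real.sqrt (qf H χ) * Real.sqrt (qf (sqc B M) χ) ≤ Real.sqrt R' * qf H χ := by
    have k := hs _ hN χ hG.sec
    rw [zero_mul, zero_mul, add_zero] at k
    calc Real.sqrt (qf H χ) * Real.sqrt (qf (sqc B M) χ)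
        ≤ Real.sqrt (qf H χ) * Real.sqrt (R' * qf H χ) := by gcongr
      _ = Real.sqrt R' * qf H χ := by
        rw [Real.sqrt_mul hR', mul_left_comm, Real.mul_self_sqrt hpos.le]
  have h4 := pairing h hR0 he
  have h5 := mul_le_mul_of_nonneg_right hR hpos.le
  refine le_of_mul_le_mul_right ?_ hpos
  push_cast
  linarith

/-! ### part C: the filter -/

theorem comm_part (h : Sys B H Pi γ) (hY : IsSelfAdjoint Y) (φ : n → ℂ) :
    |qf (Complex.I • (H * Y - Y * H)) φ| ≤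
      2 * (Real.sqrt (qf H φ) * Real.sqrt (qf (sqc B Y) φ)) := by
  set z : ℂ := star (H *ᵥ φ) ⬝ᵥ (Y *ᵥ φ) with hz
  have e1 : star φ ⬝ᵥ (H * Y) *ᵥ φ = z := by
    rw [← mulVec_mulVec, ga_sa_dot h.sa]
  have e2 : star φ ⬝ᵥ (Y * H) *ᵥ φ = star z := by
    rw [← mulVec_mulVec, ga_sa_dot hY, hz, ← star_dotProduct]
  have e3 : qf (Complex.I • (H * Y - Y * H)) φ = -2 * z.im := by
    unfold qf
    rw [smul_mulVec, sub_mulVec, dotProduct_smul, dotProduct_sub, e1, e2]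
    simp
    ring
  have e4 : z = ∑ p, star (B p *ᵥ φ) ⬝ᵥ ((B p * Y - Y * B p) *ᵥ φ) +
      ∑ p, star (B p *ᵥ φ) ⬝ᵥ Y *ᵥ (B p *ᵥ φ) := by
    rw [← e1, ← Finset.sum_add_distrib]
    conv_lhs => rw [h.H_eq]
    rw [Finset.sum_mul, sum_mulVec, dotProduct_sum]
    refine Finset.sum_congr rfl fun p _ => ?_
    rw [← dotProduct_add, mulVec_mulVec, ← add_mulVec, sub_add_cancel, g71_adj, mulVec_mulVec,
      mul_assoc]
  have e5 : z.im = (∑ p, star (B p *ᵥ φ) ⬝ᵥ ((B p * Y - Y * B p) *ᵥ φ)).im := by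
    rw [e4, Complex.add_im, Complex.im_sum (f := fun p => star (B p *ᵥ φ) ⬝ᵥ Y *ᵥ (B p *ᵥ φ)),
      Finset.sum_eq_zero (f := fun p => (star (B p *ᵥ φ) ⬝ᵥ Y *ᵥ (B p *ᵥ φ)).im)
        fun p _ => ga_im_zero hY _, add_zero]
  have e6 := abs_sum_dot_le (fun p => B p *ᵥ φ) fun p => (B p * Y - Y * B p) *ᵥ φ
  rw [← h.qf_H, ← qf_sqc] at e6
  rw [e3, abs_mul, e5]
  have := (Complex.abs_im_le_norm _).trans e6
  rw [abs_neg, abs_two]
  linarith

theorem abs_qf_sub_filt (h : Sys B H Pi γ) (hf : IsFilt γf w W) (hM : IsSelfAdjoint M)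
    (φ : n → ℂ) : |qf M φ - qf (filt w H M) φ| ≤
      2 * (Real.sqrt (qf H φ) * Real.sqrt (qf (sqc B (filt W H M)) φ)) := by
  have e := comm_filt2 hf h.sa h.sa M
  rw [← filt_eq_filt2, ← filt_eq_filt2] at e
  have hc := comm_part h (filt_sa hf.real_W h.sa hM) φ
  rw [e, smul_smul, Complex.I_mul_I, neg_one_smul, neg_sub, qf_sub, abs_sub_comm] at hc
  exact hc

private theorem h3_high {P : Matrix n n ℂ} (g : Gap 1 H P 0 γ) (h0 : H * P = 0) (φ : n → ℂ) :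
    γ * nsq (φ - P *ᵥ φ) ≤ qf H φ := by
  have h0' : P * H = 0 := by rw [g.cp.eq, h0]
  have hc := g.proj_compl
  have e1 : (1 - P) * H * (1 - P) = H := by
    rw [sub_mul, one_mul, h0', sub_zero, mul_sub, mul_one, h0, sub_zero]
  have hh := g.high
  rw [e1, le_iff_re_dot (ga_real_smul_sa hc.isSelfAdjoint γ) g.sa] at hh
  have e2 : qf (1 - P) φ = nsq (φ - P *ᵥ φ) := by
    have : qf (star (1 - P) * (1 - P)) φ = nsq ((1 - P) *ᵥ φ) := qf_star_mul _ _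
    rwa [hc.isSelfAdjoint.star_eq, hc.isIdempotentElem.eq, sub_mulVec, one_mulVec] at this
  rw [← e2, ← qf_smul]
  exact hh φ

/-- the kernel projection -/
theorem Sys.exists_P (h : Sys B H Pi γ) : ∃ P : Matrix n n ℂ, Gap 1 H P 0 γ ∧ H * P = 0 ∧
    (∀ N, Commute (Pi N) P) ∧ (∀ φ : n → ℂ, H *ᵥ φ = 0 → P *ᵥ φ = φ) ∧
      ∀ φ : n → ℂ, γ * nsq (φ - P *ᵥ φ) ≤ qf H φ := by
  obtain ⟨C, c, -, -, hex⟩ := exists_filt
  obtain ⟨w, W, hf, -⟩ := hex γ h.pos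
  obtain ⟨g, h0⟩ := gap_of_sq hf h.nonneg h.sq
  refine ⟨fcal w H, g, h0, fun N => mul_fcal hf.int_w h.sa h.sa (h.comm N).eq, fun φ hφ => ?_,
    h3_high g h0⟩
  have h1 := h3_high g h0 φ
  have h2 : qf H φ = 0 := by simp [qf, hφ]
  have h3 : nsq (φ - fcal w H *ᵥ φ) = 0 := by
    have := nsq_nonneg (φ - fcal w H *ᵥ φ)
    have := h.pos
    nlinarith
  exact (sub_eq_zero.1 (nsq_eq_zero h3)).symm

theorem kills_sqc (h : Sys B H Pi γ) (hM : ∀ φ : n → ℂ, H *ᵥ φ = 0 → H *ᵥ (M *ᵥ φ) = 0) :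
    Kills H (sqc B M) := by
  intro φ hφ
  unfold sqc
  rw [sum_mulVec]
  refine Finset.sum_eq_zero fun p _ => ?_
  rw [← mulVec_mulVec, sub_mulVec, ← mulVec_mulVec, ← mulVec_mulVec,
    (h.ker_iff _).1 (hM φ hφ) p, (h.ker_iff _).1 hφ p]
  simp

theorem kills_sqc_filt (h : Sys B H Pi γ) (hf : IsFilt γf w W) (hγ : γf ≤ γ) (M : Matrix n n ℂ) :
    Kills H (sqc B (filt w H M)) := by
  obtain ⟨P, g, h0, -, hP, -⟩ := h.exists_P
  have hc : Commute P (filt w H M) :=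
    Gap.commute_filt hf g (by simpa using hγ) (Commute.one_left _)
  refine kills_sqc h fun φ hφ => ?_
  rw [← hP φ hφ, mulVec_mulVec, mulVec_mulVec, mul_assoc, ← hc.eq, ← mul_assoc, h0]
  simp

/-- the a priori (volume dependent) bound -/
theorem apriori (h : Sys B H Pi γ) (hM : IsSelfAdjoint M) {S : ℝ} (hS : ‖M‖ ≤ S) {N : ℕ}
    (hk : ∀ φ : n → ℂ, Pi N *ᵥ φ = φ → H *ᵥ φ = 0 → M *ᵥ φ = 0) {φ : n → ℂ}
    (hφ : Pi N *ᵥ φ = φ) : qf M φ ≤ S / γ * qf H φ := by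
  obtain ⟨P, g, h0, hc, -, hP⟩ := h.exists_P
  have h1 : M *ᵥ (P *ᵥ φ) = 0 := by
    refine hk _ ?_ ?_
    · rw [mulVec_mulVec, (hc N).eq, ← mulVec_mulVec, hφ]
    · rw [mulVec_mulVec, h0, zero_mulVec]
  have h2 : qf M φ = qf M (φ - P *ᵥ φ) := by
    unfold qf
    rw [mulVec_sub, h1, sub_zero, star_sub, sub_dotProduct, ga_sa_dot hM (P *ᵥ φ), h1]
    simp
  have h3 : qf M (φ - P *ᵥ φ) ≤ ‖M‖ * nsq (φ - P *ᵥ φ) :=
    (le_abs_self _).trans (abs_re_dot_le M _)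
  have h4 := hP φ
  have h5 := nsq_nonneg (φ - P *ᵥ φ)
  have hγ := h.pos
  have hS0 : 0 ≤ S := (norm_nonneg _).trans hS
  rw [h2]
  calc qf M (φ - P *ᵥ φ) ≤ S * nsq (φ - P *ᵥ φ) := h3.trans (mul_le_mul_of_nonneg_right hS h5)
    _ = S / γ * (γ * nsq (φ - P *ᵥ φ)) := by field_simp
    _ ≤ S / γ * qf H φ := mul_le_mul_of_nonneg_left h4 (by positivity)

end Crest.Agent.R340.Self
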