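import Crest.Agent.R340.FiltSpec
import Crest.Agent.R340.FiltGS

/-!
# Row 340, module SELF: definitions

Abstract self-bounding relative bound.  `H = Σ_p B_p^* B_p`, `H² ≥ γ H + Σ_p B_p^* H B_p`,
sector projections `Pi N` lowered by two by every `B_p`.
-/

set_option autoImplicit false

namespace Crest.Agent.R340.Self

open Matrix
open scoped Matrix.Norms.L2Operator MatrixOrder ComplexOrder

variable {n ι : Type} [Fintype n] [DecidableEq n] [Fintype ι]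

/-- the quadratic form of `A` -/
noncomputable def qf (A : Matrix n n ℂ) (φ : n → ℂ) : ℝ := (star φ ⬝ᵥ A *ᵥ φ).re

/-- squared norm -/
noncomputable def nsq (φ : n → ℂ) : ℝ := (star φ ⬝ᵥ φ).re

/-- `Σ_p [B_p, M]^* [B_p, M]` -/
noncomputable def sqc (B : ι → Matrix n n ℂ) (M : Matrix n n ℂ) : Matrix n n ℂ :=
  ∑ p, star (B p * M - M * B p) * (B p * M - M * B p)

/-- the abstract system -/
structure Sys (B : ι → Matrix n n ℂ) (H : Matrix n n ℂ) (Pi : ℕ → Matrix n n ℂ) (γ : ℝ) :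
    Prop where
  pos : 0 < γ
  H_eq : H = ∑ p, star (B p) * B p
  cert : γ • H + ∑ p, star (B p) * H * B p ≤ H * H
  proj : ∀ N, IsStarProjection (Pi N)
  lower : ∀ N p, Pi N * B p = B p * Pi (N + 2)
  bot : ∀ N p, N < 2 → B p * Pi N = 0

/-- self-adjoint and number conserving -/
structure Obs (Pi : ℕ → Matrix n n ℂ) (M : Matrix n n ℂ) : Prop where
  sa : IsSelfAdjoint M
  comm : ∀ N, Commute (Pi N) M

/-- `M ≤ R H + c (N₀ - N)` on every sector `N ≤ N₀` -/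
def Rel (H : Matrix n n ℂ) (Pi : ℕ → Matrix n n ℂ) (N₀ : ℕ) (M : Matrix n n ℂ) (R c : ℝ) : Prop :=
  ∀ N ≤ N₀, ∀ φ : n → ℂ, Pi N *ᵥ φ = φ → qf M φ ≤ R * qf H φ + c * ((N₀ : ℝ) - N) * nsq φ

/-- property (Q): `M ≤ c (N₀ - N)` on the zero modes of the sectors `N ≤ N₀` -/
def QBound (H : Matrix n n ℂ) (Pi : ℕ → Matrix n n ℂ) (N₀ : ℕ) (M : Matrix n n ℂ) (c : ℝ) : Prop :=
  ∀ N ≤ N₀, ∀ φ : n → ℂ, Pi N *ᵥ φ = φ → H *ᵥ φ = 0 → qf M φ ≤ c * ((N₀ : ℝ) - N) * nsq φ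

/-- `M` annihilates all zero modes -/
def Kills (H M : Matrix n n ℂ) : Prop := ∀ φ : n → ℂ, H *ᵥ φ = 0 → M *ᵥ φ = 0

/-- The hypotheses on the two scales of locality classes.  `Cl k`: quasi-local sums of size `≤ 1`
at level `k`; `Cz k`: the same, every local term annihilating the reference state. -/
structure Classes (B : ι → Matrix n n ℂ) (H : Matrix n n ℂ) (Pi : ℕ → Matrix n n ℂ) (N₀ : ℕ)
    (w W : ℝ → ℂ) (Cl Cz : ℕ → Set (Matrix n n ℂ)) (C : ℕ → ℝ) (S : ℝ) : Prop where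
  pos : ∀ k, 0 < C k
  norm_l : ∀ k, ∀ M ∈ Cl k, ‖M‖ ≤ S
  norm_z : ∀ k, ∀ M ∈ Cz k, ‖M‖ ≤ S
  kill : ∀ k, ∀ M ∈ Cz k, ∀ φ : n → ℂ, Pi N₀ *ᵥ φ = φ → H *ᵥ φ = 0 → M *ᵥ φ = 0
  c1 : ∀ k, ∀ M ∈ Cl k, Obs Pi M → (C k)⁻¹ • sqc B M ∈ Cl (k + 1)
  c2 : ∀ k, ∀ M ∈ Cz k, Obs Pi M → (C k)⁻¹ • sqc B (Filt.filt w H M) ∈ Cl (k + 1)
  c3 : ∀ k, ∀ M ∈ Cz k, Obs Pi M → (C k)⁻¹ • sqc B (Filt.filt W H M) ∈ Cz (k + 1)
  qb : ∀ k, ∀ M ∈ Cz k, Obs Pi M → QBound H Pi N₀ M (C k)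

/-- the final constant -/
noncomputable def selfConst (γ D : ℝ) : ℝ := Real.exp (4 * D + 4 * Real.log (3 / γ + 3))

end Crest.Agent.R340.Self
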