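import Crest.Agent.R340.SelfCore

/-! # SELF: the square-root iteration -/

set_option autoImplicit false

namespace Crest.Agent.R340.Self

open Matrix Filt Filter
open scoped Matrix.Norms.L2Operator MatrixOrder ComplexOrder

variable {n ι : Type} [Fintype n] [DecidableEq n] [Fintype ι] {B : ι → Matrix n n ℂ}
  {H M : Matrix n n ℂ} {Pi : ℕ → Matrix n n ℂ} {γ γf S D : ℝ} {N₀ : ℕ} {w W : ℝ → ℂ}
  {Cl Cz : ℕ → Set (Matrix n n ℂ)} {C T : ℕ → ℝ}

theorem Rel.mono (h : Sys B H Pi γ) {R R' c c' : ℝ} (hr : Rel H Pi N₀ M R c) (hR : R ≤ R')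
    (hc : c ≤ c') : Rel H Pi N₀ M R' c' := by
  intro N hN φ hφ
  have h1 : (0 : ℝ) ≤ (N₀ : ℝ) - N := sub_nonneg.2 (Nat.cast_le.2 hN)
  exact (hr N hN φ hφ).trans (add_le_add (mul_le_mul_of_nonneg_right hR (h.qf_nonneg φ))
    (mul_le_mul_of_nonneg_right (mul_le_mul_of_nonneg_right hc h1) (nsq_nonneg φ)))

theorem Rel.of_inv_smul {a R c : ℝ} (ha : 0 < a) (hr : Rel H Pi N₀ (a⁻¹ • M) R c) :
    Rel H Pi N₀ M (a * R) (a * c) := by
  intro N hN φ hφ
  have h1 := mul_le_mul_of_nonneg_left (hr N hN φ hφ) ha.le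
  rw [qf_smul, ← mul_assoc, mul_inv_cancel₀ ha.ne', one_mul] at h1
  exact h1.trans_eq (by ring)

/-- backward induction from infinity -/
theorem back_ind {P : ℕ → Prop} (step : ∀ k, P (k + 1) → P k) (far : ∀ᶠ k in atTop, P k) (k : ℕ) :
    P k := by
  obtain ⟨K, hK⟩ := eventually_atTop.1 far
  have key : ∀ j k, P (k + j) → P k := by
    intro j
    induction j with
    | zero => exact fun _ h => h
    | succ j ih => exact fun k h => ih k (step _ h)
  exact key K k (hK _ (Nat.le_add_left _ _))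

/-- the weights of the iteration -/
theorem exists_T (hγ : 0 < γ) (hD : 0 ≤ D) (h0 : ∀ k, 0 < C k)
    (hC : ∀ k, C k ≤ Real.exp (D * (3 / 2) ^ k)) :
    ∃ T : ℕ → ℝ, T 0 = selfConst γ D ∧ (∀ k, 0 ≤ T k) ∧ Tendsto T atTop atTop ∧
      ∀ k, (2 * C k + Real.sqrt (C k * T (k + 1))) / γ + C k +
        2 * Real.sqrt (C k * T (k + 1)) ≤ T k := by
  have hg : 0 < 3 / γ := by positivity
  set L := Real.log (3 / γ + 3) with hL
  have hL0 : 0 < L := Real.log_pos (by linarith)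
  have hE : Real.exp L = 3 / γ + 3 := Real.exp_log (by linarith)
  refine ⟨fun k => Real.exp ((4 * D + 4 * L) * (3 / 2) ^ k), by simp [selfConst, hL],
    fun k => (Real.exp_pos _).le, ?_, fun k => ?_⟩
  · exact Real.tendsto_exp_atTop.comp
      ((tendsto_pow_atTop_atTop_of_one_lt (by norm_num)).const_mul_atTop (by linarith))
  · have hu : (1 : ℝ) ≤ (3 / 2) ^ k := one_le_pow₀ (by norm_num)
    have hCk := hC k
    show (2 * C k + Real.sqrt (C k * Real.exp ((4 * D + 4 * L) * (3 / 2) ^ (k + 1)))) / γ + C k +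
      2 * Real.sqrt (C k * Real.exp ((4 * D + 4 * L) * (3 / 2) ^ (k + 1))) ≤
        Real.exp ((4 * D + 4 * L) * (3 / 2) ^ k)
    rw [pow_succ]
    generalize ((3 : ℝ) / 2) ^ k = u at hu hCk ⊢
    have hDu : 0 ≤ D * u := mul_nonneg hD (by linarith)
    have hLu : L ≤ L * u := le_mul_of_one_le_right hL0.le hu
    set X := Real.exp ((4 * D + 3 * L) * u) with hX
    have h1 : C k ≤ X := hCk.trans (Real.exp_le_exp.2 (by nlinarith))
    have h2 : Real.sqrt (C k * Real.exp ((4 * D + 4 * L) * (u * (3 / 2)))) ≤ X := by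
      refine Real.sqrt_le_iff.2 ⟨(Real.exp_pos _).le, ?_⟩
      refine (mul_le_mul_of_nonneg_right hCk (Real.exp_pos _).le).trans ?_
      rw [hX, sq, ← Real.exp_add, ← Real.exp_add]
      exact Real.exp_le_exp.2 (by nlinarith)
    have h3 : (3 / γ + 3) * X ≤ Real.exp ((4 * D + 4 * L) * u) := by
      rw [← hE, hX, ← Real.exp_add]
      exact Real.exp_le_exp.2 (by nlinarith)
    generalize Real.sqrt (C k * Real.exp ((4 * D + 4 * L) * (u * (3 / 2)))) = s at h2 ⊢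
    have h4 : (2 * C k + s) / γ ≤ 3 / γ * X := by
      rw [div_mul_eq_mul_div]
      exact div_le_div_of_nonneg_right (by linarith) hγ.le
    linarith

theorem exp_growth {A b : ℝ} (hA : 1 ≤ A) (hb : 1 ≤ b) (k : ℕ) :
    A * b ^ k ≤ Real.exp ((Real.log A + 2 * Real.log b) * (3 / 2) ^ k) := by
  have h1 : 1 + (k : ℝ) * (1 / 2) ≤ (1 + 1 / 2) ^ k := one_add_mul_le_pow (by norm_num) k
  rw [show (1 : ℝ) + 1 / 2 = 3 / 2 by norm_num] at h1
  have hk : (0 : ℝ) ≤ k := Nat.cast_nonneg k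
  have ha := Real.log_nonneg hA
  have hb' := Real.log_nonneg hb
  have e : A * b ^ k = Real.exp (Real.log A + k * Real.log b) := by
    rw [Real.exp_add, Real.exp_nat_mul, Real.exp_log (by linarith), Real.exp_log (by linarith)]
  rw [e]
  refine Real.exp_le_exp.2 ?_
  have h2 := mul_le_mul_of_nonneg_left h1 (show 0 ≤ Real.log A + 2 * Real.log b by linarith)
  nlinarith [mul_nonneg hk ha]

omit [DecidableEq n] in
theorem h93_kills_smul (hk : Kills H M) (a : ℝ) : Kills H (a • M) := fun φ hφ => by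
  rw [smul_mulVec, hk φ hφ, smul_zero]

theorem iter_l (h : Sys B H Pi γ) (hc : Classes B H Pi N₀ w W Cl Cz C S) (hT0 : ∀ k, 0 ≤ T k)
    (hT : Tendsto T atTop atTop) (hs : ∀ k, Real.sqrt (C k * T (k + 1)) / γ ≤ T k) (k : ℕ) :
    ∀ M ∈ Cl k, Obs Pi M → Kills H M → Rel H Pi N₀ M (T k) 0 := by
  refine back_ind (P := fun k => ∀ M ∈ Cl k, Obs Pi M → Kills H M → Rel H Pi N₀ M (T k) 0)
    ?_ ?_ k
  · intro k ih M hM hO hK
    have hC := hc.pos k
    have hk : Kills H (sqc B M) := kills_sqc h fun φ hφ => by rw [hK φ hφ, mulVec_zero]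
    have h2 := Rel.of_inv_smul hC
      (ih _ (hc.c1 k M hM hO) ((Obs.sqc h hO).smul _) (h93_kills_smul hk _))
    rw [mul_zero] at h2
    refine sector_step h hO (mul_nonneg hC.le (hT0 _)) le_rfl ?_ h2 (by simpa using hs k)
    intro N _ φ _ h0
    simp [qf, hK φ h0]
  · filter_upwards [hT.eventually_ge_atTop (S / γ)] with k hk M hM hO hK N _ φ hφ
    have h1 := apriori h hO.sa (hc.norm_l k M hM) (N := N) (fun ψ _ h0 => hK ψ h0) hφ
    have h0 := mul_le_mul_of_nonneg_right hk (h.qf_nonneg φ)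
    linarith

theorem iter_z (h : Sys B H Pi γ) (hf : IsFilt γf w W) (hγ : γf ≤ γ)
    (hc : Classes B H Pi N₀ w W Cl Cz C S) (hT0 : ∀ k, 0 ≤ T k) (hT : Tendsto T atTop atTop)
    (hs : ∀ k, (2 * C k + Real.sqrt (C k * T (k + 1))) / γ + C k +
      2 * Real.sqrt (C k * T (k + 1)) ≤ T k) (k : ℕ) :
    ∀ M ∈ Cz k, Obs Pi M → Rel H Pi N₀ M (T k) (T k) := by
  have hγ0 := h.pos
  have hs1 : ∀ k, Real.sqrt (C k * T (k + 1)) / γ ≤ T k := fun k => by
    have h1 := hs k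
    have hC := hc.pos k
    have h2 := Real.sqrt_nonneg (C k * T (k + 1))
    have h3 : Real.sqrt (C k * T (k + 1)) / γ ≤ (2 * C k + Real.sqrt (C k * T (k + 1))) / γ := by
      gcongr; linarith
    linarith
  refine back_ind (P := fun k => ∀ M ∈ Cz k, Obs Pi M → Rel H Pi N₀ M (T k) (T k)) ?_ ?_ k
  · intro k ih M hM hO
    have hC := hc.pos k
    have hCT := mul_nonneg hC.le (hT0 (k + 1))
    have hOb : Obs Pi (filt w H M) := Obs.filt h hO hf.int_w hf.real_w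
    have hOW : Obs Pi (filt W H M) := Obs.filt h hO hf.int_W hf.real_W
    have hq : QBound H Pi N₀ (filt w H M) (C k) := by
      intro N hN φ hφ h0
      have h1 := abs_qf_sub_filt h hf hO.sa φ
      have h2 : qf H φ = 0 := by simp [qf, h0]
      rw [h2, Real.sqrt_zero, zero_mul, mul_zero] at h1
      have h3 := hc.qb k M hM hO N hN φ hφ h0
      linarith [(abs_le.1 h1).1]
    have h2 := Rel.of_inv_smul hC (iter_l h hc hT0 hT hs1 (k + 1) _ (hc.c2 k M hM hO)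
      ((Obs.sqc h hOb).smul _) (h93_kills_smul (kills_sqc_filt h hf hγ M) _))
    rw [mul_zero] at h2
    have h3 := sector_step h hOb hCT hC.le hq h2 le_rfl
    have h4 := Rel.of_inv_smul hC (ih _ (hc.c3 k M hM hO) ((Obs.sqc h hOW).smul _))
    intro N hN φ hφ
    have a3 := h3 N hN φ hφ
    have a4 := h4 N hN φ hφ
    have a5 := (abs_le.1 (abs_qf_sub_filt h hf hO.sa φ)).2
    have ha := h.qf_nonneg φ
    have hb : 0 ≤ ((N₀ : ℝ) - N) * nsq φ :=
      mul_nonneg (sub_nonneg.2 (Nat.cast_le.2 hN)) (nsq_nonneg φ)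
    rw [mul_assoc (C k * T (k + 1)), ← mul_add] at a4
    rw [mul_assoc] at a3 ⊢
    generalize ((N₀ : ℝ) - N) * nsq φ = b at a3 a4 hb ⊢
    generalize qf H φ = a at a3 a4 a5 ha ⊢
    have hr := Real.sqrt_nonneg (C k * T (k + 1))
    have a6 : Real.sqrt a * Real.sqrt (qf (sqc B (filt W H M)) φ) ≤
        Real.sqrt (C k * T (k + 1)) * (a + b) :=
      calc Real.sqrt a * Real.sqrt (qf (sqc B (filt W H M)) φ)
          ≤ Real.sqrt (a + b) * Real.sqrt (C k * T (k + 1) * (a + b)) :=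
            mul_le_mul (Real.sqrt_le_sqrt (by linarith)) (Real.sqrt_le_sqrt a4)
              (Real.sqrt_nonneg _) (Real.sqrt_nonneg _)
        _ = Real.sqrt (C k * T (k + 1)) * (Real.sqrt (a + b) * Real.sqrt (a + b)) := by
            rw [Real.sqrt_mul hCT]; ring
        _ = _ := by rw [Real.mul_self_sqrt (by linarith)]
    have hR : 0 ≤ (2 * C k + Real.sqrt (C k * T (k + 1))) / γ := by positivity
    have h5 := hs k
    generalize (2 * C k + Real.sqrt (C k * T (k + 1))) / γ = R at a3 hR h5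
    generalize Real.sqrt (C k * T (k + 1)) = r at a6 hr h5
    have b1 : (R + 2 * r) * a ≤ T k * a := mul_le_mul_of_nonneg_right (by linarith) ha
    have b2 : (C k + 2 * r) * b ≤ T k * b := mul_le_mul_of_nonneg_right (by linarith) hb
    linarith
  · filter_upwards [hT.eventually_ge_atTop (S / γ), hT.eventually_ge_atTop S]
      with k hk hk' M hM hO N hN φ hφ
    have ha := h.qf_nonneg φ
    have hn := nsq_nonneg φ
    rcases hN.eq_or_lt with rfl | hN
    · have h1 := apriori h hO.sa (hc.norm_z k M hM) (hc.kill k M hM) hφ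
      have h0 := mul_le_mul_of_nonneg_right hk ha
      rw [sub_self, mul_zero, zero_mul]
      linarith
    · have h1 : qf M φ ≤ ‖M‖ * nsq φ := (abs_le.1 (abs_re_dot_le M φ)).2
      have h2 : ‖M‖ * nsq φ ≤ T k * nsq φ :=
        mul_le_mul_of_nonneg_right ((hc.norm_z k M hM).trans hk') hn
      have h3 : (1 : ℝ) ≤ (N₀ : ℝ) - N := by
        have : ((N + 1 : ℕ) : ℝ) ≤ N₀ := Nat.cast_le.2 hN
        push_cast at this
        linarith
      have h4 : T k * 1 * nsq φ ≤ T k * ((N₀ : ℝ) - N) * nsq φ :=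
        mul_le_mul_of_nonneg_right (mul_le_mul_of_nonneg_left h3 (hT0 k)) hn
      have h5 := mul_nonneg (hT0 k) ha
      linarith

/-- MAIN THEOREM of SELF -/
theorem self_main (h : Sys B H Pi γ) (hf : IsFilt γf w W) (hγ : γf ≤ γ)
    (hc : Classes B H Pi N₀ w W Cl Cz C S) (hD : 0 ≤ D)
    (hC : ∀ k, C k ≤ Real.exp (D * (3 / 2) ^ k)) (hM : M ∈ Cz 0) (hO : Obs Pi M) {φ : n → ℂ}
    (hφ : Pi N₀ *ᵥ φ = φ) : qf M φ ≤ selfConst γ D * qf H φ := by
  obtain ⟨T, h0, h1, h2, h3⟩ := exists_T h.pos hD hc.pos hC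
  simpa [h0] using iter_z h hf hγ hc h1 h2 h3 0 M hM hO N₀ le_rfl φ hφ

/-- the form used in the end game -/
theorem GS_of_self (h : Sys B H Pi γ) (hf : IsFilt γf w W) (hγ : γf ≤ γ)
    (hc : Classes B H Pi N₀ w W Cl Cz C S) (hD : 0 ≤ D)
    (hC : ∀ k, C k ≤ Real.exp (D * (3 / 2) ^ k)) {V : Matrix n n ℂ} {ψ : n → ℂ} {Δ e a ε : ℝ}
    (hg : GS (Pi N₀) H ψ 0 Δ) (hV : Obs Pi V) (he : V *ᵥ ψ = (e : ℂ) • ψ) (ha : 0 < a)
    (hM : a⁻¹ • (e • (1 : Matrix n n ℂ) - V) ∈ Cz 0) (hε : a * selfConst γ D ≤ ε) (hε1 : ε ≤ 1) :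
    GS (Pi N₀) (H + V) ψ e ((1 - ε) * Δ) := by
  refine hg.rel hε1 he fun φ hφ _ => ?_
  have hO : Obs Pi (e • (1 : Matrix n n ℂ) - V) :=
    ⟨(ga_real_smul_sa (IsSelfAdjoint.one _) e).sub hV.sa, fun N =>
      ((Commute.one_right _).smul_right e).sub_right (hV.comm N)⟩
  have h1 := mul_le_mul_of_nonneg_left (self_main h hf hγ hc hD hC hM (hO.smul _) hφ) ha.le
  rw [qf_smul, ← mul_assoc, mul_inv_cancel₀ ha.ne', one_mul, qf_sub, qf_smul, ← mul_assoc] at h1
  have h2 : qf (1 : Matrix n n ℂ) φ = (star φ ⬝ᵥ φ).re := by simp [qf]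
  have h3 := mul_le_mul_of_nonneg_right hε (h.qf_nonneg φ)
  rw [h2] at h1
  unfold qf at h1 h3
  linarith

/-- uniqueness of the zero mode gives the field `Classes.kill` -/
theorem kill_of_GS {P : Matrix n n ℂ} {ψ φ : n → ℂ} {Δ : ℝ} (hg : GS P H ψ 0 Δ) (hΔ : 0 < Δ)
    (hM : M *ᵥ ψ = 0) (hφ : P *ᵥ φ = φ) (h0 : H *ᵥ φ = 0) : M *ᵥ φ = 0 := by
  obtain ⟨c, hc⟩ : ∃ c, c = star ψ ⬝ᵥ φ := ⟨_, rfl⟩
  have h1 : P *ᵥ (φ - c • ψ) = φ - c • ψ := by rw [mulVec_sub, mulVec_smul, hφ, hg.sec]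
  have h2 : star ψ ⬝ᵥ (φ - c • ψ) = 0 := by
    rw [dotProduct_sub, dotProduct_smul, hg.norm, ← hc, smul_eq_mul, mul_one, sub_self]
  have h3 : H *ᵥ (φ - c • ψ) = 0 := by
    rw [mulVec_sub, mulVec_smul, h0, hg.eig]; simp
  have h4 := hg.gap _ h1 h2
  rw [h3, dotProduct_zero, Complex.zero_re, zero_add] at h4
  have h5 : nsq (φ - c • ψ) = 0 :=
    le_antisymm (by_contra fun k => absurd (mul_pos hΔ (not_le.1 k)) (not_lt.2 h4)) (nsq_nonneg _)
  rw [sub_eq_zero.1 (nsq_eq_zero h5), mulVec_smul, hM, smul_zero]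

end Crest.Agent.R340.Self
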