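import Crest.Agent.R340.SiDefs

/-! # SELF-INST: filters preserve quasi-local families -/

set_option autoImplicit false

namespace Crest.Agent.R340.Si

open MeasureTheory Crest.Agent.R340.Filt Crest.Agent.R340.Fw

variable {𝔄 : Type} [CStarAlgebra 𝔄] {X : Type} [MeasurableSpace X] {cv cr : ℝ → ℝ} {K0 : ℝ}
  {μ : Measure X} {d : X → X → ℝ} {c : X → 𝔄} {Nn A K : 𝔄} {x : X}
  {a v b β J κ : ℝ} {w : ℝ → ℂ} {M : X → 𝔄}

/-- the constant of the filter -/
noncomputable def Cf (cv cr : ℝ → ℝ) (v b J : ℝ) : ℝ :=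
  J * (1 + 2 * cr b * ((4 + v) * Real.exp (b ^ 2)) * cv (b / 4))

theorem gloc_star (c : X → 𝔄) (Y : 𝔄) (z : X) : gloc c (star Y) z = gloc c Y z := by
  unfold gloc
  rw [add_comm, ← norm_star (star Y * star (c z) + _), ← norm_star (star Y * c z + _)]
  simp only [star_add, star_mul, star_star]
  rw [add_comm (c z * Y), add_comm (star (c z) * Y)]

theorem gloc_le (hc : ∀ x, ‖c x‖ ≤ 1) (Y : 𝔄) (z : X) : gloc c Y z ≤ 4 * ‖Y‖ := by
  have h : ∀ e : 𝔄, ‖e‖ ≤ 1 → ‖Y * e + e * Y‖ ≤ 2 * ‖Y‖ := fun e he => by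
    have h1 : ‖Y * e‖ ≤ ‖Y‖ :=
      (norm_mul_le _ _).trans (mul_le_of_le_one_right (norm_nonneg _) he)
    have h2 : ‖e * Y‖ ≤ ‖Y‖ :=
      (norm_mul_le _ _).trans (mul_le_of_le_one_left (norm_nonneg _) he)
    linarith [norm_add_le (Y * e) (e * Y)]
  have h1 := h (c z) (hc z)
  have h2 := h (star (c z)) (by rw [norm_star]; exact hc z)
  unfold gloc
  linarith

theorem gloc_tau (F : Frame cv cr K0 μ d c Nn) (hK : IsSelfAdjoint K) (hL : LRo c d K v)
    (hv : 1 ≤ v) (hb : 0 ≤ b) (hbβ : b * Real.sqrt v ≤ β) (y : X) (t : ℝ) (z : X) :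
    gloc c (tau K t (c y)) z ≤ (4 + v) * Real.exp (b ^ 2) * Real.exp (β * Real.sqrt |t|) *
      Real.exp (-b * Real.sqrt (d y z)) := by
  have h := fwA_min (u := v) (κ := 1) (T := v * |t|) (by linarith) zero_le_one hb (by positivity)
    (F.d_nonneg y z)
    ((gloc_le F.norm_c (tau K t (c y)) z).trans (by rw [norm_tau hK]; linarith [F.norm_c y]))
    ((hL y t z).trans_eq (by rw [mul_one])) (fwA_sqrt hv hbβ t)
  refine h.trans_eq ?_
  rw [sub_eq_add_neg, Real.exp_add, Real.exp_add, neg_mul]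
  ring

theorem loc_tau_ql (F : Frame cv cr K0 μ d c Nn) (hK : IsSelfAdjoint K) (hL : LRo c d K v)
    (hv : 1 ≤ v) (hb : 0 < b) (hb1 : b ≤ 1) (hbβ : b * Real.sqrt v ≤ β) (hcr : 0 ≤ cr b)
    (ha : 0 ≤ a) (hab : a ≤ b / 4) (hA : QL c d A x a κ) (hN : Commute Nn A) (t : ℝ) (y : X) :
    loc c (tau K t A) y ≤ 2 * cr b * ((4 + v) * Real.exp (b ^ 2)) * cv (b / 4) * κ *
      Real.exp (β * Real.sqrt |t|) * Real.exp (-a * Real.sqrt (d x y)) := by
  have hκ : 0 ≤ κ := (norm_nonneg _).trans hA.1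
  have hβ : 0 ≤ β := le_trans (by positivity) hbβ
  obtain ⟨E, hE⟩ : ∃ E, E = (4 + v) * Real.exp (b ^ 2) * Real.exp (β * Real.sqrt |t|) := ⟨_, rfl⟩
  have hE1 : 1 ≤ E := by
    have h1 : 1 ≤ Real.exp (b ^ 2) := Real.one_le_exp (by positivity)
    have h2 : 1 ≤ Real.exp (β * Real.sqrt |t|) := Real.one_le_exp (by positivity)
    rw [hE]
    exact one_le_mul_of_one_le_of_one_le (one_le_mul_of_one_le_of_one_le (by linarith) h1) h2
  have hI : ∫ u, Real.exp (-(b / 2) * Real.sqrt (d y u)) * loc c A u ∂μ ≤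
      κ * Real.exp (-a * Real.sqrt (d x y)) * cv (b / 4) := by
    have hb4 : 0 < b / 4 := by linarith
    refine (integral_mono (F.int_exp_loc (by linarith) y A)
      ((F.int_exp hb4.le y).const_mul (κ * Real.exp (-a * Real.sqrt (d x y))))
      fun u => ?_).trans ?_
    · have h1 := F.exp_tri (a := b / 2) ha x y u
      have h2 : Real.exp (-(b / 2 - a) * Real.sqrt (d y u)) ≤
          Real.exp (-(b / 4) * Real.sqrt (d y u)) :=
        Real.exp_le_exp.2 (mul_le_mul_of_nonneg_right (by linarith) (Real.sqrt_nonneg _))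
      calc Real.exp (-(b / 2) * Real.sqrt (d y u)) * loc c A u
          ≤ Real.exp (-(b / 2) * Real.sqrt (d y u)) * (κ * Real.exp (-a * Real.sqrt (d x u))) :=
            mul_le_mul_of_nonneg_left (hA.2 u) (Real.exp_pos _).le
        _ = κ * (Real.exp (-(b / 2) * Real.sqrt (d y u)) * Real.exp (-a * Real.sqrt (d x u))) := by
            ring
        _ ≤ κ * (Real.exp (-a * Real.sqrt (d x y)) * Real.exp (-(b / 4) * Real.sqrt (d y u))) :=
            mul_le_mul_of_nonneg_left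
              (h1.trans (mul_le_mul_of_nonneg_left h2 (Real.exp_pos _).le)) hκ
        _ = κ * Real.exp (-a * Real.sqrt (d x y)) * Real.exp (-(b / 4) * Real.sqrt (d y u)) := by
            ring
    · rw [integral_const_mul]
      exact mul_le_mul_of_nonneg_left (F.vol _ hb4 y) (by positivity)
  have key : ∀ Y : 𝔄, ‖Y‖ ≤ 1 → (∀ z, gloc c Y z ≤ E * Real.exp (-b * Real.sqrt (d y z))) →
      ‖A * Y - Y * A‖ ≤ cr b * E * (κ * Real.exp (-a * Real.sqrt (d x y)) * cv (b / 4)) :=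
    fun Y h1 h2 => (F.recon b hb hb1 y E Y A hN (h1.trans hE1) h2).trans
      (mul_le_mul_of_nonneg_left hI (mul_nonneg hcr (by linarith)))
  have hg : ∀ z, gloc c (tau K (-t) (c y)) z ≤ E * Real.exp (-b * Real.sqrt (d y z)) := fun z => by
    have h := gloc_tau F hK hL hv hb.le hbβ y (-t) z
    rwa [abs_neg, ← hE] at h
  have k1 := key (tau K (-t) (c y)) (by rw [norm_tau hK]; exact F.norm_c y) hg
  have k2 := key (tau K (-t) (star (c y))) (by rw [norm_tau hK, norm_star]; exact F.norm_c y)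
    (fun z => by rw [← star_tau hK, gloc_star]; exact hg z)
  unfold loc
  rw [h92_tau_comm hK, h92_tau_comm hK]
  refine (add_le_add k1 k2).trans_eq ?_
  rw [hE]
  ring

theorem ql_filt (F : Frame cv cr K0 μ d c Nn) (hK : IsSelfAdjoint K) (hL : LRo c d K v)
    (hv : 1 ≤ v) (hb : 0 < b) (hb1 : b ≤ 1) (hbβ : b * Real.sqrt v ≤ β) (hcr : 0 ≤ cr b)
    (hw : Mom w β J) (ha : 0 ≤ a) (hab : a ≤ b / 4) (hA : QL c d A x a κ) (hN : Commute Nn A) :
    QL c d (filt w K A) x a (Cf cv cr v b J * κ) := by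
  have hκ : 0 ≤ κ := (norm_nonneg _).trans hA.1
  have hβ : 0 ≤ β := le_trans (by positivity) hbβ
  have hJ : 0 ≤ J := (integral_nonneg fun _ => norm_nonneg _).trans (hw.norm_le hβ)
  have hcv : 0 ≤ cv (b / 4) := F.cv_nonneg (by linarith) x
  obtain ⟨D, hD⟩ : ∃ D, D = 2 * cr b * ((4 + v) * Real.exp (b ^ 2)) * cv (b / 4) := ⟨_, rfl⟩
  have hD0 : 0 ≤ D := by
    have : 0 ≤ 4 + v := by linarith
    rw [hD]; positivity
  have hC : Cf cv cr v b J = J * (1 + D) := by rw [hD, Cf]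
  rw [hC]
  refine ⟨?_, fun y => ?_⟩
  · rw [filt_eq_filt2]
    refine (norm_filt2_le hw.1 hK hK A).trans
      ((mul_le_mul (hw.norm_le hβ) hA.1 (norm_nonneg _) hJ).trans ?_)
    exact mul_le_mul_of_nonneg_right (le_mul_of_one_le_right hJ (by linarith)) hκ
  · have e : ∀ t : ℝ, ‖w t‖ * (D * κ * Real.exp (β * Real.sqrt |t|) *
        Real.exp (-a * Real.sqrt (d x y))) = D * κ *
        Real.exp (-a * Real.sqrt (d x y)) * (‖w t‖ * Real.exp (β * Real.sqrt |t|)) := fun t => by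
      ring
    refine (loc_filt_le hw.1 hK (g := fun t => D * κ * Real.exp (β * Real.sqrt |t|) *
        Real.exp (-a * Real.sqrt (d x y))) (fun t => ?_) ?_).trans ?_
    · rw [hD]
      exact loc_tau_ql F hK hL hv hb hb1 hbβ hcr ha hab hA hN t y
    · simp only [e]
      exact hw.exp.1.const_mul _
    · simp only [e]
      rw [integral_const_mul]
      refine (mul_le_mul_of_nonneg_left hw.exp.2 (by positivity)).trans ?_
      have h1 : 0 ≤ J * κ * Real.exp (-a * Real.sqrt (d x y)) := by positivity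
      nlinarith

theorem Fam.filt (F : Frame cv cr K0 μ d c Nn) (hK : IsSelfAdjoint K) (hKN : Commute Nn K)
    (hL : LRo c d K v) (hv : 1 ≤ v) (hb : 0 < b) (hb1 : b ≤ 1) (hbβ : b * Real.sqrt v ≤ β)
    (hcr : 0 ≤ cr b) (hw : Mom w β J) (hr : ∀ t, (starRingEnd ℂ) (w t) = w t) (ha : 0 ≤ a)
    (hab : a ≤ b / 4) (hM : Fam μ d c Nn a κ M) :
    Fam μ d c Nn a (Cf cv cr v b J * κ) (fun x => filt w K (M x)) ∧
      ∫ x, filt w K (M x) ∂μ = filt w K (∫ x, M x ∂μ) := by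
  obtain ⟨L, hL'⟩ := exists_filt2_clm hw.1 hK hK
  have e : ∀ A, Filt.filt w K A = L A := fun A => by rw [hL', filt_eq_filt2]
  refine ⟨⟨?_, fun x => filt_sa hr hK (hM.sa x), fun x => commute_filt hw.1 hK hKN (hM.num x),
    fun x => ql_filt F hK hL hv hb hb1 hbβ hcr hw ha hab (hM.ql x) (hM.num x)⟩, ?_⟩
  · simp only [e]
    exact L.integrable_comp hM.int
  · simp only [e]
    exact L.integral_comp_comm hM.int

end Crest.Agent.R340.Si
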