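import Crest.Agent.R340.SiDefs

/-! # SELF-INST: squares of commutators with the pair field -/

set_option autoImplicit false

namespace Crest.Agent.R340.Si

open MeasureTheory Crest.Agent.R340.Filt Crest.Agent.R340.Fw

variable {𝔄 : Type} [CStarAlgebra 𝔄] {X : Type} [MeasurableSpace X] {cv cr : ℝ → ℝ} {K0 K1 : ℝ}
  {μ : Measure X} {d : X → X → ℝ} {c B : X → 𝔄} {Nn A A' : 𝔄} {x : X}
  {a κ κ' r : ℝ} {M : X → 𝔄}

/-- constant of the single commutator -/
noncomputable def Cc (cv : ℝ → ℝ) (K1 : ℝ) : ℝ := 4 * (K1 * (1 + 3 * cv 1)) + 8 * K1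

/-! ### part A -/

theorem loc_star (c : X → 𝔄) (A : 𝔄) (y : X) : loc c (star A) y = loc c A y := by
  have e : ∀ e : 𝔄, ‖star A * e - e * star A‖ = ‖A * star e - star e * A‖ := fun e => by
    rw [← norm_star, star_sub, star_mul, star_mul, star_star, norm_sub_rev]
  unfold loc
  rw [e, e, star_star, add_comm]

theorem loc_mul_le (c : X → 𝔄) (A A' : 𝔄) (y : X) :
    loc c (A * A') y ≤ ‖A‖ * loc c A' y + loc c A y * ‖A'‖ := by
  have e : ∀ e : 𝔄, ‖A * A' * e - e * (A * A')‖ ≤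
      ‖A‖ * ‖A' * e - e * A'‖ + ‖A * e - e * A‖ * ‖A'‖ := fun e => by
    have : A * A' * e - e * (A * A') = A * (A' * e - e * A') + (A * e - e * A) * A' := by
      noncomm_ring
    rw [this]
    exact (norm_add_le _ _).trans (add_le_add (norm_mul_le _ _) (norm_mul_le _ _))
  have h1 := e (c y)
  have h2 := e (star (c y))
  unfold loc
  linarith

theorem ql_star_mul (h : QL c d A x a κ) (hκ : 0 ≤ κ) :
    QL c d (star A * A) x a (2 * κ ^ 2) := by
  have h1 := h.1
  have h0 := norm_nonneg A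
  refine ⟨?_, fun y => ?_⟩
  · have := norm_mul_le (star A) A
    rw [norm_star] at this
    nlinarith
  · have h2 := h.2 y
    have h3 := loc_mul_le c (star A) A y
    rw [norm_star, loc_star] at h3
    have h4 := mul_le_mul h1 h2 (loc_nonneg c A y) hκ
    linarith

theorem Fam.mono {a' : ℝ} (h : Fam μ d c Nn a κ M) (ha : a' ≤ a) (hκ : κ ≤ κ') :
    Fam μ d c Nn a' κ' M := by
  exact ⟨h.int, h.sa, h.num, fun x => (h.ql x).mono ha hκ⟩

theorem Fam.smul (h : Fam μ d c Nn a κ M) (r : ℝ) :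
    Fam μ d c Nn a (|r| * κ) (fun x => r • M x) := by
  refine ⟨h.int.smul r, fun x => ?_, fun x => (h.num x).smul_right r, fun x => ⟨?_, fun y => ?_⟩⟩
  · rw [IsSelfAdjoint, star_smul, (h.sa x).star_eq, star_trivial]
  · rw [norm_smul, Real.norm_eq_abs]
    exact mul_le_mul_of_nonneg_left (h.ql x).1 (abs_nonneg r)
  · rw [loc_rsmul, mul_assoc]
    exact mul_le_mul_of_nonneg_left ((h.ql x).2 y) (abs_nonneg r)

theorem Fam.norm_le [IsFiniteMeasure μ] (h : Fam μ d c Nn a κ M) :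
    ‖∫ x, M x ∂μ‖ ≤ κ * μ.real Set.univ := by
  exact norm_integral_le_of_norm_le_const (Filter.Eventually.of_forall fun x => (h.ql x).1)

theorem exp_neg_le {D a : ℝ} (hD : 0 ≤ D) (ha : a ≤ 2) :
    Real.exp (-D) ≤ 3 * Real.exp (-a * Real.sqrt D) := by
  have hs := Real.sqrt_nonneg D
  have h2 := Real.mul_self_sqrt hD
  have h3 : Real.exp (-D) ≤ Real.exp 1 * Real.exp (-a * Real.sqrt D) := by
    rw [← Real.exp_add]
    refine Real.exp_le_exp.2 ?_
    nlinarith [sq_nonneg (Real.sqrt D - 1), mul_le_mul_of_nonneg_right ha hs]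
  refine h3.trans (mul_le_mul_of_nonneg_right ?_ (Real.exp_pos _).le)
  have := Real.exp_one_lt_d9
  linarith

theorem comm_norm (F : Frame cv cr K0 μ d c Nn) (P : Pair K1 μ d c B Nn) (ha : 0 ≤ a)
    (ha1 : a ≤ 1) (hA : QL c d A x a κ) (y : X) :
    ‖B y * A - A * B y‖ ≤ K1 * (1 + 3 * cv 1) * κ * Real.exp (-a * Real.sqrt (d x y)) := by
  have hK : 0 ≤ K1 := (norm_nonneg _).trans (P.el y).1
  have hκ : 0 ≤ κ := (norm_nonneg _).trans hA.1
  have hE := Real.exp_pos (-a * Real.sqrt (d x y))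
  have h1 : ∫ u, Real.exp (-d y u) * loc c A u ∂μ ≤
      3 * κ * Real.exp (-a * Real.sqrt (d x y)) * cv 1 := by
    refine (integral_mono_of_nonneg (g := fun u => 3 * κ * Real.exp (-a * Real.sqrt (d x y)) *
      Real.exp (-1 * Real.sqrt (d y u)))
      (Filter.Eventually.of_forall fun u => mul_nonneg (Real.exp_pos _).le (loc_nonneg c A u))
      ((F.int_exp zero_le_one y).const_mul _) (Filter.Eventually.of_forall fun u => ?_)).trans ?_
    · have a1 := exp_neg_le (F.d_nonneg y u) (le_refl (2 : ℝ))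
      have a2 := F.exp_tri (a := 2) ha x y u
      have a3 : Real.exp (-(2 - a) * Real.sqrt (d y u)) ≤ Real.exp (-1 * Real.sqrt (d y u)) :=
        Real.exp_le_exp.2 (mul_le_mul_of_nonneg_right (by linarith) (Real.sqrt_nonneg _))
      have a4 := mul_le_mul a1 (hA.2 u) (loc_nonneg c A u) (by positivity)
      have a5 := mul_le_mul_of_nonneg_left (a2.trans (mul_le_mul_of_nonneg_left a3 hE.le))
        (by positivity : 0 ≤ 3 * κ)
      show Real.exp (-d y u) * loc c A u ≤ _
      linarith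
    · rw [integral_const_mul]
      exact mul_le_mul_of_nonneg_left (F.vol 1 one_pos y) (by positivity)
  refine (P.comm y A).trans ?_
  have h2 := mul_le_mul_of_nonneg_left (add_le_add (hA.2 y) h1) hK
  linarith

/-! ### part B -/

theorem b95_Cc (F : Frame cv cr K0 μ d c Nn) (P : Pair K1 μ d c B Nn) (y : X) :
    0 ≤ K1 ∧ 0 ≤ K1 * (1 + 3 * cv 1) ∧ 0 ≤ Cc cv K1 := by
  have h1 : 0 ≤ K1 := (norm_nonneg _).trans (P.el y).1
  have h2 : 0 ≤ cv 1 := F.cv_nonneg one_pos y
  have h3 : 0 ≤ K1 * (1 + 3 * cv 1) := by positivity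
  refine ⟨h1, h3, ?_⟩
  unfold Cc
  positivity

theorem comm_loc (F : Frame cv cr K0 μ d c Nn) (P : Pair K1 μ d c B Nn) (ha : 0 ≤ a)
    (ha1 : a ≤ 1) (hA : QL c d A x a κ) (y z : X) :
    loc c (B y * A - A * B y) z ≤ Cc cv K1 * κ * Real.exp (-(a / 4) * Real.sqrt (d y z)) *
      Real.exp (-(a / 4) * Real.sqrt (d y x)) := by
  obtain ⟨k1, k2, k3⟩ := b95_Cc F P y
  have hκ : 0 ≤ κ := (norm_nonneg _).trans hA.1
  have htri : Real.sqrt (d y z) ≤ Real.sqrt (d x y) + Real.sqrt (d x z) := by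
    have h := F.d_tri y x z
    rw [F.d_symm y x] at h
    refine Real.sqrt_le_iff.2 ⟨by positivity, h.trans ?_⟩
    nlinarith [Real.sq_sqrt (F.d_nonneg x y), Real.sq_sqrt (F.d_nonneg x z), Real.sqrt_nonneg (d x y),
      Real.sqrt_nonneg (d x z)]
  rw [F.d_symm y x, mul_assoc, ← Real.exp_add]
  have hs := Real.sqrt_nonneg (d x y)
  have hu := Real.sqrt_nonneg (d y z)
  set E := Real.exp (-(a / 4) * Real.sqrt (d y z) + -(a / 4) * Real.sqrt (d x y)) with hE
  have hE0 : 0 < E := Real.exp_pos _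
  by_cases hc : Real.sqrt (d y z) ≤ 3 * Real.sqrt (d x y)
  · have h1 := loc_le F.norm_c (B y * A - A * B y) z
    have h2 := comm_norm F P ha ha1 hA y
    have h3 : Real.exp (-a * Real.sqrt (d x y)) ≤ E := Real.exp_le_exp.2 (by nlinarith)
    have h4 := mul_le_mul_of_nonneg_left h3 (mul_nonneg k2 hκ)
    have h5 := mul_nonneg (mul_nonneg k1 hκ) hE0.le
    unfold Cc
    linarith
  · have hc := (not_le.1 hc).le
    have h3 : Real.exp (-a * Real.sqrt (d x z)) ≤ E := Real.exp_le_exp.2 (by nlinarith)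
    have h4 : Real.exp (-a * Real.sqrt (d y z)) ≤ E := Real.exp_le_exp.2 (by nlinarith)
    have l1 : loc c A z ≤ κ * E := (hA.2 z).trans (mul_le_mul_of_nonneg_left h3 hκ)
    have l2 : loc c (B y) z ≤ K1 * (3 * E) := ((P.el y).2 z).trans (mul_le_mul_of_nonneg_left
      ((exp_neg_le (a := a) (F.d_nonneg y z) (by linarith)).trans (by linarith)) k1)
    have m1 := mul_le_mul (P.el y).1 l1 (loc_nonneg _ _ _) k1
    have m2 := mul_le_mul l2 hA.1 (norm_nonneg _) (by positivity)
    have h1 := loc_sub_le c (B y * A) (A * B y) z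
    have h2 := loc_mul_le c (B y) A z
    have h2' := loc_mul_le c A (B y) z
    have h5 := mul_nonneg (mul_nonneg k2 hκ) hE0.le
    unfold Cc
    linarith

theorem ql_comm (F : Frame cv cr K0 μ d c Nn) (P : Pair K1 μ d c B Nn) (ha : 0 < a)
    (ha1 : a ≤ 1) (hM : Fam μ d c Nn a κ M) (y : X) :
    QL c d (B y * (∫ x, M x ∂μ) - (∫ x, M x ∂μ) * B y) y (a / 4) (Cc cv K1 * cv (a / 4) * κ) := by
  obtain ⟨k1, k2, k3⟩ := b95_Cc F P y
  have hκ : 0 ≤ κ := (norm_nonneg _).trans (hM.ql y).1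
  have ha4 : 0 < a / 4 := by positivity
  have e : B y * (∫ x, M x ∂μ) - (∫ x, M x ∂μ) * B y = ∫ x, (B y * M x - M x * B y) ∂μ := by
    rw [← neg_sub, cC_comm hM.int, ← integral_neg]
    simp only [neg_sub]
  have hi := F.int_exp ha4.le y
  have hv := F.vol _ ha4 y
  rw [e]
  refine ⟨(norm_integral_le_of_norm_le (hi.const_mul (Cc cv K1 * κ))
    (Filter.Eventually.of_forall fun x => ?_)).trans ?_, fun z => ?_⟩
  · refine (comm_norm F P ha.le ha1 (hM.ql x) y).trans (mul_le_mul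
      (mul_le_mul_of_nonneg_right (by unfold Cc; linarith) hκ) ?_ (Real.exp_pos _).le (by positivity))
    rw [F.d_symm y x]
    exact Real.exp_le_exp.2 (by nlinarith [Real.sqrt_nonneg (d x y)])
  · rw [integral_const_mul]
    exact (mul_le_mul_of_nonneg_left hv (by positivity)).trans_eq (by ring)
  · refine (loc_integral_le ((hM.int.const_mul _).sub (hM.int.mul_const _))
      (fun x => comm_loc F P ha.le ha1 (hM.ql x) y z) (hi.const_mul _)).trans ?_
    rw [integral_const_mul]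
    exact (mul_le_mul_of_nonneg_left hv (by positivity)).trans_eq (by ring)

theorem Fam.sq (F : Frame cv cr K0 μ d c Nn) (P : Pair K1 μ d c B Nn) (ha : 0 < a)
    (ha1 : a ≤ 1) (hM : Fam μ d c Nn a κ M) (hr : |r| ≤ 2) :
    Fam μ d c Nn (a / 4) (4 * (Cc cv K1 * cv (a / 4) * κ) ^ 2) (fun y =>
      r • (star (B y * (∫ x, M x ∂μ) - (∫ x, M x ∂μ) * B y) *
        (B y * (∫ x, M x ∂μ) - (∫ x, M x ∂μ) * B y))) := by
  have := F.fin
  have hT : Commute Nn (∫ x, M x ∂μ) := cC_num hM.int hM.num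
  have hq := ql_comm F P ha ha1 hM
  generalize (∫ x, M x ∂μ) = T at hT hq
  have hql : ∀ y, QL c d (r • (star (B y * T - T * B y) * (B y * T - T * B y))) y (a / 4)
      (4 * (Cc cv K1 * cv (a / 4) * κ) ^ 2) := fun y => by
    have h := ql_star_mul (hq y) ((norm_nonneg _).trans (hq y).1)
    refine ⟨?_, fun z => ?_⟩
    · rw [norm_smul, Real.norm_eq_abs]
      exact (mul_le_mul hr h.1 (norm_nonneg _) zero_le_two).trans_eq (by ring)
    · rw [loc_rsmul]
      exact (mul_le_mul hr (h.2 z) (loc_nonneg _ _ _) zero_le_two).trans_eq (by ring)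
  have hm : StronglyMeasurable fun y => B y * T - T * B y := (P.meas.mul_const T).sub (P.meas.const_mul T)
  refine ⟨Integrable.of_bound (((continuous_star.comp_stronglyMeasurable hm).mul hm).const_smul
    r).aestronglyMeasurable _ (Filter.Eventually.of_forall fun y => (hql y).1),
    fun y => (IsSelfAdjoint.all r).smul (IsSelfAdjoint.star_mul_self _), fun y => ?_, hql⟩
  refine Commute.smul_right ?_ r
  have e1 : Nn * (B y * T - T * B y) = (B y * T - T * B y) * Nn - (2 : ℂ) • (B y * T - T * B y) := by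
    rw [mul_sub, ← mul_assoc, ← mul_assoc, P.num, hT.eq, mul_assoc T, P.num, sub_mul, mul_assoc (B y),
      hT.eq]
    simp only [mul_sub, sub_mul, smul_sub, smul_mul_assoc, mul_smul_comm, mul_assoc]
    abel
  generalize B y * T - T * B y = Z at e1
  have e2 : Nn * star Z = star Z * Nn + (2 : ℂ) • star Z := by
    have := congrArg star e1
    rw [star_mul, star_sub, star_mul, star_smul, P.nsa.star_eq, star_ofNat] at this
    rw [this, sub_add_cancel]
  show Nn * (star Z * Z) = star Z * Z * Nn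
  rw [← mul_assoc, e2, add_mul, mul_assoc, e1]
  simp only [mul_sub, smul_mul_assoc, mul_smul_comm, mul_assoc]
  abel

end Crest.Agent.R340.Si
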