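import Crest.Agent.R340.SiFilt
import Crest.Agent.R340.SiSq

/-! # SELF-INST: the relative bound from (Q), abstractly -/

set_option autoImplicit false

namespace Crest.Agent.R340.Si

open MeasureTheory Matrix Crest.Agent.R340.Filt Crest.Agent.R340.Fw
open scoped Matrix.Norms.L2Operator MatrixOrder ComplexOrder

theorem tame_poly (A : ℝ) (p : ℕ) : Tame fun a => A / a ^ p := by
  intro a ha _
  have h1 : (1 : ℝ) ≤ max 1 (A / a ^ p) := le_max_left _ _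
  have h2 : (1 : ℝ) ≤ 4 ^ p := one_le_pow₀ (by norm_num)
  refine ⟨Real.log (max 1 (A / a ^ p)) + 2 * Real.log (4 ^ p),
    add_nonneg (Real.log_nonneg h1) (mul_nonneg zero_le_two (Real.log_nonneg h2)), fun k => ?_⟩
  refine le_trans ?_ (Self.exp_growth h1 h2 k)
  have e : A / (a / 4 ^ k) ^ p = A / a ^ p * (4 ^ p) ^ k := by
    rw [div_pow, ← pow_mul, ← pow_mul, mul_comm k p]
    field_simp
  show A / (a / 4 ^ k) ^ p ≤ _
  rw [e]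
  exact mul_le_mul_of_nonneg_right (le_max_right _ _) (by positivity)

theorem Tame.mono {f g : ℝ → ℝ} (hg : Tame g) (h : ∀ a, 0 < a → a ≤ 1 → f a ≤ g a) : Tame f := by
  intro a ha ha1
  obtain ⟨D, hD, hk⟩ := hg a ha ha1
  refine ⟨D, hD, fun k => (h _ (by positivity) ?_).trans (hk k)⟩
  exact (div_le_self ha.le (one_le_pow₀ (by norm_num))).trans ha1

theorem Tame.const_mul {f : ℝ → ℝ} (hf : Tame f) {A : ℝ} (hA : 0 ≤ A) :
    Tame fun a => A * f a := by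
  intro a ha ha1
  obtain ⟨D, hD, hk⟩ := hf a ha ha1
  have h1 : (1 : ℝ) ≤ max A 1 := le_max_right _ _
  have h2 := Real.log_nonneg h1
  refine ⟨D + Real.log (max A 1), add_nonneg hD h2, fun k => ?_⟩
  have h3 : (1 : ℝ) ≤ (3 / 2) ^ k := one_le_pow₀ (by norm_num)
  have h4 : A ≤ Real.exp (Real.log (max A 1) * (3 / 2) ^ k) := by
    refine (le_max_left A 1).trans ?_
    conv_lhs => rw [← Real.exp_log (show 0 < max A 1 by linarith)]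
    exact Real.exp_le_exp.2 (le_mul_of_one_le_right h2 h3)
  show A * f (a / 4 ^ k) ≤ _
  rw [add_mul, Real.exp_add, mul_comm (Real.exp _)]
  exact (mul_le_mul_of_nonneg_left (hk k) hA).trans
    (mul_le_mul_of_nonneg_right h4 (Real.exp_pos _).le)

section aux

variable {n X ι : Type} [Fintype n] [DecidableEq n] [MeasurableSpace X] [Fintype ι]
  {μ : Measure X} {d : X → X → ℝ} {c B M : X → Matrix n n ℂ} {Bp : ι → Matrix n n ℂ}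
  {Nn H A : Matrix n n ℂ} {Pi : ℕ → Matrix n n ℂ} {N₀ : ℕ} {ψ : n → ℂ} {r a κ C K0 K1 : ℝ}
  {cv cr : ℝ → ℝ} {w : ℝ → ℂ}

theorem filt_kill (hw : Integrable w) (hH : IsSelfAdjoint H) (hn : star ψ ⬝ᵥ ψ = 1)
    (h0 : H *ᵥ ψ = 0) (hA : A *ᵥ ψ = 0) : filt w H A *ᵥ ψ = 0 := by
  have h2 : filt w H A * vecMulVec ψ (star ψ) = 0 := by
    rw [filt_eq_filt2, filt2_mul hw (K' := 0) hH hH (by rw [Matrix.mul_vecMulVec, h0]; simp),
      Matrix.mul_vecMulVec, hA]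
    simp [filt2]
  have := congrArg (· *ᵥ ψ) h2
  simpa only [← Matrix.mulVec_mulVec, ga_p_mulVec, hn, one_smul, Matrix.zero_mulVec] using this

theorem step (F : Frame cv cr K0 μ d c Nn) (P : Pair K1 μ d c B Nn) (ha : 0 < a) (ha1 : a ≤ 1)
    (hr : |r| ≤ 2)
    (hs : ∀ M, Self.sqc Bp M = ∫ y, r • (star (B y * M - M * B y) * (B y * M - M * B y)) ∂μ)
    (hM : Fam μ d c Nn a κ M) (hC : 0 < C) (hb : 4 * (Cc cv K1 * cv (a / 4) * κ) ^ 2 ≤ C) :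
    ∃ M', Fam μ d c Nn (a / 4) 1 M' ∧ C⁻¹ • Self.sqc Bp (∫ x, M x ∂μ) = ∫ x, M' x ∂μ ∧
      ((∀ y, B y *ᵥ ψ = 0) → (∀ x, M x *ᵥ ψ = 0) → ∀ x, M' x *ᵥ ψ = 0) := by
  refine ⟨_, ((hM.sq F P ha ha1 hr).smul C⁻¹).mono le_rfl ?_, ?_, fun hB hk y => ?_⟩
  · rw [abs_of_pos (inv_pos.2 hC), inv_mul_le_iff₀ hC, mul_one]
    exact hb
  · rw [hs, integral_smul C⁻¹]
  · have h1 := int_kill hM.int hk
    simp only [Matrix.smul_mulVec, ← Matrix.mulVec_mulVec, Matrix.sub_mulVec, h1, hB,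
      Matrix.mulVec_zero, sub_self, smul_zero]

theorem growth {L D1 D2 s t u : ℝ} (h1 : 0 ≤ D1) (h2 : 0 ≤ D2) (hu : 1 ≤ u) (hs0 : 0 ≤ s)
    (hs : s ≤ Real.exp (D1 * u)) (ht : t ≤ Real.exp (D2 * u)) :
    4 * (L * s) ^ 2 + max t 0 + 1 ≤ Real.exp ((Real.log (4 * L ^ 2 + 2) + 2 * D1 + D2) * u) := by
  have hL : (1 : ℝ) ≤ 4 * L ^ 2 + 2 := by nlinarith [sq_nonneg L]
  have e1 : 1 ≤ Real.exp (D1 * u) := Real.one_le_exp (by positivity)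
  have e2 : 1 ≤ Real.exp (D2 * u) := Real.one_le_exp (by positivity)
  have e3 : 4 * L ^ 2 + 2 ≤ Real.exp (Real.log (4 * L ^ 2 + 2) * u) := by
    conv_lhs => rw [← Real.exp_log (show 0 < 4 * L ^ 2 + 2 by linarith)]
    exact Real.exp_le_exp.2 (le_mul_of_one_le_right (Real.log_nonneg hL) hu)
  have e4 : max t 0 ≤ Real.exp (D2 * u) := max_le ht (by linarith)
  have e5 : s ^ 2 ≤ Real.exp (D1 * u) ^ 2 := pow_le_pow_left₀ hs0 hs 2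
  rw [show (Real.log (4 * L ^ 2 + 2) + 2 * D1 + D2) * u =
    Real.log (4 * L ^ 2 + 2) * u + (D1 * u + D1 * u + D2 * u) by ring, Real.exp_add, Real.exp_add,
    Real.exp_add, ← sq]
  generalize Real.exp (D1 * u) = p at e1 e5
  generalize Real.exp (D2 * u) = q at e2 e4
  have e6 : 1 ≤ p ^ 2 := one_le_pow₀ e1
  have e7 : p ^ 2 ≤ p ^ 2 * q := le_mul_of_one_le_right (by positivity) e2
  have e8 : q ≤ p ^ 2 * q := le_mul_of_one_le_left (by linarith) e6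
  have e9 : 4 * L ^ 2 * s ^ 2 ≤ 4 * L ^ 2 * (p ^ 2 * q) :=
    mul_le_mul_of_nonneg_left (e5.trans e7) (by positivity)
  calc 4 * (L * s) ^ 2 + max t 0 + 1 ≤ (4 * L ^ 2 + 2) * (p ^ 2 * q) := by
        rw [mul_pow]; linarith
    _ ≤ _ := mul_le_mul_of_nonneg_right e3 (by positivity)

end aux

theorem rel_main {cv cr cq : ℝ → ℝ} (K0 K1 v γ a : ℝ) (hcv : Tame cv) (hcq : Tame cq)
    (hγ : 0 < γ) (hv : 1 ≤ v) (hcr : ∀ a, 0 ≤ cr a) (ha : 0 < a) (ha1 : a ≤ 1) : ∃ R : ℝ,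
    ∀ {n X ι : Type} [Fintype n] [DecidableEq n] [MeasurableSpace X] [Nonempty X] [Fintype ι]
      (μ : Measure X) (d : X → X → ℝ) (c B : X → Matrix n n ℂ) (Bp : ι → Matrix n n ℂ)
      (Nn H : Matrix n n ℂ) (Pi : ℕ → Matrix n n ℂ) (N₀ : ℕ) (ψ : n → ℂ) (r Δ : ℝ),
      Frame cv cr K0 μ d c Nn → Pair K1 μ d c B Nn → Self.Sys Bp H Pi γ → Commute Nn H →
      (∀ A, Commute Nn A → ∀ N, Commute (Pi N) A) → LRo c d H v → |r| ≤ 2 →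
      (∀ M, Self.sqc Bp M = ∫ y, r • (star (B y * M - M * B y) * (B y * M - M * B y)) ∂μ) →
      0 < Δ → GS (Pi N₀) H ψ 0 Δ → (∀ y, B y *ᵥ ψ = 0) →
      (∀ a', 0 < a' → a' ≤ 1 → QB μ d c Nn H Pi N₀ ψ a' (cq a')) →
      Rel μ d c Nn (Pi N₀) H ψ a R := by
  obtain ⟨w, W, β, J, hβ, hJ, hf, hw, hW⟩ := exists_mom hγ
  have hsv : 0 < Real.sqrt v := Real.sqrt_pos.2 (by linarith)
  obtain ⟨b, hbdef⟩ : ∃ b : ℝ, b = min 1 (β / Real.sqrt v) := ⟨_, rfl⟩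
  have hb : 0 < b := hbdef ▸ lt_min one_pos (div_pos hβ hsv)
  have hb1 : b ≤ 1 := hbdef ▸ min_le_left _ _
  have hbβ : b * Real.sqrt v ≤ β := by
    have : b ≤ β / Real.sqrt v := hbdef ▸ min_le_right _ _
    rwa [le_div_iff₀ hsv] at this
  obtain ⟨a0, ha0def⟩ : ∃ a0 : ℝ, a0 = min a (b / 4) := ⟨_, rfl⟩
  have ha0 : 0 < a0 := ha0def ▸ lt_min ha (by positivity)
  have ha0a : a0 ≤ a := ha0def ▸ min_le_left _ _
  have ha0b : a0 ≤ b / 4 := ha0def ▸ min_le_right _ _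
  obtain ⟨D1, hD1, h1⟩ := hcv (a0 / 4) (by positivity) (by linarith)
  obtain ⟨D2, hD2, h2⟩ := hcq a0 ha0 (by linarith)
  obtain ⟨G, hG⟩ : ∃ G : ℝ, G = max 1 (Cf cv cr v b J) := ⟨_, rfl⟩
  have hG1 : 1 ≤ G := hG ▸ le_max_left _ _
  have hGf : Cf cv cr v b J * 1 ≤ G := by rw [mul_one, hG]; exact le_max_right _ _
  obtain ⟨D, hD⟩ : ∃ D : ℝ, D = Real.log (4 * (Cc cv K1 * G) ^ 2 + 2) + 2 * D1 + D2 := ⟨_, rfl⟩
  have hD0 : 0 ≤ D := by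
    have := Real.log_nonneg (show (1 : ℝ) ≤ 4 * (Cc cv K1 * G) ^ 2 + 2 by
      nlinarith [sq_nonneg (Cc cv K1 * G)])
    linarith
  refine ⟨Self.selfConst γ D, ?_⟩
  intro n X ι _ _ _ _ _ μ d c B Bp Nn H Pi N₀ ψ r Δ F P hS hNH hPN hL hr hsq hΔ hg hB hQ
  haveI := F.fin
  obtain ⟨x0⟩ := ‹Nonempty X›
  have hH0 : H *ᵥ ψ = 0 := by simpa using hg.eig
  have p0 : ∀ k : ℕ, 0 < a0 / 4 ^ k := fun k => by positivity
  have p1 : ∀ k : ℕ, a0 / 4 ^ k ≤ a0 := fun k =>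
    div_le_self ha0.le (one_le_pow₀ (by norm_num))
  have p2 : ∀ k : ℕ, a0 / 4 ^ (k + 1) = a0 / 4 ^ k / 4 := fun k => by rw [pow_succ, div_div]
  obtain ⟨C, hC⟩ : ∃ C : ℕ → ℝ, ∀ k, C k =
    4 * (Cc cv K1 * G * cv (a0 / 4 ^ k / 4)) ^ 2 + max (cq (a0 / 4 ^ k)) 0 + 1 := ⟨_, fun _ => rfl⟩
  have hC0 : ∀ k, 0 < C k := fun k => by rw [hC]; positivity
  have hC1 : ∀ k, 4 * (Cc cv K1 * cv (a0 / 4 ^ k / 4) * G) ^ 2 ≤ C k := fun k => by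
    have := le_max_right (cq (a0 / 4 ^ k)) 0
    rw [hC, mul_right_comm]
    linarith
  have hC2 : ∀ k, cq (a0 / 4 ^ k) ≤ C k := fun k => by
    have := le_max_left (cq (a0 / 4 ^ k)) 0
    have := sq_nonneg (Cc cv K1 * G * cv (a0 / 4 ^ k / 4))
    rw [hC]
    linarith
  have hC3 : ∀ k, C k ≤ Real.exp (D * (3 / 2) ^ k) := fun k => by
    rw [hC, hD]
    refine growth hD1 hD2 (one_le_pow₀ (by norm_num)) (F.cv_nonneg (by positivity) x0) ?_ (h2 k)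
    rw [div_right_comm]
    exact h1 k
  have key : ∀ (k : ℕ) (M : X → Matrix n n ℂ) (u : ℝ → ℂ), Mom u β J →
      (∀ t, (starRingEnd ℂ) (u t) = u t) → Fam μ d c Nn (a0 / 4 ^ k) 1 M → (∀ x, M x *ᵥ ψ = 0) →
      ∃ M', Fam μ d c Nn (a0 / 4 ^ (k + 1)) 1 M' ∧ (∀ x, M' x *ᵥ ψ = 0) ∧
        (C k)⁻¹ • Self.sqc Bp (filt u H (∫ x, M x ∂μ)) = ∫ x, M' x ∂μ := by
    intro k M u hu hur hM hk
    obtain ⟨f1, f2⟩ := hM.filt F hS.sa hNH hL hv hb hb1 hbβ (hcr b) hu hur (p0 k).le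
      ((p1 k).trans ha0b)
    obtain ⟨M', g1, g2, g3⟩ := step (ψ := ψ) F P (p0 k) ((p1 k).trans (ha0a.trans ha1)) hr hsq
      (f1.mono le_rfl hGf) (hC0 k) (hC1 k)
    rw [f2] at g2
    exact ⟨M', p2 k ▸ g1, g3 hB fun x => filt_kill hu.1 hS.sa hg.norm hH0 (hk x), g2⟩
  have hcl : Self.Classes Bp H Pi N₀ w W
      (fun k => {A | ∃ M, Fam μ d c Nn (a0 / 4 ^ k) 1 M ∧ A = ∫ x, M x ∂μ})
      (fun k => {A | ∃ M, Fam μ d c Nn (a0 / 4 ^ k) 1 M ∧ (∀ x, M x *ᵥ ψ = 0) ∧ A = ∫ x, M x ∂μ})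
      C (1 * μ.real Set.univ) := by
    refine ⟨hC0, ?_, ?_, ?_, ?_, ?_, ?_, ?_⟩
    · rintro k _ ⟨M, hM, rfl⟩
      exact hM.norm_le
    · rintro k _ ⟨M, hM, -, rfl⟩
      exact hM.norm_le
    · rintro k _ ⟨M, hM, hk, rfl⟩ φ hφ h0
      exact Self.kill_of_GS hg hΔ (int_kill hM.int hk) hφ h0
    · rintro k _ ⟨M, hM, rfl⟩ -
      obtain ⟨M', g1, g2, -⟩ := step (ψ := ψ) F P (p0 k) ((p1 k).trans (ha0a.trans ha1)) hr hsq
        (hM.mono le_rfl hG1) (hC0 k) (hC1 k)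
      exact ⟨M', p2 k ▸ g1, g2⟩
    · rintro k _ ⟨M, hM, hk, rfl⟩ -
      obtain ⟨M', g1, -, g2⟩ := key k M w hw hf.real_w hM hk
      exact ⟨M', g1, g2⟩
    · rintro k _ ⟨M, hM, hk, rfl⟩ -
      exact key k M W hW hf.real_W hM hk
    · rintro k _ ⟨M, hM, hk, rfl⟩ -
      exact qb_mono (hQ _ (p0 k) ((p1 k).trans (ha0a.trans ha1)) M hM hk) (hC2 k)
  intro ε M hi hsa hnum hql hk φ hφ
  have hM : Fam μ d c Nn a ε M := ⟨hi, hsa, hnum, hql⟩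
  have hε : 0 ≤ ε := (norm_nonneg _).trans (hql x0).1
  rcases hε.eq_or_lt with rfl | hε
  · have : ∀ x, M x = 0 := fun x => norm_le_zero_iff.1 (hql x).1
    simp [this]
  have hM' : Fam μ d c Nn (a0 / 4 ^ 0) 1 fun x => (-ε⁻¹) • M x :=
    (hM.smul (-ε⁻¹)).mono (by simpa using ha0a)
      (by rw [abs_neg, abs_of_pos (inv_pos.2 hε), inv_mul_cancel₀ hε.ne'])
  have h3 := Self.self_main hS hf le_rfl hcl hD0 hC3 (M := ∫ x, (-ε⁻¹) • M x ∂μ)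
    ⟨_, hM', fun x => by rw [Matrix.smul_mulVec, hk, smul_zero], rfl⟩
    ⟨cC_sa hM'.sa, hPN _ (cC_num hM'.int hM'.num)⟩ hφ
  rw [integral_smul, Self.qf_smul] at h3
  have h4 := mul_le_mul_of_nonneg_left h3 hε.le
  rw [← mul_assoc, mul_neg, mul_inv_cancel₀ hε.ne'] at h4
  unfold Self.qf at h4
  linarith

end Crest.Agent.R340.Si
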