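import Crest.Agent.R340.SiFinal
import Crest.Agent.R340.IfPT
import Crest.Agent.R340.GeoLRo

/-! # SELF-INST: `QOut` from `q_main`, and `RelOut` -/

set_option autoImplicit false

namespace Crest.Agent.R340.Si

open MeasureTheory Matrix Crest.Agent.R340.Filt Crest.Agent.R340.Fw Crest.MathPhysics.Laughlin
open scoped Matrix.Norms.L2Operator MatrixOrder ComplexOrder

theorem wt_cmp {a r : ℝ} (ha : 0 < a) (hr : 0 ≤ r) :
    Real.exp (-a * Real.sqrt r) ≤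
      Real.exp (Real.sqrt (Real.sqrt a))⁻¹ * Pin.wt (1 / 10) 1 r := by
  rw [Pin.wt, ← Real.exp_add]
  refine Real.exp_le_exp.2 ?_
  obtain ⟨u, hu⟩ : ∃ u : ℝ, u = r ^ (1 / 10 : ℝ) := ⟨_, rfl⟩
  have hu0 : 0 ≤ u := hu ▸ Real.rpow_nonneg hr _
  have h5 : Real.sqrt r = u ^ 5 := by
    rw [hu, ← Real.rpow_natCast, ← Real.rpow_mul hr, Real.sqrt_eq_rpow]
    norm_num
  obtain ⟨s, hs⟩ : ∃ s : ℝ, s = Real.sqrt (Real.sqrt a) := ⟨_, rfl⟩
  have hs0 : 0 < s := hs ▸ Real.sqrt_pos.2 (Real.sqrt_pos.2 ha)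
  have h4 : a = s ^ 4 := by
    rw [show s ^ 4 = (s ^ 2) ^ 2 by ring, hs, Real.sq_sqrt (Real.sqrt_nonneg _), Real.sq_sqrt ha.le]
  rw [← hu, ← hs, h5, h4]
  have hi : 0 < s⁻¹ := inv_pos.2 hs0
  rcases le_total u s⁻¹ with h | h
  · have : 0 ≤ s ^ 4 * u ^ 5 := by positivity
    linarith
  · have h1 : 1 ≤ s * u := by
      have := mul_le_mul_of_nonneg_left h hs0.le
      rwa [mul_inv_cancel₀ hs0.ne'] at this
    have h2 : 1 ≤ (s * u) ^ 4 := one_le_pow₀ h1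
    have h3 := mul_le_mul_of_nonneg_left h2 hu0
    have h6 : u * (s * u) ^ 4 = s ^ 4 * u ^ 5 := by ring
    linarith

theorem tame_exp : Tame fun a => Real.exp (Real.sqrt (Real.sqrt a))⁻¹ := by
  intro a ha _
  refine ⟨(Real.sqrt (Real.sqrt a))⁻¹, by positivity, fun k => Real.exp_le_exp.2 ?_⟩
  have h1 : Real.sqrt ((4 : ℝ) ^ k) = 2 ^ k := by
    rw [show (4 : ℝ) ^ k = (2 ^ k) ^ 2 by rw [← pow_mul, mul_comm, pow_mul]; norm_num,
      Real.sqrt_sq (by positivity)]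
  have h2 : Real.sqrt ((2 : ℝ) ^ k) ≤ (3 / 2) ^ k := by
    refine Real.sqrt_le_iff.2 ⟨by positivity, ?_⟩
    rw [← pow_mul, mul_comm, pow_mul]
    exact pow_le_pow_left₀ (by norm_num) (by norm_num) k
  rw [Real.sqrt_div ha.le, h1, Real.sqrt_div (Real.sqrt_nonneg _), inv_div, div_eq_inv_mul]
  exact mul_le_mul_of_nonneg_left h2 (by positivity)

theorem qOut : QOut := by
  obtain ⟨C, N₁, hC, h⟩ := Pin.q_main (α := 1 / 10) (a := 1) 2 (by norm_num) (by norm_num) one_pos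
  refine ⟨fun a => (C + N₁) * Real.exp (Real.sqrt (Real.sqrt a))⁻¹,
    tame_exp.const_mul (by positivity), ?_⟩
  intro a ha _ N hN hcq ψ h1 h2 h3 M hM hk N' hN' φ hφ hz
  obtain ⟨E, hE⟩ : ∃ E : ℝ, E = Real.exp (Real.sqrt (Real.sqrt a))⁻¹ := ⟨_, rfl⟩
  have hE1 : 1 ≤ E := hE ▸ Real.one_le_exp (by positivity)
  have hE0 : 0 < E := by linarith
  have hn1 : (0 : ℝ) ≤ N₁ := Nat.cast_nonneg _
  simp only [← hE] at hcq ⊢
  have hN1 : N₁ ≤ N := by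
    have : (N₁ : ℝ) ≤ N := by nlinarith
    exact_mod_cast this
  have hM' := hM.smul E⁻¹
  rw [abs_of_pos (inv_pos.2 hE0), mul_one] at hM'
  have hI : Pin.SInter (3 * (N - 1)) (1 / 10) 1 1 2 (muq (3 * (N - 1))) id fun x => E⁻¹ • M x := by
    refine ⟨pin_sites_muq (by omega), hM'.int, hM'.sa, fun x => ⟨hM'.num x,
      (hM'.ql x).1.trans (inv_le_one_of_one_le₀ hE1), fun y => ((hM'.ql x).2 y).trans ?_⟩⟩
    rw [one_mul, inv_mul_le_iff₀ hE0, hE]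
    exact wt_cmp ha (dq_nonneg _ _ _)
  have h4 := h N hN1 ψ ⟨h1, Pin.mem_ZD_zero.2 h3⟩ (by rw [Pin.nq, h2, Complex.one_re]) S2 _ id _ hI
    (fun x => by rw [Pin.qf, Matrix.smul_mulVec, hk, smul_zero, dotProduct_zero, Complex.zero_re])
    N' hN' φ ⟨hφ, Pin.mem_ZD_zero.2 hz⟩
  rw [integral_smul] at h4
  change Self.qf _ φ ≤ _ * Self.nsq φ at h4
  rw [Self.qf_smul, inv_mul_le_iff₀ hE0] at h4
  have h5 : 0 ≤ ((N : ℝ) - N') * Self.nsq φ :=
    mul_nonneg (sub_nonneg.2 (Nat.cast_le.2 hN')) (Self.nsq_nonneg φ)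
  have h6 := mul_nonneg (mul_nonneg hn1 hE0.le) h5
  linarith

theorem lroOut : LRoOut := geo_lro

theorem relOut_of_loc (hL : LocOut muq dq ca hx) : RelOut muq dq ca := relOut_of hL lroOut qOut

theorem relOut : RelOut muq dq ca := by
  obtain ⟨cr, h0, h⟩ := Pin.recon_main
  exact relOut_of_loc (locOut_of_recon h0 h)

end Crest.Agent.R340.Si
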