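import Crest.Agent.R340.UqPoly
import Crest.Prelude.Def_Laughlin

/-! Row 340: dehomogenisation of the Laughlin polynomial. -/

set_option autoImplicit false

namespace Crest.Agent.R340

open MvPolynomial Crest.MathPhysics.Laughlin

/-- The exponent vector of an orbital configuration. -/
noncomputable def expo {q N : ℕ} (m : Fin N → Fin (q + 1)) : Fin N →₀ ℕ :=
  Finsupp.equivFunOnFinite.symm fun a => (m a : ℕ)

theorem dehom_monomial {N : ℕ} (d : Fin N × Fin 2 →₀ ℕ) (c : ℂ) :
    aeval (fun p : Fin N × Fin 2 => if p.2 = 0 then (1 : MvPolynomial (Fin N) ℂ) else X p.1)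
      (monomial d c) = monomial (Finsupp.equivFunOnFinite.symm fun a => d (a, 1)) c := by
  rw [aeval_monomial, monomial_eq, Finsupp.prod_fintype _ _ (fun _ => pow_zero _),
    Finsupp.prod_fintype _ _ (fun _ => pow_zero _), Fintype.prod_prod_type]
  simp [Fin.prod_univ_two]

theorem dehom_coeff {q N : ℕ} (P : MvPolynomial (Fin N × Fin 2) ℂ)
    (hP : ∀ a : Fin N, IsWeightedHomogeneous (fun p : Fin N × Fin 2 => if p.1 = a then 1 else 0) P q)
    (m : Fin N → Fin (q + 1)) :
    coeff (∑ a : Fin N, (Finsupp.single (a, (0 : Fin 2)) (q - (m a : ℕ)) +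
        Finsupp.single (a, (1 : Fin 2)) (m a : ℕ))) P =
      coeff (expo m) (aeval (fun p : Fin N × Fin 2 =>
        if p.2 = 0 then (1 : MvPolynomial (Fin N) ℂ) else X p.1) P) := by
  classical
  set D : Fin N × Fin 2 →₀ ℕ := ∑ a : Fin N, (Finsupp.single (a, (0 : Fin 2)) (q - (m a : ℕ)) +
        Finsupp.single (a, (1 : Fin 2)) (m a : ℕ)) with hD
  have h0 : ∀ a, D (a, 0) = q - m a := by
    intro a
    rw [hD, Finsupp.finsetSum_apply, Finset.sum_eq_single a] <;>
      simp +contextual
  have h1 : ∀ a, D (a, 1) = m a := by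
    intro a
    simp [hD, Finsupp.finsetSum_apply, Finsupp.single_apply]
  conv_rhs => rw [P.as_sum, map_sum, coeff_sum]
  simp only [dehom_monomial, coeff_monomial]
  rw [Finset.sum_eq_single D]
  · rw [if_pos]
    ext a
    simp [expo, h1]
  · intro d hd hne
    rw [if_neg]
    intro e
    refine hne ?_
    have e1 : ∀ a, d (a, 1) = m a := fun a => by
      simpa [expo] using DFunLike.congr_fun e a
    have e0 : ∀ a, d (a, 0) + d (a, 1) = q := fun a => by
      have := hP a (mem_support_iff.mp hd)
      rw [Finsupp.weight_apply, Finsupp.sum_fintype _ _ (fun _ => by simp),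
        Fintype.sum_prod_type] at this
      simpa [Fin.sum_univ_two, Finset.sum_add_distrib] using this
    ext ⟨a, i⟩
    have := e0 a
    have := e1 a
    fin_cases i
    · simp only [Fin.zero_eta, h0]
      omega
    · simp only [Fin.mk_one, h1]
      omega
  · intro hd
    rw [notMem_support_iff.mp hd, ite_self]

theorem lau_hom (N : ℕ) (a : Fin N) :
    IsWeightedHomogeneous (fun p : Fin N × Fin 2 => if p.1 = a then 1 else 0)
      (∏ a : Fin N, ∏ b : Fin N,
        if a < b then
          (X (a, (0 : Fin 2)) * X (b, (1 : Fin 2)) - X (a, (1 : Fin 2)) * X (b, (0 : Fin 2)) :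
              MvPolynomial (Fin N × Fin 2) ℂ) ^ 3
        else 1) (3 * (N - 1)) := by
  have key : ∑ c : Fin N, ∑ b : Fin N, (if c < b then
      3 • ((if c = a then 1 else 0) + (if b = a then 1 else 0)) else 0 : ℕ) = 3 * (N - 1) := by
    have h1 : ∀ c b : Fin N, (if c < b then
        3 • ((if c = a then 1 else 0) + (if b = a then 1 else 0)) else 0 : ℕ) =
        (if c = a then (if a < b then 3 else 0) else 0) +
          (if b = a then (if c < a then 3 else 0) else 0) := by
      intro c b
      by_cases h1 : c = a <;> by_cases h2 : b = a <;> simp [h1, h2]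
    have h2 : ∑ b : Fin N, ((if a < b then 3 else 0) + (if b < a then 3 else 0) +
        (if b = a then 3 else 0) : ℕ) = ∑ _b : Fin N, 3 := by
      refine Finset.sum_congr rfl fun b _ => ?_
      rcases lt_trichotomy a b with h | h | h
      · simp [h, h.not_gt, h.ne']
      · simp [h]
      · simp [h, h.not_gt, h.ne]
    simp only [Finset.sum_add_distrib, Finset.sum_ite_eq', Finset.mem_univ, if_true,
      Finset.sum_const, Finset.card_univ, Fintype.card_fin, smul_eq_mul] at h2
    simp only [h1, Finset.sum_add_distrib, Finset.sum_ite_eq', Finset.mem_univ, if_true]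
    rw [Finset.sum_comm]
    simp only [Finset.sum_ite_eq', Finset.mem_univ, if_true]
    omega
  rw [← key]
  refine IsWeightedHomogeneous.prod _ _ _ fun c _ => IsWeightedHomogeneous.prod _ _ _ fun b _ => ?_
  by_cases h : c < b
  · rw [if_pos h, if_pos h]
    have hX := fun p => isWeightedHomogeneous_X ℂ
      (fun p : Fin N × Fin 2 => if p.1 = a then (1 : ℕ) else 0) p
    exact (((hX (c, 0)).mul (hX (b, 1))).sub ((hX (c, 1)).mul (hX (b, 0)))).pow 3
  · rw [if_neg h, if_neg h]
    exact isWeightedHomogeneous_one _ _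

/-- The Laughlin coefficient function in terms of the dehomogenised polynomial. -/
theorem laughlin_eq (N : ℕ) (m : Fin N → Fin (3 * (N - 1) + 1)) :
    laughlin (3 * (N - 1)) N m =
      coeff (expo m) (lauP N) /
        ((∏ a : Fin N, Real.sqrt (Nat.choose (3 * (N - 1)) (m a)) : ℝ) : ℂ) := by
  unfold laughlin
  rw [dehom_coeff _ (lau_hom N) m]
  congr 2
  simp only [lauP, map_prod]
  refine Finset.prod_congr rfl fun a _ => Finset.prod_congr rfl fun b _ => ?_
  split_ifs <;> simp

end Crest.Agent.R340
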