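import Mathlib

/-! Row 340: polynomial uniqueness of the Laughlin zero mode. -/

set_option autoImplicit false

namespace Crest.Agent.R340

open MvPolynomial

/-- The dehomogenised Laughlin polynomial `Π_{a<b} (X_b - X_a)^3`. -/
noncomputable def lauP (N : ℕ) : MvPolynomial (Fin N) ℂ :=
  ∏ a : Fin N, ∏ b : Fin N, if a < b then (X b - X a) ^ 3 else 1

section Aux

variable {N : ℕ}

/-- substitution `X a ↦ X b` -/
noncomputable def sbs (a b : Fin N) : MvPolynomial (Fin N) ℂ →ₐ[ℂ] MvPolynomial (Fin N) ℂ :=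
  rename (fun c => if c = a then b else c)

theorem sbs_X (a b c : Fin N) : sbs a b (X c) = X (if c = a then b else c) := by
  simp [sbs]

theorem dvd_sub_sbs (a b : Fin N) (G : MvPolynomial (Fin N) ℂ) :
    (X b - X a) ∣ G - sbs a b G := by
  induction G using MvPolynomial.induction_on with
  | C c => simp [sbs]
  | add p q hp hq =>
    have : p + q - sbs a b (p + q) = (p - sbs a b p) + (q - sbs a b q) := by
      rw [map_add]; ring
    rw [this]; exact dvd_add hp hq
  | mul_X p c hp =>
    have : p * X c - sbs a b (p * X c) =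
        (p - sbs a b p) * X c + sbs a b p * (X c - sbs a b (X c)) := by
      rw [map_mul]; ring
    rw [this]
    refine dvd_add (dvd_mul_of_dvd_left hp _) (dvd_mul_of_dvd_right ?_ _)
    rw [sbs_X]
    split_ifs with h
    · subst h
      exact ⟨-1, by ring⟩
    · simp

theorem sbs_diff (a b : Fin N) : sbs a b (X b - X a) = 0 := by
  rw [map_sub, sbs_X, sbs_X]
  simp

theorem dvd_iff_sbs (a b : Fin N) (G : MvPolynomial (Fin N) ℂ) :
    (X b - X a) ∣ G ↔ sbs a b G = 0 := by
  constructor
  · rintro ⟨H, rfl⟩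
    rw [map_mul, sbs_diff, zero_mul]
  · intro h
    simpa [h] using dvd_sub_sbs a b G

theorem diff_ne_zero {a b : Fin N} (h : a ≠ b) : (X b - X a : MvPolynomial (Fin N) ℂ) ≠ 0 := by
  rw [sub_ne_zero]
  exact fun h' => h (X_injective h').symm

theorem diff_prime {a b : Fin N} (h : a ≠ b) : Prime (X b - X a : MvPolynomial (Fin N) ℂ) := by
  refine ⟨diff_ne_zero h, fun hu => ?_, fun x y hxy => ?_⟩
  · have := (dvd_iff_sbs a b 1).1 hu.dvd
    simp at this
  · rw [dvd_iff_sbs, map_mul, mul_eq_zero] at hxy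
    simpa only [dvd_iff_sbs] using hxy

theorem sbs_swap (a b : Fin N) (G : MvPolynomial (Fin N) ℂ) :
    sbs a b (rename (Equiv.swap a b) G) = sbs a b G := by
  unfold sbs
  rw [rename_rename]
  congr 2
  funext c
  simp only [Function.comp]
  by_cases hca : c = a
  · subst hca; simp
  · by_cases hcb : c = b
    · subst hcb; simp
    · rw [Equiv.swap_apply_of_ne_of_ne hca hcb]

theorem dvd_of_anti {a b : Fin N} {G : MvPolynomial (Fin N) ℂ}
    (h : rename (Equiv.swap a b) G = -G) : (X b - X a) ∣ G := by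
  rw [dvd_iff_sbs]
  have h1 := sbs_swap a b G
  rw [h, map_neg] at h1
  have h2 : (2 : MvPolynomial (Fin N) ℂ) * sbs a b G = 0 := by linear_combination -h1
  exact (mul_eq_zero.1 h2).resolve_left two_ne_zero

theorem cube_dvd {a b : Fin N} (hab : a ≠ b) {F : MvPolynomial (Fin N) ℂ}
    (hanti : rename (Equiv.swap a b) F = -F)
    (hder : sbs a b (X b * pderiv b F - X a * pderiv a F) = 0) : (X b - X a) ^ 3 ∣ F := by
  obtain ⟨G, rfl⟩ := dvd_of_anti hanti
  have h1 : X b * pderiv b ((X b - X a) * G) - X a * pderiv a ((X b - X a) * G) =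
      (X b + X a) * G + (X b - X a) * (X b * pderiv b G - X a * pderiv a G) := by
    simp only [Derivation.leibniz, map_sub, pderiv_X_self, pderiv_X_of_ne hab,
      pderiv_X_of_ne hab.symm, smul_eq_mul]
    ring
  rw [h1, map_add, map_mul (sbs a b) (X b - X a), sbs_diff, zero_mul, add_zero, map_mul, map_add,
    sbs_X, sbs_X, if_neg hab.symm, if_pos rfl] at hder
  have h2 : sbs a b G = 0 := by
    refine (mul_eq_zero.1 hder).resolve_left ?_
    rw [← two_mul]
    exact mul_ne_zero two_ne_zero (X_ne_zero b)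
  obtain ⟨G2, rfl⟩ := (dvd_iff_sbs a b G).2 h2
  have h3 : rename (Equiv.swap a b) G2 = -G2 := by
    simp only [map_mul, map_sub, rename_X, Equiv.swap_apply_left, Equiv.swap_apply_right] at hanti
    apply mul_left_cancel₀ (pow_ne_zero 2 (diff_ne_zero hab))
    linear_combination hanti
  obtain ⟨G3, rfl⟩ := dvd_of_anti h3
  exact ⟨G3, by ring⟩

theorem relPrime_diff {a b c d : Fin N} (hab : a < b) (hcd : c < d) (h : (a, b) ≠ (c, d)) :
    IsRelPrime (X b - X a : MvPolynomial (Fin N) ℂ) (X d - X c) := by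
  rw [(diff_prime hab.ne).irreducible.isRelPrime_iff_not_dvd, dvd_iff_sbs, map_sub, sbs_X, sbs_X,
    sub_eq_zero]
  intro h'
  have h2 := X_injective h'
  apply h
  rw [Prod.mk.injEq]
  split_ifs at h2 with h3 h4 h4 <;> omega

theorem lauP_dvd {F : MvPolynomial (Fin N) ℂ}
    (h : ∀ a b : Fin N, a < b → (X b - X a) ^ 3 ∣ F) : lauP N ∣ F := by
  unfold lauP
  rw [← Finset.prod_product']
  refine Finset.prod_dvd_of_isRelPrime ?_ ?_
  · rintro ⟨a, b⟩ - ⟨c, d⟩ - hne
    simp only [Function.onFun]
    split_ifs with h1 h2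
    · exact (relPrime_diff h1 h2 hne).pow
    · exact isRelPrime_one_right
    · exact isRelPrime_one_left
    · exact isRelPrime_one_left
  · rintro ⟨a, b⟩ -
    simp only
    split_ifs with h1
    · exact h a b h1
    · exact one_dvd _

theorem factor_ne_zero (a b : Fin N) :
    (if a < b then (X b - X a) ^ 3 else 1 : MvPolynomial (Fin N) ℂ) ≠ 0 := by
  split_ifs with h
  · exact pow_ne_zero 3 (diff_ne_zero h.ne)
  · exact one_ne_zero

theorem lauP_ne_zero : lauP N ≠ 0 :=
  Finset.prod_ne_zero_iff.2 fun a _ => Finset.prod_ne_zero_iff.2 fun b _ => factor_ne_zero a b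

theorem degreeOf_factor (e a b : Fin N) :
    degreeOf e (if a < b then (X b - X a) ^ 3 else 1 : MvPolynomial (Fin N) ℂ) ≥
      (if a = e then (if e < b then 3 else 0) else 0) +
        (if b = e then (if a < e then 3 else 0) else 0) := by
  by_cases h : a < b
  · rw [if_pos h, degreeOf_pow_eq _ _ _ (diff_ne_zero h.ne)]
    by_cases ha : a = e
    · subst ha
      have : degreeOf a (X b - X a : MvPolynomial (Fin N) ℂ) = 1 := by
        rw [sub_eq_neg_add, degreeOf_add_eq_of_degreeOf_lt]
        · simp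
        · simp [degreeOf_X_of_ne h.ne]
      simp [this, h, h.ne']
    · by_cases hb : b = e
      · subst hb
        have : degreeOf b (X b - X a : MvPolynomial (Fin N) ℂ) = 1 := by
          rw [sub_eq_add_neg, degreeOf_add_eq_of_degreeOf_lt]
          · simp
          · simp [degreeOf_X_of_ne h.ne']
        simp [this, h, h.ne]
      · simp [ha, hb]
  · by_cases ha : a = e
    · subst ha
      by_cases hb : b = a
      · subst hb; simp
      · simp [h, hb]
    · by_cases hb : b = e
      · subst hb; simp [h, ha]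
      · simp [ha, hb]

theorem degreeOf_lauP (e : Fin N) : 3 * (N - 1) ≤ degreeOf e (lauP N) := by
  unfold lauP
  rw [degreeOf_prod_eq _ _ fun a _ => Finset.prod_ne_zero_iff.2 fun b _ => factor_ne_zero a b]
  simp_rw [fun a => degreeOf_prod_eq (n := e) Finset.univ _ fun b _ => factor_ne_zero a b]
  refine le_trans ?_ (Finset.sum_le_sum fun a _ => Finset.sum_le_sum fun b _ =>
    degreeOf_factor e a b)
  simp only [Finset.sum_add_distrib]
  rw [Finset.sum_comm]
  simp only [Finset.sum_ite_eq', Finset.mem_univ, if_true]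
  rw [← Finset.sum_add_distrib]
  have : ∀ b : Fin N, ((if e < b then 3 else 0) + if b < e then 3 else 0) =
      if b ∈ Finset.univ.erase e then 3 else 0 := by
    intro b
    rcases lt_trichotomy e b with h | h | h
    · simp [h, h.ne', h.le]
    · simp [h]
    · simp [h, h.ne, h.le]
  simp_rw [this]
  rw [Finset.sum_ite_mem, Finset.univ_inter, Finset.sum_const, Finset.card_erase_of_mem
    (Finset.mem_univ e), Finset.card_univ, Fintype.card_fin, smul_eq_mul, mul_comm]

end Aux

/-- An antisymmetric polynomial whose antisymmetric Euler derivative vanishes on every diagonal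
and whose degree in each variable is at most `3 (N - 1)` is a multiple of `lauP N`. -/
theorem poly_unique (N : ℕ) (F : MvPolynomial (Fin N) ℂ)
    (hanti : ∀ a b : Fin N, a < b → rename (Equiv.swap a b) F = -F)
    (hder : ∀ a b : Fin N, a < b →
      rename (fun c => if c = a then b else c) (X b * pderiv b F - X a * pderiv a F) = 0)
    (hdeg : ∀ a : Fin N, degreeOf a F ≤ 3 * (N - 1)) :
    ∃ c : ℂ, F = C c * lauP N := by
  obtain ⟨G, hG⟩ : lauP N ∣ F :=
    lauP_dvd fun a b hab => cube_dvd hab.ne (hanti a b hab) (hder a b hab)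
  by_cases h0 : G = 0
  · exact ⟨0, by simp [hG, h0]⟩
  have hv : G.vars = ∅ := by
    rw [Finset.eq_empty_iff_forall_notMem]
    intro e he
    rw [mem_vars_iff_degreeOf_ne_zero] at he
    have h1 := hdeg e
    rw [hG, degreeOf_mul_eq lauP_ne_zero h0] at h1
    have h2 := degreeOf_lauP e
    omega
  refine ⟨G.coeff 0, ?_⟩
  rw [← vars_eq_empty_iff_eq_C.1 hv, hG, mul_comm]

end Crest.Agent.R340
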